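import Mathlib

/-!
# Zariski density of `GL_n(O)` in `GL_n(ℂ)` (row 3, helper638)

`PolGL n` is the algebra of functions on `GL n ℂ` generated by the entries of `g` and `g⁻¹`.
`GOs O n` is the subgroup of elements with entries of `g`, `g⁻¹` in the subring `O ⊆ ℂ`.
If `O` contains a unit of infinite order, every `f ∈ PolGL n` vanishing on `GOs O n` is zero.
-/

set_option autoImplicit false

namespace Crest.Agent.R003.Dense

open Matrix

variable {n : Type*} [Fintype n] [DecidableEq n]

/-- entry function -/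
def ent (i j : n) : GL n ℂ → ℂ := fun g => (g : Matrix n n ℂ) i j

/-- inverse entry function -/
def ient (i j : n) : GL n ℂ → ℂ := fun g => ((g⁻¹ : GL n ℂ) : Matrix n n ℂ) i j

variable (n) in
/-- polynomial functions on `GL n ℂ` -/
def PolGL : Subalgebra ℂ (GL n ℂ → ℂ) :=
  Algebra.adjoin ℂ ({f | ∃ i j, f = ent i j} ∪ {f | ∃ i j, f = ient i j})

theorem ent_mem (i j : n) : ent i j ∈ PolGL n :=
  Algebra.subset_adjoin (Or.inl ⟨i, j, rfl⟩)

theorem ient_mem (i j : n) : ient i j ∈ PolGL n :=
  Algebra.subset_adjoin (Or.inr ⟨i, j, rfl⟩)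

/-- substitution principle: a map from any set with an algebra of functions which pulls back
entries and inverse entries into the algebra pulls back all polynomial functions. -/
theorem comp_mem {X : Type*} (A : Subalgebra ℂ (X → ℂ)) (φ : X → GL n ℂ)
    (h1 : ∀ i j, (fun x => ent i j (φ x)) ∈ A) (h2 : ∀ i j, (fun x => ient i j (φ x)) ∈ A)
    {f : GL n ℂ → ℂ} (hf : f ∈ PolGL n) : (fun x => f (φ x)) ∈ A := by
  induction hf using Algebra.adjoin_induction with
  | mem f hf =>
    rcases hf with ⟨i, j, rfl⟩ | ⟨i, j, rfl⟩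
    · exact h1 i j
    · exact h2 i j
  | algebraMap r => exact A.algebraMap_mem r
  | add f g _ _ hf hg => exact A.add_mem hf hg
  | mul f g _ _ hf hg => exact A.mul_mem hf hg

theorem mul_left_mem (a : GL n ℂ) {f : GL n ℂ → ℂ} (hf : f ∈ PolGL n) :
    (fun g => f (a * g)) ∈ PolGL n := by
  refine comp_mem (PolGL n) (fun g => a * g) (fun i j => ?_) (fun i j => ?_) hf
  · have : (fun g : GL n ℂ => ent i j (a * g))
        = ∑ k, (a : Matrix n n ℂ) i k • ent k j := by
      funext g
      simp [ent, Matrix.mul_apply, Finset.sum_apply]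
    rw [this]
    exact Subalgebra.sum_mem _ fun k _ => Subalgebra.smul_mem _ (ent_mem _ _) _
  · have : (fun g : GL n ℂ => ient i j (a * g))
        = ∑ k, ((a⁻¹ : GL n ℂ) : Matrix n n ℂ) k j • ient i k := by
      funext g
      simp only [ient, _root_.mul_inv_rev, Units.val_mul, Matrix.mul_apply, Finset.sum_apply,
        Pi.smul_apply, smul_eq_mul]
      exact Finset.sum_congr rfl fun k _ => mul_comm _ _
    rw [this]
    exact Subalgebra.sum_mem _ fun k _ => Subalgebra.smul_mem _ (ient_mem _ _) _

theorem mul_right_mem (a : GL n ℂ) {f : GL n ℂ → ℂ} (hf : f ∈ PolGL n) :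
    (fun g => f (g * a)) ∈ PolGL n := by
  refine comp_mem (PolGL n) (fun g => g * a) (fun i j => ?_) (fun i j => ?_) hf
  · have : (fun g : GL n ℂ => ent i j (g * a))
        = ∑ k, (a : Matrix n n ℂ) k j • ent i k := by
      funext g
      simp only [ent, Units.val_mul, Matrix.mul_apply, Finset.sum_apply,
        Pi.smul_apply, smul_eq_mul]
      exact Finset.sum_congr rfl fun k _ => mul_comm _ _
    rw [this]
    exact Subalgebra.sum_mem _ fun k _ => Subalgebra.smul_mem _ (ent_mem _ _) _
  · have : (fun g : GL n ℂ => ient i j (g * a))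
        = ∑ k, ((a⁻¹ : GL n ℂ) : Matrix n n ℂ) i k • ient k j := by
      funext g
      simp [ient, Matrix.mul_apply, Finset.sum_apply]
    rw [this]
    exact Subalgebra.sum_mem _ fun k _ => Subalgebra.smul_mem _ (ient_mem _ _) _

/-- integral points of `GL n ℂ` -/
def GOs (O : Subring ℂ) (n : Type*) [Fintype n] [DecidableEq n] : Subgroup (GL n ℂ) where
  carrier := {g | (∀ i j, (g : Matrix n n ℂ) i j ∈ O) ∧
    ∀ i j, ((g⁻¹ : GL n ℂ) : Matrix n n ℂ) i j ∈ O}
  mul_mem' := by
    rintro a b ⟨ha, ha'⟩ ⟨hb, hb'⟩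
    refine ⟨fun i j => ?_, fun i j => ?_⟩
    · rw [Units.val_mul, Matrix.mul_apply]
      exact Subring.sum_mem _ fun k _ => O.mul_mem (ha i k) (hb k j)
    · rw [_root_.mul_inv_rev, Units.val_mul, Matrix.mul_apply]
      exact Subring.sum_mem _ fun k _ => O.mul_mem (hb' i k) (ha' k j)
  one_mem' := by
    refine ⟨fun i j => ?_, fun i j => ?_⟩
    · rw [Units.val_one, Matrix.one_apply]
      split_ifs
      · exact O.one_mem
      · exact O.zero_mem
    · rw [inv_one, Units.val_one, Matrix.one_apply]
      split_ifs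
      · exact O.one_mem
      · exact O.zero_mem
  inv_mem' := by
    rintro a ⟨ha, ha'⟩
    exact ⟨ha', by simpa using ha⟩

theorem mem_GOs {O : Subring ℂ} {g : GL n ℂ} :
    g ∈ GOs O n ↔ (∀ i j, (g : Matrix n n ℂ) i j ∈ O) ∧
      ∀ i j, ((g⁻¹ : GL n ℂ) : Matrix n n ℂ) i j ∈ O := Iff.rfl

/-- Zariski closure of the integral points -/
def ZO (O : Subring ℂ) (n : Type*) [Fintype n] [DecidableEq n] : Set (GL n ℂ) :=
  {z | ∀ f ∈ PolGL n, (∀ g ∈ GOs O n, f g = 0) → f z = 0}

theorem ZO_mul {O : Subring ℂ} {z w : GL n ℂ} (hz : z ∈ ZO O n) (hw : w ∈ ZO O n) :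
    z * w ∈ ZO O n := by
  intro f hf hv
  have h1 : ∀ g ∈ GOs O n, f (g * w) = 0 := fun g hg =>
    hw _ (mul_left_mem g hf) fun g' hg' => hv _ ((GOs O n).mul_mem hg hg')
  exact hz _ (mul_right_mem w hf) h1

theorem ZO_of_mem {O : Subring ℂ} {z : GL n ℂ} (hz : z ∈ GOs O n) : z ∈ ZO O n :=
  fun _ _ hv => hv z hz

/-- a function on `ℂ` (restricted to nonzero values) which becomes polynomial after
multiplication by a power of `t`. -/
def IsLaur (f : ℂ → ℂ) : Prop := ∃ (P : Polynomial ℂ) (m : ℕ), ∀ t : ℂ, t ≠ 0 → t ^ m * f t = P.eval t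

theorem IsLaur.add {f g : ℂ → ℂ} (hf : IsLaur f) (hg : IsLaur g) : IsLaur (fun t => f t + g t) := by
  obtain ⟨P, m, h1⟩ := hf
  obtain ⟨Q, k, h2⟩ := hg
  refine ⟨Polynomial.X ^ k * P + Polynomial.X ^ m * Q, m + k, fun t ht => ?_⟩
  rw [Polynomial.eval_add, Polynomial.eval_mul, Polynomial.eval_mul, ← h1 t ht, ← h2 t ht]
  simp only [Polynomial.eval_pow, Polynomial.eval_X]
  ring

theorem IsLaur.mul {f g : ℂ → ℂ} (hf : IsLaur f) (hg : IsLaur g) : IsLaur (fun t => f t * g t) := by
  obtain ⟨P, m, h1⟩ := hf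
  obtain ⟨Q, k, h2⟩ := hg
  refine ⟨P * Q, m + k, fun t ht => ?_⟩
  rw [Polynomial.eval_mul, ← h1 t ht, ← h2 t ht]
  ring

theorem IsLaur.const (c : ℂ) : IsLaur (fun _ => c) :=
  ⟨Polynomial.C c, 0, fun t _ => by simp⟩

theorem IsLaur.id : IsLaur (fun t => t) := ⟨Polynomial.X, 0, fun t _ => by simp⟩

theorem IsLaur.inv : IsLaur (fun t => t⁻¹) :=
  ⟨Polynomial.C 1, 1, fun t ht => by simp [ht]⟩

/-- Laurent functions form a subalgebra -/
def LaurAlg : Subalgebra ℂ (ℂ → ℂ) where
  carrier := {f | IsLaur f}
  mul_mem' := fun hf hg => IsLaur.mul hf hg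
  add_mem' := fun hf hg => IsLaur.add hf hg
  algebraMap_mem' := fun c => IsLaur.const c

theorem IsLaur.eq_zero {f : ℂ → ℂ} (hf : IsLaur f) (s : Set ℂ) (hs : s.Infinite)
    (h0 : ∀ t ∈ s, t ≠ 0) (hv : ∀ t ∈ s, f t = 0) (t : ℂ) (ht : t ≠ 0) : f t = 0 := by
  obtain ⟨P, m, h1⟩ := hf
  have hP : P = 0 := by
    refine Polynomial.eq_zero_of_infinite_isRoot P (hs.mono fun t ht => ?_)
    show P.eval t = 0
    rw [← h1 t (h0 t ht), hv t ht, mul_zero]
  have := h1 t ht
  rw [hP, Polynomial.eval_zero] at this
  exact (mul_eq_zero.1 this).resolve_left (pow_ne_zero _ ht)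

/-- the transvection as an element of `GL` -/
def trv (i j : n) (h : i ≠ j) (t : ℂ) : GL n ℂ :=
  ⟨transvection i j t, transvection i j (-t),
    by rw [transvection_mul_transvection_same i j h, add_neg_cancel, transvection_zero],
    by rw [transvection_mul_transvection_same i j h, neg_add_cancel, transvection_zero]⟩

theorem trv_mem_ZO {O : Subring ℂ} (i j : n) (h : i ≠ j) (t : ℂ) : trv i j h t ∈ ZO O n := by
  intro f hf hv
  have hL : (fun t : ℂ => f (trv i j h t)) ∈ LaurAlg := by
    refine comp_mem LaurAlg (fun t => trv i j h t) (fun a b => ?_) (fun a b => ?_) hf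
    · show IsLaur fun t => ent a b (trv i j h t)
      have : (fun t : ℂ => ent a b (trv i j h t))
          = fun t => (1 : Matrix n n ℂ) a b + t * (single i j (1 : ℂ) a b) := by
        funext t
        show transvection i j t a b = _
        rw [transvection, Matrix.add_apply]
        congr 1
        simp only [single, of_apply]
        split_ifs <;> simp
      rw [this]
      exact (IsLaur.const _).add (IsLaur.id.mul (IsLaur.const _))
    · show IsLaur fun t => ient a b (trv i j h t)
      have : (fun t : ℂ => ient a b (trv i j h t))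
          = fun t => (1 : Matrix n n ℂ) a b + t * (-(single i j (1 : ℂ) a b)) := by
        funext t
        show transvection i j (-t) a b = _
        rw [transvection, Matrix.add_apply]
        congr 1
        simp only [single, of_apply]
        split_ifs <;> simp
      rw [this]
      exact (IsLaur.const _).add (IsLaur.id.mul (IsLaur.const _))
  by_cases ht : t = 0
  · subst ht
    have : trv i j h 0 = 1 := by
      apply Units.ext
      show transvection i j 0 = 1
      exact transvection_zero i j
    rw [this]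
    exact hv 1 (GOs O n).one_mem
  refine IsLaur.eq_zero hL (Set.range fun k : ℕ => ((k : ℂ) + 1)) ?_ ?_ ?_ t ht
  · apply Set.infinite_range_of_injective
    intro a b hab
    have : (a : ℂ) = b := by simpa using hab
    exact_mod_cast this
  · rintro _ ⟨k, rfl⟩
    exact Nat.cast_add_one_ne_zero k
  · rintro _ ⟨k, rfl⟩
    apply hv
    have hmem : ∀ z : ℂ, z ∈ O → ∀ a b, transvection i j z a b ∈ O := by
      intro z hz a b
      rw [transvection, Matrix.add_apply, Matrix.one_apply]
      refine O.add_mem ?_ ?_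
      · split_ifs
        · exact O.one_mem
        · exact O.zero_mem
      · simp only [single, of_apply]
        split_ifs
        · exact hz
        · exact O.zero_mem
    have hk : ((k : ℂ) + 1) ∈ O := O.add_mem (natCast_mem O k) O.one_mem
    exact ⟨fun a b => hmem _ hk a b, fun a b => hmem _ (O.neg_mem hk) a b⟩

/-- diagonal matrix with one entry `t` as an element of `GL` -/
noncomputable def dg (i : n) (t : ℂ) (ht : t ≠ 0) : GL n ℂ :=
  ⟨diagonal (Function.update 1 i t), diagonal (Function.update 1 i t⁻¹),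
    by
      rw [diagonal_mul_diagonal, ← diagonal_one]
      congr 1
      funext j
      by_cases h : j = i
      · subst h; simp [ht]
      · simp [h],
    by
      rw [diagonal_mul_diagonal, ← diagonal_one]
      congr 1
      funext j
      by_cases h : j = i
      · subst h; simp [ht]
      · simp [h]⟩

theorem dg_mem_ZO {O : Subring ℂ} (u : ℂ) (hu : u ∈ O) (hu' : u⁻¹ ∈ O) (hu0 : u ≠ 0)
    (hinf : Function.Injective fun k : ℕ => u ^ k) (i : n) (t : ℂ) (ht : t ≠ 0) :
    dg i t ht ∈ ZO O n := by
  intro f hf hv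
  have hL : (fun t : ℂ => if ht : t ≠ 0 then f (dg i t ht) else 0) ∈ LaurAlg := by
    -- extend to all `t` by the value at `1`
    have key : (fun t : ℂ => f (if ht : t ≠ 0 then dg i t ht else 1)) ∈ LaurAlg := by
      refine comp_mem LaurAlg (fun t => if ht : t ≠ 0 then dg i t ht else 1)
        (fun a b => ?_) (fun a b => ?_) hf
      · show IsLaur _
        by_cases hab : a = b
        · subst hab
          by_cases hai : a = i
          · subst hai
            refine ⟨Polynomial.X, 0, fun t ht => ?_⟩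
            simp [ent, ht, dg]
          · refine ⟨Polynomial.C 1, 0, fun t ht => ?_⟩
            simp [ent, ht, dg, hai]
        · refine ⟨0, 0, fun t ht => ?_⟩
          simp [ent, ht, dg, hab]
      · show IsLaur _
        by_cases hab : a = b
        · subst hab
          by_cases hai : a = i
          · subst hai
            refine ⟨Polynomial.C 1, 1, fun t ht => ?_⟩
            simp only [ient, ht, ne_eq, not_false_eq_true, dite_true]
            show t ^ 1 * diagonal (Function.update 1 a t⁻¹) a a = _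
            simp [ht]
          · refine ⟨Polynomial.C 1, 0, fun t ht => ?_⟩
            simp only [ient, ht, ne_eq, not_false_eq_true, dite_true]
            show t ^ 0 * diagonal (Function.update 1 i t⁻¹) a a = _
            simp [hai]
        · refine ⟨0, 0, fun t ht => ?_⟩
          simp only [ient, ht, ne_eq, not_false_eq_true, dite_true]
          show t ^ 0 * diagonal (Function.update 1 i t⁻¹) a b = _
          simp [hab]
    obtain ⟨P, m, h⟩ := key
    refine ⟨P, m, fun t ht => ?_⟩
    have := h t ht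
    simpa [ht] using this
  have hmem : ∀ k : ℕ, dg i (u ^ k) (pow_ne_zero k hu0) ∈ GOs O n := by
    have h1 : ∀ z : ℂ, z ∈ O → ∀ a b, diagonal (Function.update (1 : n → ℂ) i z) a b ∈ O := by
      intro z hz a b
      by_cases hab : a = b
      · subst hab
        rw [diagonal_apply_eq]
        by_cases hai : a = i
        · subst hai; simpa using hz
        · simp only [Function.update_of_ne hai, Pi.one_apply]; exact O.one_mem
      · rw [diagonal_apply_ne _ hab]; exact O.zero_mem
    intro k
    refine ⟨fun a b => h1 _ (pow_mem hu k) a b, fun a b => h1 _ ?_ a b⟩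
    rw [← inv_pow]
    exact pow_mem hu' k
  have h2 := IsLaur.eq_zero hL (Set.range fun k : ℕ => u ^ k)
    (Set.infinite_range_of_injective hinf) (by rintro _ ⟨k, rfl⟩; exact pow_ne_zero k hu0)
    (by
      rintro _ ⟨k, rfl⟩
      simp only [ne_eq, pow_eq_zero_iff', hu0, false_and, not_false_eq_true, dite_true]
      exact hv _ (hmem k)) t ht
  simpa [ht] using h2

theorem mem_ZO {O : Subring ℂ} (u : ℂ) (hu : u ∈ O) (hu' : u⁻¹ ∈ O) (hu0 : u ≠ 0)
    (hinf : Function.Injective fun k : ℕ => u ^ k) (g : GL n ℂ) : g ∈ ZO O n := by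
  classical
  have hdet : (g : Matrix n n ℂ).det ≠ 0 := by
    have := (Matrix.isUnit_iff_isUnit_det _).1 g.isUnit
    exact this.ne_zero
  have key : ∃ z : GL n ℂ, (z : Matrix n n ℂ) = g ∧ z ∈ ZO O n := by
    refine diagonal_transvection_induction_of_det_ne_zero
      (fun M => ∃ z : GL n ℂ, (z : Matrix n n ℂ) = M ∧ z ∈ ZO O n) _ hdet ?_ ?_ ?_
    · intro D hD
      rw [det_diagonal, Finset.prod_ne_zero_iff] at hD
      have hs : ∀ s : Finset n, ∃ z : GL n ℂ,
          (z : Matrix n n ℂ) = diagonal (fun i => if i ∈ s then D i else 1) ∧ z ∈ ZO O n := by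
        intro s
        induction s using Finset.induction_on with
        | empty =>
          refine ⟨1, ?_, ZO_of_mem (GOs O n).one_mem⟩
          simp
        | insert a s ha ih =>
          obtain ⟨z, hz, hz'⟩ := ih
          refine ⟨dg a (D a) (hD a (Finset.mem_univ a)) * z, ?_,
            ZO_mul (dg_mem_ZO u hu hu' hu0 hinf a _ _) hz'⟩
          rw [Units.val_mul, hz]
          show diagonal (Function.update 1 a (D a)) * _ = _
          rw [diagonal_mul_diagonal]
          congr 1
          funext j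
          by_cases hja : j = a
          · subst hja; simp [ha]
          · simp [hja]
      obtain ⟨z, hz, hz'⟩ := hs Finset.univ
      exact ⟨z, by simpa using hz, hz'⟩
    · rintro ⟨i, j, hij, c⟩
      exact ⟨trv i j hij c, rfl, trv_mem_ZO i j hij c⟩
    · rintro A B _ _ ⟨z, rfl, hz⟩ ⟨w, rfl, hw⟩
      exact ⟨z * w, by simp, ZO_mul hz hw⟩
  obtain ⟨z, hz, hz'⟩ := key
  have : z = g := Units.ext hz
  rwa [this] at hz'

/-- **(Free)**: `GL_n(O)` is Zariski dense in `GL_n(ℂ)`. -/
theorem eq_zero_of_GOs {O : Subring ℂ} (u : ℂ) (hu : u ∈ O) (hu' : u⁻¹ ∈ O) (hu0 : u ≠ 0)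
    (hinf : Function.Injective fun k : ℕ => u ^ k) {f : GL n ℂ → ℂ} (hf : f ∈ PolGL n)
    (hv : ∀ g ∈ GOs O n, f g = 0) (g : GL n ℂ) : f g = 0 :=
  mem_ZO u hu hu' hu0 hinf g f hf hv

end Crest.Agent.R003.Dense
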