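import Mathlib
import Crest.Agent.R003.Dense638

/-!
# Approximability calculus (row 3, helper638)

* `zcl A I`: Zariski closure of `I ⊆ X` for an algebra `A` of functions `X → ℂ`.
* `(Map)`, `(Open)`, `(Free)`, independent systems.
* `PolFam κ`: polynomial functions on `∀ x, GL (κ x) ℂ`.
-/

set_option autoImplicit false

namespace Crest.Agent.R003.Cal

open Matrix Crest.Agent.R003.Dense

section zcl

variable {X Y : Type*}

/-- Zariski closure of `I` with respect to the algebra `A` of functions on `X`. -/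
def zcl (A : Subalgebra ℂ (X → ℂ)) (I : Set X) : Set X :=
  {x | ∀ f ∈ A, (∀ y ∈ I, f y = 0) → f x = 0}

theorem subset_zcl (A : Subalgebra ℂ (X → ℂ)) (I : Set X) : I ⊆ zcl A I :=
  fun x hx _ _ hv => hv x hx

theorem zcl_mono (A : Subalgebra ℂ (X → ℂ)) {I J : Set X} (h : I ⊆ J) : zcl A I ⊆ zcl A J :=
  fun _ hx f hf hv => hx f hf fun y hy => hv y (h hy)

theorem zcl_zcl (A : Subalgebra ℂ (X → ℂ)) (I : Set X) : zcl A (zcl A I) = zcl A I :=
  Set.Subset.antisymm (fun _ hx f hf hv => hx f hf fun y hy => hy f hf hv)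
    (zcl_mono A (subset_zcl A I))

theorem zcl_subset_iff (A : Subalgebra ℂ (X → ℂ)) {I J : Set X} (h : I ⊆ zcl A J) :
    zcl A I ⊆ zcl A J := by
  have := zcl_mono A h
  rwa [zcl_zcl] at this

/-- **(Map)** -/
theorem map {A : Subalgebra ℂ (X → ℂ)} {B : Subalgebra ℂ (Y → ℂ)} {φ : Y → X}
    (hφ : ∀ f ∈ A, (fun y => f (φ y)) ∈ B) {I : Set X} {J : Set Y} (hIJ : ∀ y ∈ J, φ y ∈ I)
    {y : Y} (hy : y ∈ zcl B J) : φ y ∈ zcl A I :=
  fun f hf hv => hy _ (hφ f hf) fun z hz => hv _ (hIJ z hz)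

/-- closed conditions pass to the closure -/
theorem closed {A : Subalgebra ℂ (X → ℂ)} {I : Set X} {x : X} (hx : x ∈ zcl A I) {f : X → ℂ}
    (hf : f ∈ A) (hv : ∀ y ∈ I, f y = 0) : f x = 0 := hx f hf hv

/-- **(Open)** -/
theorem openOne {A : Subalgebra ℂ (X → ℂ)} {I : Set X} {x : X} (hx : x ∈ zcl A I) {g : X → ℂ}
    (hg : g ∈ A) (hgx : g x ≠ 0) : x ∈ zcl A {y ∈ I | g y ≠ 0} := by
  intro f hf hv
  have h : (f * g) x = 0 := by
    refine hx _ (A.mul_mem hf hg) fun y hy => ?_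
    by_cases h0 : g y = 0
    · simp [h0]
    · simp [hv y ⟨hy, h0⟩]
  simpa [hgx] using h

/-- **(Open)** for finitely many nonvanishing conditions -/
theorem openAll {A : Subalgebra ℂ (X → ℂ)} {I : Set X} {x : X} (hx : x ∈ zcl A I)
    {ι : Type*} [Fintype ι] {g : ι → X → ℂ} (hg : ∀ i, g i ∈ A) (hgx : ∀ i, g i x ≠ 0) :
    x ∈ zcl A {y ∈ I | ∀ i, g i y ≠ 0} := by
  have h := openOne hx (g := ∏ i, g i) (A.prod_mem fun i _ => hg i)
    (by rw [Finset.prod_apply]; exact Finset.prod_ne_zero_iff.2 fun i _ => hgx i)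
  refine zcl_mono A ?_ h
  rintro y ⟨hy, h1⟩
  refine ⟨hy, fun i => ?_⟩
  rw [Finset.prod_apply] at h1
  exact Finset.prod_ne_zero_iff.1 h1 i (Finset.mem_univ i)

/-- **(Open)** in the form: an open condition `U` which holds at `x` because of the
nonvanishing of some element of `A`. -/
theorem openSet {A : Subalgebra ℂ (X → ℂ)} {I : Set X} {x : X} (hx : x ∈ zcl A I)
    {U : Set X} (hU : ∃ g ∈ A, g x ≠ 0 ∧ ∀ y ∈ I, g y ≠ 0 → y ∈ U) : x ∈ zcl A (I ∩ U) := by
  obtain ⟨g, hg, hgx, h⟩ := hU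
  refine zcl_mono A ?_ (openOne hx hg hgx)
  rintro y ⟨hy, h1⟩
  exact ⟨hy, h y hy h1⟩

/-- products -/
theorem prod {A : Subalgebra ℂ (X → ℂ)} {B : Subalgebra ℂ (Y → ℂ)}
    {C : Subalgebra ℂ (X × Y → ℂ)}
    (hA : ∀ f ∈ C, ∀ y, (fun x => f (x, y)) ∈ A) (hB : ∀ f ∈ C, ∀ x, (fun y => f (x, y)) ∈ B)
    {I : Set X} {J : Set Y} {x : X} {y : Y} (hx : x ∈ zcl A I) (hy : y ∈ zcl B J) :
    (x, y) ∈ zcl C (I ×ˢ J) := by
  intro f hf hv
  refine hy _ (hB f hf x) fun y' hy' => ?_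
  exact hx _ (hA f hf y') fun x' hx' => hv (x', y') ⟨hx', hy'⟩

/-- finite products over a `Fintype` -/
theorem pi {ι : Type*} [Fintype ι] [DecidableEq ι] {X : ι → Type*}
    {A : ∀ i, Subalgebra ℂ (X i → ℂ)} {C : Subalgebra ℂ ((∀ i, X i) → ℂ)}
    (hA : ∀ f ∈ C, ∀ (x : ∀ i, X i) (i : ι), (fun z => f (Function.update x i z)) ∈ A i)
    {I : ∀ i, Set (X i)} {x : ∀ i, X i} (hx : ∀ i, x i ∈ zcl (A i) (I i)) :
    x ∈ zcl C {y | ∀ i, y i ∈ I i} := by
  intro f hf hv
  have key : ∀ s : Finset ι, ∀ y : ∀ i, X i, (∀ i ∉ s, y i ∈ I i) → (∀ i ∈ s, y i = x i) →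
      f y = 0 := by
    intro s
    induction s using Finset.induction_on with
    | empty => exact fun y hy _ => hv y fun i => hy i (by simp)
    | insert a s ha ih =>
      intro y hy hy'
      have h := hx a _ (hA f hf y a) fun z hz => ih (Function.update y a z)
        (fun i hi => by
          by_cases hia : i = a
          · subst hia; simpa using hz
          · rw [Function.update_of_ne hia]; exact hy i (by simp [hia, hi]))
        (fun i hi => by
          have hia : i ≠ a := fun h => ha (h ▸ hi)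
          rw [Function.update_of_ne hia]; exact hy' i (by simp [hi]))
      rw [← hy' a (by simp), Function.update_eq_self] at h
      exact h
  exact key Finset.univ x (by simp) (by simp)

end zcl

section fam

variable {α : Type*} {κ : α → Type*} [∀ x, Fintype (κ x)] [∀ x, DecidableEq (κ x)]

variable (κ) in
/-- polynomial functions on `∀ x, GL (κ x) ℂ`: generated by entries and inverse entries -/
def PolFam : Subalgebra ℂ ((∀ x, GL (κ x) ℂ) → ℂ) :=
  Algebra.adjoin ℂ ({f | ∃ x i j, f = fun ρ => (ρ x : Matrix (κ x) (κ x) ℂ) i j} ∪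
    {f | ∃ x i j, f = fun ρ => (((ρ x)⁻¹ : GL (κ x) ℂ) : Matrix (κ x) (κ x) ℂ) i j})

theorem ent_mem (x : α) (i j : κ x) :
    (fun ρ : ∀ x, GL (κ x) ℂ => (ρ x : Matrix (κ x) (κ x) ℂ) i j) ∈ PolFam κ :=
  Algebra.subset_adjoin (Or.inl ⟨x, i, j, rfl⟩)

theorem ient_mem (x : α) (i j : κ x) :
    (fun ρ : ∀ x, GL (κ x) ℂ => (((ρ x)⁻¹ : GL (κ x) ℂ) : Matrix (κ x) (κ x) ℂ) i j) ∈ PolFam κ :=
  Algebra.subset_adjoin (Or.inr ⟨x, i, j, rfl⟩)

/-- substitution principle -/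
theorem comp_mem {X : Type*} (A : Subalgebra ℂ (X → ℂ)) (φ : X → ∀ x, GL (κ x) ℂ)
    (h1 : ∀ x i j, (fun z => (φ z x : Matrix (κ x) (κ x) ℂ) i j) ∈ A)
    (h2 : ∀ x i j, (fun z => (((φ z x)⁻¹ : GL (κ x) ℂ) : Matrix (κ x) (κ x) ℂ) i j) ∈ A)
    {f : (∀ x, GL (κ x) ℂ) → ℂ} (hf : f ∈ PolFam κ) : (fun z => f (φ z)) ∈ A := by
  induction hf using Algebra.adjoin_induction with
  | mem f hf =>
    rcases hf with ⟨x, i, j, rfl⟩ | ⟨x, i, j, rfl⟩
    · exact h1 x i j
    · exact h2 x i j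
  | algebraMap r => exact A.algebraMap_mem r
  | add f g _ _ hf hg => exact A.add_mem hf hg
  | mul f g _ _ hf hg => exact A.mul_mem hf hg

/-- a polynomial function depends on finitely many names -/
theorem exists_finset {f : (∀ x, GL (κ x) ℂ) → ℂ} (hf : f ∈ PolFam κ) :
    ∃ F : Finset α, ∀ ρ σ : ∀ x, GL (κ x) ℂ, (∀ x ∈ F, ρ x = σ x) → f ρ = f σ := by
  classical
  induction hf using Algebra.adjoin_induction with
  | mem f hf =>
    rcases hf with ⟨x, i, j, rfl⟩ | ⟨x, i, j, rfl⟩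
    · exact ⟨{x}, fun ρ σ h => by simp [h x (by simp)]⟩
    · exact ⟨{x}, fun ρ σ h => by simp [h x (by simp)]⟩
  | algebraMap r => exact ⟨∅, fun _ _ _ => rfl⟩
  | add f g _ _ hf hg =>
    obtain ⟨F, hF⟩ := hf
    obtain ⟨G, hG⟩ := hg
    refine ⟨F ∪ G, fun ρ σ h => ?_⟩
    show f ρ + g ρ = f σ + g σ
    rw [hF ρ σ fun x hx => h x (by simp [hx]), hG ρ σ fun x hx => h x (by simp [hx])]
  | mul f g _ _ hf hg =>
    obtain ⟨F, hF⟩ := hf
    obtain ⟨G, hG⟩ := hg
    refine ⟨F ∪ G, fun ρ σ h => ?_⟩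
    show f ρ * g ρ = f σ * g σ
    rw [hF ρ σ fun x hx => h x (by simp [hx]), hG ρ σ fun x hx => h x (by simp [hx])]

theorem update_mem [DecidableEq α] {f : (∀ x, GL (κ x) ℂ) → ℂ} (hf : f ∈ PolFam κ)
    (ρ : ∀ x, GL (κ x) ℂ) (a : α) : (fun g => f (Function.update ρ a g)) ∈ PolGL (κ a) := by
  refine comp_mem (PolGL (κ a)) (fun g => Function.update ρ a g) (fun x i j => ?_)
    (fun x i j => ?_) hf
  · by_cases hx : x = a
    · subst hx
      simp only [Function.update_self]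
      exact Dense.ent_mem i j
    · simp only [Function.update_of_ne hx]
      exact (PolGL (κ a)).algebraMap_mem _
  · by_cases hx : x = a
    · subst hx
      simp only [Function.update_self]
      exact Dense.ient_mem i j
    · simp only [Function.update_of_ne hx]
      exact (PolGL (κ a)).algebraMap_mem _

open Classical in
/-- gluing two assignments: `ρ` on `S`, `σ` off `S` -/
noncomputable def glue (S : Set α) (ρ σ : ∀ x, GL (κ x) ℂ) : ∀ x, GL (κ x) ℂ :=
  fun x => if x ∈ S then ρ x else σ x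

theorem glue_left_mem {f : (∀ x, GL (κ x) ℂ) → ℂ} (hf : f ∈ PolFam κ) (S : Set α)
    (σ : ∀ x, GL (κ x) ℂ) : (fun ρ => f (glue S ρ σ)) ∈ PolFam κ := by
  classical
  refine comp_mem (PolFam κ) (fun ρ => glue S ρ σ) (fun x i j => ?_) (fun x i j => ?_) hf
  · by_cases hx : x ∈ S
    · simp only [glue, hx, if_true]; exact ent_mem x i j
    · simp only [glue, hx, if_false]; exact (PolFam κ).algebraMap_mem _
  · by_cases hx : x ∈ S
    · simp only [glue, hx, if_true]; exact ient_mem x i j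
    · simp only [glue, hx, if_false]; exact (PolFam κ).algebraMap_mem _

theorem glue_right_mem {f : (∀ x, GL (κ x) ℂ) → ℂ} (hf : f ∈ PolFam κ) (S : Set α)
    (ρ : ∀ x, GL (κ x) ℂ) : (fun σ => f (glue S ρ σ)) ∈ PolFam κ := by
  classical
  refine comp_mem (PolFam κ) (fun σ => glue S ρ σ) (fun x i j => ?_) (fun x i j => ?_) hf
  · by_cases hx : x ∈ S
    · simp only [glue, hx, if_true]; exact (PolFam κ).algebraMap_mem _
    · simp only [glue, hx, if_false]; exact ent_mem x i j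
  · by_cases hx : x ∈ S
    · simp only [glue, hx, if_true]; exact (PolFam κ).algebraMap_mem _
    · simp only [glue, hx, if_false]; exact ient_mem x i j

theorem glue_self (S : Set α) (ρ : ∀ x, GL (κ x) ℂ) : glue S ρ ρ = ρ := by
  funext x; simp [glue]

/-- **independent systems**: `I` depends only on the names in `S`, `J` only on the names
outside `S`. -/
theorem indep (S : Set α) {I J : Set (∀ x, GL (κ x) ℂ)}
    (hI : ∀ ρ σ : ∀ x, GL (κ x) ℂ, (∀ x ∈ S, ρ x = σ x) → ρ ∈ I → σ ∈ I)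
    (hJ : ∀ ρ σ : ∀ x, GL (κ x) ℂ, (∀ x ∉ S, ρ x = σ x) → ρ ∈ J → σ ∈ J)
    {ρ : ∀ x, GL (κ x) ℂ} (h1 : ρ ∈ zcl (PolFam κ) I) (h2 : ρ ∈ zcl (PolFam κ) J) :
    ρ ∈ zcl (PolFam κ) (I ∩ J) := by
  intro f hf hv
  have key : ∀ σ ∈ J, f (glue S ρ σ) = 0 := fun σ hσ =>
    h1 _ (glue_left_mem hf S σ) fun τ hτ => hv _
      ⟨hI τ _ (fun x hx => by simp [glue, hx]) hτ, hJ σ _ (fun x hx => by simp [glue, hx]) hσ⟩
  have := h2 _ (glue_right_mem hf S ρ) key
  rwa [glue_self] at this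

/-- the set of assignments with all names in a set `S` integral -/
def IntOn (O : Subring ℂ) (S : Set α) : Set (∀ x, GL (κ x) ℂ) :=
  {ρ | ∀ x ∈ S, ρ x ∈ GOs O (κ x)}

/-- **(Free)**: the everywhere integral assignments are dense among all assignments. -/
theorem free {O : Subring ℂ} (u : ℂ) (hu : u ∈ O) (hu' : u⁻¹ ∈ O) (hu0 : u ≠ 0)
    (hinf : Function.Injective fun k : ℕ => u ^ k) (ρ : ∀ x, GL (κ x) ℂ) :
    ρ ∈ zcl (PolFam κ) (IntOn O (Set.univ : Set α)) := by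
  classical
  intro f hf hv
  have key : ∀ F : Finset α, ∀ σ : ∀ x, GL (κ x) ℂ, (∀ x ∉ F, σ x ∈ GOs O (κ x)) → f σ = 0 := by
    intro F
    induction F using Finset.induction_on with
    | empty => exact fun σ hσ => hv σ fun x _ => hσ x (by simp)
    | insert a F ha ih =>
      intro σ hσ
      have h := eq_zero_of_GOs u hu hu' hu0 hinf (update_mem hf σ a)
        (fun g hg => ih (Function.update σ a g) fun x hx => by
          by_cases hxa : x = a
          · subst hxa; simpa using hg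
          · rw [Function.update_of_ne hxa]; exact hσ x (by simp [hxa, hx])) (σ a)
      rwa [Function.update_eq_self] at h
  obtain ⟨F, hF⟩ := exists_finset hf
  rw [hF ρ (fun x => if x ∈ F then ρ x else 1) fun x hx => by simp [hx]]
  exact key F _ fun x hx => by simp only [hx, if_false]; exact (GOs O (κ x)).one_mem

/-- names which are irrelevant for `I` may be assumed integral: if `I` depends only on the names
in `S` then the points of `I` which are integral off `S` have the same closure. -/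
theorem free_off {O : Subring ℂ} (u : ℂ) (hu : u ∈ O) (hu' : u⁻¹ ∈ O) (hu0 : u ≠ 0)
    (hinf : Function.Injective fun k : ℕ => u ^ k) (S : Set α) {I : Set (∀ x, GL (κ x) ℂ)}
    (hI : ∀ ρ σ : ∀ x, GL (κ x) ℂ, (∀ x ∈ S, ρ x = σ x) → ρ ∈ I → σ ∈ I)
    {ρ : ∀ x, GL (κ x) ℂ} (h1 : ρ ∈ zcl (PolFam κ) I) :
    ρ ∈ zcl (PolFam κ) (I ∩ IntOn O Sᶜ) := by
  refine indep S (J := IntOn O Sᶜ) hI (fun σ τ h (hσ : ∀ x ∈ Sᶜ, σ x ∈ GOs O (κ x)) => ?_) h1
    (zcl_mono _ (I := IntOn O Set.univ) (J := IntOn O Sᶜ)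
      (fun σ (hσ : ∀ x ∈ Set.univ, σ x ∈ GOs O (κ x)) x _ => hσ x (Set.mem_univ x))
      (free u hu hu' hu0 hinf ρ))
  intro x hx
  rw [← h x hx]
  exact hσ x hx

end fam

end Crest.Agent.R003.Cal
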