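import Crest.Agent.R003.Defs
import Crest.Agent.R003.Cal638

/-!
# Approximability calculus for the definitions of `Defs.lean` (row 3, helper638)

* `Pol`/`PolG` closure lemmas
* `emb n k hk : G k →* G n` with range `GLk n k`
* `Appr.map`, `Appr.openSet`, `Appr.indep`, `appr_free`, `Appr.trans`, ...
-/

set_option autoImplicit false

namespace Crest.Agent.R003

open Matrix

/-! ## `Pol` and `PolG` -/

section Pol

variable {ι κ : Type} {n m k : ℕ}

theorem Pol_eq : Pol ι n = Cal.PolFam (fun _ : ι => Fin n) := rfl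

theorem Pol.ent (x : ι) (i j : Fin n) : (fun ρ : ι → G n => (ρ x).1 i j) ∈ Pol ι n :=
  Algebra.subset_adjoin (Or.inl ⟨x, i, j, rfl⟩)

theorem Pol.ient (x : ι) (i j : Fin n) : (fun ρ : ι → G n => ((ρ x)⁻¹).1 i j) ∈ Pol ι n :=
  Algebra.subset_adjoin (Or.inr ⟨x, i, j, rfl⟩)

theorem Pol.const (a : ℂ) : (fun _ : ι → G n => a) ∈ Pol ι n := (Pol ι n).algebraMap_mem a

theorem Pol.add {F H : (ι → G n) → ℂ} (hF : F ∈ Pol ι n) (hH : H ∈ Pol ι n) :
    (fun ρ => F ρ + H ρ) ∈ Pol ι n := (Pol ι n).add_mem hF hH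

theorem Pol.sub {F H : (ι → G n) → ℂ} (hF : F ∈ Pol ι n) (hH : H ∈ Pol ι n) :
    (fun ρ => F ρ - H ρ) ∈ Pol ι n := (Pol ι n).sub_mem hF hH

theorem Pol.neg {F : (ι → G n) → ℂ} (hF : F ∈ Pol ι n) :
    (fun ρ => - F ρ) ∈ Pol ι n := (Pol ι n).neg_mem hF

theorem Pol.mul {F H : (ι → G n) → ℂ} (hF : F ∈ Pol ι n) (hH : H ∈ Pol ι n) :
    (fun ρ => F ρ * H ρ) ∈ Pol ι n := (Pol ι n).mul_mem hF hH

theorem Pol.pow {F : (ι → G n) → ℂ} (hF : F ∈ Pol ι n) (t : ℕ) :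
    (fun ρ => F ρ ^ t) ∈ Pol ι n := (Pol ι n).pow_mem hF t

theorem Pol.smul {F : (ι → G n) → ℂ} (a : ℂ) (hF : F ∈ Pol ι n) :
    (fun ρ => a * F ρ) ∈ Pol ι n := Pol.mul (Pol.const a) hF

theorem Pol.sum {β : Type*} (s : Finset β) {F : β → (ι → G n) → ℂ} (hF : ∀ b ∈ s, F b ∈ Pol ι n) :
    (fun ρ => ∑ b ∈ s, F b ρ) ∈ Pol ι n := by
  have h := (Pol ι n).sum_mem hF
  have e : (∑ b ∈ s, F b) = fun ρ => ∑ b ∈ s, F b ρ := by
    funext ρ; rw [Finset.sum_apply]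
  rwa [e] at h

theorem Pol.prod {β : Type*} (s : Finset β) {F : β → (ι → G n) → ℂ} (hF : ∀ b ∈ s, F b ∈ Pol ι n) :
    (fun ρ => ∏ b ∈ s, F b ρ) ∈ Pol ι n := by
  have h := (Pol ι n).prod_mem hF
  have e : (∏ b ∈ s, F b) = fun ρ => ∏ b ∈ s, F b ρ := by
    funext ρ; rw [Finset.prod_apply]
  rwa [e] at h

theorem Pol.ite {F H : (ι → G n) → ℂ} (p : Prop) [Decidable p] (hF : F ∈ Pol ι n)
    (hH : H ∈ Pol ι n) : (fun ρ => if p then F ρ else H ρ) ∈ Pol ι n := by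
  by_cases h : p
  · simpa [h] using hF
  · simpa [h] using hH

/-- determinants of matrices of polynomial functions are polynomial -/
theorem Pol.det {β : Type*} [Fintype β] [DecidableEq β] {M : (ι → G n) → Matrix β β ℂ}
    (hM : ∀ i j, (fun ρ => M ρ i j) ∈ Pol ι n) : (fun ρ => (M ρ).det) ∈ Pol ι n := by
  simp only [Matrix.det_apply]
  refine Pol.sum _ fun σ _ => ?_
  have h1 : (fun ρ => ∏ i, M ρ (σ i) i) ∈ Pol ι n := Pol.prod _ fun i _ => hM (σ i) i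
  have h2 : (fun ρ => ((Equiv.Perm.sign σ : ℤ) : ℂ) * ∏ i, M ρ (σ i) i) ∈ Pol ι n :=
    Pol.smul _ h1
  convert h2 using 2
  rw [Units.smul_def, zsmul_eq_mul]

/-- functions which agree on `S` with a polynomial function -/
def PolOn (S : Set (ι → G n)) : Subalgebra ℂ ((ι → G n) → ℂ) where
  carrier := {f | ∃ F ∈ Pol ι n, ∀ ρ ∈ S, f ρ = F ρ}
  mul_mem' := by
    rintro a b ⟨F, hF, h1⟩ ⟨H, hH, h2⟩
    exact ⟨fun ρ => F ρ * H ρ, Pol.mul hF hH, fun ρ hρ => by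
      show a ρ * b ρ = _
      rw [h1 ρ hρ, h2 ρ hρ]⟩
  add_mem' := by
    rintro a b ⟨F, hF, h1⟩ ⟨H, hH, h2⟩
    exact ⟨fun ρ => F ρ + H ρ, Pol.add hF hH, fun ρ hρ => by
      show a ρ + b ρ = _
      rw [h1 ρ hρ, h2 ρ hρ]⟩
  algebraMap_mem' := fun a => ⟨fun _ => a, Pol.const a, fun _ _ => rfl⟩

theorem mem_PolOn {S : Set (ι → G n)} {f : (ι → G n) → ℂ} :
    f ∈ PolOn S ↔ ∃ F ∈ Pol ι n, ∀ ρ ∈ S, f ρ = F ρ := Iff.rfl

theorem PolOn.of_pol {S : Set (ι → G n)} {f : (ι → G n) → ℂ} (hf : f ∈ Pol ι n) : f ∈ PolOn S :=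
  ⟨f, hf, fun _ _ => rfl⟩

theorem PolOn.congr {S : Set (ι → G n)} {f g : (ι → G n) → ℂ} (hf : f ∈ PolOn S)
    (h : ∀ ρ ∈ S, g ρ = f ρ) : g ∈ PolOn S := by
  obtain ⟨F, hF, h1⟩ := hf
  exact ⟨F, hF, fun ρ hρ => by rw [h ρ hρ, h1 ρ hρ]⟩

theorem PolOn.mono {S S' : Set (ι → G n)} (hS : S' ⊆ S) {f : (ι → G n) → ℂ}
    (hf : f ∈ PolOn S) : f ∈ PolOn S' := by
  obtain ⟨F, hF, h1⟩ := hf
  exact ⟨F, hF, fun ρ hρ => h1 ρ (hS hρ)⟩

theorem PolOn.const {S : Set (ι → G n)} (a : ℂ) : (fun _ : ι → G n => a) ∈ PolOn S :=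
  PolOn.of_pol (Pol.const a)

theorem PolOn.mul {S : Set (ι → G n)} {F H : (ι → G n) → ℂ} (hF : F ∈ PolOn S)
    (hH : H ∈ PolOn S) : (fun ρ => F ρ * H ρ) ∈ PolOn S := (PolOn S).mul_mem hF hH

theorem PolOn.add {S : Set (ι → G n)} {F H : (ι → G n) → ℂ} (hF : F ∈ PolOn S)
    (hH : H ∈ PolOn S) : (fun ρ => F ρ + H ρ) ∈ PolOn S := (PolOn S).add_mem hF hH

theorem PolOn.sum {S : Set (ι → G n)} {β : Type*} (s : Finset β) {F : β → (ι → G n) → ℂ}
    (hF : ∀ b ∈ s, F b ∈ PolOn S) : (fun ρ => ∑ b ∈ s, F b ρ) ∈ PolOn S := by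
  have h := (PolOn S).sum_mem hF
  have e : (∑ b ∈ s, F b) = fun ρ => ∑ b ∈ s, F b ρ := by
    funext ρ; rw [Finset.sum_apply]
  rwa [e] at h

theorem PolOn.prod {S : Set (ι → G n)} {β : Type*} (s : Finset β) {F : β → (ι → G n) → ℂ}
    (hF : ∀ b ∈ s, F b ∈ PolOn S) : (fun ρ => ∏ b ∈ s, F b ρ) ∈ PolOn S := by
  have h := (PolOn S).prod_mem hF
  have e : (∏ b ∈ s, F b) = fun ρ => ∏ b ∈ s, F b ρ := by
    funext ρ; rw [Finset.prod_apply]
  rwa [e] at h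

theorem polG_iff {S : Set (ι → G n)} {Φ : (ι → G n) → G m} :
    PolG S Φ ↔ ∀ i j, (fun ρ => (Φ ρ).1 i j) ∈ PolOn S ∧ (fun ρ => ((Φ ρ)⁻¹).1 i j) ∈ PolOn S :=
  Iff.rfl

theorem PolG.congr {S : Set (ι → G n)} {Φ Ψ : (ι → G n) → G m} (h : PolG S Φ)
    (he : ∀ ρ ∈ S, Ψ ρ = Φ ρ) : PolG S Ψ := by
  intro i j
  exact ⟨PolOn.congr (h i j).1 fun ρ hρ => by simp only [he ρ hρ],
    PolOn.congr (h i j).2 fun ρ hρ => by simp only [he ρ hρ]⟩

theorem PolG.mono {S S' : Set (ι → G n)} (hS : S' ⊆ S) {Φ : (ι → G n) → G m} (h : PolG S Φ) :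
    PolG S' Φ := fun i j => ⟨PolOn.mono hS (h i j).1, PolOn.mono hS (h i j).2⟩

/-- substitution of a map which is polynomial on `S'` into a polynomial function -/
theorem Pol.comp {S' : Set (κ → G m)} {Φ : (κ → G m) → (ι → G n)}
    (hΦ : ∀ x, PolG S' (fun ρ => Φ ρ x)) {F : (ι → G n) → ℂ} (hF : F ∈ Pol ι n) :
    (fun ρ => F (Φ ρ)) ∈ PolOn S' :=
  Cal.comp_mem (κ := fun _ : ι => Fin n) (PolOn S') Φ (fun x i j => (hΦ x i j).1)
    (fun x i j => (hΦ x i j).2) hF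

theorem PolOn.comp {S : Set (ι → G n)} {S' : Set (κ → G m)} {Φ : (κ → G m) → (ι → G n)}
    (hΦ : ∀ x, PolG S' (fun ρ => Φ ρ x)) (hS : ∀ ρ ∈ S', Φ ρ ∈ S) {F : (ι → G n) → ℂ}
    (hF : F ∈ PolOn S) : (fun ρ => F (Φ ρ)) ∈ PolOn S' := by
  obtain ⟨F', hF', h1⟩ := hF
  exact PolOn.congr (Pol.comp hΦ hF') fun ρ hρ => h1 _ (hS ρ hρ)

theorem PolG.coord {S : Set (ι → G n)} (x : ι) : PolG S (fun ρ : ι → G n => ρ x) :=
  fun i j => ⟨PolOn.of_pol (Pol.ent x i j), PolOn.of_pol (Pol.ient x i j)⟩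

theorem PolG.const {S : Set (ι → G n)} (g : G m) : PolG S (fun _ : ι → G n => g) :=
  fun _ _ => ⟨PolOn.const _, PolOn.const _⟩

theorem PolG.one {S : Set (ι → G n)} : PolG S (fun _ : ι → G n => (1 : G m)) := PolG.const 1

theorem PolG.mul {S : Set (ι → G n)} {Φ Ψ : (ι → G n) → G m} (h1 : PolG S Φ) (h2 : PolG S Ψ) :
    PolG S (fun ρ => Φ ρ * Ψ ρ) := by
  rw [polG_iff] at *
  intro i j
  constructor
  · have : (fun ρ => (Φ ρ * Ψ ρ).1 i j) = fun ρ => ∑ l, (Φ ρ).1 i l * (Ψ ρ).1 l j := by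
      funext ρ; rw [Units.val_mul, Matrix.mul_apply]
    rw [this]
    exact PolOn.sum _ fun l _ => PolOn.mul (h1 i l).1 (h2 l j).1
  · have : (fun ρ => ((Φ ρ * Ψ ρ)⁻¹).1 i j) = fun ρ => ∑ l, ((Ψ ρ)⁻¹).1 i l * ((Φ ρ)⁻¹).1 l j := by
      funext ρ; rw [_root_.mul_inv_rev, Units.val_mul, Matrix.mul_apply]
    rw [this]
    exact PolOn.sum _ fun l _ => PolOn.mul (h2 i l).2 (h1 l j).2

theorem PolG.inv {S : Set (ι → G n)} {Φ : (ι → G n) → G m} (h1 : PolG S Φ) :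
    PolG S (fun ρ => (Φ ρ)⁻¹) := by
  rw [polG_iff] at *
  intro i j
  refine ⟨(h1 i j).2, ?_⟩
  simp only [inv_inv]
  exact (h1 i j).1

theorem PolG.ite {S : Set (ι → G n)} {Φ Ψ : (ι → G n) → G m} (p : Prop) [Decidable p]
    (h1 : PolG S Φ) (h2 : PolG S Ψ) : PolG S (fun ρ => if p then Φ ρ else Ψ ρ) := by
  by_cases h : p
  · simpa [h] using h1
  · simpa [h] using h2

theorem PolG.pow {S : Set (ι → G n)} {Φ : (ι → G n) → G m} (h1 : PolG S Φ) (t : ℕ) :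
    PolG S (fun ρ => Φ ρ ^ t) := by
  induction t with
  | zero => simpa using PolG.one
  | succ t ih => simpa [pow_succ] using ih.mul h1

theorem PolG.listProd {S : Set (ι → G n)} {β : Type*} (l : List β) {Φ : β → (ι → G n) → G m}
    (h : ∀ b ∈ l, PolG S (Φ b)) : PolG S (fun ρ => (l.map fun b => Φ b ρ).prod) := by
  induction l with
  | nil => simpa using PolG.one
  | cons b l ih =>
    simp only [List.map_cons, List.prod_cons]
    exact (h b (by simp)).mul (ih fun b' hb' => h b' (by simp [hb']))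

theorem PolG.comp {l : ℕ} {S : Set (ι → G n)} {S' : Set (κ → G m)} {Ψ : (ι → G n) → G l}
    (hΨ : PolG S Ψ) {Φ : (κ → G m) → (ι → G n)} (hΦ : ∀ x, PolG S' (fun ρ => Φ ρ x))
    (hS : ∀ ρ ∈ S', Φ ρ ∈ S) : PolG S' (fun ρ => Ψ (Φ ρ)) :=
  fun i j => ⟨PolOn.comp hΦ hS (hΨ i j).1, PolOn.comp hΦ hS (hΨ i j).2⟩

/-- a map into `G m` is polynomial on `S` if its entries and the entries of a right inverse are -/
theorem PolG.mk' {S : Set (ι → G n)} {Φ : (ι → G n) → G m}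
    {M : (ι → G n) → Matrix (Fin m) (Fin m) ℂ}
    (h1 : ∀ i j, (fun ρ => (Φ ρ).1 i j) ∈ PolOn S) (h2 : ∀ i j, (fun ρ => M ρ i j) ∈ PolOn S)
    (h : ∀ ρ ∈ S, (Φ ρ).1 * M ρ = 1) : PolG S Φ := by
  intro i j
  refine ⟨h1 i j, ?_⟩
  have : ∀ ρ ∈ S, ((Φ ρ)⁻¹).1 = M ρ := fun ρ hρ => by
    have := congrArg (fun X => ((Φ ρ)⁻¹).1 * X) (h ρ hρ)
    simp only [← Matrix.mul_assoc, Matrix.mul_one] at this
    rw [← this, ← Units.val_mul, inv_mul_cancel, Units.val_one, Matrix.one_mul]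
  exact PolOn.congr (h2 i j) fun ρ hρ => by rw [this ρ hρ]

theorem PolG.update [DecidableEq ι] {S : Set (κ → G m)} {Φ : (κ → G m) → (ι → G n)}
    (hΦ : ∀ x, PolG S (fun ρ => Φ ρ x)) (a : ι) {Ψ : (κ → G m) → G n} (hΨ : PolG S Ψ) :
    ∀ x, PolG S (fun ρ => Function.update (Φ ρ) a (Ψ ρ) x) := by
  intro x
  by_cases hx : x = a
  · subst hx; simpa using hΨ
  · simpa [Function.update_of_ne hx] using hΦ x

end Pol

/-! ## integrality -/

section GO

variable {O : Subring ℂ} {n : ℕ}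

theorem mem_GO {g : G n} : g ∈ GO O n ↔ ∀ i j, g.1 i j ∈ O ∧ (g⁻¹).1 i j ∈ O := Iff.rfl

theorem GO_eq : GO O n = Dense.GOs O (Fin n) := by
  ext g
  rw [mem_GO, Dense.mem_GOs]
  exact ⟨fun h => ⟨fun i j => (h i j).1, fun i j => (h i j).2⟩, fun h i j => ⟨h.1 i j, h.2 i j⟩⟩

theorem dg_mem_GO {d : Fin n → ℂˣ} (h1 : ∀ i, (d i : ℂ) ∈ O) (h2 : ∀ i, (((d i)⁻¹ : ℂˣ) : ℂ) ∈ O) :
    dg d ∈ GO O n := by
  intro i j
  constructor
  · show Matrix.diagonal (fun i => (d i : ℂ)) i j ∈ O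
    rw [Matrix.diagonal_apply]
    split_ifs
    · exact h1 i
    · exact O.zero_mem
  · show Matrix.diagonal (fun i => (((d i)⁻¹ : ℂˣ) : ℂ)) i j ∈ O
    rw [Matrix.diagonal_apply]
    split_ifs
    · exact h2 i
    · exact O.zero_mem

theorem IsSc.inv_mem {a : ℂˣ} (h : IsSc O a) : ((a⁻¹ : ℂˣ) : ℂ) ∈ O := by
  obtain ⟨h1, m, hm, h2⟩ := h
  have : a⁻¹ = a ^ (m - 1) := by
    rw [inv_eq_iff_mul_eq_one, ← pow_succ', Nat.sub_add_cancel hm, h2]
  rw [this, Units.val_pow_eq_pow_val]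
  exact O.pow_mem h1 _

theorem IsSc.one : IsSc O (1 : ℂˣ) := ⟨by simpa using O.one_mem, 1, one_pos, by simp⟩

theorem IsSc.inv {a : ℂˣ} (h : IsSc O a) : IsSc O a⁻¹ := by
  refine ⟨h.inv_mem, ?_⟩
  obtain ⟨_, m, hm, h2⟩ := h
  exact ⟨m, hm, by rw [inv_pow, h2, inv_one]⟩

theorem IsSc.mul {a b : ℂˣ} (ha : IsSc O a) (hb : IsSc O b) : IsSc O (a * b) := by
  obtain ⟨h1, m, hm, h2⟩ := ha
  obtain ⟨h3, k, hk, h4⟩ := hb
  refine ⟨by rw [Units.val_mul]; exact O.mul_mem h1 h3, m * k, Nat.mul_pos hm hk, ?_⟩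
  rw [mul_pow, pow_mul, h2, one_pow, one_mul, mul_comm m k, pow_mul, h4, one_pow]

theorem IsSc.neg_one : IsSc O (-1 : ℂˣ) :=
  ⟨by simpa using O.neg_mem O.one_mem, 2, by norm_num, by simp⟩

theorem scal_mem_GO {k : ℕ} {a : ℂˣ} (h : IsSc O a) : scal n k a ∈ GO O n := by
  refine dg_mem_GO (fun i => ?_) (fun i => ?_)
  · show ((if i.1 < k then a else 1 : ℂˣ) : ℂ) ∈ O
    split_ifs
    · exact h.1
    · simpa using O.one_mem
  · show (((if i.1 < k then a else 1 : ℂˣ)⁻¹ : ℂˣ) : ℂ) ∈ O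
    split_ifs
    · exact h.inv_mem
    · simpa using O.one_mem

end GO

/-! ## the embedding `GL_k → GL_n` -/

section emb

/-- the top left block -/
def embM (n k : ℕ) (M : Matrix (Fin k) (Fin k) ℂ) : Matrix (Fin n) (Fin n) ℂ := fun i j =>
  if h : i.1 < k ∧ j.1 < k then M ⟨i.1, h.1⟩ ⟨j.1, h.2⟩ else if i = j then 1 else 0

theorem embM_lt {n k : ℕ} (M : Matrix (Fin k) (Fin k) ℂ) {i j : Fin n} (hi : i.1 < k)
    (hj : j.1 < k) : embM n k M i j = M ⟨i.1, hi⟩ ⟨j.1, hj⟩ := by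
  simp [embM, hi, hj]

theorem embM_ge {n k : ℕ} (M : Matrix (Fin k) (Fin k) ℂ) {i j : Fin n}
    (h : k ≤ i.1 ∨ k ≤ j.1) : embM n k M i j = if i = j then 1 else 0 := by
  have h' : ¬ (i.1 < k ∧ j.1 < k) := by omega
  simp only [embM, h', dite_false]

theorem sum_lt {n k : ℕ} (hk : k ≤ n) (f : Fin n → ℂ) (h0 : ∀ l : Fin n, k ≤ l.1 → f l = 0) :
    ∑ l, f l = ∑ l : Fin k, f ⟨l.1, lt_of_lt_of_le l.2 hk⟩ := by
  symm
  refine Finset.sum_bij_ne_zero (fun l _ _ => (⟨l.1, lt_of_lt_of_le l.2 hk⟩ : Fin n))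
    (fun _ _ _ => Finset.mem_univ _) (fun a _ _ b _ _ h => ?_) (fun b _ hb => ?_)
    (fun _ _ _ => rfl)
  · exact Fin.ext (by simpa using h)
  · by_cases hbk : k ≤ b.1
    · exact absurd (h0 b hbk) hb
    · exact ⟨⟨b.1, by omega⟩, Finset.mem_univ _, hb, rfl⟩

theorem embM_mul {n k : ℕ} (hk : k ≤ n) (M N : Matrix (Fin k) (Fin k) ℂ) :
    embM n k (M * N) = embM n k M * embM n k N := by
  ext i j
  rw [Matrix.mul_apply]
  by_cases hi : i.1 < k
  · rw [sum_lt hk _ (fun l hl => by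
      rw [embM_ge M (Or.inr hl), if_neg (by rintro rfl; omega), zero_mul])]
    by_cases hj : j.1 < k
    · rw [embM_lt _ hi hj, Matrix.mul_apply]
      refine Finset.sum_congr rfl fun l _ => ?_
      rw [embM_lt (n := n) M hi (j := ⟨l.1, lt_of_lt_of_le l.2 hk⟩) l.2,
        embM_lt (n := n) N (i := ⟨l.1, lt_of_lt_of_le l.2 hk⟩) l.2 hj]
    · rw [embM_ge _ (Or.inr (not_lt.1 hj)), if_neg (by rintro rfl; exact hj hi)]
      symm
      refine Finset.sum_eq_zero fun l _ => ?_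
      rw [embM_ge N (i := ⟨l.1, _⟩) (Or.inr (not_lt.1 hj)), if_neg, mul_zero]
      intro h
      exact hj (by rw [← h]; exact l.2)
  · rw [embM_ge _ (Or.inl (not_lt.1 hi)), Finset.sum_eq_single i]
    · rw [embM_ge M (Or.inl (not_lt.1 hi)), if_pos rfl, one_mul,
        embM_ge N (Or.inl (not_lt.1 hi))]
    · intro l _ hl
      rw [embM_ge M (Or.inl (not_lt.1 hi)), if_neg (Ne.symm hl), zero_mul]
    · simp

theorem embM_one (n k : ℕ) : embM n k 1 = 1 := by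
  ext i j
  by_cases h : i.1 < k ∧ j.1 < k
  · rw [embM_lt _ h.1 h.2, Matrix.one_apply, Matrix.one_apply]
    by_cases hij : i = j
    · subst hij; simp
    · rw [if_neg hij, if_neg]
      intro h'
      exact hij (Fin.ext (by simpa using h'))
  · rw [embM_ge _ (by omega), Matrix.one_apply]

/-- the embedding of `GL_k` as the top left block of `GL_n` -/
def emb (n k : ℕ) (hk : k ≤ n) : G k →* G n where
  toFun g := ⟨embM n k g.1, embM n k (g⁻¹).1,
    by rw [← embM_mul hk, ← Units.val_mul, mul_inv_cancel, Units.val_one, embM_one],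
    by rw [← embM_mul hk, ← Units.val_mul, inv_mul_cancel, Units.val_one, embM_one]⟩
  map_one' := Units.ext (by show embM n k (1 : G k).1 = 1; rw [Units.val_one, embM_one])
  map_mul' g h := Units.ext (by
    show embM n k (g * h).1 = embM n k g.1 * embM n k h.1
    rw [Units.val_mul, embM_mul hk])

theorem emb_val {n k : ℕ} (hk : k ≤ n) (g : G k) : (emb n k hk g).1 = embM n k g.1 := rfl

theorem emb_inv_val {n k : ℕ} (hk : k ≤ n) (g : G k) :
    ((emb n k hk g)⁻¹).1 = embM n k (g⁻¹).1 := rfl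

theorem emb_mem {n k : ℕ} (hk : k ≤ n) (g : G k) : emb n k hk g ∈ GLk n k :=
  fun _ _ hij => embM_ge _ hij

theorem emb_injective {n k : ℕ} (hk : k ≤ n) : Function.Injective (emb n k hk) := by
  intro g h e
  apply Units.ext
  ext i j
  have := congrArg (fun z : G n => z.1 ⟨i.1, lt_of_lt_of_le i.2 hk⟩ ⟨j.1, lt_of_lt_of_le j.2 hk⟩) e
  simpa [emb_val, embM] using this

/-- the inverse of `emb` on `GLk` -/
def unemb (n k : ℕ) (hk : k ≤ n) (g : G n) (hg : g ∈ GLk n k) : G k where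
  val := g.1.submatrix (Fin.castLE hk) (Fin.castLE hk)
  inv := (g⁻¹).1.submatrix (Fin.castLE hk) (Fin.castLE hk)
  val_inv := by
    ext i j
    have h : (g.1 * (g⁻¹).1) (Fin.castLE hk i) (Fin.castLE hk j) = (1 : Matrix _ _ ℂ) i j := by
      rw [← Units.val_mul, mul_inv_cancel, Units.val_one, Matrix.one_apply, Matrix.one_apply]
      simp
    rw [Matrix.mul_apply, sum_lt hk] at h
    · exact h
    · intro l hl
      rw [hg _ l (Or.inr hl), if_neg, zero_mul]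
      rintro rfl
      exact absurd i.2 (not_lt.2 hl)
  inv_val := by
    ext i j
    have h : ((g⁻¹).1 * g.1) (Fin.castLE hk i) (Fin.castLE hk j) = (1 : Matrix _ _ ℂ) i j := by
      rw [← Units.val_mul, inv_mul_cancel, Units.val_one, Matrix.one_apply, Matrix.one_apply]
      simp
    rw [Matrix.mul_apply, sum_lt hk] at h
    · exact h
    · intro l hl
      rw [(GLk n k).inv_mem hg _ l (Or.inr hl), if_neg, zero_mul]
      rintro rfl
      exact absurd i.2 (not_lt.2 hl)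

theorem emb_unemb {n k : ℕ} (hk : k ≤ n) (g : G n) (hg : g ∈ GLk n k) :
    emb n k hk (unemb n k hk g hg) = g := by
  apply Units.ext
  ext i j
  rw [emb_val]
  by_cases h : i.1 < k ∧ j.1 < k
  · rw [embM_lt _ h.1 h.2]; rfl
  · rw [embM_ge _ (by omega), hg i j (by omega)]

theorem mem_GLk_iff {n k : ℕ} (hk : k ≤ n) {g : G n} :
    g ∈ GLk n k ↔ ∃ h : G k, emb n k hk h = g :=
  ⟨fun hg => ⟨unemb n k hk g hg, emb_unemb hk g hg⟩, fun ⟨h, e⟩ => e ▸ emb_mem hk h⟩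

theorem GLk_top {n k : ℕ} (hk : n ≤ k) (g : G n) : g ∈ GLk n k :=
  fun i j hij => by have := i.2; have := j.2; omega

theorem GLk_mono {n k l : ℕ} (hkl : k ≤ l) : GLk n k ≤ GLk n l :=
  fun _ hg i j hij => hg i j (by omega)

theorem emb_GO {O : Subring ℂ} {n k : ℕ} (hk : k ≤ n) {g : G k} :
    emb n k hk g ∈ GO O n ↔ g ∈ GO O k := by
  constructor
  · intro h i j
    have := h ⟨i.1, lt_of_lt_of_le i.2 hk⟩ ⟨j.1, lt_of_lt_of_le j.2 hk⟩
    rw [emb_val, emb_inv_val] at this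
    simpa [embM] using this
  · intro h i j
    rw [emb_val, emb_inv_val]
    by_cases hij : i.1 < k ∧ j.1 < k
    · rw [embM_lt _ hij.1 hij.2, embM_lt _ hij.1 hij.2]
      exact h _ _
    · rw [embM_ge _ (by omega), embM_ge _ (by omega)]
      split_ifs
      · exact ⟨O.one_mem, O.one_mem⟩
      · exact ⟨O.zero_mem, O.zero_mem⟩

/-- composition with `emb` preserves polynomiality -/
theorem PolG.emb {ι : Type} {n m k : ℕ} (hk : k ≤ n) {S : Set (ι → G m)} {Φ : (ι → G m) → G k}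
    (h : PolG S Φ) : PolG S (fun ρ => emb n k hk (Φ ρ)) := by
  rw [polG_iff] at *
  intro i j
  constructor
  · simp only [emb_val]
    by_cases hij : i.1 < k ∧ j.1 < k
    · simp only [embM_lt _ hij.1 hij.2]
      exact (h _ _).1
    · simp only [embM_ge (n := n) (k := k) _ (i := i) (j := j) (by omega)]
      exact PolOn.const _
  · simp only [emb_inv_val]
    by_cases hij : i.1 < k ∧ j.1 < k
    · simp only [embM_lt _ hij.1 hij.2]
      exact (h _ _).2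
    · simp only [embM_ge (n := n) (k := k) _ (i := i) (j := j) (by omega)]
      exact PolOn.const _

theorem scal_eq_emb {n k : ℕ} (hk : k ≤ n) (a : ℂˣ) : scal n k a = emb n k hk (scal k k a) := by
  apply Units.ext
  ext i j
  rw [emb_val]
  by_cases h : i.1 < k ∧ j.1 < k
  · rw [embM_lt _ h.1 h.2]
    show Matrix.diagonal _ i j = Matrix.diagonal _ _ _
    rw [Matrix.diagonal_apply, Matrix.diagonal_apply]
    by_cases hij : i = j
    · subst hij; simp [h.1]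
    · rw [if_neg hij, if_neg]
      intro h'
      exact hij (Fin.ext (by simpa using h'))
  · rw [embM_ge _ (by omega)]
    show Matrix.diagonal _ i j = _
    rw [Matrix.diagonal_apply]
    by_cases hij : i = j
    · subst hij
      have : ¬ i.1 < k := by omega
      simp [this]
    · rw [if_neg hij, if_neg hij]

theorem scal_mem_GLk {n k l : ℕ} (hkl : k ≤ l) (a : ℂˣ) : scal n k a ∈ GLk n l := by
  intro i j hij
  show Matrix.diagonal _ i j = _
  rw [Matrix.diagonal_apply]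
  by_cases h : i = j
  · subst h
    have : ¬ i.1 < k := by omega
    simp [this]
  · rw [if_neg h, if_neg h]

theorem scal_mul_comm {n k : ℕ} (a : ℂˣ) {g : G n} (hg : g ∈ GLk n k) :
    scal n k a * g = g * scal n k a := by
  apply Units.ext
  ext i j
  show ((Matrix.diagonal fun l : Fin n => ((if l.1 < k then a else 1 : ℂˣ) : ℂ)) * g.1) i j =
    (g.1 * (Matrix.diagonal fun l : Fin n => ((if l.1 < k then a else 1 : ℂˣ) : ℂ))) i j
  rw [Matrix.diagonal_mul, Matrix.mul_diagonal]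
  by_cases hi : i.1 < k
  · by_cases hj : j.1 < k
    · simp only [hi, hj, if_true]; exact mul_comm _ _
    · have h0 : g.1 i j = 0 := (hg i j (Or.inr (not_lt.1 hj))).trans
        (if_neg (by rintro rfl; exact hj hi))
      rw [h0]; simp
  · by_cases hj : j.1 < k
    · have h0 : g.1 i j = 0 := (hg i j (Or.inl (not_lt.1 hi))).trans
        (if_neg (by rintro rfl; exact hi hj))
      rw [h0]; simp
    · simp [hi, hj]

theorem scal_mul (n k : ℕ) (a b : ℂˣ) : scal n k (a * b) = scal n k a * scal n k b := by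
  apply Units.ext
  show Matrix.diagonal _ = Matrix.diagonal _ * Matrix.diagonal _
  rw [Matrix.diagonal_mul_diagonal]
  congr 1
  funext i
  by_cases h : i.1 < k <;> simp [h]

theorem scal_one (n k : ℕ) : scal n k 1 = 1 := by
  apply Units.ext
  show Matrix.diagonal _ = (1 : Matrix (Fin n) (Fin n) ℂ)
  rw [← Matrix.diagonal_one]
  congr 1
  funext i
  simp

theorem scal_inv (n k : ℕ) (a : ℂˣ) : (scal n k a)⁻¹ = scal n k a⁻¹ := by
  rw [inv_eq_iff_mul_eq_one, ← scal_mul, mul_inv_cancel, scal_one]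

end emb

/-! ## approximability -/

section Appr

variable {ι κ : Type} {n m : ℕ} {O : Subring ℂ}

/-- the integral points -/
def IntPts (O : Subring ℂ) (S : Set (ι → G n)) (Q : Set ι) : Set (ι → G n) :=
  {ρ | ρ ∈ S ∧ ∀ x ∈ Q, ρ x ∈ GO O n}

theorem appr_iff {S : Set (ι → G n)} {Q : Set ι} {ρ : ι → G n} :
    Appr O S Q ρ ↔ ρ ∈ Cal.zcl (Pol ι n) (IntPts O S Q) := by
  constructor
  · intro h F hF hv
    exact h F hF fun ρ' h1 h2 => hv ρ' ⟨h1, h2⟩
  · intro h F hF hv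
    exact h F hF fun ρ' h1 => hv ρ' h1.1 h1.2

theorem Appr.of_int {S : Set (ι → G n)} {Q : Set ι} {ρ : ι → G n} (h1 : ρ ∈ S)
    (h2 : ∀ x ∈ Q, ρ x ∈ GO O n) : Appr O S Q ρ := fun _ _ hv => hv ρ h1 h2

theorem Appr.mono {S S' : Set (ι → G n)} {Q Q' : Set ι} {ρ : ι → G n} (h : Appr O S Q ρ)
    (hS : S ⊆ S') (hQ : Q' ⊆ Q) : Appr O S' Q' ρ :=
  fun F hF hv => h F hF fun ρ' h1 h2 => hv ρ' (hS h1) fun x hx => h2 x (hQ hx)

theorem Appr.mono' {S S' : Set (ι → G n)} {Q Q' : Set ι} {ρ : ι → G n} (h : Appr O S Q ρ)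
    (hS : ∀ ρ' ∈ S, (∀ x ∈ Q, ρ' x ∈ GO O n) → ρ' ∈ S' ∧ ∀ x ∈ Q', ρ' x ∈ GO O n) :
    Appr O S' Q' ρ :=
  fun F hF hv => h F hF fun ρ' h1 h2 => hv ρ' (hS ρ' h1 h2).1 (hS ρ' h1 h2).2

/-- **(Map)** -/
theorem Appr.map {S : Set (ι → G n)} {Q : Set ι} {S' : Set (κ → G m)} {Q' : Set κ}
    {ρ' : κ → G m} (h : Appr O S' Q' ρ') (Φ : (κ → G m) → (ι → G n))
    (hΦ : ∀ x, PolG S' (fun σ => Φ σ x)) (hρ' : ρ' ∈ S')
    (hS : ∀ σ ∈ S', (∀ y ∈ Q', σ y ∈ GO O m) → Φ σ ∈ S)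
    (hQ : ∀ σ ∈ S', (∀ y ∈ Q', σ y ∈ GO O m) → ∀ x ∈ Q, Φ σ x ∈ GO O n) :
    Appr O S Q (Φ ρ') := by
  intro F hF hv
  obtain ⟨F', hF', h1⟩ := Pol.comp hΦ hF
  have h1' : ∀ σ ∈ S', F (Φ σ) = F' σ := h1
  rw [h1' ρ' hρ']
  exact h F' hF' fun σ h2 h3 => by rw [← h1' σ h2]; exact hv _ (hS σ h2 h3) (hQ σ h2 h3)

/-- **(Map)**, with the target point given by an equation -/
theorem Appr.map' {S : Set (ι → G n)} {Q : Set ι} {S' : Set (κ → G m)} {Q' : Set κ}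
    {ρ' : κ → G m} {ρ : ι → G n} (h : Appr O S' Q' ρ') (Φ : (κ → G m) → (ι → G n))
    (hΦ : ∀ x, PolG S' (fun σ => Φ σ x)) (hρ' : ρ' ∈ S') (hρ : Φ ρ' = ρ)
    (hS : ∀ σ ∈ S', (∀ y ∈ Q', σ y ∈ GO O m) → Φ σ ∈ S)
    (hQ : ∀ σ ∈ S', (∀ y ∈ Q', σ y ∈ GO O m) → ∀ x ∈ Q, Φ σ x ∈ GO O n) :
    Appr O S Q ρ := hρ ▸ h.map Φ hΦ hρ' hS hQ

/-- **(Map)** when `Φ ρ'` agrees with `ρ` only at the names in `R` and membership in `S` only
depends on the names in `R`, `Q ⊆ R`. -/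
theorem Appr.congrOn {S : Set (ι → G n)} {Q R : Set ι} {ρ ρ' : ι → G n} (h : Appr O S Q ρ')
    (hS : ∀ σ τ : ι → G n, (∀ x ∈ R, σ x = τ x) → σ ∈ S → τ ∈ S) (hQR : Q ⊆ R)
    (he : ∀ x ∈ R, ρ' x = ρ x) : Appr O S Q ρ := by
  intro F hF hv
  -- glue `ρ` off `R`
  have h1 := h _ (Cal.glue_left_mem (κ := fun _ : ι => Fin n) hF R ρ) fun σ hσ hσ' =>
    hv (Cal.glue (κ := fun _ : ι => Fin n) R σ ρ)
      (hS σ _ (fun x hx => by simp [Cal.glue, hx]) hσ)
      (fun x hx => by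
        have := hQR hx
        simpa [Cal.glue, this] using hσ' x hx)
  have h2 : Cal.glue (κ := fun _ : ι => Fin n) R ρ' ρ = ρ := by
    funext x
    by_cases hx : x ∈ R
    · simp [Cal.glue, hx, he x hx]
    · simp [Cal.glue, hx]
  rwa [h2] at h1

/-- **(Open)** -/
theorem Appr.openSet {S : Set (ι → G n)} {Q : Set ι} {ρ : ι → G n} (h : Appr O S Q ρ)
    {U : Set (ι → G n)} (hU : ∃ g ∈ Pol ι n, g ρ ≠ 0 ∧ ∀ σ ∈ S, g σ ≠ 0 → σ ∈ U) :
    Appr O (S ∩ U) Q ρ := by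
  obtain ⟨g, hg, h1, h2⟩ := hU
  intro F hF hv
  have h3 : F ρ * g ρ = 0 := by
    refine h (F * g) ((Pol ι n).mul_mem hF hg) fun σ hσ hσ' => ?_
    show F σ * g σ = 0
    by_cases h0 : g σ = 0
    · rw [h0, mul_zero]
    · rw [hv σ ⟨hσ, h2 σ hσ h0⟩ hσ', zero_mul]
  exact (mul_eq_zero.1 h3).resolve_right h1

/-- closed polynomial conditions -/
theorem Appr.closed {S : Set (ι → G n)} {Q : Set ι} {ρ : ι → G n} (h : Appr O S Q ρ)
    {F : (ι → G n) → ℂ} (hF : F ∈ Pol ι n) (hv : ∀ σ ∈ S, F σ = 0) : F ρ = 0 :=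
  h F hF fun σ hσ _ => hv σ hσ

/-- transitivity: if `ρ` is approximable by points of `S` which are `Q`-integral, and all these
points are approximable in `(S', Q')`, then so is `ρ`. -/
theorem Appr.trans {S S' : Set (ι → G n)} {Q Q' : Set ι} {ρ : ι → G n} (h : Appr O S Q ρ)
    (h' : ∀ σ ∈ S, (∀ x ∈ Q, σ x ∈ GO O n) → Appr O S' Q' σ) : Appr O S' Q' ρ :=
  fun F hF hv => h F hF fun σ h1 h2 => h' σ h1 h2 F hF hv

/-- **independent systems** -/
theorem Appr.indep {S S' : Set (ι → G n)} {Q Q' : Set ι} (R : Set ι) {ρ : ι → G n}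
    (h : Appr O S Q ρ) (h' : Appr O S' Q' ρ) (hQ : Q ⊆ R) (hQ' : Q' ⊆ Rᶜ)
    (hS : ∀ σ τ : ι → G n, (∀ x ∈ R, σ x = τ x) → σ ∈ S → τ ∈ S)
    (hS' : ∀ σ τ : ι → G n, (∀ x ∉ R, σ x = τ x) → σ ∈ S' → τ ∈ S') :
    Appr O (S ∩ S') (Q ∪ Q') ρ := by
  rw [appr_iff] at h h' ⊢
  have h1 := Cal.indep (κ := fun _ : ι => Fin n) R (I := IntPts O S Q) (J := IntPts O S' Q')
    (fun σ τ he hσ => ⟨hS σ τ he hσ.1, fun x hx => by rw [← he x (hQ hx)]; exact hσ.2 x hx⟩)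
    (fun σ τ he hσ => ⟨hS' σ τ he hσ.1, fun x hx => by rw [← he x (hQ' hx)]; exact hσ.2 x hx⟩)
    h h'
  refine Cal.zcl_mono _ ?_ h1
  rintro σ ⟨⟨h1, h2⟩, h3, h4⟩
  refine ⟨⟨h1, h3⟩, ?_⟩
  rintro x (hx | hx)
  · exact h2 x hx
  · exact h4 x hx

theorem Good.exists_unit (hO : Good O) : ∃ u : ℂ, u ∈ O ∧ u⁻¹ ∈ O ∧ u ≠ 0 ∧
    Function.Injective fun k : ℕ => u ^ k := by
  obtain ⟨u, h1, h2, h3⟩ := hO
  refine ⟨u, h1, by simpa using h2, u.ne_zero, ?_⟩
  have key : ∀ a b : ℕ, a < b → (u : ℂ) ^ a ≠ (u : ℂ) ^ b := by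
    intro a b hab h
    have h4 : u ^ a = u ^ b := Units.ext (by simpa using h)
    have h5 : u ^ (b - a) = 1 := by
      have h6 : u ^ b = u ^ a * u ^ (b - a) := by rw [← pow_add, Nat.add_sub_cancel' hab.le]
      rw [h6] at h4
      exact mul_left_cancel (a := u ^ a) (by rw [mul_one]; exact h4.symm)
    exact h3 (b - a) (by omega) h5
  intro a b hab
  rcases lt_trichotomy a b with h | h | h
  · exact absurd hab (key a b h)
  · exact h
  · exact absurd hab.symm (key b a h)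

/-- **(Free)**: assignments with prescribed ranks `k x`: the integral ones are dense. -/
theorem appr_free (hO : Good O) (k : ι → ℕ) {ρ : ι → G n} (hρ : ∀ x, ρ x ∈ GLk n (k x)) :
    Appr O {σ : ι → G n | ∀ x, σ x ∈ GLk n (k x)} Set.univ ρ := by
  obtain ⟨u, hu, hu', hu0, hinf⟩ := hO.exists_unit
  set l : ι → ℕ := fun x => min n (k x) with hl
  have hln : ∀ x, l x ≤ n := fun x => min_le_left _ _
  have hmem : ∀ x (g : G n), g ∈ GLk n (k x) ↔ g ∈ GLk n (l x) := by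
    intro x g
    constructor
    · intro h i j hij
      refine h i j ?_
      have := i.2; have := j.2
      simp only [hl] at hij
      omega
    · exact fun h => GLk_mono (min_le_right _ _) h
  have h1 := Cal.free (κ := fun x : ι => Fin (l x)) u hu hu' hu0 hinf
    (fun x => unemb n (l x) (hln x) (ρ x) ((hmem x _).1 (hρ x)))
  rw [appr_iff]
  have hρ' : ρ = fun x => emb n (l x) (hln x) (unemb n (l x) (hln x) (ρ x)
      ((hmem x _).1 (hρ x))) := by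
    funext x; rw [emb_unemb]
  rw [hρ']
  refine Cal.map (φ := fun (τ : ∀ x : ι, GL (Fin (l x)) ℂ) (x : ι) => emb n (l x) (hln x) (τ x))
    (fun F hF => ?_) (fun τ hτ => ?_) h1
  · refine Cal.comp_mem (κ := fun _ : ι => Fin n) (Cal.PolFam fun x : ι => Fin (l x)) _
      (fun x i j => ?_) (fun x i j => ?_) hF
    · show (fun τ : ∀ x : ι, GL (Fin (l x)) ℂ => embM n (l x) (τ x).1 i j) ∈ _
      by_cases hij : i.1 < l x ∧ j.1 < l x
      · simp only [embM_lt _ hij.1 hij.2]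
        exact Cal.ent_mem (κ := fun x : ι => Fin (l x)) x _ _
      · simp only [embM_ge (n := n) (k := l x) _ (i := i) (j := j) (by omega)]
        exact Subalgebra.algebraMap_mem _ _
    · show (fun τ : ∀ x : ι, GL (Fin (l x)) ℂ => embM n (l x) ((τ x)⁻¹).1 i j) ∈ _
      by_cases hij : i.1 < l x ∧ j.1 < l x
      · simp only [embM_lt _ hij.1 hij.2]
        exact Cal.ient_mem (κ := fun x : ι => Fin (l x)) x _ _
      · simp only [embM_ge (n := n) (k := l x) _ (i := i) (j := j) (by omega)]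
        exact Subalgebra.algebraMap_mem _ _
  · refine ⟨fun x => (hmem x _).2 (emb_mem _ _), fun x _ => ?_⟩
    rw [emb_GO, GO_eq]
    exact hτ x (Set.mem_univ x)

/-- (Free) for a list of free names with ranks -/
theorem appr_freeList (hO : Good O) (L : List (ι × ℕ)) (Q : Set ι) {ρ : ι → G n}
    (hρ : ∀ z ∈ L, ρ z.1 ∈ GLk n z.2) :
    Appr O {σ : ι → G n | ∀ z ∈ L, σ z.1 ∈ GLk n z.2} Q ρ := by
  classical
  -- the rank of `x` is the minimum of the prescribed ranks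
  have key : ∀ L : List (ι × ℕ), ∃ k : ι → ℕ, ∀ σ : ι → G n,
      (∀ x, σ x ∈ GLk n (k x)) ↔ ∀ z ∈ L, σ z.1 ∈ GLk n z.2 := by
    intro L
    induction L with
    | nil => exact ⟨fun _ => n, fun σ => ⟨by simp, fun _ x => GLk_top le_rfl _⟩⟩
    | cons z L ih =>
      obtain ⟨k, hk⟩ := ih
      refine ⟨Function.update k z.1 (min (k z.1) z.2), fun σ => ?_⟩
      simp only [List.mem_cons, forall_eq_or_imp, ← hk σ]
      constructor
      · intro h
        refine ⟨?_, fun x => ?_⟩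
        · have := h z.1
          rw [Function.update_self] at this
          exact GLk_mono (min_le_right _ _) this
        · by_cases hx : x = z.1
          · subst hx
            have := h z.1
            rw [Function.update_self] at this
            exact GLk_mono (min_le_left _ _) this
          · have := h x
            rwa [Function.update_of_ne hx] at this
      · rintro ⟨h1, h2⟩ x
        by_cases hx : x = z.1
        · subst hx
          rw [Function.update_self]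
          intro i j hij
          rcases le_total (k z.1) z.2 with hle | hle
          · rw [min_eq_left hle] at hij; exact h2 z.1 i j hij
          · rw [min_eq_right hle] at hij; exact h1 i j hij
        · rw [Function.update_of_ne hx]; exact h2 x
  obtain ⟨k, hk⟩ := key L
  have := appr_free hO k ((hk ρ).2 hρ)
  exact this.mono (fun σ hσ => (hk σ).1 hσ) (Set.subset_univ _)

/-- names irrelevant for `S` may be assumed integral -/
theorem Appr.freeOff (hO : Good O) {S : Set (ι → G n)} {Q : Set ι} {ρ : ι → G n}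
    (h : Appr O S Q ρ) (R : Set ι) (hQR : Q ⊆ R)
    (hS : ∀ σ τ : ι → G n, (∀ x ∈ R, σ x = τ x) → σ ∈ S → τ ∈ S) :
    Appr O S (Q ∪ Rᶜ) ρ := by
  have h2 : Appr O (Set.univ : Set (ι → G n)) Rᶜ ρ :=
    (appr_free hO (fun _ => n) (ρ := ρ) fun x => GLk_top le_rfl _).mono
      (Set.subset_univ _) (Set.subset_univ _)
  have := Appr.indep R h h2 hQR le_rfl hS (fun _ _ _ _ => trivial)
  rwa [Set.inter_univ] at this

end Appr

end Crest.Agent.R003
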