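import Crest.Agent.R003.Iface
import Crest.Agent.R003.Grp486

/-!
# Row 3 (S0003): basic lemmas on flat words, systems and `Appr` (helper486)
All in namespace `Crest.Agent.R003.H486`.
-/

set_option autoImplicit false

namespace Crest.Agent.R003.H486

/-! ### words -/

theorem eval_nil {n : ℕ} (ρ : ℕ → G n) : Wd.eval ρ [] = 1 := rfl

theorem eval_cons {n : ℕ} (ρ : ℕ → G n) (l : Lt) (w : Wd) :
    Wd.eval ρ (l :: w) = l.eval ρ * Wd.eval ρ w := by
  simp [Wd.eval]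

theorem eval_app {n : ℕ} (ρ : ℕ → G n) (u v : Wd) :
    Wd.eval ρ (u ++ v) = Wd.eval ρ u * Wd.eval ρ v := by
  simp [Wd.eval]

theorem Sat_nil {n : ℕ} (ρ : ℕ → G n) (k : ℕ) : Wd.Sat ρ [] k := by
  intro l hl; simp at hl

theorem Sat_cons {n : ℕ} (ρ : ℕ → G n) (l : Lt) (w : Wd) (k : ℕ) :
    Wd.Sat ρ (l :: w) k ↔ l.Sat ρ k ∧ Wd.Sat ρ w k := by
  simp [Wd.Sat]

theorem Sat_app {n : ℕ} (ρ : ℕ → G n) (u v : Wd) (k : ℕ) :
    Wd.Sat ρ (u ++ v) k ↔ Wd.Sat ρ u k ∧ Wd.Sat ρ v k := by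
  constructor
  · intro h
    exact ⟨fun l hl => h l (List.mem_append_left _ hl), fun l hl => h l (List.mem_append_right _ hl)⟩
  · rintro ⟨h1, h2⟩ l hl
    rcases List.mem_append.1 hl with h | h
    · exact h1 l h
    · exact h2 l h

theorem occ_cons (l : Lt) (w : Wd) (k : ℕ) : Wd.occ (l :: w) k = l.occ k + Wd.occ w k := by
  simp [Wd.occ]

theorem occ_app (u v : Wd) (k : ℕ) : Wd.occ (u ++ v) k = Wd.occ u k + Wd.occ v k := by
  simp [Wd.occ]

theorem pn_cons (l : Lt) (w : Wd) : Wd.pn (l :: w) = l.pn + Wd.pn w := by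
  simp [Wd.pn]

theorem pn_app (u v : Wd) : Wd.pn (u ++ v) = Wd.pn u + Wd.pn v := by
  simp [Wd.pn]

theorem wt_cons (l : Lt) (w : Wd) (k : ℕ) : Wd.wt (l :: w) k = l.wt k + Wd.wt w k := by
  simp [Wd.wt]

theorem wt_app (u v : Wd) (k : ℕ) : Wd.wt (u ++ v) k = Wd.wt u k + Wd.wt v k := by
  simp [Wd.wt]

theorem last_app (u v : Wd) (d : Option (List Bool)) :
    Wd.last (u ++ v) d = Wd.last v (Wd.last u d) := by
  induction u generalizing d with
  | nil => rfl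
  | cons l u ih =>
    cases l with
    | full x ε => exact ih _
    | par p e σ c c' g => exact ih _

theorem last_of_ne_nil {w : Wd} (h : w ≠ []) (d d' : Option (List Bool)) :
    Wd.last w d = Wd.last w d' := by
  cases w with
  | nil => exact absurd rfl h
  | cons l w => cases l <;> rfl

theorem WF_app (O : Subring ℂ) (u v : Wd) (k : ℕ) (d : Option (List Bool)) :
    Wd.WF O (u ++ v) k d ↔ Wd.WF O u k d ∧ Wd.WF O v k (Wd.last u d) := by
  induction u generalizing d with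
  | nil =>
    constructor
    · intro h; exact ⟨trivial, h⟩
    · intro h; exact h.2
  | cons l u ih =>
    cases l with
    | full x ε => exact ih _
    | par p e σ c c' g =>
      show (_ ∧ _ ∧ _ ∧ _ ∧ Wd.WF O (u ++ v) k (some c')) ↔ (_ ∧ _ ∧ _ ∧ _ ∧ Wd.WF O u k (some c')) ∧
        Wd.WF O v k (Wd.last u (some c'))
      rw [ih]
      constructor
      · rintro ⟨h1, h2, h3, h4, h5, h6⟩
        exact ⟨⟨h1, h2, h3, h4, h5⟩, h6⟩
      · rintro ⟨⟨h1, h2, h3, h4, h5⟩, h6⟩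
        exact ⟨h1, h2, h3, h4, h5, h6⟩

theorem WF_of_none (O : Subring ℂ) {w : Wd} {k : ℕ} (h : Wd.WF O w k none)
    (d : Option (List Bool)) : Wd.WF O w k d := by
  cases w with
  | nil => trivial
  | cons l w =>
    cases l with
    | full x ε => exact h
    | par p e σ c c' g =>
      obtain ⟨h1, h2, h3, h4, h5⟩ := h
      refine ⟨h1, h2, Or.inl ?_, h4, h5⟩
      rcases h3 with h3 | h3
      · exact h3
      · exact absurd h3 (by simp)

/-- if `u` is well-formed after `last v none` then it is well-formed after `last v d` -/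
theorem WF_last (O : Subring ℂ) {u v : Wd} {k : ℕ} (h : Wd.WF O u k (Wd.last v none))
    (d : Option (List Bool)) : Wd.WF O u k (Wd.last v d) := by
  by_cases hv : v = []
  · subst hv; exact WF_of_none O h _
  · rw [last_of_ne_nil hv d none]; exact h

theorem hasNd_app (u v : Wd) : Wd.hasNd (u ++ v) ↔ Wd.hasNd u ∨ Wd.hasNd v := by
  constructor
  · rintro ⟨l, hl, h⟩
    rcases List.mem_append.1 hl with h' | h'
    · exact Or.inl ⟨l, h', h⟩
    · exact Or.inr ⟨l, h', h⟩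
  · rintro (⟨l, hl, h⟩ | ⟨l, hl, h⟩)
    · exact ⟨l, List.mem_append_left _ hl, h⟩
    · exact ⟨l, List.mem_append_right _ hl, h⟩

theorem hasNd_full (x : ℕ) (ε : Bool) (w : Wd) : Wd.hasNd (Lt.full x ε :: w) ↔ Wd.hasNd w := by
  constructor
  · rintro ⟨l, hl, h⟩
    rcases List.mem_cons.1 hl with h' | h'
    · subst h'; exact absurd h (by simp [Lt.Nd])
    · exact ⟨l, h', h⟩
  · rintro ⟨l, hl, h⟩
    exact ⟨l, List.mem_cons_of_mem _ hl, h⟩

/-! ### names -/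

/-- names of a letter -/
def lnm : Lt → Set ℕ
  | Lt.full x _ => {x}
  | Lt.par p _ _ _ _ g => {p, g false, g true}

/-- names of a word -/
def wnm (w : Wd) : Set ℕ := {y | ∃ l ∈ w, y ∈ lnm l}

theorem mem_lnm {k y : ℕ} {l : Lt} :
    y ∈ lnm l ↔ (∃ k' ε, (y, k', ε) ∈ l.occ k) ∨ y ∈ l.pn := by
  cases l with
  | full x ε =>
    simp only [lnm, Lt.occ, Lt.pn, Set.mem_singleton_iff, Multiset.mem_singleton]
    constructor
    · rintro rfl; exact Or.inl ⟨k, ε, rfl⟩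
    · rintro (⟨k', ε', h⟩ | h)
      · simp only [Prod.mk.injEq] at h; exact h.1
      · simp at h
  | par p e σ c c' g =>
    simp only [lnm, Lt.occ, Lt.pn, Set.mem_insert_iff, Set.mem_singleton_iff,
      Multiset.mem_singleton]
    constructor
    · rintro (h | h | h)
      · exact Or.inr h
      · left; exact ⟨_, _, by subst h; exact Multiset.mem_cons_self _ _⟩
      · left; exact ⟨_, _, by subst h; exact Multiset.mem_cons_of_mem (Multiset.mem_singleton_self _)⟩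
    · rintro (⟨k', ε', h⟩ | h)
      · have h' : (y, k', ε') ∈ (g false, c.count false, true) ::ₘ
          ({(g true, c.count true, true)} : Multiset (ℕ × ℕ × Bool)) := h
        rw [Multiset.mem_cons, Multiset.mem_singleton] at h'
        rcases h' with h' | h'
        · simp only [Prod.mk.injEq] at h'; exact Or.inr (Or.inl h'.1)
        · simp only [Prod.mk.injEq] at h'; exact Or.inr (Or.inr h'.1)
      · exact Or.inl h

theorem mem_wnm {k y : ℕ} {w : Wd} :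
    y ∈ wnm w ↔ (∃ k' ε, (y, k', ε) ∈ Wd.occ w k) ∨ y ∈ Wd.pn w := by
  induction w with
  | nil => simp [wnm, Wd.occ, Wd.pn]
  | cons l w ih =>
    rw [occ_cons, pn_cons]
    have : y ∈ wnm (l :: w) ↔ y ∈ lnm l ∨ y ∈ wnm w := by
      simp [wnm]
    rw [this, ih, mem_lnm (k := k)]
    simp only [Multiset.mem_add]
    constructor
    · rintro ((⟨k', ε, h⟩ | h) | (⟨k', ε, h⟩ | h))
      · exact Or.inl ⟨k', ε, Or.inl h⟩
      · exact Or.inr (Or.inl h)
      · exact Or.inl ⟨k', ε, Or.inr h⟩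
      · exact Or.inr (Or.inr h)
    · rintro (⟨k', ε, h | h⟩ | (h | h))
      · exact Or.inl (Or.inl ⟨k', ε, h⟩)
      · exact Or.inr (Or.inl ⟨k', ε, h⟩)
      · exact Or.inl (Or.inr h)
      · exact Or.inr (Or.inr h)

theorem wnm_app (u v : Wd) (y : ℕ) : y ∈ wnm (u ++ v) ↔ y ∈ wnm u ∨ y ∈ wnm v := by
  simp only [wnm, Set.mem_ofPred_eq, List.mem_append]
  constructor
  · rintro ⟨l, h | h, h'⟩
    · exact Or.inl ⟨l, h, h'⟩
    · exact Or.inr ⟨l, h, h'⟩
  · rintro (⟨l, h, h'⟩ | ⟨l, h, h'⟩)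
    · exact ⟨l, Or.inl h, h'⟩
    · exact ⟨l, Or.inr h, h'⟩

theorem mem_names {S : Sys} {y : ℕ} :
    y ∈ S.names ↔ (∃ r ∈ S.roots, y ∈ wnm r.w) ∨ y ∈ S.free.map Prod.fst := by
  have h1 : (∃ k ε, (y, k, ε) ∈ S.occ) ↔ ∃ r ∈ S.roots, ∃ k ε, (y, k, ε) ∈ Wd.occ r.w r.k := by
    have h : ∀ z, z ∈ S.occ ↔ ∃ r ∈ S.roots, z ∈ Wd.occ r.w r.k := by
      intro z
      have : ∀ l : List Root, z ∈ (l.map Root.occ).sum ↔ ∃ r ∈ l, z ∈ Wd.occ r.w r.k := by
        intro l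
        induction l with
        | nil => simp
        | cons r l ih => simp [ih, Root.occ]
      exact this _
    constructor
    · rintro ⟨k, ε, hh⟩
      obtain ⟨r, hr, hh⟩ := (h _).1 hh
      exact ⟨r, hr, k, ε, hh⟩
    · rintro ⟨r, hr, k, ε, hh⟩
      exact ⟨k, ε, (h _).2 ⟨r, hr, hh⟩⟩
  have h2 : y ∈ S.pn ↔ ∃ r ∈ S.roots, y ∈ Wd.pn r.w := by
    have : ∀ l : List Root, y ∈ (l.map Root.pn).sum ↔ ∃ r ∈ l, y ∈ Wd.pn r.w := by
      intro l
      induction l with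
      | nil => simp
      | cons r l ih => simp [ih, Root.pn]
    exact this _
  show ((∃ k ε, (y, k, ε) ∈ S.occ) ∨ y ∈ S.pn ∨ y ∈ S.free.map Prod.fst) ↔ _
  rw [h1, h2, ← or_assoc]
  constructor
  · rintro ((⟨r, hr, h⟩ | ⟨r, hr, h⟩) | h)
    · exact Or.inl ⟨r, hr, mem_wnm.2 (Or.inl h)⟩
    · exact Or.inl ⟨r, hr, (mem_wnm (k := r.k)).2 (Or.inr h)⟩
    · exact Or.inr h
  · rintro (⟨r, hr, h⟩ | h)
    · rcases (mem_wnm (k := r.k)).1 h with h | h
      · exact Or.inl (Or.inl ⟨r, hr, h⟩)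
      · exact Or.inl (Or.inr ⟨r, hr, h⟩)
    · exact Or.inr h

theorem lt_eval_congr {n : ℕ} {ρ ρ' : ℕ → G n} {l : Lt} (h : ∀ y ∈ lnm l, ρ y = ρ' y) :
    l.eval ρ = l.eval ρ' := by
  cases l with
  | full x ε => simp only [Lt.eval]; rw [h x (by simp [lnm])]
  | par p e σ c c' g => simp only [Lt.eval]; rw [h p (by simp [lnm])]

theorem lt_Sat_congr {n k : ℕ} {ρ ρ' : ℕ → G n} {l : Lt} (h : ∀ y ∈ lnm l, ρ y = ρ' y) :
    l.Sat ρ k ↔ l.Sat ρ' k := by
  cases l with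
  | full x ε => simp only [Lt.Sat]; rw [h x (by simp [lnm])]
  | par p e σ c c' g =>
    simp only [Lt.Sat]
    rw [h p (by simp [lnm])]
    have : (fun b => ρ (g b)) = fun b => ρ' (g b) := by
      funext b
      cases b
      · exact h _ (by simp [lnm])
      · exact h _ (by simp [lnm])
    rw [this]

theorem eval_congr {n : ℕ} {ρ ρ' : ℕ → G n} {w : Wd} (h : ∀ y ∈ wnm w, ρ y = ρ' y) :
    Wd.eval ρ w = Wd.eval ρ' w := by
  unfold Wd.eval
  congr 1
  apply List.map_congr_left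
  intro l hl
  exact lt_eval_congr fun y hy => h y ⟨l, hl, hy⟩

theorem Sat_congr {n k : ℕ} {ρ ρ' : ℕ → G n} {w : Wd} (h : ∀ y ∈ wnm w, ρ y = ρ' y) :
    Wd.Sat ρ w k ↔ Wd.Sat ρ' w k := by
  constructor
  · intro hs l hl
    exact (lt_Sat_congr fun y hy => h y ⟨l, hl, hy⟩).1 (hs l hl)
  · intro hs l hl
    exact (lt_Sat_congr fun y hy => h y ⟨l, hl, hy⟩).2 (hs l hl)

theorem Sol_congr {n : ℕ} {ρ ρ' : ℕ → G n} {r : Root} (h : ∀ y ∈ wnm r.w, ρ y = ρ' y) :
    r.Sol ρ ↔ r.Sol ρ' := by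
  unfold Root.Sol
  rw [eval_congr h, Sat_congr h]

/-! ### values in `GLk` and `GO` -/

theorem lt_eval_mem_GLk {n k : ℕ} {ρ : ℕ → G n} {l : Lt} (h : l.Sat ρ k)
    (hc : ∀ (p : ℕ) e σ c c' g, l = Lt.par p e σ c c' g → c.length = k) : l.eval ρ ∈ GLk n k := by
  cases l with
  | full x ε =>
    simp only [Lt.eval]
    split_ifs
    · exact h
    · exact (GLk n k).inv_mem h
  | par p e σ c c' g =>
    have hc' := hc p e σ c c' g rfl
    have h' : IsPar c c' (fun b => ρ (g b)) (ρ p) := h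
    exact (GLk n k).mul_mem (dsg_mem_GLk_of_le _ _ _ hc'.le) (hc' ▸ h'.mem)

theorem WF_length {O : Subring ℂ} {w : Wd} {k : ℕ} {d : Option (List Bool)} (h : Wd.WF O w k d) :
    ∀ l ∈ w, ∀ (p : ℕ) e σ c c' g, l = Lt.par p e σ c c' g → c.length = k := by
  induction w generalizing d with
  | nil => intro l hl; simp at hl
  | cons l w ih =>
    intro l' hl' p e σ c c' g hg
    rcases List.mem_cons.1 hl' with h' | h'
    · subst h'; subst hg; exact h.1
    · cases l with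
      | full x ε => exact ih h l' h' p e σ c c' g hg
      | par p1 e1 σ1 c1 c1' g1 => exact ih h.2.2.2.2 l' h' p e σ c c' g hg

theorem eval_mem_GLk {O : Subring ℂ} {n k : ℕ} {ρ : ℕ → G n} {w : Wd} {d : Option (List Bool)}
    (hw : Wd.WF O w k d) (h : Wd.Sat ρ w k) : Wd.eval ρ w ∈ GLk n k := by
  have h1 := WF_length hw
  unfold Wd.eval
  apply Subgroup.list_prod_mem
  intro x hx
  obtain ⟨l, hl, rfl⟩ := List.mem_map.1 hx
  exact lt_eval_mem_GLk (h l hl) (h1 l hl)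

theorem WF_signs {O : Subring ℂ} {w : Wd} {k : ℕ} {d : Option (List Bool)} (h : Wd.WF O w k d) :
    ∀ l ∈ w, ∀ (p : ℕ) e σ c c' g, l = Lt.par p e σ c c' g → ∀ x y, IsSc O (σ x y) := by
  induction w generalizing d with
  | nil => intro l hl; simp at hl
  | cons l w ih =>
    intro l' hl' p e σ c c' g hg
    rcases List.mem_cons.1 hl' with h' | h'
    · subst h'; subst hg; exact h.2.2.2.1
    · cases l with
      | full x ε => exact ih h l' h' p e σ c c' g hg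
      | par p1 e1 σ1 c1 c1' g1 => exact ih h.2.2.2.2 l' h' p e σ c c' g hg

theorem lt_eval_mem_GO {O : Subring ℂ} {n : ℕ} {ρ : ℕ → G n} {l : Lt}
    (h : ∀ y ∈ lnm l, ρ y ∈ GO O n)
    (hc : ∀ (p : ℕ) e σ c c' g, l = Lt.par p e σ c c' g → ∀ x y, IsSc O (σ x y)) :
    l.eval ρ ∈ GO O n := by
  cases l with
  | full x ε =>
    simp only [Lt.eval]
    have := h x (by simp [lnm])
    split_ifs
    · exact this
    · exact (GO O n).inv_mem this
  | par p e σ c c' g =>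
    exact (GO O n).mul_mem (dsg_mem_GO _ _ (hc p e σ c c' g rfl)) (h p (by simp [lnm]))

theorem eval_mem_GO {O : Subring ℂ} {n k : ℕ} {ρ : ℕ → G n} {w : Wd} {d : Option (List Bool)}
    (hw : Wd.WF O w k d) (h : ∀ y ∈ wnm w, ρ y ∈ GO O n) : Wd.eval ρ w ∈ GO O n := by
  have h1 := WF_signs hw
  unfold Wd.eval
  apply Subgroup.list_prod_mem
  intro x hx
  obtain ⟨l, hl, rfl⟩ := List.mem_map.1 hx
  exact lt_eval_mem_GO (fun y hy => h y ⟨l, hl, hy⟩) (h1 l hl)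

/-! ### linearity of the occurrences -/

theorem lin_pair {A : Multiset (ℕ × ℕ × Bool)} {P F : Multiset ℕ} {x k : ℕ}
    (h : ∃ V : Multiset (ℕ × ℕ),
      (x, k, true) ::ₘ (x, k, false) ::ₘ A =
        V.map (fun v => (v.1, v.2, true)) + V.map (fun v => (v.1, v.2, false)) ∧
      (V.map Prod.fst + P + F).Nodup) :
    ∃ V' : Multiset (ℕ × ℕ),
      A = V'.map (fun v => (v.1, v.2, true)) + V'.map (fun v => (v.1, v.2, false)) ∧
      (x ::ₘ (V'.map Prod.fst + P + F)).Nodup := by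
  obtain ⟨V, h1, h2⟩ := h
  have hx : (x, k) ∈ V := by
    have : (x, k, true) ∈ V.map (fun v => (v.1, v.2, true)) + V.map (fun v => (v.1, v.2, false)) := by
      rw [← h1]; exact Multiset.mem_cons_self _ _
    rw [Multiset.mem_add, Multiset.mem_map, Multiset.mem_map] at this
    rcases this with ⟨v, hv, hv'⟩ | ⟨v, hv, hv'⟩
    · simp only [Prod.mk.injEq] at hv'
      have : v = (x, k) := Prod.ext hv'.1 hv'.2.1
      exact this ▸ hv
    · simp only [Prod.mk.injEq] at hv'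
      exact absurd hv'.2.2 (by simp)
  obtain ⟨V', rfl⟩ := Multiset.exists_cons_of_mem hx
  refine ⟨V', ?_, ?_⟩
  · rw [Multiset.map_cons, Multiset.map_cons, Multiset.cons_add, Multiset.add_cons] at h1
    exact (Multiset.cons_inj_right _).1 ((Multiset.cons_inj_right _).1 h1)
  · rw [Multiset.map_cons, Multiset.cons_add, Multiset.cons_add] at h2
    exact h2

theorem lin_pair' {A : Multiset (ℕ × ℕ × Bool)} {P F : Multiset ℕ} {x k : ℕ} {ε : Bool}
    (h : ∃ V : Multiset (ℕ × ℕ),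
      (x, k, ε) ::ₘ (x, k, !ε) ::ₘ A =
        V.map (fun v => (v.1, v.2, true)) + V.map (fun v => (v.1, v.2, false)) ∧
      (V.map Prod.fst + P + F).Nodup) :
    ∃ V' : Multiset (ℕ × ℕ),
      A = V'.map (fun v => (v.1, v.2, true)) + V'.map (fun v => (v.1, v.2, false)) ∧
      (x ::ₘ (V'.map Prod.fst + P + F)).Nodup := by
  cases ε with
  | true => exact lin_pair h
  | false =>
    rw [Bool.not_false, Multiset.cons_swap] at h
    exact lin_pair h

/-! ### polynomiality -/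

theorem polG_mul {ι : Type} {n m : ℕ} {S : Set (ι → G n)} {Φ Ψ : (ι → G n) → G m}
    (h : PolG S Φ) (h' : PolG S Ψ) : PolG S fun ρ => Φ ρ * Ψ ρ := by
  intro i j
  constructor
  · choose F hF using fun k => (h i k).1
    choose F' hF' using fun k => (h' k j).1
    refine ⟨∑ k, F k * F' k, Subalgebra.sum_mem _ fun k _ =>
      Subalgebra.mul_mem _ (hF k).1 (hF' k).1, ?_⟩
    intro ρ hρ
    rw [Units.val_mul, Matrix.mul_apply, Finset.sum_apply]
    refine Finset.sum_congr rfl fun k _ => ?_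
    rw [Pi.mul_apply, (hF k).2 ρ hρ, (hF' k).2 ρ hρ]
  · choose F hF using fun k => (h k j).2
    choose F' hF' using fun k => (h' i k).2
    refine ⟨∑ k, F' k * F k, Subalgebra.sum_mem _ fun k _ =>
      Subalgebra.mul_mem _ (hF' k).1 (hF k).1, ?_⟩
    intro ρ hρ
    rw [_root_.mul_inv_rev, Units.val_mul, Matrix.mul_apply, Finset.sum_apply]
    refine Finset.sum_congr rfl fun k _ => ?_
    rw [Pi.mul_apply, (hF k).2 ρ hρ, (hF' k).2 ρ hρ]

theorem polG_inv {ι : Type} {n m : ℕ} {S : Set (ι → G n)} {Φ : (ι → G n) → G m}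
    (h : PolG S Φ) : PolG S fun ρ => (Φ ρ)⁻¹ := by
  intro i j
  refine ⟨(h i j).2, ?_⟩
  obtain ⟨F, hF, hF'⟩ := (h i j).1
  exact ⟨F, hF, fun ρ hρ => by rw [inv_inv]; exact hF' ρ hρ⟩

theorem polG_const {ι : Type} {n m : ℕ} {S : Set (ι → G n)} (g : G m) :
    PolG S fun _ => g := by
  intro i j
  exact ⟨⟨fun _ => g.1 i j, Subalgebra.algebraMap_mem _ (g.1 i j), fun ρ _ => rfl⟩,
    ⟨fun _ => (g⁻¹).1 i j, Subalgebra.algebraMap_mem _ ((g⁻¹).1 i j), fun ρ _ => rfl⟩⟩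

theorem polG_apply {ι : Type} {n : ℕ} {S : Set (ι → G n)} (x : ι) :
    PolG S fun ρ => ρ x := by
  intro i j
  exact ⟨⟨fun ρ => (ρ x).1 i j, Algebra.subset_adjoin (Or.inl ⟨x, i, j, rfl⟩), fun ρ _ => rfl⟩,
    ⟨fun ρ => ((ρ x)⁻¹).1 i j, Algebra.subset_adjoin (Or.inr ⟨x, i, j, rfl⟩), fun ρ _ => rfl⟩⟩

theorem polG_lt_eval {n : ℕ} {S : Set (ℕ → G n)} (l : Lt) : PolG S fun ρ => l.eval ρ := by
  cases l with
  | full x ε =>
    cases ε with
    | true => exact polG_apply x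
    | false => exact polG_inv (polG_apply x)
  | par p e σ c c' g => exact polG_mul (polG_const _) (polG_apply p)

theorem polG_eval {n : ℕ} {S : Set (ℕ → G n)} (w : Wd) : PolG S fun ρ => Wd.eval ρ w := by
  induction w with
  | nil => exact polG_const 1
  | cons l w ih =>
    have : (fun ρ => Wd.eval ρ (l :: w)) = fun ρ : ℕ → G n => l.eval ρ * Wd.eval ρ w := by
      funext ρ; exact eval_cons ρ l w
    rw [this]
    exact polG_mul (polG_lt_eval l) ih

/-- composition with a polynomial map -/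
theorem pol_comp {ι κ : Type} {n m : ℕ} {S : Set (ι → G n)} {Φ : (ι → G n) → (κ → G m)}
    (h : ∀ x, PolG S fun ρ => Φ ρ x) {F : (κ → G m) → ℂ} (hF : F ∈ Pol κ m) :
    ∃ F' ∈ Pol ι n, ∀ ρ ∈ S, F (Φ ρ) = F' ρ := by
  refine Algebra.adjoin_induction (p := fun F _ => ∃ F' ∈ Pol ι n, ∀ ρ ∈ S, F (Φ ρ) = F' ρ)
    ?_ ?_ ?_ ?_ hF
  · rintro F (⟨x, i, j, rfl⟩ | ⟨x, i, j, rfl⟩)
    · exact (h x i j).1
    · exact (h x i j).2
  · intro r
    exact ⟨fun _ => r, Subalgebra.algebraMap_mem _ r, fun ρ _ => rfl⟩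
  · rintro F₁ F₂ _ _ ⟨F₁', h₁, h₁'⟩ ⟨F₂', h₂, h₂'⟩
    exact ⟨F₁' + F₂', Subalgebra.add_mem _ h₁ h₂, fun ρ hρ => by
      rw [Pi.add_apply, Pi.add_apply, h₁' ρ hρ, h₂' ρ hρ]⟩
  · rintro F₁ F₂ _ _ ⟨F₁', h₁, h₁'⟩ ⟨F₂', h₂, h₂'⟩
    exact ⟨F₁' * F₂', Subalgebra.mul_mem _ h₁ h₂, fun ρ hρ => by
      rw [Pi.mul_apply, Pi.mul_apply, h₁' ρ hρ, h₂' ρ hρ]⟩

/-- transport of approximability along a polynomial map -/
theorem appr_map {ι κ : Type} {n m : ℕ} {O : Subring ℂ} {S : Set (κ → G m)} {S' : Set (ι → G n)}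
    {Q : Set κ} {Q' : Set ι} {ρ : κ → G m} {ρ' : ι → G n} (Φ : (ι → G n) → (κ → G m))
    (hpol : ∀ x, PolG S' fun ρ => Φ ρ x) (hmap : ∀ σ ∈ S', Φ σ ∈ S)
    (hint : ∀ σ ∈ S', (∀ x ∈ Q', σ x ∈ GO O n) → ∀ x ∈ Q, Φ σ x ∈ GO O m)
    (hρ' : ρ' ∈ S') (hρ : Φ ρ' = ρ) (h : Appr O S' Q' ρ') : Appr O S Q ρ := by
  intro F hF h0
  obtain ⟨F', hF', h1⟩ := pol_comp hpol hF
  rw [← hρ, h1 ρ' hρ']
  apply h F' hF'
  intro σ hσ hσ'
  rw [← h1 σ hσ]
  exact h0 _ (hmap σ hσ) (hint σ hσ hσ')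

theorem dm_of_add {A B C : Multiset ℕ} (h : C = A + B) (hB : B ≠ 0) :
    Multiset.IsDershowitzMannaLT A C :=
  ⟨A, 0, B, hB, by simp, h, by simp⟩

end Crest.Agent.R003.H486
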