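import Crest.Agent.R003.Defs

/-!
# Row 3: interface statements (helper34). Everything here is a `Prop`-valued definition; the blocks prove them,
the word level uses them as hypotheses until they are proved.
-/

set_option autoImplicit false

namespace Crest.Agent.R003

/-- joint labels -/
abbrev jl (c d : List Bool) : List (Bool × Bool) := c.zip d

/-- the sign function of a new corner: `-1` on `(0,1)` -/
def sg (e y : Bool) : ℂˣ := if e = false ∧ y = true then -1 else 1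

/-- Lemma BRUHAT (686/961). -/
def Bruhat (n : ℕ) : Prop :=
  ∀ (k : ℕ), k ≤ n → ∀ X ∈ GLk n k, ∀ E F : List Bool, E.length = k → F.length = k →
    ∃ (E' F' : List Bool) (q q' : G n) (g g' : Bool → G n),
      E'.length = k ∧ F'.length = k ∧ IsPar E E' g q ∧ IsPar F' F g' q' ∧ X = q * q'

/-- block extraction for joint labels (961) -/
def Extract (n : ℕ) : Prop :=
  ∀ (c d c' d' : List Bool), c.length = d.length → c'.length = d'.length →
    ∀ (nn : Bool × Bool → G n) (L : G n), IsPar (jl c d) (jl c' d') nn L →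
    ∃ g h : Bool → G n, IsPar c c' g L ∧ IsPar d d' h L ∧
      (∀ e, IsPar (restr c d e) (restr c' d' e) (fun x => nn (e, x)) (g e)) ∧
      (∀ x, IsPar (restr d c x) (restr d' c' x) (fun e => nn (e, x)) (h x))

/-- the data to be glued: E-blocks `g`, X-blocks `h` (with common diagonal blocks `nn`) and a corner `ζ` -/
def GlueData {n : ℕ} (c d c' d' : List Bool) (nn : Bool × Bool → G n) (g h : Bool → G n) (ζ : G n) :
    Prop :=
  (∀ e, IsPar (restr c d e) (restr c' d' e) (fun x => nn (e, x)) (g e)) ∧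
  (∀ x, IsPar (restr d c x) (restr d' c' x) (fun e => nn (e, x)) (h x)) ∧
  ζ ∈ GLk n c.length

/-- gluing (961): the inverse of `Extract`; `ζ` carries the corner block `(0,0) → (1,1)`. The map
is polynomial and integral on its domain. -/
def Glue (n : ℕ) : Prop :=
  ∀ (c d c' d' : List Bool), c.length = d.length → c'.length = d'.length → c.length ≤ n →
    (∀ l, (jl c d).count l = (jl c' d').count l) →
    ∃ Φ : (Bool → G n) → (Bool → G n) → G n → G n,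
      (∀ (ι : Type) (S : Set (ι → G n)) (g h : Bool → (ι → G n) → G n) (ζ : (ι → G n) → G n),
        (∀ b, PolG S (g b)) → (∀ b, PolG S (h b)) → PolG S ζ →
        (∀ ρ ∈ S, ∃ nn, GlueData c d c' d' nn (fun b => g b ρ) (fun b => h b ρ) (ζ ρ)) →
        PolG S (fun ρ => Φ (fun b => g b ρ) (fun b => h b ρ) (ζ ρ))) ∧
      (∀ (O : Subring ℂ) (g h : Bool → G n) (ζ : G n), (∀ b, g b ∈ GO O n) → (∀ b, h b ∈ GO O n) →
        ζ ∈ GO O n → (∃ nn, GlueData c d c' d' nn g h ζ) → Φ g h ζ ∈ GO O n) ∧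
      (∀ (nn : Bool × Bool → G n) (g h : Bool → G n) (ζ : G n), GlueData c d c' d' nn g h ζ →
        IsPar (jl c d) (jl c' d') nn (Φ g h ζ) ∧ IsPar c c' g (Φ g h ζ) ∧
          IsPar d d' h (Φ g h ζ)) ∧
      (∀ (nn : Bool × Bool → G n) (g h : Bool → G n) (L : G n), IsPar (jl c d) (jl c' d') nn L →
        IsPar c c' g L → IsPar d d' h L → ∃ ζ ∈ GLk n c.length, Φ g h ζ = L)

/-- S6 matrix lemma (832): block triangular for two label pairs => for the joint labels. -/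
def TwoLab (n : ℕ) : Prop :=
  ∀ (c d c' d' : List Bool) (g h : Bool → G n) (P : G n), c.length = d.length →
    c'.length = d'.length → IsPar c c' g P → IsPar d d' h P →
    ∃ nn : Bool × Bool → G n, IsPar (jl c d) (jl c' d') nn P

/-- S5 NORMAL FORM (990/832). `E,X` live on the left corner of `P`, `X',Y` on its right corner. -/
def NF5 (n : ℕ) : Prop :=
  ∀ (k : ℕ), k ≤ n → ∀ (E X X' Y : List Bool) (W : Bool → G n) (P : G n),
    E.length = k → X.length = k → X'.length = k → Y.length = k → IsPar X X' W P →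
    ∃ (Et Yt XE XY : List Bool) (nn mm : Bool × Bool → G n) (L R N1 N3 : G n),
      Et.length = k ∧ Yt.length = k ∧ XE.length = k ∧ XY.length = k ∧
      (∀ x, (restr XE Et x).length = (restr XY Yt x).length) ∧
      IsPar (jl E X) (jl Et XE) nn L ∧ IsPar (jl XY Yt) (jl X' Y) mm R ∧
      IsPar Et Et (fun _ => 1) N1 ∧ IsPar Yt Yt (fun _ => 1) N3 ∧
      (∀ O : Subring ℂ, N1 ∈ GO O n ∧ N3 ∈ GO O n) ∧
      IsPar XE XY (fun x => dsg n (restr XY Yt x) (restr XE Et x) (fun y e => sg e y))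
        (N1 * dsg n Et Yt sg * N3) ∧
      P = L * (N1 * dsg n Et Yt sg * N3) * R

/-- calculus of `IsPar` (961): product, inverse, identity, uniqueness of the blocks -/
def Calc (n : ℕ) : Prop :=
  (∀ (c c' c'' : List Bool) (g g' : Bool → G n) (P P' : G n), IsPar c c' g P → IsPar c' c'' g' P' →
    IsPar c c'' (fun b => g b * g' b) (P * P')) ∧
  (∀ (c c' : List Bool) (g : Bool → G n) (P : G n), IsPar c c' g P →
    IsPar c' c (fun b => (g b)⁻¹) P⁻¹) ∧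
  (∀ c : List Bool, c.length ≤ n → IsPar c c (fun _ => (1 : G n)) 1) ∧
  (∀ (c c' : List Bool) (g g' : Bool → G n) (P : G n), IsPar c c' g P → IsPar c c' g' P → g = g') ∧
  -- sign matrices, with respect to either label list
  (∀ (e c : List Bool) (σ : Bool → Bool → ℂˣ), e.length = c.length → c.length ≤ n →
    IsPar c c (fun b => dsg n (restr c e b) (List.replicate (c.count b) b) σ) (dsg n e c σ)) ∧
  (∀ (e c : List Bool) (σ : Bool → Bool → ℂˣ), e.length = c.length → c.length ≤ n →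
    IsPar e e (fun b => dsg n (List.replicate (e.count b) b) (restr e c b) σ) (dsg n e c σ))

/-- one reduction step is possible at `(S, ρ)` -/
def Red (O : Subring ℂ) (n : ℕ) (S : Sys) (ρ : ℕ → G n) : Prop :=
  ∃ (S' : Sys) (ρ' : ℕ → G n), S'.WF O n ∧ Multiset.IsDershowitzMannaLT S'.wt S.wt ∧
    (∀ k0, Adm k0 S → Adm k0 S') ∧ ρ' ∈ S'.Sol n ∧
    (Appr O (S'.Sol n) S'.names ρ' → Appr O (S.Sol n) S.names ρ)

section steps
variable (O : Subring ℂ) (n : ℕ)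

/-- merge -/
def S1 : Prop := ∀ (k : ℕ) (ξ ξ' : ℂˣ) (u v u' v' : Wd) (x : ℕ) (ε : Bool) (rest : List Root)
  (fr : List (ℕ × ℕ)) (ρ : ℕ → G n), let S : Sys :=
    ⟨⟨k, ξ, u ++ Lt.full x ε :: v⟩ :: ⟨k, ξ', u' ++ Lt.full x (!ε) :: v'⟩ :: rest, fr⟩;
  S.WF O n → ρ ∈ S.Sol n → Red O n S ρ

/-- cancel -/
def S3 : Prop := ∀ (k : ℕ) (ξ : ℂˣ) (u v : Wd) (x : ℕ) (ε : Bool) (rest : List Root)
  (fr : List (ℕ × ℕ)) (ρ : ℕ → G n), let S : Sys :=
    ⟨⟨k, ξ, u ++ Lt.full x ε :: Lt.full x (!ε) :: v⟩ :: rest, fr⟩;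
  S.WF O n → ρ ∈ S.Sol n → Red O n S ρ

/-- one Bruhat decomposition -/
def S2 : Prop := ∀ (k : ℕ) (ξ : ℂˣ) (b a c d : Wd) (x : ℕ) (ε : Bool)
  (p p' : ℕ) (e e' c1 E F c2 : List Bool) (σ σ' : Bool → Bool → ℂˣ)
  (g g' : Bool → ℕ) (rest : List Root) (fr : List (ℕ × ℕ)) (ρ : ℕ → G n), let S : Sys :=
    ⟨⟨k, ξ, Lt.par p e σ c1 E g :: (b ++ Lt.full x ε :: (a ++ Lt.par p' e' σ' F c2 g' ::
      (c ++ Lt.full x (!ε) :: d)))⟩ :: rest, fr⟩;
  Wd.isFull b → Wd.isFull a → (∀ t, 0 < E.count t) → (∀ t, 0 < F.count t) →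
  S.WF O n → ρ ∈ S.Sol n → Red O n S ρ

/-- handle (double Bruhat) -/
def S4 : Prop := ∀ (k : ℕ) (ξ : ℂˣ) (b a1 a2 a3 b' : Wd) (x y : ℕ) (ε δ : Bool)
  (p : ℕ) (e c1 E : List Bool) (σ : Bool → Bool → ℂˣ) (g : Bool → ℕ)
  (rest : List Root) (fr : List (ℕ × ℕ)) (ρ : ℕ → G n), let S : Sys :=
    ⟨⟨k, ξ, Lt.par p e σ c1 E g :: (b ++ Lt.full x ε :: (a1 ++ Lt.full y δ :: (a2 ++
      Lt.full x (!ε) :: (a3 ++ Lt.full y (!δ) :: b'))))⟩ :: rest, fr⟩;
  Wd.isFull b → Wd.isFull a1 → Wd.isFull a2 → Wd.isFull a3 → (∀ t, 0 < E.count t) →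
  S.WF O n → ρ ∈ S.Sol n → Red O n S ρ

/-- elimination of the P-letter `p2` (three consecutive P-letters) -/
def S5 : Prop := ∀ (k : ℕ) (ξ : ℂˣ) (w : Wd)
  (p1 p2 p3 : ℕ) (e1 e2 e3 c1 E X X' Y c3 : List Bool) (σ1 σ2 σ3 : Bool → Bool → ℂˣ)
  (g1 g2 g3 : Bool → ℕ) (rest : List Root) (fr : List (ℕ × ℕ))
  (ρ : ℕ → G n), let S : Sys :=
    ⟨⟨k, ξ, Lt.par p1 e1 σ1 c1 E g1 :: Lt.par p2 e2 σ2 X X' g2 ::
      Lt.par p3 e3 σ3 Y c3 g3 :: w⟩ :: rest, fr⟩;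
  (∀ t, 0 < E.count t) → (∀ t, 0 < X.count t) → (∀ t, 0 < Y.count t) →
  S.WF O n → ρ ∈ S.Sol n → Red O n S ρ

/-- a root with two P-letters -/
def S6 : Prop := ∀ (k : ℕ) (ξ : ℂˣ)
  (p1 p2 : ℕ) (e1 e2 c1 E X X' : List Bool) (σ1 σ2 : Bool → Bool → ℂˣ)
  (g1 g2 : Bool → ℕ) (rest : List Root) (fr : List (ℕ × ℕ))
  (ρ : ℕ → G n), let S : Sys :=
    ⟨⟨k, ξ, [Lt.par p1 e1 σ1 c1 E g1, Lt.par p2 e2 σ2 X X' g2]⟩ :: rest, fr⟩;
  (∀ t, 0 < E.count t) → (∀ t, 0 < X.count t) →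
  S.WF O n → ρ ∈ S.Sol n → Red O n S ρ

/-- a root with one letter, a P-letter (possibly degenerate): new roots `ξ σ(t,t) g_t = 1` -/
def S7 : Prop := ∀ (k : ℕ) (ξ : ℂˣ) (p1 : ℕ) (e1 c1 E : List Bool) (σ1 : Bool → Bool → ℂˣ)
  (g1 : Bool → ℕ) (rest : List Root) (fr : List (ℕ × ℕ))
  (ρ : ℕ → G n), let S : Sys := ⟨⟨k, ξ, [Lt.par p1 e1 σ1 c1 E g1]⟩ :: rest, fr⟩;
  S.WF O n → ρ ∈ S.Sol n → Red O n S ρ

/-- drop an empty root -/
def S8 : Prop := ∀ (k : ℕ) (ξ : ℂˣ) (rest : List Root) (fr : List (ℕ × ℕ)) (ρ : ℕ → G n),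
  let S : Sys := ⟨⟨k, ξ, []⟩ :: rest, fr⟩;
  S.WF O n → ρ ∈ S.Sol n → Red O n S ρ

/-- a closed root is split off -/
def S9 : Prop := ∀ (k : ℕ) (ξ : ℂˣ) (w : Wd) (rest : List Root) (fr : List (ℕ × ℕ)) (ρ : ℕ → G n),
  let S : Sys := ⟨⟨k, ξ, w⟩ :: rest, fr⟩;
  Closed O k → Wd.isFull w → (∀ x ε, (x, k, ε) ∈ Wd.occ w k → (x, k, !ε) ∈ Wd.occ w k) →
  S.WF O n → ρ ∈ S.Sol n → Red O n S ρ

/-- U1: the sign of a letter with constant left labels `t` is absorbed in the previous P-letter: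
`p0 ↦ p0 D`, new child names `g0n b`, new roots `σ(b,t) g0_b g0n_b⁻¹ = 1`. -/
def U1 : Prop := ∀ (k : ℕ) (ξ : ℂˣ) (p0 p : ℕ) (e0 c0 c0' e c c' : List Bool)
  (σ0 σ : Bool → Bool → ℂˣ) (g0 g : Bool → ℕ) (t : Bool) (w : Wd) (rest : List Root)
  (fr : List (ℕ × ℕ)) (ρ : ℕ → G n), let S : Sys :=
    ⟨⟨k, ξ, Lt.par p0 e0 σ0 c0 c0' g0 :: Lt.par p e σ c c' g :: w⟩ :: rest, fr⟩;
  c.count (!t) = 0 → (¬ ∀ x y, σ x y = 1) → S.WF O n → ρ ∈ S.Sol n → Red O n S ρ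

/-- U2: the sign of a letter following a P-letter with constant right labels `t` is absorbed in its own
children: new child names `gn b`, new roots `σ(t,b) g_b gn_b⁻¹ = 1`. -/
def U2 : Prop := ∀ (k : ℕ) (ξ : ℂˣ) (p0 p : ℕ) (e0 c0 c0' e c c' : List Bool)
  (σ0 σ : Bool → Bool → ℂˣ) (g0 g : Bool → ℕ) (t : Bool) (w : Wd) (rest : List Root)
  (fr : List (ℕ × ℕ)) (ρ : ℕ → G n), let S : Sys :=
    ⟨⟨k, ξ, Lt.par p0 e0 σ0 c0 c0' g0 :: Lt.par p e σ c c' g :: w⟩ :: rest, fr⟩;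
  c0'.count (!t) = 0 → (¬ ∀ x y, σ x y = 1) → S.WF O n → ρ ∈ S.Sol n → Red O n S ρ

/-- S0: a degenerate letter without sign, not followed by a letter with a sign, becomes the full letter
`g t`; the other child (rank 0) becomes a root of rank 0. -/
def S0 : Prop := ∀ (k : ℕ) (ξ : ℂˣ) (p : ℕ) (e c c' : List Bool)
  (σ : Bool → Bool → ℂˣ) (g : Bool → ℕ) (t : Bool) (w : Wd) (rest : List Root)
  (fr : List (ℕ × ℕ)) (ρ : ℕ → G n), let S : Sys :=
    ⟨⟨k, ξ, Lt.par p e σ c c' g :: w⟩ :: rest, fr⟩;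
  c.count (!t) = 0 → (∀ x y, σ x y = 1) → w ≠ [] → Wd.WF O w k none →
  S.WF O n → ρ ∈ S.Sol n → Red O n S ρ

end steps

end Crest.Agent.R003
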