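import Crest.Agent.R003.Grp486
import Crest.Agent.R003.Iface

/-!
# Row 3: basics used by the steps S2, S4 (helper412)
-/

set_option autoImplicit false

namespace Crest.Agent.R003.W412

open Crest.Agent.R003

/-! ### words: nil, cons, append -/

section words
variable {n : ℕ} (ρ : ℕ → G n) (l : Lt) (u v : Wd) (k : ℕ) (d : Option (List Bool)) (O : Subring ℂ)

theorem ev_nil : Wd.eval ρ [] = 1 := rfl
theorem ev_cons : Wd.eval ρ (l :: u) = Lt.eval ρ l * Wd.eval ρ u := by simp [Wd.eval]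
theorem ev_app : Wd.eval ρ (u ++ v) = Wd.eval ρ u * Wd.eval ρ v := by simp [Wd.eval]

theorem sat_nil : Wd.Sat ρ [] k := by simp [Wd.Sat]
theorem sat_cons : Wd.Sat ρ (l :: u) k ↔ Lt.Sat ρ k l ∧ Wd.Sat ρ u k := by simp [Wd.Sat]
theorem sat_app : Wd.Sat ρ (u ++ v) k ↔ Wd.Sat ρ u k ∧ Wd.Sat ρ v k := by
  simp only [Wd.Sat, List.mem_append]
  exact ⟨fun h => ⟨fun l hl => h l (Or.inl hl), fun l hl => h l (Or.inr hl)⟩,
    fun h l hl => hl.elim (h.1 l) (h.2 l)⟩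

theorem last_app : Wd.last (u ++ v) d = Wd.last v (Wd.last u d) := by
  induction u generalizing d with
  | nil => rfl
  | cons l w ih => cases l <;> simp only [List.cons_append, Wd.last, ih]

theorem wf_app : Wd.WF O (u ++ v) k d ↔ Wd.WF O u k d ∧ Wd.WF O v k (Wd.last u d) := by
  induction u generalizing d with
  | nil => simp [Wd.WF, Wd.last]
  | cons l w ih => cases l <;> simp only [List.cons_append, Wd.WF, Wd.last, ih, and_assoc]

theorem occ_nil : Wd.occ [] k = 0 := rfl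
theorem occ_cons : Wd.occ (l :: u) k = Lt.occ k l + Wd.occ u k := by simp [Wd.occ]
theorem occ_app : Wd.occ (u ++ v) k = Wd.occ u k + Wd.occ v k := by simp [Wd.occ]
theorem pn_nil : Wd.pn [] = 0 := rfl
theorem pn_cons : Wd.pn (l :: u) = Lt.pn l + Wd.pn u := by simp [Wd.pn]
theorem pn_app : Wd.pn (u ++ v) = Wd.pn u + Wd.pn v := by simp [Wd.pn]
theorem wt_nil : Wd.wt [] k = 0 := rfl
theorem wt_cons : Wd.wt (l :: u) k = Lt.wt k l + Wd.wt u k := by simp [Wd.wt]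
theorem wt_app : Wd.wt (u ++ v) k = Wd.wt u k + Wd.wt v k := by simp [Wd.wt]

variable {u v k d O}

theorem wf_none (h : Wd.WF O u k none) : Wd.WF O u k d := by
  cases u with
  | nil => trivial
  | cons l w =>
    cases l with
    | full x ε => exact h
    | par p e σ c c' g =>
      obtain ⟨h1, h2, h3, h4⟩ := h
      refine ⟨h1, h2, Or.inl ?_, h4⟩
      rcases h3 with h3 | h3
      · exact h3
      · cases h3

theorem full_cons : Wd.isFull (l :: u) ↔ l.IsFull ∧ Wd.isFull u := by simp [Wd.isFull]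

theorem last_full (h : Wd.isFull u) : Wd.last u none = none := by
  induction u with
  | nil => rfl
  | cons l w ih =>
    rw [full_cons] at h
    cases l with
    | full x ε => exact ih h.2
    | par p e σ c c' g => exact h.1.elim

theorem wf_full (h : Wd.isFull u) : Wd.WF O u k d := by
  induction u generalizing d with
  | nil => trivial
  | cons l w ih =>
    rw [full_cons] at h
    cases l with
    | full x ε => exact ih h.2
    | par p e σ c c' g => exact h.1.elim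

/-- the last labels of a nonempty word do not depend on the start -/
theorem last_ne_nil (h : u ≠ []) (d d' : Option (List Bool)) : Wd.last u d = Wd.last u d' := by
  cases u with
  | nil => exact absurd rfl h
  | cons l w => cases l <;> rfl

theorem eval_mem_full {ρ : ℕ → G n} (h : Wd.isFull u) (hs : Wd.Sat ρ u k) :
    Wd.eval ρ u ∈ GLk n k := by
  induction u with
  | nil => exact (GLk n k).one_mem
  | cons l w ih =>
    rw [full_cons] at h
    rw [sat_cons] at hs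
    rw [ev_cons]
    refine (GLk n k).mul_mem ?_ (ih h.2 hs.2)
    cases l with
    | full x ε =>
      have := hs.1
      simp only [Lt.eval, Lt.Sat] at this ⊢
      split_ifs
      · exact this
      · exact (GLk n k).inv_mem this
    | par p e σ c c' g => exact h.1.elim

theorem pn_full (h : Wd.isFull u) : Wd.pn u = 0 := by
  induction u with
  | nil => rfl
  | cons l w ih =>
    rw [full_cons] at h
    rw [pn_cons, ih h.2]
    cases l with
    | full x ε => rfl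
    | par p e σ c c' g => exact h.1.elim

end words

/-! ### congruence -/

/-- the names of a word (of rank `k`) -/
def nm (w : Wd) (k : ℕ) : Set ℕ := {x | (∃ j ε, (x, j, ε) ∈ Wd.occ w k) ∨ x ∈ Wd.pn w}

theorem nm_cons_left {l : Lt} {w : Wd} {k x : ℕ}
    (h : (∃ j ε, (x, j, ε) ∈ Lt.occ k l) ∨ x ∈ Lt.pn l) : x ∈ nm (l :: w) k := by
  rcases h with ⟨j, ε, h⟩ | h
  · exact Or.inl ⟨j, ε, by rw [occ_cons]; exact Multiset.mem_add.2 (Or.inl h)⟩
  · exact Or.inr (by rw [pn_cons]; exact Multiset.mem_add.2 (Or.inl h))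

theorem nm_cons_right {l : Lt} {w : Wd} {k x : ℕ} (h : x ∈ nm w k) : x ∈ nm (l :: w) k := by
  rcases h with ⟨j, ε, h⟩ | h
  · exact Or.inl ⟨j, ε, by rw [occ_cons]; exact Multiset.mem_add.2 (Or.inr h)⟩
  · exact Or.inr (by rw [pn_cons]; exact Multiset.mem_add.2 (Or.inr h))

theorem lt_congr {n k : ℕ} {ρ ρ' : ℕ → G n} (l : Lt)
    (h : ∀ x, ((∃ j ε, (x, j, ε) ∈ Lt.occ k l) ∨ x ∈ Lt.pn l) → ρ x = ρ' x) :
    Lt.eval ρ l = Lt.eval ρ' l ∧ (Lt.Sat ρ k l ↔ Lt.Sat ρ' k l) := by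
  cases l with
  | full x ε =>
    have h1 : ρ x = ρ' x := h x (Or.inl ⟨k, ε, by simp [Lt.occ]⟩)
    simp only [Lt.eval, Lt.Sat, h1, and_self]
  | par p e σ c c' g =>
    have h1 : ρ p = ρ' p := h p (Or.inr (by simp [Lt.pn]))
    have h2 : ∀ b, ρ (g b) = ρ' (g b) := by
      intro b
      refine h (g b) (Or.inl ⟨c.count b, true, ?_⟩)
      cases b <;> simp [Lt.occ]
    simp only [Lt.eval, Lt.Sat, h1, h2, and_self]

theorem eval_congr {n : ℕ} {ρ ρ' : ℕ → G n} (w : Wd) (k : ℕ) (h : ∀ x ∈ nm w k, ρ x = ρ' x) :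
    Wd.eval ρ w = Wd.eval ρ' w := by
  induction w with
  | nil => rfl
  | cons l w ih =>
    rw [ev_cons, ev_cons, ih fun x hx => h x (nm_cons_right hx),
      (lt_congr (k := k) l fun x hx => h x (nm_cons_left hx)).1]

theorem sat_congr {n : ℕ} {ρ ρ' : ℕ → G n} (w : Wd) (k : ℕ) (h : ∀ x ∈ nm w k, ρ x = ρ' x) :
    Wd.Sat ρ w k ↔ Wd.Sat ρ' w k := by
  induction w with
  | nil => simp [Wd.Sat]
  | cons l w ih =>
    rw [sat_cons, sat_cons, ih fun x hx => h x (nm_cons_right hx),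
      (lt_congr (k := k) l fun x hx => h x (nm_cons_left hx)).2]

/-! ### polynomial maps -/

theorem polG_name {ι : Type} {n : ℕ} (S : Set (ι → G n)) (x : ι) : PolG S (fun ρ => ρ x) :=
  fun i j => ⟨⟨_, Algebra.subset_adjoin (Or.inl ⟨x, i, j, rfl⟩), fun _ _ => rfl⟩,
    ⟨_, Algebra.subset_adjoin (Or.inr ⟨x, i, j, rfl⟩), fun _ _ => rfl⟩⟩

theorem polG_const {ι : Type} {n m : ℕ} (S : Set (ι → G n)) (g : G m) :
    PolG S (fun _ => g) :=
  fun i j => ⟨⟨fun _ => g.1 i j, (Pol ι n).algebraMap_mem (g.1 i j), fun _ _ => rfl⟩,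
    ⟨fun _ => (g⁻¹).1 i j, (Pol ι n).algebraMap_mem ((g⁻¹).1 i j), fun _ _ => rfl⟩⟩

theorem polG_inv {ι : Type} {n m : ℕ} {S : Set (ι → G n)} {Φ : (ι → G n) → G m}
    (h : PolG S Φ) : PolG S (fun ρ => (Φ ρ)⁻¹) := by
  intro i j
  obtain ⟨⟨F, hF, h1⟩, ⟨F', hF', h2⟩⟩ := h i j
  exact ⟨⟨F', hF', h2⟩, ⟨F, hF, fun ρ hρ => by rw [inv_inv, h1 ρ hρ]⟩⟩

theorem pol_mulaux {ι : Type} {n m : ℕ} {S : Set (ι → G n)}
    {A B : (ι → G n) → Matrix (Fin m) (Fin m) ℂ}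
    (hA : ∀ i j, ∃ F ∈ Pol ι n, ∀ ρ ∈ S, A ρ i j = F ρ)
    (hB : ∀ i j, ∃ F ∈ Pol ι n, ∀ ρ ∈ S, B ρ i j = F ρ) (i j : Fin m) :
    ∃ F ∈ Pol ι n, ∀ ρ ∈ S, (A ρ * B ρ) i j = F ρ := by
  choose f hf hf' using hA
  choose g hg hg' using hB
  refine ⟨∑ l, f i l * g l j, Subalgebra.sum_mem _ fun l _ => Subalgebra.mul_mem _ (hf _ _) (hg _ _), ?_⟩
  intro ρ hρ
  rw [Matrix.mul_apply, Finset.sum_apply]
  exact Finset.sum_congr rfl fun l _ => by rw [hf' _ _ ρ hρ, hg' _ _ ρ hρ]; rfl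

theorem polG_mul {ι : Type} {n m : ℕ} {S : Set (ι → G n)} {Φ Ψ : (ι → G n) → G m}
    (h : PolG S Φ) (h' : PolG S Ψ) : PolG S (fun ρ => Φ ρ * Ψ ρ) := by
  intro i j
  constructor
  · exact pol_mulaux (fun i j => (h i j).1) (fun i j => (h' i j).1) i j
  · obtain ⟨F, hF, hF'⟩ := pol_mulaux (fun i j => (h' i j).2) (fun i j => (h i j).2) i j
    exact ⟨F, hF, fun ρ hρ => by rw [← hF' ρ hρ, _root_.mul_inv_rev, Units.val_mul]⟩

theorem polG_lt {n : ℕ} (S : Set (ℕ → G n)) (l : Lt) : PolG S (fun ρ => Lt.eval ρ l) := by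
  cases l with
  | full x ε =>
    cases ε
    · exact polG_inv (polG_name S x)
    · exact polG_name S x
  | par p e σ c c' g => exact polG_mul (polG_const S _) (polG_name S p)

theorem polG_eval {n : ℕ} (S : Set (ℕ → G n)) (w : Wd) : PolG S (fun ρ => Wd.eval ρ w) := by
  induction w with
  | nil => exact polG_const S 1
  | cons l w ih =>
    simp only [ev_cons]
    exact polG_mul (polG_lt S l) ih

theorem pol_comp {ι ι' : Type} {n : ℕ} {S : Set (ι → G n)} {Φ : (ι → G n) → (ι' → G n)}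
    (h : ∀ z, PolG S (fun ρ => Φ ρ z)) {F : (ι' → G n) → ℂ} (hF : F ∈ Pol ι' n) :
    ∃ F' ∈ Pol ι n, ∀ ρ ∈ S, F' ρ = F (Φ ρ) := by
  refine Algebra.adjoin_induction (p := fun F _ => ∃ F' ∈ Pol ι n, ∀ ρ ∈ S, F' ρ = F (Φ ρ))
    ?_ ?_ ?_ ?_ hF
  · rintro F (⟨x, i, j, rfl⟩ | ⟨x, i, j, rfl⟩)
    · obtain ⟨F', hF', h'⟩ := (h x i j).1
      exact ⟨F', hF', fun ρ hρ => (h' ρ hρ).symm⟩
    · obtain ⟨F', hF', h'⟩ := (h x i j).2
      exact ⟨F', hF', fun ρ hρ => (h' ρ hρ).symm⟩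
  · intro r
    exact ⟨_, (Pol ι n).algebraMap_mem r, fun _ _ => rfl⟩
  · rintro F1 F2 _ _ ⟨F1', h1, h1'⟩ ⟨F2', h2, h2'⟩
    exact ⟨F1' + F2', Subalgebra.add_mem _ h1 h2, fun ρ hρ => by
      simp only [Pi.add_apply, h1' ρ hρ, h2' ρ hρ]⟩
  · rintro F1 F2 _ _ ⟨F1', h1, h1'⟩ ⟨F2', h2, h2'⟩
    exact ⟨F1' * F2', Subalgebra.mul_mem _ h1 h2, fun ρ hρ => by
      simp only [Pi.mul_apply, h1' ρ hρ, h2' ρ hρ]⟩

/-- the (Map) lemma -/
theorem appr_map {ι ι' : Type} {n : ℕ} {O : Subring ℂ} {S' : Set (ι → G n)} {S : Set (ι' → G n)}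
    {Q' : Set ι} {Q : Set ι'} {ρ' : ι → G n} {ρ : ι' → G n}
    (Φ : (ι → G n) → (ι' → G n)) (hpol : ∀ z, PolG S' (fun ρ => Φ ρ z))
    (hsol : ∀ τ ∈ S', Φ τ ∈ S) (hint : ∀ τ ∈ S', (∀ x ∈ Q', τ x ∈ GO O n) → ∀ x ∈ Q, Φ τ x ∈ GO O n)
    (hρ' : ρ' ∈ S') (hρ : Φ ρ' = ρ) (h : Appr O S' Q' ρ') : Appr O S Q ρ := by
  intro F hF hv
  obtain ⟨F', hF', hc⟩ := pol_comp hpol hF
  rw [← hρ, ← hc ρ' hρ']
  refine h F' hF' fun τ hτ hτi => ?_
  rw [hc τ hτ]
  exact hv _ (hsol τ hτ) (hint τ hτ hτi)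

theorem GO_eval_full {n k : ℕ} {O : Subring ℂ} {ρ : ℕ → G n} {w : Wd} (hw : Wd.isFull w)
    (h : ∀ x ∈ nm w k, ρ x ∈ GO O n) : Wd.eval ρ w ∈ GO O n := by
  induction w with
  | nil => exact (GO O n).one_mem
  | cons l w ih =>
    rw [full_cons] at hw
    rw [ev_cons]
    refine (GO O n).mul_mem ?_ (ih hw.2 fun y hy => h y (nm_cons_right hy))
    cases l with
    | full x ε =>
      have := h x (nm_cons_left (Or.inl ⟨k, ε, by simp [Lt.occ]⟩))
      simp only [Lt.eval]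
      split_ifs
      · exact this
      · exact (GO O n).inv_mem this
    | par p e σ c c' g => exact hw.1.elim

end Crest.Agent.R003.W412
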