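import Crest.Agent.R003.Driver537
import Crest.Agent.R003.App638

/-! R003 (S0003): base case of the driver (no roots).  helper537 -/

set_option autoImplicit false

namespace Crest.Agent.R003

theorem baseCase (O : Subring ℂ) (n : ℕ) : BaseCase O n := by
  intro hO fr ρ _ hρ
  have h := appr_freeList hO fr (Sys.names ⟨[], fr⟩) (ρ := ρ) hρ.2
  have hS : Sys.Sol n ⟨[], fr⟩ = {σ : ℕ → G n | ∀ z ∈ fr, σ z.1 ∈ GLk n z.2} := by
    ext σ
    constructor
    · intro h; exact h.2
    · intro h; exact ⟨by simp, h⟩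
  rw [hS]
  exact h

end Crest.Agent.R003
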