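import Mathlib
import Crest.Agent.R003.Str644

/-!
R003/Cyc644: cyclic (nonderogatory) endomorphisms.
* every `f` commutes with some cyclic `c`;
* the commutant of a cyclic `c` is `F[c]`;
* matrix versions;
* matrices with the same ranks of `(X-μ)^k` are conjugate.
-/

set_option autoImplicit false

open Polynomial Module

namespace Crest.Agent.R003.Str

universe u v

section Cyclic

variable {F : Type u} [Field F] {V : Type v} [AddCommGroup V] [Module F V]

/-- `v` is a cyclic vector of `c` -/
def IsCyc (c : V →ₗ[F] V) (v : V) : Prop := ∀ x : V, ∃ p : F[X], x = aeval c p v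

/-- the commutant of a cyclic endomorphism consists of polynomials -/
theorem IsCyc.exists_poly {c : V →ₗ[F] V} {v : V} (h : IsCyc c v) {d : V →ₗ[F] V}
    (hd : Commute d c) : ∃ p : F[X], d = aeval c p := by
  obtain ⟨p, hp⟩ := h (d v)
  refine ⟨p, LinearMap.ext fun x => ?_⟩
  obtain ⟨q, rfl⟩ := h x
  have h1 : Commute d (aeval c q) := by
    induction q using Polynomial.induction_on' with
    | add p q hp hq => rw [map_add]; exact hp.add_right hq
    | monomial n a =>
      rw [aeval_monomial]
      exact (Algebra.commute_algebraMap_right a d).mul_right (hd.pow_right n)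
  have h2 : Commute (aeval c p) (aeval c q) := by
    rw [Commute, SemiconjBy, ← map_mul, ← map_mul, mul_comm]
  calc d (aeval c q v) = (d * aeval c q) v := rfl
    _ = (aeval c q * d) v := by rw [h1.eq]
    _ = aeval c q (d v) := rfl
    _ = aeval c q (aeval c p v) := by rw [hp]
    _ = (aeval c q * aeval c p) v := rfl
    _ = (aeval c p * aeval c q) v := by rw [h2.eq]
    _ = _ := rfl

theorem IsCyc.span_lt [FiniteDimensional F V] {c : V →ₗ[F] V} {v : V} (h : IsCyc c v) :
    ⊤ ≤ Submodule.span F (Set.range fun j : Fin (finrank F V) => (c ^ j.1) v) := by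
  intro x _
  obtain ⟨p, rfl⟩ := h x
  have hm := c.charpoly_monic
  have h1 : aeval c p = aeval c (p %ₘ c.charpoly) := by
    conv_lhs => rw [← modByMonic_add_div p c.charpoly]
    rw [map_add, map_mul, LinearMap.aeval_self_charpoly, zero_mul, add_zero]
  rw [h1]
  by_cases hV : finrank F V = 0
  · have : Subsingleton V := finrank_zero_iff.mp hV
    rw [Subsingleton.elim (aeval c (p %ₘ c.charpoly) v) 0]
    exact Submodule.zero_mem _
  have hdeg : (p %ₘ c.charpoly).natDegree < finrank F V := by
    have := natDegree_modByMonic_lt p hm (by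
      intro h0
      have h2 := c.charpoly_natDegree
      rw [h0, natDegree_one] at h2
      exact hV h2.symm)
    rwa [c.charpoly_natDegree] at this
  rw [aeval_eq_sum_range' hdeg, LinearMap.sum_apply]
  refine Submodule.sum_mem _ fun j hj => ?_
  rw [LinearMap.smul_apply]
  exact Submodule.smul_mem _ _ (Submodule.subset_span ⟨⟨j, Finset.mem_range.mp hj⟩, rfl⟩)

theorem IsCyc.linearIndependent [FiniteDimensional F V] {c : V →ₗ[F] V} {v : V} (h : IsCyc c v) :
    LinearIndependent F (fun j : Fin (finrank F V) => (c ^ j.1) v) :=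
  linearIndependent_of_top_le_span_of_card_eq_finrank h.span_lt (by simp)

theorem isCyc_of_linearIndependent [FiniteDimensional F V] {c : V →ₗ[F] V} {v : V}
    (h : LinearIndependent F (fun j : Fin (finrank F V) => (c ^ j.1) v)) : IsCyc c v := by
  intro x
  have h1 := h.span_eq_top_of_card_eq_finrank' (by simp)
  have h2 : x ∈ Submodule.span F (Set.range fun j : Fin (finrank F V) => (c ^ j.1) v) := by
    rw [h1]; trivial
  induction h2 using Submodule.span_induction with
  | mem x hx =>
    obtain ⟨j, rfl⟩ := hx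
    exact ⟨X ^ j.1, by simp⟩
  | zero => exact ⟨0, by simp⟩
  | add x y _ _ hx hy =>
    obtain ⟨p, hp⟩ := hx
    obtain ⟨q, hq⟩ := hy
    exact ⟨p + q, by rw [map_add, LinearMap.add_apply, ← hp, ← hq]⟩
  | smul a x _ hx =>
    obtain ⟨p, hp⟩ := hx
    exact ⟨C a * p, by rw [map_mul, aeval_C, Module.End.mul_apply, ← hp]; simp⟩

/-- a Jordan system with pairwise different eigenvalues has a cyclic vector -/
theorem JSys.exists_isCyc {c : V →ₗ[F] V} (K : JSys c) (hinj : Function.Injective K.lam) :
    ∃ v, IsCyc c v := by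
  classical
  have hpos := K.pos
  let last : ∀ i, Fin (K.e i) := fun i => ⟨K.e i - 1, Nat.sub_lt (hpos i) one_pos⟩
  let v : V := ∑ i, K.b ⟨i, last i⟩
  have hkill : ∀ (i : Fin K.n) (j : Fin (K.e i)),
      aeval c ((X - C (K.lam i)) ^ K.e i) (K.b ⟨i, j⟩) = 0 := by
    intro i j
    rw [map_pow, map_sub, aeval_X, aeval_C, K.shift_pow (K.e i) i rfl j,
      dif_neg (by have := j.2; omega)]
  let W : Submodule F V :=
    { carrier := {x | ∃ p : F[X], x = aeval c p v}
      add_mem' := by
        rintro x y ⟨p, hp⟩ ⟨q, hq⟩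
        exact ⟨p + q, by rw [map_add, LinearMap.add_apply, ← hp, ← hq]⟩
      zero_mem' := ⟨0, by simp⟩
      smul_mem' := by
        rintro a x ⟨p, hp⟩
        exact ⟨C a * p, by rw [map_mul, aeval_C, Module.End.mul_apply, ← hp]; simp⟩ }
  have hW : ∀ (q : F[X]) {x : V}, x ∈ W → aeval c q x ∈ W := by
    rintro q x ⟨p, hp⟩
    exact ⟨q * p, by rw [map_mul, Module.End.mul_apply, ← hp]⟩
  have hv : v ∈ W := ⟨1, by simp⟩
  have hlast : ∀ i, K.b ⟨i, last i⟩ ∈ W := by
    intro i
    set q : F[X] := ∏ i' ∈ Finset.univ.erase i, (X - C (K.lam i')) ^ K.e i' with hq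
    have hcop : IsCoprime q ((X - C (K.lam i)) ^ K.e i) := by
      rw [hq]
      refine IsCoprime.prod_left fun i' hi' => IsCoprime.pow ?_
      exact Polynomial.isCoprime_X_sub_C_of_isUnit_sub
        (by
          have : K.lam i' - K.lam i ≠ 0 :=
            sub_ne_zero.mpr fun h => (Finset.ne_of_mem_erase hi') (hinj h)
          exact this.isUnit)
    obtain ⟨r, s, hrs⟩ := hcop
    have h1 : aeval c q v = aeval c q (K.b ⟨i, last i⟩) := by
      show aeval c q (∑ i, K.b ⟨i, last i⟩) = _
      rw [map_sum, Finset.sum_eq_single i]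
      · intro i' _ hi'
        have h2 : q = (∏ i'' ∈ (Finset.univ.erase i).erase i', (X - C (K.lam i'')) ^ K.e i'') *
            (X - C (K.lam i')) ^ K.e i' := by
          rw [hq, mul_comm]
          exact (Finset.mul_prod_erase _ _ (Finset.mem_erase.mpr ⟨hi', Finset.mem_univ _⟩)).symm
        rw [h2, map_mul, Module.End.mul_apply, hkill, map_zero]
      · intro h
        exact absurd (Finset.mem_univ i) h
    have h3 : K.b ⟨i, last i⟩ = aeval c r (aeval c q v) := by
      rw [h1]
      have h4 := congrArg (fun p : F[X] => aeval c p (K.b ⟨i, last i⟩)) hrs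
      simp only [map_add, map_mul, map_one, LinearMap.add_apply, Module.End.mul_apply,
        Module.End.one_apply] at h4
      rw [hkill, map_zero, add_zero] at h4
      exact h4.symm
    rw [h3]
    exact hW r (hW q hv)
  have hall : ∀ (i : Fin K.n) (j : Fin (K.e i)), K.b ⟨i, j⟩ ∈ W := by
    intro i j
    have h1 := K.shift_pow (K.e i - 1 - j.1) i rfl (last i)
    rw [dif_pos (by show K.e i - 1 - j.1 ≤ K.e i - 1; omega)] at h1
    have h2 : K.b ⟨i, j⟩ = aeval c ((X - C (K.lam i)) ^ (K.e i - 1 - j.1)) (K.b ⟨i, last i⟩) := by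
      rw [map_pow, map_sub, aeval_X, aeval_C, h1]
      congr 2
      ext
      have := j.2
      simp only [last]
      omega
    rw [h2]
    exact hW _ (hlast i)
  refine ⟨v, fun x => ?_⟩
  have hx : x ∈ W := by
    have h1 := K.b.span_eq
    have h2 : x ∈ Submodule.span F (Set.range K.b) := by rw [h1]; trivial
    refine (Submodule.span_le.mpr ?_) h2
    rintro _ ⟨⟨i, j⟩, rfl⟩
    exact hall i j
  exact hx

/-- **every endomorphism commutes with a cyclic one** -/
theorem exists_commute_isCyc [IsAlgClosed F] [FiniteDimensional F V] (f : V →ₗ[F] V) :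
    ∃ (c : V →ₗ[F] V) (v : V), Commute c f ∧ IsCyc c v := by
  classical
  obtain ⟨J⟩ := exists_JSys f
  have hinf : Infinite F := IsAlgClosed.instInfinite
  obtain ⟨mu⟩ : Nonempty (Fin J.n ↪ F) := by
    exact ⟨(Fin.valEmbedding).trans (Infinite.natEmbedding F)⟩
  let D : V →ₗ[F] V := J.b.constr F (fun x => (mu x.1 - J.lam x.1) • J.b x)
  have hD : ∀ x, D (J.b x) = (mu x.1 - J.lam x.1) • J.b x := fun x => J.b.constr_basis F _ x
  have hcomm : Commute D f := by
    apply J.b.ext
    rintro ⟨i, j⟩
    rw [Module.End.mul_apply, Module.End.mul_apply, hD, map_smul, J.spec, map_add, map_smul, hD,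
      smul_add, smul_comm]
    congr 1
    split_ifs with h
    · rw [hD]
    · simp
  let K : JSys (D + f) :=
    { n := J.n
      lam := mu
      e := J.e
      b := J.b
      pos := J.pos
      spec := by
        intro i j
        rw [LinearMap.add_apply, hD, J.spec, ← add_assoc, ← add_smul, sub_add_cancel] }
  obtain ⟨v, hv⟩ := K.exists_isCyc mu.injective
  exact ⟨D + f, v, hcomm.add_left (Commute.refl f), hv⟩

end Cyclic

section MatrixForm

variable {F : Type u} [Field F]

/-- the algebra isomorphism matrices = endomorphisms -/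
noncomputable abbrev toE (n : ℕ) : Matrix (Fin n) (Fin n) F ≃ₐ[F] ((Fin n → F) →ₗ[F] (Fin n → F)) :=
  Matrix.toLinAlgEquiv'

theorem toE_apply {n : ℕ} (M : Matrix (Fin n) (Fin n) F) (x : Fin n → F) :
    toE n M x = M.mulVec x := Matrix.toLinAlgEquiv'_apply M x

/-- every matrix commutes with a nonderogatory one -/
theorem exists_commute_cyclic_matrix [IsAlgClosed F] {n : ℕ} (b : Matrix (Fin n) (Fin n) F) :
    ∃ (c : Matrix (Fin n) (Fin n) F) (v : Fin n → F), c * b = b * c ∧
      LinearIndependent F (fun j : Fin n => (c ^ j.1).mulVec v) := by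
  obtain ⟨c, v, h1, h2⟩ := exists_commute_isCyc (toE n b)
  refine ⟨(toE n).symm c, v, ?_, ?_⟩
  · apply (toE n).injective
    rw [map_mul, map_mul, AlgEquiv.apply_symm_apply]
    exact h1.eq
  · have h3 := h2.linearIndependent
    have hn : finrank F (Fin n → F) = n := Module.finrank_fin_fun F
    have h4 := h3.comp (Fin.cast hn.symm) (Fin.cast_injective _)
    have h5 : (fun j : Fin n => (((toE n).symm c) ^ j.1).mulVec v) =
        (fun j : Fin (finrank F (Fin n → F)) => (c ^ j.1) v) ∘ Fin.cast hn.symm := by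
      funext j
      rw [Function.comp, ← toE_apply, map_pow, AlgEquiv.apply_symm_apply]
      rfl
    rw [h5]
    exact h4

/-- the commutant of a nonderogatory matrix -/
theorem exists_poly_of_commute {n : ℕ} {c d : Matrix (Fin n) (Fin n) F} {v : Fin n → F}
    (h : LinearIndependent F (fun j : Fin n => (c ^ j.1).mulVec v)) (hd : d * c = c * d) :
    ∃ p : F[X], d = aeval c p := by
  have hn : finrank F (Fin n → F) = n := Module.finrank_fin_fun F
  have h1 : IsCyc (toE n c) v := by
    apply isCyc_of_linearIndependent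
    have h4 := h.comp (Fin.cast hn) (Fin.cast_injective _)
    have h5 : (fun j : Fin (finrank F (Fin n → F)) => ((toE n c) ^ j.1) v) =
        (fun j : Fin n => (c ^ j.1).mulVec v) ∘ Fin.cast hn := by
      funext j
      rw [Function.comp, ← toE_apply, map_pow]
      rfl
    rw [h5]
    exact h4
  have h2 : Commute (toE n d) (toE n c) := by
    rw [Commute, SemiconjBy, ← map_mul, ← map_mul, hd]
  obtain ⟨p, hp⟩ := h1.exists_poly h2
  refine ⟨p, (toE n).injective ?_⟩
  rw [hp, Polynomial.aeval_algHom_apply]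

/-- matrix form: a nonderogatory matrix has the first `n` powers applied to `v` as a basis; the
determinant form of the condition is open. -/
theorem linearIndependent_iff_det {n : ℕ} (c : Matrix (Fin n) (Fin n) F) (v : Fin n → F) :
    LinearIndependent F (fun j : Fin n => (c ^ j.1).mulVec v) ↔
      (Matrix.of fun j : Fin n => (c ^ j.1).mulVec v).det ≠ 0 := by
  rw [← isUnit_iff_ne_zero, ← Matrix.isUnit_iff_isUnit_det, ← Matrix.linearIndependent_rows_iff_isUnit]
  rfl

theorem finrank_ker_toE {n : ℕ} (M : Matrix (Fin n) (Fin n) F) :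
    finrank F (LinearMap.ker (toE n M)) + M.rank = n := by
  have h := LinearMap.finrank_range_add_finrank_ker (toE n M)
  rw [Module.finrank_fin_fun] at h
  have h1 : M.rank = finrank F (LinearMap.range (toE n M)) := by
    rw [Matrix.rank]
    rfl
  omega

/-- **equal ranks of all `(X-μ)^k` imply conjugate** -/
theorem conj_of_rank_eq [IsAlgClosed F] {n : ℕ} (A B : Matrix (Fin n) (Fin n) F)
    (h : ∀ (μ : F) (k : ℕ), ((A - Matrix.scalar (Fin n) μ) ^ k).rank =
      ((B - Matrix.scalar (Fin n) μ) ^ k).rank) :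
    ∃ P : GL (Fin n) F, B = P.1 * A * (P⁻¹).1 := by
  have hE : ∀ (M : Matrix (Fin n) (Fin n) F) (μ : F) (k : ℕ),
      (toE n M - algebraMap F _ μ) ^ k = toE n ((M - Matrix.scalar (Fin n) μ) ^ k) := by
    intro M μ k
    rw [map_pow, map_sub]
    congr 2
    have : Matrix.scalar (Fin n) μ = algebraMap F (Matrix (Fin n) (Fin n) F) μ := rfl
    rw [this, AlgEquiv.commutes]
  obtain ⟨φ, hφ⟩ := exists_equiv_of_finrank_ker (toE n A) (toE n B) (by
    intro μ k
    rw [hE, hE]
    have h1 := finrank_ker_toE ((A - Matrix.scalar (Fin n) μ) ^ k)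
    have h2 := finrank_ker_toE ((B - Matrix.scalar (Fin n) μ) ^ k)
    have h3 := h μ k
    omega)
  let P : Matrix (Fin n) (Fin n) F := (toE n).symm φ.toLinearMap
  let Q : Matrix (Fin n) (Fin n) F := (toE n).symm φ.symm.toLinearMap
  have hPQ : P * Q = 1 := by
    apply (toE n).injective
    rw [map_mul, AlgEquiv.apply_symm_apply, AlgEquiv.apply_symm_apply, map_one]
    ext x
    simp [Module.End.mul_eq_comp]
  have hQP : Q * P = 1 := by
    apply (toE n).injective
    rw [map_mul, AlgEquiv.apply_symm_apply, AlgEquiv.apply_symm_apply, map_one]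
    ext x
    simp [Module.End.mul_eq_comp]
  have hc : P * A = B * P := by
    apply (toE n).injective
    rw [map_mul, map_mul, AlgEquiv.apply_symm_apply]
    apply LinearMap.ext
    intro x
    exact hφ x
  refine ⟨⟨P, Q, hPQ, hQP⟩, ?_⟩
  show B = P * A * Q
  rw [hc, Matrix.mul_assoc, hPQ, Matrix.mul_one]

theorem rank_pow_of_le {n : ℕ} (M : Matrix (Fin n) (Fin n) F) {k : ℕ} (hk : n ≤ k) :
    (M ^ k).rank = (M ^ n).rank := by
  have h1 := finrank_ker_toE (M ^ k)
  have h2 := finrank_ker_toE (M ^ n)
  have hn : finrank F (Fin n → F) = n := Module.finrank_fin_fun F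
  have h3 : LinearMap.ker (toE n (M ^ k)) = LinearMap.ker (toE n (M ^ n)) := by
    rw [map_pow, map_pow]
    have := Module.End.ker_pow_eq_ker_pow_finrank_of_le (f := toE n M) (m := k) (by rw [hn]; exact hk)
    rw [hn] at this
    exact this
  rw [h3] at h1
  omega

theorem rank_of_not_root {n : ℕ} (A : Matrix (Fin n) (Fin n) F) {μ : F}
    (hμ : ¬ A.charpoly.IsRoot μ) (k : ℕ) : ((A - Matrix.scalar (Fin n) μ) ^ k).rank = n := by
  have h1 : IsUnit (A - Matrix.scalar (Fin n) μ) := by
    rw [Matrix.isUnit_iff_isUnit_det, isUnit_iff_ne_zero]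
    intro h0
    apply hμ
    rw [IsRoot, Matrix.eval_charpoly]
    have h2 : Matrix.scalar (Fin n) μ - A = -(A - Matrix.scalar (Fin n) μ) := by abel
    rw [h2, Matrix.det_neg, h0, mul_zero]
  have h2 := Matrix.rank_of_isUnit _ (h1.pow k)
  rwa [Fintype.card_fin] at h2

/-- **equal characteristic polynomials and equal ranks of all `(X-μ)^k` (`μ` a root, `k ≤ n`)
imply conjugate** -/
theorem conj_of_rank_eq' [IsAlgClosed F] {n : ℕ} (A B : Matrix (Fin n) (Fin n) F)
    (hch : A.charpoly = B.charpoly)
    (h : ∀ (μ : F), A.charpoly.IsRoot μ → ∀ k ≤ n, ((A - Matrix.scalar (Fin n) μ) ^ k).rank =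
      ((B - Matrix.scalar (Fin n) μ) ^ k).rank) :
    ∃ P : GL (Fin n) F, B = P.1 * A * (P⁻¹).1 := by
  refine conj_of_rank_eq A B fun μ k => ?_
  by_cases hμ : A.charpoly.IsRoot μ
  · rcases le_total k n with hk | hk
    · exact h μ hμ k hk
    · rw [rank_pow_of_le _ hk, rank_pow_of_le _ hk]
      exact h μ hμ n le_rfl
  · rw [rank_of_not_root A hμ, rank_of_not_root B (hch ▸ hμ)]

/-- **Jordan normal form**, matrix version -/
theorem exists_jordan_matrix [IsAlgClosed F] {n : ℕ} (A : Matrix (Fin n) (Fin n) F) :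
    ∃ (P : GL (Fin n) F) (J : Matrix (Fin n) (Fin n) F), A = P.1 * J * (P⁻¹).1 ∧
      (∀ i j, i ≠ j → J i j = 0 ∨ J i j = 1) ∧ ∀ i, A.charpoly.IsRoot (J i i) := by
  classical
  obtain ⟨K⟩ := exists_JSys (toE n A)
  have hcard : Fintype.card (Σ i, Fin (K.e i)) = n := by
    rw [← finrank_eq_card_basis K.b, Module.finrank_fin_fun]
  let σ : (Σ i, Fin (K.e i)) ≃ Fin n := Fintype.equivFinOfCardEq hcard
  let B : Basis (Fin n) F (Fin n → F) := K.b.reindex σ
  let S : Basis (Fin n) F (Fin n → F) := Pi.basisFun F (Fin n)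
  let P : Matrix (Fin n) (Fin n) F := S.toMatrix B
  let Q : Matrix (Fin n) (Fin n) F := B.toMatrix S
  have hPQ : P * Q = 1 := Basis.toMatrix_mul_toMatrix_flip _ _
  have hQP : Q * P = 1 := Basis.toMatrix_mul_toMatrix_flip _ _
  let J : Matrix (Fin n) (Fin n) F := LinearMap.toMatrix B B (toE n A)
  have hJ : ∀ i j, J i j = B.repr (toE n A (B j)) i := fun i j => LinearMap.toMatrix_apply _ _ _ _ _
  have hAJ : A = P * J * Q := by
    have h1 : LinearMap.toMatrix S S (toE n A) = A := by
      have : LinearMap.toMatrix S S = LinearMap.toMatrix' := rfl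
      exact LinearMap.toMatrix'_toLin' A
    have h2 := basis_toMatrix_mul_linearMap_toMatrix_mul_basis_toMatrix
      (b := B) (b' := S) (c := B) (c' := S) (toE n A)
    rw [h1] at h2
    calc A = (P * Q) * A * (P * Q) := by rw [hPQ, Matrix.one_mul, Matrix.mul_one]
      _ = P * (Q * A * P) * Q := by simp only [Matrix.mul_assoc]
      _ = P * J * Q := by rw [h2]
  have hval : ∀ (i j : Σ i, Fin (K.e i)), J (σ i) (σ j) =
      (if i = j then K.lam j.1 else 0) +
      (if h : 0 < j.2.1 then (if i = ⟨j.1, ⟨j.2.1 - 1, by omega⟩⟩ then 1 else 0) else 0) := by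
    intro i j
    rw [hJ]
    have h1 : ∀ x, B (σ x) = K.b x := by intro x; simp [B]
    rw [h1]
    obtain ⟨j, t⟩ := j
    rw [K.spec, map_add, map_smul]
    simp only [B, Basis.repr_reindex, Finsupp.add_apply, Finsupp.smul_apply,
      Finsupp.mapDomain_equiv_apply, Equiv.symm_apply_apply, Basis.repr_self, smul_eq_mul]
    congr 1
    · rw [Finsupp.single_apply]
      by_cases h : i = ⟨j, t⟩
      · rw [if_pos h.symm, if_pos h, mul_one]
      · rw [if_neg (fun h' => h h'.symm), if_neg h, mul_zero]
    · by_cases h : 0 < t.1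
      · rw [dif_pos h, dif_pos h]
        rw [Basis.repr_self, Finsupp.single_apply]
        by_cases h' : i = ⟨j, ⟨t.1 - 1, by omega⟩⟩
        · rw [if_pos h'.symm, if_pos h']
        · rw [if_neg (fun h'' => h' h''.symm), if_neg h']
      · rw [dif_neg h, dif_neg h]
        simp
  refine ⟨⟨P, Q, hPQ, hQP⟩, J, hAJ, ?_, ?_⟩
  · intro i j hij
    have h1 := hval (σ.symm i) (σ.symm j)
    rw [Equiv.apply_symm_apply, Equiv.apply_symm_apply] at h1
    rw [h1, if_neg (fun h => hij (σ.symm.injective h)), zero_add]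
    split_ifs <;> simp
  · intro i
    have h1 := hval (σ.symm i) (σ.symm i)
    rw [Equiv.apply_symm_apply] at h1
    have h2 : J i i = K.lam (σ.symm i).1 := by
      rw [h1, if_pos rfl]
      split_ifs with h3 h4
      · exfalso
        have := congrArg (fun x : (Σ i, Fin (K.e i)) => x.2.1) h4
        simp only at this
        omega
      · rw [add_zero]
      · rw [add_zero]
    rw [h2]
    set a := (σ.symm i).1
    -- eigenvector `b ⟨a, 0⟩`
    by_contra hr
    have h3 := rank_of_not_root A hr 1
    rw [pow_one] at h3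
    have h4 := finrank_ker_toE (A - Matrix.scalar (Fin n) (K.lam a))
    have h5 : finrank F (LinearMap.ker (toE n (A - Matrix.scalar (Fin n) (K.lam a)))) = 0 := by
      omega
    have h6 := Submodule.finrank_eq_zero.mp h5
    have h7 : K.b ⟨a, ⟨0, K.pos a⟩⟩ ∈
        LinearMap.ker (toE n (A - Matrix.scalar (Fin n) (K.lam a))) := by
      rw [LinearMap.mem_ker, map_sub]
      have h8 : toE n (Matrix.scalar (Fin n) (K.lam a)) = algebraMap F _ (K.lam a) := by
        have : Matrix.scalar (Fin n) (K.lam a) =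
          algebraMap F (Matrix (Fin n) (Fin n) F) (K.lam a) := rfl
        rw [this, AlgEquiv.commutes]
      rw [h8, K.shift]
      simp
    rw [h6, Submodule.mem_bot] at h7
    exact K.b.ne_zero _ h7

end MatrixForm

end Crest.Agent.R003.Str
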