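import Crest.Agent.R003.Flag382
import Crest.Agent.R003.Cyc644

/-!
# Row 3, part 4: the open condition "same conjugacy class" on matrices of a fixed flag type (helper382)
-/

set_option autoImplicit false
set_option linter.unusedSectionVars false

namespace Crest.Agent.R003.Flag

open Matrix Module

/-! ### minors -/

section minors

variable {m n : Type*} [Fintype m] [Fintype n]

theorem exists_minor (A : Matrix m n ℂ) :
    ∃ (r : Fin A.rank → m) (c : Fin A.rank → n), (A.submatrix r c).det ≠ 0 := by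
  classical
  have hf0 := Submodule.exists_fun_fin_finrank_span_eq ℂ (Set.range A.col)
  rw [← rank_eq_finrank_span_cols] at hf0
  obtain ⟨f, hf1, _, hf3⟩ := hf0
  choose c hc using hf1
  have hB : (A.submatrix id c).rank = A.rank := by
    rw [← rank_transpose]
    have h1 : LinearIndependent ℂ ((A.submatrix id c)ᵀ).row := by
      have : ((A.submatrix id c)ᵀ).row = f := by
        funext i
        rw [← hc i]
        rfl
      rw [this]; exact hf3
    rw [h1.rank_matrix, Fintype.card_fin]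
  have hg0 := Submodule.exists_fun_fin_finrank_span_eq ℂ
    (Set.range (A.submatrix id c).row)
  rw [← rank_eq_finrank_span_row, hB] at hg0
  obtain ⟨g, hg1, _, hg3⟩ := hg0
  choose r hr using hg1
  refine ⟨r, c, ?_⟩
  have h2 : LinearIndependent ℂ (A.submatrix r c).row := by
    have : (A.submatrix r c).row = g := by
      funext i
      rw [← hr i]
      rfl
    rw [this]; exact hg3
  rw [Matrix.linearIndependent_rows_iff_isUnit, Matrix.isUnit_iff_isUnit_det] at h2
  exact h2.ne_zero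

theorem le_rank_of_minor (A : Matrix m n ℂ) {R : ℕ} (r : Fin R → m) (c : Fin R → n)
    (h : (A.submatrix r c).det ≠ 0) : R ≤ A.rank := by
  have h1 : (A.submatrix r c).rank = R := by
    rw [rank_of_det_ne_zero h, Fintype.card_fin]
  rw [← h1]
  exact rank_submatrix_le A r c

end minors

theorem algebraMap_eq_scalar (k : ℕ) (ν : ℂ) :
    algebraMap ℂ (Matrix (Fin k) (Fin k) ℂ) ν = Matrix.scalar (Fin k) ν := by
  ext i j
  simp [Matrix.algebraMap_matrix_apply, Matrix.scalar_apply, Matrix.diagonal_apply]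

/-- the minor as a polynomial in the entries -/
noncomputable def minorPoly {k R : ℕ} (ν : ℂ) (j : ℕ) (r c : Fin R → Fin k) :
    MvPolynomial (Fin k × Fin k) ℂ :=
  ((((mvPolynomialX (Fin k) (Fin k) ℂ) - algebraMap ℂ _ ν) ^ j).submatrix r c).det

theorem eval_minorPoly {k R : ℕ} (ν : ℂ) (j : ℕ) (r c : Fin R → Fin k)
    (Y : Matrix (Fin k) (Fin k) ℂ) :
    MvPolynomial.eval (fun p => Y p.1 p.2) (minorPoly ν j r c) =
      (((Y - algebraMap ℂ _ ν) ^ j).submatrix r c).det := by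
  rw [minorPoly, RingHom.map_det]
  congr 1
  have h1 : (MvPolynomial.eval fun p : Fin k × Fin k => Y p.1 p.2).mapMatrix
      (((mvPolynomialX (Fin k) (Fin k) ℂ) - algebraMap ℂ _ ν) ^ j) =
      (Y - algebraMap ℂ _ ν) ^ j := by
    rw [map_pow, map_sub, mvPolynomialX_mapMatrix_eval]
    congr 2
    ext a b
    by_cases hab : a = b
    · subst hab
      simp [Matrix.algebraMap_matrix_apply]
    · simp [Matrix.algebraMap_matrix_apply, hab]
  rw [← h1]
  rfl

/-- openness of the rank conditions -/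
theorem exists_open {k : ℕ} (Y0 : Matrix (Fin k) (Fin k) ℂ) (E : Finset ℂ) :
    ∃ D : MvPolynomial (Fin k × Fin k) ℂ, MvPolynomial.eval (fun p => Y0 p.1 p.2) D ≠ 0 ∧
      ∀ Y : Matrix (Fin k) (Fin k) ℂ, MvPolynomial.eval (fun p => Y p.1 p.2) D ≠ 0 →
        ∀ ν ∈ E, ∀ j ≤ k, ((Y0 - algebraMap ℂ _ ν) ^ j).rank ≤
          ((Y - algebraMap ℂ _ ν) ^ j).rank := by
  classical
  choose r c h using fun (p : ℂ × ℕ) => exists_minor ((Y0 - algebraMap ℂ _ p.1) ^ p.2)
  refine ⟨∏ ν ∈ E, ∏ j ∈ Finset.range (k + 1), minorPoly ν j (r (ν, j)) (c (ν, j)), ?_, ?_⟩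
  · rw [map_prod, Finset.prod_ne_zero_iff]
    intro ν _
    rw [map_prod, Finset.prod_ne_zero_iff]
    intro j _
    rw [eval_minorPoly]
    exact h (ν, j)
  · intro Y hY ν hν j hj
    rw [map_prod, Finset.prod_ne_zero_iff] at hY
    have h1 := hY ν hν
    rw [map_prod, Finset.prod_ne_zero_iff] at h1
    have h2 := h1 j (Finset.mem_range.2 (by omega))
    rw [eval_minorPoly] at h2
    exact le_rank_of_minor _ _ _ h2

/-! ### characteristic polynomials of flagged matrices -/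

theorem charpoly_flag : ∀ (l : List (ℂˣ × ℕ)) (Y : Matrix (Fin (size l)) (Fin (size l)) ℂ),
    IsFlagMat l Y → Y.charpoly =
      (l.map fun x => (Polynomial.X - Polynomial.C (x.1 : ℂ)) ^ x.2).prod
  | [], Y, _ => by
    have : IsEmpty (Fin (size [])) := by
      change IsEmpty (Fin 0); infer_instance
    simp [Matrix.charpoly]
  | x :: l, Y, h => by
    obtain ⟨B, Y', rfl, hY'⟩ := h
    have h1 : ((fromBlocks ((x.1 : ℂ) • (1 : Matrix (Fin x.2) (Fin x.2) ℂ)) B 0 Y').submatrix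
        finSumFinEquiv.symm finSumFinEquiv.symm).charpoly =
        (fromBlocks ((x.1 : ℂ) • (1 : Matrix (Fin x.2) (Fin x.2) ℂ)) B 0 Y').charpoly :=
      Matrix.charpoly_reindex finSumFinEquiv _
    refine h1.trans ?_
    rw [charpoly_fromBlocks_zero₂₁, charpoly_flag l Y' hY', List.map_cons, List.prod_cons]
    congr 1
    have h2 : ((x.1 : ℂ) • (1 : Matrix (Fin x.2) (Fin x.2) ℂ)) =
        Matrix.diagonal fun _ => (x.1 : ℂ) := by
      ext i j
      simp [Matrix.one_apply, Matrix.diagonal_apply]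
    rw [h2, Matrix.charpoly_diagonal]
    simp

/-- flag type, with the size as a hypothesis -/
def IsFlagG (l : List (ℂˣ × ℕ)) (k : ℕ) (Y : Matrix (Fin k) (Fin k) ℂ) : Prop :=
  ∃ h : size l = k, IsFlagMat l (Y.submatrix (Fin.cast h) (Fin.cast h))

theorem isFlagG_self (l : List (ℂˣ × ℕ)) (Y : Matrix (Fin (size l)) (Fin (size l)) ℂ) :
    IsFlagG l (size l) Y ↔ IsFlagMat l Y := by
  constructor
  · rintro ⟨_, h⟩
    exact h
  · intro h
    exact ⟨rfl, h⟩

theorem rank_conj_pow {k : ℕ} (H Y : GL (Fin k) ℂ) (ν : ℂ) (j : ℕ) :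
    (((H * Y * H⁻¹).1 - algebraMap ℂ _ ν) ^ j).rank = ((Y.1 - algebraMap ℂ _ ν) ^ j).rank := by
  have e4 : (H * Y * H⁻¹).1 - algebraMap ℂ _ ν =
      H.1 * (Y.1 - algebraMap ℂ _ ν) * (H⁻¹).1 := by
    have e5 : (H * Y * H⁻¹).1 = H.1 * Y.1 * (H⁻¹).1 := rfl
    have e6 : H.1 * (H⁻¹).1 = 1 := by
      rw [← Units.val_mul, mul_inv_cancel, Units.val_one]
    have e7 : H.1 * algebraMap ℂ (Matrix (Fin k) (Fin k) ℂ) ν * (H⁻¹).1 =
        algebraMap ℂ _ ν := by
      rw [← Algebra.commutes, Matrix.mul_assoc, e6, Matrix.mul_one]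
    rw [Matrix.mul_sub, Matrix.sub_mul, e7, ← e5]
  have e3 : ((H * Y * H⁻¹).1 - algebraMap ℂ _ ν) ^ j =
      H.1 * (Y.1 - algebraMap ℂ _ ν) ^ j * (H⁻¹).1 := by
    rw [e4]
    exact Units.conj_pow H _ j
  rw [e3, rank_mul_eq_left_of_isUnit_det _ _ (Matrix.isUnit_iff_isUnit_det _ |>.1 (H⁻¹).isUnit),
    rank_mul_eq_right_of_isUnit_det _ _ (Matrix.isUnit_iff_isUnit_det _ |>.1 H.isUnit)]

theorem charpoly_conj {k : ℕ} (H Y : GL (Fin k) ℂ) :
    (H * Y * H⁻¹).1.charpoly = Y.1.charpoly := by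
  have e5 : (H * Y * H⁻¹).1 = H.1 * Y.1 * (H⁻¹).1 := rfl
  rw [e5, Matrix.coe_units_inv]
  exact Matrix.charpoly_units_conj H Y.1

/-- **Main theorem on flags.** The open condition `D` is a polynomial in the entries of the matrix
itself (in any basis). -/
theorem flag_open (k : ℕ) (X : GL (Fin k) ℂ) :
    ∃ (l : List (ℂˣ × ℕ)) (H Y0 : GL (Fin k) ℂ) (D : MvPolynomial (Fin k × Fin k) ℂ),
      (∀ x ∈ l, 0 < x.2) ∧ (∀ x ∈ l, X.1.charpoly.IsRoot (x.1 : ℂ)) ∧
      IsFlagG l k Y0.1 ∧ X = H * Y0 * H⁻¹ ∧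
      MvPolynomial.eval (fun p => X.1 p.1 p.2) D ≠ 0 ∧
      ∀ X' h' Y' : GL (Fin k) ℂ, IsFlagG l k Y'.1 → X' = h' * Y' * h'⁻¹ →
        MvPolynomial.eval (fun p => X'.1 p.1 p.2) D ≠ 0 →
        ∃ P : GL (Fin k) ℂ, X' = P * X * P⁻¹ := by
  classical
  have hsurj : Function.Surjective (Matrix.toLin' X.1) := by
    intro y
    refine ⟨(X⁻¹).1.mulVec y, ?_⟩
    rw [Matrix.toLin'_apply, Matrix.mulVec_mulVec, ← Units.val_mul, mul_inv_cancel,
      Units.val_one, Matrix.one_mulVec]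
  obtain ⟨l, Y, ψ, h1, h2, h3, h4, h5⟩ := exists_flag k (Fin k → ℂ) (by simp)
    (Matrix.toLin' X.1) hsurj
  have hsize : size l = k := by
    have := LinearEquiv.finrank_eq ψ
    simpa using this.symm
  subst hsize
  -- the base change
  let H : GL (Fin (size l)) ℂ :=
    ⟨LinearMap.toMatrix' ψ.symm.toLinearMap, LinearMap.toMatrix' ψ.toLinearMap, by
      rw [← LinearMap.toMatrix'_comp]; simp, by
      rw [← LinearMap.toMatrix'_comp]; simp⟩
  let Y0 : GL (Fin (size l)) ℂ := H⁻¹ * X * H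
  have hY0 : Y0.1 = Y := by
    apply Matrix.toLin'.injective
    have e1 : Y0.1 = (H⁻¹).1 * X.1 * H.1 := rfl
    rw [e1, Matrix.toLin'_mul, Matrix.toLin'_mul]
    have e2 : Matrix.toLin' (H⁻¹).1 = ψ.toLinearMap := by
      change Matrix.toLin' (LinearMap.toMatrix' ψ.toLinearMap) = _
      rw [Matrix.toLin'_toMatrix']
    have e3 : Matrix.toLin' H.1 = ψ.symm.toLinearMap := by
      change Matrix.toLin' (LinearMap.toMatrix' ψ.symm.toLinearMap) = _
      rw [Matrix.toLin'_toMatrix']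
    rw [e2, e3]
    refine LinearMap.ext fun v => ?_
    simp only [LinearMap.comp_apply, LinearEquiv.coe_coe]
    rw [h4, LinearEquiv.apply_symm_apply, Matrix.toLin'_apply]
  have hconj : X = H * Y0 * H⁻¹ := by
    simp only [Y0]; group
  -- ranks of powers
  have hrk : ∀ (ν : ℂ) (j : ℕ), finrank ℂ (LinearMap.range
      ((Matrix.toLin' X.1 - algebraMap ℂ (End ℂ (Fin (size l) → ℂ)) ν) ^ j)) =
      ((X.1 - algebraMap ℂ _ ν) ^ j).rank := by
    intro ν j
    have e1 : (Matrix.toLin' X.1 - algebraMap ℂ (End ℂ (Fin (size l) → ℂ)) ν) ^ j =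
        Matrix.toLin' ((X.1 - algebraMap ℂ _ ν) ^ j) := by
      have e0 : Matrix.toLin' X.1 - algebraMap ℂ (End ℂ (Fin (size l) → ℂ)) ν =
          Matrix.toLinAlgEquiv' (X.1 - algebraMap ℂ _ ν) := by
        rw [map_sub, AlgEquiv.commutes]
        rfl
      rw [e0, ← map_pow]
      rfl
    rw [e1]
    rfl
  obtain ⟨D, hD1, hD2⟩ := exists_open X.1 ((l.map fun x => (x.1 : ℂ)).toFinset)
  refine ⟨l, H, Y0, D, h1, ?_, ?_, hconj, hD1, ?_⟩
  · intro x hx
    have := h2 x hx
    rw [Module.End.hasEigenvalue_iff_isRoot_charpoly] at this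
    rwa [Matrix.charpoly_toLin'] at this
  · rw [isFlagG_self, hY0]; exact h3
  · intro X' h' Y' hY' hX' hD
    rw [isFlagG_self] at hY'
    have hch : X.1.charpoly = X'.1.charpoly := by
      rw [hX', charpoly_conj, hconj, charpoly_conj, hY0, charpoly_flag l Y h3,
        charpoly_flag l Y'.1 hY']
    obtain ⟨P, hP⟩ := Str.conj_of_rank_eq' X.1 X'.1 hch (by
      intro μ hμ j hj
      rw [← algebraMap_eq_scalar]
      refine le_antisymm (hD2 X'.1 hD μ ?_ j hj) ?_
      · rw [hconj, charpoly_conj, hY0, charpoly_flag l Y h3, Polynomial.IsRoot.def,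
          Polynomial.eval_list_prod, List.prod_eq_zero_iff] at hμ
        rw [List.mem_map] at hμ
        obtain ⟨q, hq, hq0⟩ := hμ
        rw [List.mem_map] at hq
        obtain ⟨x, hx, rfl⟩ := hq
        rw [List.mem_toFinset, List.mem_map]
        refine ⟨x, hx, ?_⟩
        rw [Polynomial.eval_pow, Polynomial.eval_sub, Polynomial.eval_X, Polynomial.eval_C] at hq0
        have := (pow_eq_zero_iff (h1 x hx).ne').1 hq0
        exact (sub_eq_zero.1 this).symm
      · rw [← hrk, hX', rank_conj_pow]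
        exact h5 Y'.1 hY' μ j)
    exact ⟨P, Units.ext hP⟩

end Crest.Agent.R003.Flag
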