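import Crest.Agent.R003.Wire638
import Crest.Agent.R003.FlagD382

/-!
# Wiring of Part 4 (row 3, helper638): `Sys4Stmt → BlockAppr`.
-/

set_option autoImplicit false

open Crest.NumberTheoryR.CharVarRel MvPolynomial

noncomputable section

namespace Crest.Agent.R003.Wire

open Nrm Semi Matrix

variable {g s r : ℕ}

/-- the solution set of the system of Part 4, in flag form -/
def S4 (g s r : ℕ) {N : ℕ} (d : Fin N → ℕ) (hd : ∀ i, d i ≤ r)
    (l : Fin N → Fin s → List (ℂˣ × ℕ)) : Set (Fin N × RelGen g s → G r) :=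
  {σ | (∀ z : Fin N × RelGen g s, σ z ∈ GLk r (d z.1)) ∧ (∀ i, RelG g s fun v => σ (i, v)) ∧
    ∀ i j, ∃ h Y : G (d i), Flag.IsFlagG (l i j) (d i) Y.1 ∧
      σ (i, Sum.inr j) = emb r (d i) (hd i) (h * Y * h⁻¹)}

/-- the statement of the system of Part 4 -/
def Sys4Stmt (O : Subring ℂ) (g s r : ℕ) : Prop :=
  ∀ (N : ℕ) (d : Fin N → ℕ) (hd : ∀ i, d i ≤ r) (l : Fin N → Fin s → List (ℂˣ × ℕ)),
    (∀ i, 0 < d i) → (∀ i j, ∀ x ∈ l i j, 0 < x.2 ∧ IsSc O x.1) →
    ∀ T : ∀ z : Fin N × RelGen g s, G (d z.1), (∀ i, RelG (G := G (d i)) g s fun v => T (i, v)) →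
    (∀ i j, ∃ H Y : G (d i), Flag.IsFlagG (l i j) (d i) Y.1 ∧ T (i, Sum.inr j) = H * Y * H⁻¹) →
    Appr O (S4 g s r d hd l) Set.univ (fun z => emb r (d z.1) (hd z.1) (T z))

theorem det_mem {X β : Type*} [Fintype β] [DecidableEq β] (A : Subalgebra ℂ (X → ℂ))
    {M : X → Matrix β β ℂ} (hM : ∀ i j, (fun x => M x i j) ∈ A) :
    (fun x => (M x).det) ∈ A := by
  have h0 : (fun x => (M x).det) = ∑ σ : Equiv.Perm β,
      ((Equiv.Perm.sign σ : ℤ) : ℂ) • ∏ i, (fun x => M x (σ i) i) := by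
    funext x
    rw [Matrix.det_apply, Finset.sum_apply]
    refine Finset.sum_congr rfl fun σ _ => ?_
    rw [Pi.smul_apply, Finset.prod_apply, Units.smul_def, zsmul_eq_mul, smul_eq_mul]
  rw [h0]
  exact A.sum_mem fun σ _ => A.smul_mem (A.prod_mem fun i _ => hM (σ i) i) _

theorem wordMat_mem {X ι m : Type*} [Fintype m] [DecidableEq m] (A : Subalgebra ℂ (X → ℂ))
    {S : X → ι → Matrix m m ℂ} (hS : ∀ v i j, (fun x => S x v i j) ∈ A) (w : List ι) :
    ∀ i j, (fun x => wordMat (S x) w i j) ∈ A := by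
  induction w with
  | nil =>
    intro i j
    simp only [wordMat_nil]
    exact A.algebraMap_mem _
  | cons v w ih =>
    intro i j
    simp only [wordMat_cons, Matrix.mul_apply]
    have h0 : (fun x => ∑ k, S x v i k * wordMat (S x) w k j) =
        ∑ k, (fun x => S x v i k) * (fun x => wordMat (S x) w k j) := by
      funext x
      rw [Finset.sum_apply]
      rfl
    rw [h0]
    exact A.sum_mem fun k _ => A.mul_mem (hS v i k) (ih k j)

theorem blockAppr_of_sys4 {O : Subring ℂ} (h : Sys4Stmt O g s r) : BlockAppr O g s r := by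
  classical
  intro N d hd0 hd T hrel hirr heig
  choose l H Y0 D h1 h2 h3 h4 h5 h6 using fun i j => Flag.flag_open (d i) (T (i, Sum.inr j))
  have hA := h N d hd l hd0 (fun i j x hx => ⟨h1 i j x hx, ?_⟩) T hrel
    (fun i j => ⟨H i j, Y0 i j, h3 i j, h4 i j⟩)
  swap
  · obtain ⟨h7, m, hm, h8⟩ := heig i j _ (h2 i j x hx)
    refine ⟨h7, m, hm, Units.ext ?_⟩
    simpa using h8
  choose w hw using fun i => exists_wordDet_ne_zero (hirr i)
  -- the map to families of blocks
  let φ : (Fin N × RelGen g s → G r) → ∀ z : Fin N × RelGen g s, G (d z.1) := fun σ z =>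
    if hz : σ z ∈ GLk r (d z.1) then unemb r (d z.1) (hd z.1) (σ z) hz else 1
  have hφ2 : ∀ σ : Fin N × RelGen g s → G r, (∀ z : Fin N × RelGen g s, σ z ∈ GLk r (d z.1)) →
      ∀ z, emb r (d z.1) (hd z.1) (φ σ z) = σ z := by
    intro σ hσ z
    simp only [φ, dif_pos (hσ z)]
    exact emb_unemb _ _ _
  have hφ1 : φ (fun z => emb r (d z.1) (hd z.1) (T z)) = T := by
    funext z
    apply emb_injective (hd z.1)
    exact hφ2 (fun z => emb r (d z.1) (hd z.1) (T z)) (fun z => emb_mem (hd z.1) (T z)) z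
  -- polynomiality
  have hent : ∀ (z : Fin N × RelGen g s) (i j : Fin (d z.1)), ∀ σ ∈ S4 g s r d hd l,
      (φ σ z).1 i j = (σ z).1 (Fin.castLE (hd z.1) i) (Fin.castLE (hd z.1) j) ∧
      ((φ σ z)⁻¹).1 i j = ((σ z)⁻¹).1 (Fin.castLE (hd z.1) i) (Fin.castLE (hd z.1) j) := by
    intro z i j σ hσ
    have h7 : φ σ z = unemb r (d z.1) (hd z.1) (σ z) (hσ.1 z) := by
      simp only [φ, dif_pos (hσ.1 z)]
    rw [h7]
    exact ⟨rfl, rfl⟩
  have hcomp : ∀ f ∈ Cal.PolFam (fun z : Fin N × RelGen g s => Fin (d z.1)),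
      (fun σ => f (φ σ)) ∈ PolOn (S4 g s r d hd l) := by
    intro f hf
    refine Cal.comp_mem (κ := fun z : Fin N × RelGen g s => Fin (d z.1))
      (PolOn (S4 g s r d hd l)) φ (fun z i j => ?_) (fun z i j => ?_) hf
    · exact ⟨_, Pol.ent z (Fin.castLE (hd z.1) i) (Fin.castLE (hd z.1) j),
        fun σ hσ => (hent z i j σ hσ).1⟩
    · exact ⟨_, Pol.ient z (Fin.castLE (hd z.1) i) (Fin.castLE (hd z.1) j),
        fun σ hσ => (hent z i j σ hσ).2⟩
  intro f hf hv
  -- the open conditions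
  let A := Cal.PolFam (fun z : Fin N × RelGen g s => Fin (d z.1))
  let FD : Fin N → Fin s → (∀ z : Fin N × RelGen g s, G (d z.1)) → ℂ := fun i j T' =>
    eval (fun p : Fin (d i) × Fin (d i) => ((T' (i, Sum.inr j) : G (d i))).1 p.1 p.2) (D i j)
  let FW : Fin N → (∀ z : Fin N × RelGen g s, G (d z.1)) → ℂ := fun i T' =>
    (wordDet (fun v => ((T' (i, v) : G (d i))).1) (w i)).det
  have hFD : ∀ i j, FD i j ∈ A := fun i j =>
    eval_mem A (fun (p : Fin (d i) × Fin (d i)) T' => ((T' (i, Sum.inr j) : G (d i))).1 p.1 p.2)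
      (fun p => Cal.ent_mem (κ := fun z : Fin N × RelGen g s => Fin (d z.1)) (i, Sum.inr j)
        p.1 p.2) (D i j)
  have hFW : ∀ i, FW i ∈ A := by
    intro i
    refine det_mem A fun a b => ?_
    exact wordMat_mem A (S := fun (T' : ∀ z : Fin N × RelGen g s, G (d z.1)) (v : RelGen g s) =>
        ((T' (i, v) : G (d i))).1)
      (fun v x y => Cal.ent_mem (κ := fun z : Fin N × RelGen g s => Fin (d z.1)) (i, v) x y)
      (w i a) b.1 b.2
  have hF : f * (∏ i, (∏ j, FD i j) * FW i) ∈ A :=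
    A.mul_mem hf (A.prod_mem fun i _ => A.mul_mem (A.prod_mem fun j _ => hFD i j) (hFW i))
  obtain ⟨F', hF', hF1⟩ := hcomp _ hF
  have hF1' : ∀ σ ∈ S4 g s r d hd l, (f * (∏ i, (∏ j, FD i j) * FW i)) (φ σ) = F' σ := hF1
  have hT0 : (fun z => emb r (d z.1) (hd z.1) (T z)) ∈ S4 g s r d hd l := by
    refine ⟨fun z => emb_mem _ _, fun i => ?_, fun i j => ⟨H i j, Y0 i j, h3 i j, ?_⟩⟩
    · exact RelG_map (emb r (d i) (hd i)) (fun v => (T (i, v) : G (d i))) (hrel i)
    · show emb r (d i) (hd i) (T (i, Sum.inr j)) = _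
      rw [h4 i j]
  have h7 := hA F' hF' fun σ hσ hσ' => ?_
  · rw [← hF1' _ hT0, hφ1] at h7
    rw [Pi.mul_apply] at h7
    refine (mul_eq_zero.1 h7).resolve_right ?_
    rw [Finset.prod_apply]
    refine Finset.prod_ne_zero_iff.2 fun i _ => ?_
    rw [Pi.mul_apply, Finset.prod_apply]
    refine mul_ne_zero (Finset.prod_ne_zero_iff.2 fun j _ => h5 i j) (hw i)
  · rw [← hF1' σ hσ, Pi.mul_apply]
    by_cases h0 : (∏ i, (∏ j, FD i j) * FW i) (φ σ) = 0
    · rw [h0, mul_zero]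
    · rw [Finset.prod_apply] at h0
      replace h0 := Finset.prod_ne_zero_iff.1 h0
      rw [hv (φ σ) ?_, zero_mul]
      have h8 : ∀ i, (∀ j, FD i j (φ σ) ≠ 0) ∧ FW i (φ σ) ≠ 0 := by
        intro i
        have := h0 i (Finset.mem_univ i)
        rw [Pi.mul_apply, Finset.prod_apply] at this
        have h9 := mul_ne_zero_iff.1 this
        exact ⟨fun j => Finset.prod_ne_zero_iff.1 h9.1 j (Finset.mem_univ j), h9.2⟩
      refine ⟨fun i => ?_, fun i j => ?_, fun i => ?_, fun z => ?_⟩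
      · -- the relation
        have h9 := hσ.2.1 i
        have h10 : RelG g s fun v => emb r (d i) (hd i) (φ σ (i, v) : G (d i)) := by
          have : (fun v => emb r (d i) (hd i) (φ σ (i, v) : G (d i))) = fun v => σ (i, v) := by
            funext v
            exact hφ2 σ hσ.1 (i, v)
          rw [this]; exact h9
        unfold RelG at h10 ⊢
        apply emb_injective (hd i)
        rw [map_one, ← h10, map_mul, map_list_prod, map_list_prod, List.map_map, List.map_map]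
        simp only [Function.comp_def, map_mul, map_inv]
      · obtain ⟨h', Y', hY', hX'⟩ := hσ.2.2 i j
        have h9 : (φ σ (i, Sum.inr j) : G (d i)) = h' * Y' * h'⁻¹ := by
          apply emb_injective (hd i)
          rw [← hX']
          exact hφ2 σ hσ.1 (i, Sum.inr j)
        exact h6 i j _ h' Y' hY' h9 ((h8 i).1 j)
      · have : Nonempty (Fin (d i)) := ⟨⟨0, hd0 i⟩⟩
        exact MIrr_of_wordDet_ne_zero (w i) (h8 i).2
      · have h9 := hσ' z (Set.mem_univ z)
        rw [← hφ2 σ hσ.1 z, emb_GO] at h9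
        exact h9

end Crest.Agent.R003.Wire
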