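import Crest.Agent.R003.Brd452
import Crest.Agent.R003.WireB638

/-!
# Row 3: the block approximation statement of Part 4 (helper452)
-/

set_option autoImplicit false

open Matrix Crest.NumberTheoryR.CharVarRel Crest.Agent.R003.Flag

namespace Crest.Agent.R003.Sys4


theorem eval_flatMap {n : ℕ} {α : Type*} (ρ : ℕ → G n) (l : List α) (f : α → Wd) :
    Wd.eval ρ (l.flatMap f) = (l.map fun a => Wd.eval ρ (f a)).prod := by
  induction l with
  | nil => rfl
  | cons a l ih => rw [List.flatMap_cons, eval_append, ih, List.map_cons, List.prod_cons]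

theorem InLU_mem {n : ℕ} {μ : List (ℕ × ℂˣ)} {p : G n} (h : InLU n μ p) : p ∈ GLk n (sz μ) := by
  cases μ with
  | nil => rw [show p = 1 from h]; exact one_mem _
  | cons x μ =>
    obtain ⟨m, a⟩ := x
    obtain ⟨q, _, hp⟩ := h
    have := hp.mem
    rwa [lb_length] at this

section main

variable {g s N r : ℕ} {d : Fin N → ℕ} {comp : Fin N → Fin s → List (ℕ × ℂˣ)}

/-- the matrices of the component `i` in `GL_r` -/
def Psi (g s : ℕ) {N r : ℕ} (comp : Fin N → Fin s → List (ℕ × ℂˣ)) (ρ : ℕ → G r) (i : Fin N) :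
    RelGen g s → G r
  | Sum.inl k => ρ (nm (if k.2 then 1 else 0) i k.1 0)
  | Sum.inr j => ρ (nm 2 i j 0) * Wd.eval ρ (LL i j 0 (comp i j)) * (ρ (nm 2 i j 0))⁻¹

theorem RT_mem (i : Fin N) : RT g s N d comp i ∈ (SY g s N d comp).roots :=
  List.mem_flatMap.2 ⟨i, List.mem_finRange i, List.mem_cons_self ..⟩

theorem ch_mem (i : Fin N) (j : Fin s) {R : Root} (hR : R ∈ ch i j 0 (comp i j)) :
    R ∈ (SY g s N d comp).roots :=
  List.mem_flatMap.2 ⟨i, List.mem_finRange i, List.mem_cons_of_mem _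
    (List.mem_flatMap.2 ⟨j, List.mem_finRange j, hR⟩)⟩

theorem a_mem (i : Fin N) (k : Fin g) : Lt.full (nm 0 i k 0) true ∈ (RT g s N d comp i).w :=
  List.mem_append_left _ (List.mem_flatMap.2 ⟨k, List.mem_finRange k, by simp⟩)

theorem b_mem (i : Fin N) (k : Fin g) : Lt.full (nm 1 i k 0) true ∈ (RT g s N d comp i).w :=
  List.mem_append_left _ (List.mem_flatMap.2 ⟨k, List.mem_finRange k, by simp⟩)

theorem h_mem (i : Fin N) (j : Fin s) : Lt.full (nm 2 i j 0) true ∈ (RT g s N d comp i).w :=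
  List.mem_append_right _ (List.mem_flatMap.2 ⟨j, List.mem_finRange j, by simp⟩)

theorem LL_mem (i : Fin N) (j : Fin s) {l : Lt} (hl : l ∈ LL i j 0 (comp i j)) :
    l ∈ (RT g s N d comp i).w :=
  List.mem_append_right _ (List.mem_flatMap.2 ⟨j, List.mem_finRange j, by simp [hl]⟩)

theorem eval_RT (ρ : ℕ → G r) (i : Fin N) : Wd.eval ρ (RT g s N d comp i).w =
    ((List.finRange g).map fun k => Psi g s comp ρ i (Sum.inl (k, false)) *
      Psi g s comp ρ i (Sum.inl (k, true)) * (Psi g s comp ρ i (Sum.inl (k, false)))⁻¹ *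
      (Psi g s comp ρ i (Sum.inl (k, true)))⁻¹).prod *
    ((List.finRange s).map fun j => Psi g s comp ρ i (Sum.inr j)).prod := by
  show Wd.eval ρ (hW g i ++ bW s i (comp i)) = _
  rw [eval_append, hW, bW, eval_flatMap, eval_flatMap]
  congr 2
  · refine List.map_congr_left fun k _ => ?_
    simp only [eval_cons, eval_nil, mul_one, Lt.eval, if_true, Bool.false_eq_true, if_false,
      Psi, mul_assoc]
  · refine List.map_congr_left fun j _ => ?_
    simp only [eval_cons, eval_append, eval_nil, mul_one, Lt.eval, if_true, Bool.false_eq_true,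
      if_false, Psi, mul_assoc]

theorem rel_Psi {ρ : ℕ → G r} (hρ : ρ ∈ (SY g s N d comp).Sol r) (i : Fin N) :
    Nrm.RelG g s (Psi g s comp ρ i) := by
  have h := (hρ.1 _ (RT_mem i)).2
  have h1 : scal r (d i) 1 * Wd.eval ρ (RT g s N d comp i).w = 1 := h
  rw [scal_one, one_mul, eval_RT] at h1
  exact h1

theorem InLU_sol (hsz : ∀ i j, sz (comp i j) = d i) {ρ : ℕ → G r}
    (hρ : ρ ∈ (SY g s N d comp).Sol r) (i : Fin N) (j : Fin s) :
    InLU r (comp i j) (Wd.eval ρ (LL i j 0 (comp i j))) := by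
  refine ch_sol ρ i j (comp i j) 0 (fun R hR => hρ.1 R (ch_mem i j hR)) fun l hl => ?_
  have := (hρ.1 _ (RT_mem i)).1 l (LL_mem i j hl)
  rw [hsz]
  exact this

theorem h_GLk {ρ : ℕ → G r} (hρ : ρ ∈ (SY g s N d comp).Sol r) (i : Fin N) (j : Fin s) :
    ρ (nm 2 i j 0) ∈ GLk r (d i) :=
  (hρ.1 _ (RT_mem i)).1 _ (h_mem i j)

theorem P_GLk (hsz : ∀ i j, sz (comp i j) = d i) {ρ : ℕ → G r}
    (hρ : ρ ∈ (SY g s N d comp).Sol r) (i : Fin N) (j : Fin s) :
    Wd.eval ρ (LL i j 0 (comp i j)) ∈ GLk r (d i) := by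
  have := InLU_mem (InLU_sol hsz hρ i j)
  rwa [hsz] at this

theorem Psi_GLk (hsz : ∀ i j, sz (comp i j) = d i) {ρ : ℕ → G r}
    (hρ : ρ ∈ (SY g s N d comp).Sol r) (i : Fin N) (v : RelGen g s) :
    Psi g s comp ρ i v ∈ GLk r (d i) := by
  rcases v with ⟨k, b⟩ | j
  · cases b
    · exact (hρ.1 _ (RT_mem i)).1 _ (a_mem i k)
    · exact (hρ.1 _ (RT_mem i)).1 _ (b_mem i k)
  · exact mul_mem (mul_mem (h_GLk hρ i j) (P_GLk hsz hρ i j)) (inv_mem (h_GLk hρ i j))

open Classical in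
/-- the matrices of the components -/
noncomputable def Phi (hd : ∀ i, d i ≤ r) (comp : Fin N → Fin s → List (ℕ × ℂˣ)) (ρ : ℕ → G r)
    (z : Fin N × RelGen g s) : G (d z.1) :=
  if h : Psi g s comp ρ z.1 z.2 ∈ GLk r (d z.1) then unemb r (d z.1) (hd z.1) _ h else 1

theorem emb_Phi (hd : ∀ i, d i ≤ r) (hsz : ∀ i j, sz (comp i j) = d i) {ρ : ℕ → G r}
    (hρ : ρ ∈ (SY g s N d comp).Sol r) (z : Fin N × RelGen g s) :
    emb r (d z.1) (hd z.1) (Phi hd comp ρ z) = Psi g s comp ρ z.1 z.2 := by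
  have h := Psi_GLk hsz hρ z.1 z.2
  rw [Phi, dif_pos h, emb_unemb]

theorem rel_Phi (hd : ∀ i, d i ≤ r) (hsz : ∀ i j, sz (comp i j) = d i) {ρ : ℕ → G r}
    (hρ : ρ ∈ (SY g s N d comp).Sol r) (i : Fin N) :
    Nrm.RelG (G := G (d i)) g s (fun v => Phi (g := g) hd comp ρ (i, v)) := by
  have h := rel_Psi hρ i
  unfold Nrm.RelG at h ⊢
  apply emb_injective (hd i)
  rw [map_one, map_mul, map_list_prod, map_list_prod, List.map_map, List.map_map, ← h]
  have e : ∀ v, emb r (d i) (hd i) (Phi (g := g) hd comp ρ (i, v)) = Psi g s comp ρ i v :=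
    fun v => emb_Phi hd hsz hρ (i, v)
  simp only [Function.comp_def, map_mul, map_inv, e]

/-- the boundary matrices are conjugate to flag matrices -/
theorem bd_Phi (hd : ∀ i, d i ≤ r) (l : Fin N → Fin s → List (ℂˣ × ℕ))
    (hl : ∀ i j, size (l i j) = d i) {ρ : ℕ → G r}
    (hρ : ρ ∈ (SY g s N d (fun i j => cm (l i j))).Sol r) (i : Fin N) (j : Fin s) :
    ∃ h Y : G (d i), IsFlagG (l i j) (d i) Y.1 ∧
      Phi (g := g) hd (fun i j => cm (l i j)) ρ (i, Sum.inr j) = h * Y * h⁻¹ := by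
  have hsz : ∀ i j, sz ((fun i j => cm (l i j)) i j) = d i := fun i j => by
    rw [← hl i j]; exact sz_cm (l i j)
  have h1 := h_GLk hρ i j
  have h2 := P_GLk hsz hρ i j
  refine ⟨unemb r (d i) (hd i) _ h1, unemb r (d i) (hd i) _ h2,
    flagG_of_inLU (l i j) (hd i) _ h2 (hl i j) (InLU_sol hsz hρ i j), ?_⟩
  apply emb_injective (hd i)
  have h3 := emb_Phi hd hsz hρ (i, Sum.inr j)
  refine h3.trans ?_
  rw [map_mul, map_mul, map_inv, emb_unemb, emb_unemb]
  rfl

/-- relevant names -/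
theorem full_names {R : Root} (hR : R ∈ (SY g s N d comp).roots) {x : ℕ} {ε : Bool}
    (hx : Lt.full x ε ∈ R.w) : x ∈ (SY g s N d comp).names := by
  refine Or.inl ⟨R.k, ε, mem_list_sum.2 ⟨R, hR, ?_⟩⟩
  refine mem_list_sum.2 ⟨_, hx, ?_⟩
  exact Multiset.mem_singleton_self _

theorem pn_names {R : Root} (hR : R ∈ (SY g s N d comp).roots) {p : ℕ} {e c c' : List Bool}
    {σ : Bool → Bool → ℂˣ} {g' : Bool → ℕ} (hx : Lt.par p e σ c c' g' ∈ R.w) :
    p ∈ (SY g s N d comp).names := by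
  refine Or.inr (Or.inl (mem_list_sum.2 ⟨R, hR, ?_⟩))
  refine mem_list_sum.2 ⟨_, hx, ?_⟩
  exact Multiset.mem_singleton_self _

theorem Psi_GO {O : Subring ℂ} {ρ : ℕ → G r} (hρ : ∀ x ∈ (SY g s N d comp).names, ρ x ∈ GO O r)
    (i : Fin N) (v : RelGen g s) : Psi g s comp ρ i v ∈ GO O r := by
  rcases v with ⟨k, b⟩ | j
  · cases b
    · exact hρ _ (full_names (RT_mem i) (a_mem i k))
    · exact hρ _ (full_names (RT_mem i) (b_mem i k))
  · have h1 := hρ _ (full_names (RT_mem i) (h_mem i j))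
    refine mul_mem (mul_mem h1 ?_) (inv_mem h1)
    cases hc : comp i j with
    | nil => rw [LL, eval_nil]; exact one_mem _
    | cons x μ =>
      obtain ⟨m, a⟩ := x
      rw [eval_LL_cons]
      refine hρ _ (pn_names (RT_mem i) (LL_mem i j (l := Lt.par (nm 5 i j 0) [] (fun _ _ => 1)
        (lb m (sz μ)) (lb m (sz μ)) (fun b => if b then nm 4 i j 0 else nm 3 i j 0)) ?_))
      rw [hc, LL]
      exact List.mem_singleton_self _

theorem Phi_GO {O : Subring ℂ} (hd : ∀ i, d i ≤ r) (hsz : ∀ i j, sz (comp i j) = d i)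
    {ρ : ℕ → G r} (hρ : ρ ∈ (SY g s N d comp).Sol r)
    (hi : ∀ x ∈ (SY g s N d comp).names, ρ x ∈ GO O r) (z : Fin N × RelGen g s) :
    Phi hd comp ρ z ∈ GO O (d z.1) := by
  rw [← emb_GO (hd z.1), emb_Phi hd hsz hρ]
  exact Psi_GO hi _ _

/-! ### polynomiality -/

theorem Psi_pol (S : Set (ℕ → G r)) (i : Fin N) (v : RelGen g s) :
    PolG S (fun ρ => Psi g s comp ρ i v) := by
  rcases v with ⟨k, b⟩ | j
  · exact PolG.coord _
  · refine PolG.mul (PolG.mul (PolG.coord _) ?_) (PolG.inv (PolG.coord _))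
    cases hc : comp i j with
    | nil => exact PolG.const 1
    | cons x μ =>
      obtain ⟨m, a⟩ := x
      refine PolG.congr (PolG.coord (nm 5 i j 0)) fun ρ _ => ?_
      rw [eval_LL_cons]

theorem unemb_val {n k : ℕ} (hk : k ≤ n) (g : G n) (hg : g ∈ GLk n k) (i j : Fin k) :
    (unemb n k hk g hg).1 i j = g.1 (Fin.castLE hk i) (Fin.castLE hk j) := rfl

theorem unemb_inv_val {n k : ℕ} (hk : k ≤ n) (g : G n) (hg : g ∈ GLk n k) (i j : Fin k) :
    ((unemb n k hk g hg)⁻¹).1 i j = (g⁻¹).1 (Fin.castLE hk i) (Fin.castLE hk j) := rfl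

theorem Phi_pol (hd : ∀ i, d i ≤ r) (hsz : ∀ i j, sz (comp i j) = d i)
    (z : Fin N × RelGen g s) : PolG ((SY g s N d comp).Sol r) (fun ρ => Phi hd comp ρ z) := by
  intro a b
  have h := Psi_pol (comp := comp) ((SY g s N d comp).Sol r) z.1 z.2
  have e : ∀ ρ (hρ : ρ ∈ (SY g s N d comp).Sol r), Phi hd comp ρ z =
      unemb r (d z.1) (hd z.1) _ (Psi_GLk hsz hρ z.1 z.2) := fun ρ hρ => by
    rw [Phi, dif_pos]
  constructor
  · refine PolOn.congr (h (Fin.castLE (hd z.1) a) (Fin.castLE (hd z.1) b)).1 fun ρ hρ => ?_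
    show (Phi hd comp ρ z).1 a b = _
    rw [e ρ hρ]; rfl
  · refine PolOn.congr (h (Fin.castLE (hd z.1) a) (Fin.castLE (hd z.1) b)).2 fun ρ hρ => ?_
    show ((Phi hd comp ρ z)⁻¹).1 a b = _
    rw [e ρ hρ]; rfl

/-! ### the target point -/

theorem exists_target (hd : ∀ i, d i ≤ r) (hsz : ∀ i j, sz (comp i j) = d i)
    (T : ∀ z : Fin N × RelGen g s, G (d z.1)) (hrel : ∀ i, Nrm.RelG (G := G (d i)) g s (fun v => T (i, v)))
    (H Y : ∀ i : Fin N, Fin s → G (d i))
    (hY : ∀ i j, InLU r (comp i j) (emb r (d i) (hd i) (Y i j)))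
    (hT : ∀ i j, T (i, Sum.inr j) = H i j * Y i j * (H i j)⁻¹) :
    ∃ ρ ∈ (SY g s N d comp).Sol r, ∀ i v, Psi g s comp ρ i v = emb r (d i) (hd i) (T (i, v)) := by
  classical
  choose f3 f4 f5 hf using fun i j => ch_exists (n := r) (i : Fin N) (j : Fin s) (comp i j) 0 _
    (hY i j)
  let F : ℕ → ℕ → ℕ → ℕ → G r := fun a i j t =>
    if hi : i < N then
      if a = 0 then
        if hk : j < g then
          emb r (d ⟨i, hi⟩) (hd ⟨i, hi⟩) (T (⟨i, hi⟩, Sum.inl (⟨j, hk⟩, false))) else 1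
      else if a = 1 then
        if hk : j < g then
          emb r (d ⟨i, hi⟩) (hd ⟨i, hi⟩) (T (⟨i, hi⟩, Sum.inl (⟨j, hk⟩, true))) else 1
      else if hj : j < s then
        if a = 2 then emb r (d ⟨i, hi⟩) (hd ⟨i, hi⟩) (H ⟨i, hi⟩ ⟨j, hj⟩)
        else if a = 3 then f3 ⟨i, hi⟩ ⟨j, hj⟩ t
        else if a = 4 then f4 ⟨i, hi⟩ ⟨j, hj⟩ t
        else f5 ⟨i, hi⟩ ⟨j, hj⟩ t
      else 1
    else 1
  let ρ : ℕ → G r := fun x => F (dec x).1 (dec x).2.1 (dec x).2.2.1 (dec x).2.2.2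
  have hρF : ∀ a i j t, ρ (nm a i j t) = F a i j t := by
    intro a i j t
    show F (dec (nm a i j t)).1 (dec (nm a i j t)).2.1 (dec (nm a i j t)).2.2.1
      (dec (nm a i j t)).2.2.2 = _
    rw [dec_nm]
  have e0 : ∀ (i : Fin N) (k : Fin g), ρ (nm 0 i k 0) =
      emb r (d i) (hd i) (T (i, Sum.inl (k, false))) := by
    intro i k
    rw [hρF]
    simp only [F]
    rw [dif_pos i.2, if_pos trivial, dif_pos k.2]
  have e1 : ∀ (i : Fin N) (k : Fin g), ρ (nm 1 i k 0) =
      emb r (d i) (hd i) (T (i, Sum.inl (k, true))) := by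
    intro i k
    rw [hρF]
    simp only [F]
    rw [dif_pos i.2, if_neg (by omega), if_pos trivial, dif_pos k.2]
  have e2 : ∀ (i : Fin N) (j : Fin s), ρ (nm 2 i j 0) = emb r (d i) (hd i) (H i j) := by
    intro i j
    rw [hρF]
    simp only [F]
    rw [dif_pos i.2, if_neg (by omega), if_neg (by omega), dif_pos j.2, if_pos trivial]
  have e3 : ∀ (i : Fin N) (j : Fin s), ∀ t', 0 ≤ t' → ρ (nm 3 i j t') = f3 i j t' ∧
      ρ (nm 4 i j t') = f4 i j t' ∧ ρ (nm 5 i j t') = f5 i j t' := by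
    intro i j t' _
    refine ⟨?_, ?_, ?_⟩
    · rw [hρF]
      simp only [F]
      rw [dif_pos i.2, if_neg (by omega), if_neg (by omega), dif_pos j.2, if_neg (by omega),
        if_pos trivial]
    · rw [hρF]
      simp only [F]
      rw [dif_pos i.2, if_neg (by omega), if_neg (by omega), dif_pos j.2, if_neg (by omega),
        if_neg (by omega), if_pos trivial]
    · rw [hρF]
      simp only [F]
      rw [dif_pos i.2, if_neg (by omega), if_neg (by omega), dif_pos j.2, if_neg (by omega),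
        if_neg (by omega), if_neg (by omega)]
  have hPsi : ∀ i v, Psi g s comp ρ i v = emb r (d i) (hd i) (T (i, v)) := by
    intro i v
    rcases v with ⟨k, b⟩ | j
    · cases b
      · exact e0 i k
      · exact e1 i k
    · show ρ (nm 2 i j 0) * Wd.eval ρ (LL i j 0 (comp i j)) * (ρ (nm 2 i j 0))⁻¹ = _
      rw [(hf i j ρ (e3 i j)).2.2, e2, hT, map_mul, map_mul, map_inv]
  refine ⟨ρ, ⟨fun R hR => ?_, fun z hz => ?_⟩, hPsi⟩
  · obtain ⟨i, _, hR⟩ := List.mem_flatMap.1 hR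
    rcases List.mem_cons.1 hR with rfl | hR
    · refine ⟨fun l hl => ?_, ?_⟩
      · rcases List.mem_append.1 hl with hl | hl
        · obtain ⟨k, _, hl⟩ := List.mem_flatMap.1 hl
          simp only [List.mem_cons, List.not_mem_nil, or_false] at hl
          rcases hl with rfl | rfl | rfl | rfl
          · show ρ (nm 0 i k 0) ∈ GLk r (d i)
            rw [e0]; exact emb_mem _ _
          · show ρ (nm 1 i k 0) ∈ GLk r (d i)
            rw [e1]; exact emb_mem _ _
          · show ρ (nm 0 i k 0) ∈ GLk r (d i)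
            rw [e0]; exact emb_mem _ _
          · show ρ (nm 1 i k 0) ∈ GLk r (d i)
            rw [e1]; exact emb_mem _ _
        · obtain ⟨j, _, hl⟩ := List.mem_flatMap.1 hl
          rcases List.mem_cons.1 hl with rfl | hl
          · show ρ (nm 2 i j 0) ∈ GLk r (d i)
            rw [e2]; exact emb_mem _ _
          rcases List.mem_append.1 hl with hl | hl
          · have := (hf i j ρ (e3 i j)).2.1 l hl
            rw [hsz] at this
            exact this
          · rw [List.mem_singleton.1 hl]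
            show ρ (nm 2 i j 0) ∈ GLk r (d i)
            rw [e2]; exact emb_mem _ _
      · show scal r (d i) 1 * Wd.eval ρ (RT g s N d comp i).w = 1
        rw [scal_one, one_mul, eval_RT]
        have h := congrArg (emb r (d i) (hd i)) (hrel i)
        rw [map_one, map_mul, map_list_prod, map_list_prod, List.map_map, List.map_map] at h
        simp only [Function.comp_def, map_mul, map_inv] at h
        simp only [hPsi]
        exact h
    · obtain ⟨j, _, hR⟩ := List.mem_flatMap.1 hR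
      exact (hf i j ρ (e3 i j)).1 R hR
  · simp [SY] at hz

end main

/-! ### the system statement -/

theorem sys4 {O : Subring ℂ} {g s r : ℕ} (hE : ElimStatement O r (r + 1)) (hG : Good O)
    (hC : ∀ k < r + 1, Closed O k) : Wire.Sys4Stmt O g s r := by
  intro N d hd l hd0 hl0 T hrel hT
  choose H Y h3 h4 using hT
  have hl : ∀ i j, size (l i j) = d i := fun i j => (h3 i j).1
  have hsz : ∀ i j, sz ((fun i j => cm (l i j)) i j) = d i := fun i j => by
    rw [← hl i j]; exact sz_cm (l i j)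
  have hsc : ∀ i j, ∀ ma ∈ cm (l i j), IsSc O ma.2 := by
    intro i j ma hma
    obtain ⟨x, hx, rfl⟩ := List.mem_map.1 hma
    exact (hl0 i j x hx).2
  obtain ⟨ρ0, hρ0, hP0⟩ := exists_target (comp := fun i j => cm (l i j)) hd hsz T hrel H Y
    (fun i j => inLU_of_flagG (l i j) (hd i) (Y i j) (h3 i j)) h4
  have hWF := WF_SY (g := g) (comp := fun i j => cm (l i j)) O r hd hsz hsc
  have hadm : Adm (r + 1) (SY g s N d (fun i j => cm (l i j))) := fun R hR =>
    Or.inl (Nat.lt_succ_of_le (hWF.roots R hR).1)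
  have happ := hE hG hC _ hWF hadm ρ0 hρ0
  refine Appr.map' happ (fun ρ z => Psi g s (fun i j => cm (l i j)) ρ z.1 z.2)
    (fun z => Psi_pol _ z.1 z.2) hρ0 (funext fun z => hP0 z.1 z.2) ?_ ?_
  · intro ρ hρ _
    refine ⟨fun z => Psi_GLk hsz hρ z.1 z.2, fun i => rel_Psi hρ i, fun i j => ?_⟩
    have e1 := h_GLk hρ i j
    have e2 := P_GLk hsz hρ i j
    refine ⟨unemb r (d i) (hd i) _ e1, unemb r (d i) (hd i) _ e2,
      flagG_of_inLU (l i j) (hd i) _ e2 (hl i j) (InLU_sol hsz hρ i j), ?_⟩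
    rw [map_mul, map_mul, map_inv, emb_unemb, emb_unemb]
    rfl
  · intro ρ _ hi z _
    exact Psi_GO hi z.1 z.2

end Crest.Agent.R003.Sys4
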