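import Crest.Agent.R003.Sys5_227
import Crest.Agent.R003.Step638

/-!
# Row 3: step S5, bookkeeping of names, weights, well-formedness (helper227)
-/

set_option autoImplicit false

namespace Crest.Agent.R003.S227

namespace Dt

variable {n : ℕ} {D : Dt}

theorem Cn.cl1 (hc : Cn D) (x e : Bool) :
    (restr D.XE D.Et x).count e = (jl D.E D.X).count (e, x) := by
  rw [count_restr, count_jl_swap, hc.cL]

theorem cl2 (D : Dt) (e x : Bool) :
    (restr D.E D.X e).count x = (jl D.E D.X).count (e, x) := count_restr _ _ _ _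

theorem Cn.cl3 (hc : Cn D) (y x : Bool) :
    (restr D.Yt D.XY y).count x = (jl D.X' D.Y).count (x, y) := by
  rw [count_restr, count_jl_swap, hc.cR]

theorem cl4 (D : Dt) (x y : Bool) :
    (restr D.X' D.Y x).count y = (jl D.X' D.Y).count (x, y) := count_restr _ _ _ _

/-- sum over pairs -/
def q4 {α : Type} (f : Bool → Bool → α) : Multiset α :=
  {f false false} + {f false true} + {f true false} + {f true true}

def q2 {α : Type} (f : Bool → α) : Multiset α := {f false} + {f true}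

/-- the new full names -/
def Vn (D : Dt) : Multiset (ℕ × ℕ) :=
  q2 (fun e => (nh1 D.N e, D.E.count e)) + q2 (fun y => (nh3 D.N y, D.Y.count y)) +
  q4 (fun e x => (na D.N e x, (jl D.E D.X).count (e, x))) +
  q4 (fun x e => (nn' D.N x e, (jl D.E D.X).count (e, x))) +
  q4 (fun y x => (nb D.N y x, (jl D.X' D.Y).count (x, y))) +
  q4 (fun x y => (nm' D.N x y, (jl D.X' D.Y).count (x, y)))

theorem occ_bal (hc : Cn D) : occL [D.old] + pm D.Vn = occL D.B + pm 0 := by
  simp only [occL_cons, occL_nil, Dt.B, Root.occ, Wd.occ, old, rV, rE, rY, rX, kE, kY,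
    List.map_cons, List.map_nil, List.sum_cons, List.sum_nil, Lt.occ, Multiset.insert_eq_cons,
    ← Multiset.singleton_add, pm_zero, Vn, pm_add, q2, q4, pm_singleton, hc.cl1, cl2, hc.cl3, cl4,
    hc.c1E, hc.YtY]
  abel

/-- the P-names of `B` -/
theorem pnL_B : pnL D.B = ({D.p1} + {D.p3} + Wd.pn D.w) +
    (q2 (fun e => nE D.N e) + q2 (fun y => nY D.N y) + q2 (fun x => nrX D.N x) +
      q2 (fun x => nlX D.N x)) := by
  simp only [pnL_cons, pnL_nil, Dt.B, Root.pn, Wd.pn, rV, rE, rY, rX, kE, kY,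
    List.map_cons, List.map_nil, List.sum_cons, List.sum_nil, Lt.pn, q2]
  abel

theorem pnL_old : pnL [D.old] = {D.p2} + ({D.p1} + {D.p3} + Wd.pn D.w) := by
  simp only [pnL_cons, pnL_nil, Root.pn, Wd.pn, old,
    List.map_cons, List.sum_cons, Lt.pn]
  abel

theorem fresh_eq : D.Vn.map Prod.fst + (q2 (fun e => nE D.N e) + q2 (fun y => nY D.N y) +
      q2 (fun x => nrX D.N x) + q2 (fun x => nlX D.N x)) +
      ((D.fr'.map Prod.fst : List ℕ) : Multiset ℕ) =
    (Multiset.range 30).map (fun i => D.N + i) := by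
  have h1 : ((D.fr'.map Prod.fst : List ℕ) : Multiset ℕ) = {D.N + 28} + {D.N + 29} := rfl
  have h2 : (Multiset.range 30) = {0} + {1} + {2} + {3} + {4} + {5} + {6} + {7} + {8} + {9} + {10}
    + {11} + {12} + {13} + {14} + {15} + {16} + {17} + {18} + {19} + {20} + {21} + {22} + {23} +
    {24} + {25} + {26} + {27} + {28} + {29} := by decide
  rw [h1, h2]
  simp only [Vn, q2, q4, Multiset.map_add, Multiset.map_singleton, nh1, nh3, nE, nY, nrX, nlX, na,
    nn', nb, nm', Bool.toNat_false, Bool.toNat_true, add_zero, mul_zero, mul_one,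
    Nat.add_assoc, Nat.reduceAdd]
  abel

theorem all_names : D.Vn.map Prod.fst + pnL D.B + ((D.fr'.map Prod.fst : List ℕ) : Multiset ℕ) =
    (Multiset.range 30).map (fun i => D.N + i) + ({D.p1} + {D.p3} + Wd.pn D.w) := by
  rw [← fresh_eq, pnL_B]
  abel

theorem nodup_new (h1 : (pnL [D.old]).Nodup) (h2 : ∀ x ∈ pnL [D.old], x < D.N) :
    (D.Vn.map Prod.fst + pnL D.B + ((D.fr'.map Prod.fst : List ℕ) : Multiset ℕ)).Nodup := by
  rw [all_names]
  rw [pnL_old] at h1 h2
  refine Multiset.nodup_add.2 ⟨?_, (Multiset.nodup_add.1 h1).2.1, ?_⟩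
  · exact (Multiset.nodup_range 30).map (fun a b h => by simpa using h)
  · rw [Multiset.disjoint_left]
    intro x hx hx'
    obtain ⟨i, _, rfl⟩ := Multiset.mem_map.1 hx
    have := h2 _ (Multiset.mem_add.2 (Or.inr hx'))
    omega

theorem fresh_new {T : Set ℕ} (hT : ∀ x ∈ T, x < D.N) {y : ℕ}
    (hy : y ∈ D.Vn.map Prod.fst + pnL D.B + ((D.fr'.map Prod.fst : List ℕ) : Multiset ℕ)) :
    y ∈ (0 : Multiset (ℕ × ℕ)).map Prod.fst ∨ y ∈ pnL [D.old] ∨ y ∉ T := by
  rw [all_names] at hy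
  rcases Multiset.mem_add.1 hy with hy | hy
  · right; right
    obtain ⟨i, _, rfl⟩ := Multiset.mem_map.1 hy
    intro h
    have := hT _ h
    omega
  · right; left
    rw [pnL_old]
    exact Multiset.mem_add.2 (Or.inr hy)

/-! ### counts and lengths -/

theorem len_bool (l : List Bool) : l.length = l.count false + l.count true := by
  induction l with
  | nil => simp
  | cons b l ih =>
    rw [List.length_cons, List.count_cons, List.count_cons]
    cases b <;> simp <;> omega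

theorem len_eq_of_count {l l' : List Bool} (h : ∀ b, l.count b = l'.count b) :
    l.length = l'.length := by
  rw [len_bool, len_bool, h, h]

theorem count_lt {l : List Bool} {k : ℕ} (hl : l.length = k) (h : ∀ b, 0 < l.count b) (b : Bool) :
    l.count b < k := by
  have h1 := len_bool l
  have h2 := h (!b)
  cases b
  · simp only [Bool.not_false] at h2; omega
  · simp only [Bool.not_true] at h2; omega

theorem jl_count_le (c d : List Bool) (h : c.length = d.length) (b a : Bool) :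
    (jl c d).count (b, a) ≤ c.count b := by
  rw [← count_restr, ← length_restr c d b h]
  exact List.count_le_length

/-- all the facts on lengths and counts -/
structure Fc (n : ℕ) (O : Subring ℂ) (D : Dt) : Prop extends Cn D where
  hk : D.k ≤ n
  hξ : IsSc O D.ξ
  lc1 : D.c1.length = D.k
  lE : D.E.length = D.k
  lX : D.X.length = D.k
  lX' : D.X'.length = D.k
  lY : D.Y.length = D.k
  lEt : D.Et.length = D.k
  lYt : D.Yt.length = D.k
  lXE : D.XE.length = D.k
  lXY : D.XY.length = D.k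
  c1Et : ∀ b, D.c1.count b = D.Et.count b
  XX' : ∀ b, D.X.count b = D.X'.count b
  Yc3 : ∀ b, D.Y.count b = D.c3.count b
  s1 : (∀ x y, D.σ1 x y = 1) ∨ Wd.last D.w (some D.c3) = some D.e1
  s2 : (∀ x y, D.σ2 x y = 1) ∨ D.E = D.e2
  s3 : (∀ x y, D.σ3 x y = 1) ∨ D.X' = D.e3
  t1 : ∀ x y, IsSc O (D.σ1 x y)
  t2 : ∀ x y, IsSc O (D.σ2 x y)
  t3 : ∀ x y, IsSc O (D.σ3 x y)
  hw : Wd.WF O D.w D.k (some D.c3)
  pE : ∀ b, 0 < D.E.count b
  pX : ∀ b, 0 < D.X.count b
  pY : ∀ b, 0 < D.Y.count b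

theorem sg_isSc {O : Subring ℂ} (x y : Bool) : IsSc O (sg x y) := by
  unfold sg
  split_ifs
  · exact IsSc.neg_one
  · exact IsSc.one

theorem WF_B {O : Subring ℂ} (F : Fc n O D) : ∀ r ∈ D.B, r.WF O n := by
  rw [forall_B]
  have hk := F.hk
  refine ⟨?_, ?_, ?_, ?_, ?_, ?_⟩
  · refine ⟨F.hk, F.hξ, F.lc1, F.c1Et, ?_, F.t1, F.lYt, fun b => (F.YtY b).trans (F.Yc3 b),
      Or.inr rfl, fun x y => sg_isSc x y, F.hw⟩
    exact F.s1
  · intro e
    refine ⟨?_, IsSc.one, ?_⟩
    · exact (List.count_le_length.trans F.lE.le).trans hk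
    · refine ⟨length_restr _ _ _ (F.lE.trans F.lX.symm), fun b => ?_, Or.inl fun _ _ => rfl,
        fun _ _ => IsSc.one, trivial⟩
      rw [count_restr, count_restr, F.cL]
  · intro y
    refine ⟨?_, IsSc.one, ?_⟩
    · exact (List.count_le_length.trans F.lY.le).trans hk
    · refine ⟨?_, fun b => ?_, Or.inl fun _ _ => rfl, fun _ _ => IsSc.one, trivial⟩
      · rw [length_restr _ _ _ (F.lYt.trans F.lXY.symm), F.YtY]; rfl
      · rw [count_restr, count_restr, count_jl_swap, F.cR, count_jl_swap]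
  · intro x
    refine ⟨?_, IsSc.one, ?_⟩
    · exact (List.count_le_length.trans F.lX.le).trans hk
    · refine ⟨?_, fun b => ?_, Or.inl fun _ _ => rfl, fun _ _ => IsSc.one, ?_, fun b => ?_,
        Or.inr rfl, fun _ _ => sg_isSc _ _, trivial⟩
      · rw [length_restr _ _ _ (F.lX'.trans F.lY.symm), ← F.XX']; rfl
      · rw [count_restr, count_restr, F.cR]
      · show (restr D.XE D.Et x).length = D.X.count x
        rw [← length_restr D.X D.E x (F.lX.trans F.lE.symm)]
        apply len_eq_of_count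
        intro b
        rw [count_restr, count_restr, count_jl_swap, ← F.cL, count_jl_swap]
      · rw [count_restr, count_restr, count_jl_swap, ← F.cL, count_jl_swap]
  · intro e x
    refine ⟨?_, F.t2 e x, trivial⟩
    have h1 := jl_count_le D.E D.X (F.lE.trans F.lX.symm) e x
    have h2 : D.E.count e ≤ D.E.length := List.count_le_length
    have h3 := F.lE
    show (jl D.E D.X).count (e, x) ≤ n
    omega
  · intro x y
    refine ⟨?_, F.t3 x y, trivial⟩
    have h1 := jl_count_le D.X' D.Y (F.lX'.trans F.lY.symm) x y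
    have h2 : D.X'.count x ≤ D.X'.length := List.count_le_length
    have h3 := F.lX'
    show (jl D.X' D.Y).count (x, y) ≤ n
    omega

/-- the roots other than `rV` -/
def Bt (D : Dt) : List Root := [D.rE false, D.rE true, D.rY false, D.rY true, D.rX false, D.rX true,
  D.kE false false, D.kE false true, D.kE true false, D.kE true true,
  D.kY false false, D.kY false true, D.kY true false, D.kY true true]

theorem B_eq : D.B = D.rV :: D.Bt := rfl

theorem Bt_lt {O : Subring ℂ} (F : Fc n O D) : ∀ r ∈ D.Bt, r.k < D.k := by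
  have hE := count_lt F.lE F.pE
  have hX := count_lt F.lX F.pX
  have hY := count_lt F.lY F.pY
  have hj1 : ∀ e x, (jl D.E D.X).count (e, x) < D.k := fun e x =>
    (jl_count_le D.E D.X (F.lE.trans F.lX.symm) e x).trans_lt (hE e)
  have hj2 : ∀ x y, (jl D.X' D.Y).count (x, y) < D.k := fun x y =>
    (jl_count_le D.X' D.Y (F.lX'.trans F.lY.symm) x y).trans_lt (by rw [← F.XX']; exact hX x)
  simp only [Bt, List.mem_cons, List.not_mem_nil, or_false, forall_eq_or_imp, forall_eq,
    rE, rY, rX, kE, kY]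
  exact ⟨hE _, hE _, hY _, hY _, hX _, hX _, hj1 _ _, hj1 _ _, hj1 _ _, hj1 _ _,
    hj2 _ _, hj2 _ _, hj2 _ _, hj2 _ _⟩

theorem adm_B {O : Subring ℂ} (F : Fc n O D) (k0 : ℕ) (h : Adm k0 ⟨[D.old], []⟩) :
    Adm k0 ⟨D.B, []⟩ := by
  have h0 : D.k < k0 ∨ (D.k = k0 ∧ _) := h D.old (List.mem_singleton.2 rfl)
  intro r hr
  rw [show (Sys.mk D.B []).roots = D.rV :: D.Bt from rfl] at hr
  rcases List.mem_cons.1 hr with rfl | hr
  · rcases h0 with h0 | h0
    · exact Or.inl h0
    · refine Or.inr ⟨h0.1, _, List.mem_cons_self, ?_⟩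
      intro b
      show 0 < D.c1.count b
      rw [F.c1E]
      exact F.pE b
  · have := Bt_lt F r hr
    left
    rcases h0 with h0 | h0
    · omega
    · omega

/-! ### weights -/

theorem lt_wt_le (l : Lt) (k m : ℕ) (h : m ∈ l.wt k) : m ≤ 3 * k + 2 := by
  cases l with
  | full x ε =>
    have h' : m ∈ ({3 * k + 1} : Multiset ℕ) := h
    rw [Multiset.mem_singleton] at h'
    omega
  | par p e σ c c' g =>
    simp only [Lt.wt] at h
    split_ifs at h <;> simp at h <;> omega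

theorem root_wt_le (r : Root) (m : ℕ) (h : m ∈ r.wt) : m ≤ 3 * r.k + 2 := by
  unfold Root.wt at h
  rcases Multiset.mem_cons.1 h with h | h
  · omega
  · obtain ⟨l, _, h⟩ := (mem_listSum _ _ _).1 h
    exact lt_wt_le l _ _ h

theorem wt_nd (p : ℕ) (e : List Bool) (σ : Bool → Bool → ℂˣ) (c c' : List Bool) (g : Bool → ℕ)
    (k : ℕ) (h : ∀ b, 0 < c.count b) :
    ∃ s : Multiset ℕ, Lt.wt k (Lt.par p e σ c c' g) = {3 * k} + s ∧ ∀ y ∈ s, y = 3 * k - 1 := by
  simp only [Lt.wt]
  rw [if_pos h]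
  split_ifs
  · exact ⟨0, by simp, by simp⟩
  · exact ⟨{3 * k - 1}, rfl, by simp⟩

theorem wt_B {O : Subring ℂ} (F : Fc n O D) :
    Multiset.IsDershowitzMannaLT (wtL D.B) (wtL [D.old]) := by
  obtain ⟨s, hs, hs'⟩ := wt_nd D.p3 D.Et sg D.Yt D.c3 (nh3 D.N) D.k
    (fun b => by rw [F.YtY]; exact F.pY b)
  obtain ⟨s3, hs3, -⟩ := wt_nd D.p3 D.e3 D.σ3 D.Y D.c3 D.g3 D.k F.pY
  obtain ⟨s2, hs2, -⟩ := wt_nd D.p2 D.e2 D.σ2 D.X D.X' D.g2 D.k F.pX
  have hk : 0 < D.k := (Nat.zero_le _).trans_lt (count_lt F.lE F.pE false)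
  refine ⟨{3 * D.k} + Lt.wt D.k (Lt.par D.p1 D.e1 D.σ1 D.c1 D.E D.g1) + {3 * D.k} +
    Wd.wt D.w D.k, s + wtL D.Bt, {3 * D.k} + s2 + s3, ?_, ?_, ?_, ?_⟩
  · intro h
    have := congrArg Multiset.card h
    simp at this
  · rw [B_eq, wtL_cons]
    have : D.rV.wt = {3 * D.k} + (Lt.wt D.k (Lt.par D.p1 D.e1 D.σ1 D.c1 D.E D.g1) +
      (Lt.wt D.k (Lt.par D.p3 D.Et sg D.Yt D.c3 (nh3 D.N)) + Wd.wt D.w D.k)) := by
      simp only [Root.wt, rV, Wd.wt, List.map_cons, List.sum_cons]
      rfl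
    rw [this, hs]
    abel
  · rw [wtL_cons, wtL_nil]
    have : D.old.wt = {3 * D.k} + (Lt.wt D.k (Lt.par D.p1 D.e1 D.σ1 D.c1 D.E D.g1) +
      (Lt.wt D.k (Lt.par D.p2 D.e2 D.σ2 D.X D.X' D.g2) +
      (Lt.wt D.k (Lt.par D.p3 D.e3 D.σ3 D.Y D.c3 D.g3) + Wd.wt D.w D.k))) := by
      simp only [Root.wt, old, Wd.wt, List.map_cons, List.sum_cons]
      rfl
    rw [this, hs3, hs2]
    abel
  · intro y hy
    refine ⟨3 * D.k, by simp, ?_⟩
    rcases Multiset.mem_add.1 hy with hy | hy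
    · have := hs' y hy
      omega
    · obtain ⟨r, hr, hy⟩ := (mem_listSum _ _ _).1 hy
      have h1 := root_wt_le r y hy
      have h2 := Bt_lt F r hr
      omega

end Dt

end Crest.Agent.R003.S227
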