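import Crest.Agent.R003.Sys4_452
import Crest.Agent.R003.FlagD382

/-!
# Row 3: bridge between the flag matrices of helper382 and the P-words (helper452)
-/

set_option autoImplicit false

open Matrix Crest.Agent.R003.Flag

namespace Crest.Agent.R003.Sys4

/-- the composition of a flag type -/
def cm (l : List (ℂˣ × ℕ)) : List (ℕ × ℂˣ) := l.map Prod.swap

@[simp] theorem cm_nil : cm [] = [] := rfl
@[simp] theorem cm_cons (x : ℂˣ × ℕ) (l : List (ℂˣ × ℕ)) : cm (x :: l) = (x.2, x.1) :: cm l := rfl

theorem sz_cm (l : List (ℂˣ × ℕ)) : sz (cm l) = size l := by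
  induction l with
  | nil => rfl
  | cons x l ih => rw [cm_cons, sz_cons, ih]; rfl

theorem lab_lb_lt {m k i : ℕ} (h : i < m) : lab (lb m k) i = some false := by
  show (lb m k)[i]? = _
  unfold lb
  rw [List.getElem?_append_left (by simpa using h), List.getElem?_replicate]
  simp [h]

theorem lab_lb_ge {m k i : ℕ} (h : m ≤ i) (h' : i < m + k) : lab (lb m k) i = some true := by
  show (lb m k)[i]? = _
  unfold lb
  rw [List.getElem?_append_right (by simpa using h), List.getElem?_replicate]
  simp only [List.length_replicate]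
  rw [if_pos (by omega)]

theorem lab_lb_none {m k i : ℕ} (h : m + k ≤ i) : lab (lb m k) i = none := by
  show (lb m k)[i]? = _
  rw [List.getElem?_eq_none]
  rw [lb_length]; exact h

theorem lab_false {m k i : ℕ} (h : lab (lb m k) i = some false) : i < m := by
  by_contra h1
  by_cases h2 : i < m + k
  · rw [lab_lb_ge (by omega) h2] at h; simp at h
  · rw [lab_lb_none (by omega)] at h; simp at h

theorem lab_true {m k i : ℕ} (h : lab (lb m k) i = some true) : m ≤ i ∧ i < m + k := by
  by_cases h1 : i < m
  · rw [lab_lb_lt h1] at h; simp at h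
  · by_cases h2 : i < m + k
    · exact ⟨by omega, h2⟩
    · rw [lab_lb_none (by omega)] at h; simp at h

theorem take_false {m k i : ℕ} (h : i ≤ m) : ((lb m k).take i).count false = i := by
  unfold lb
  rw [List.take_append_of_le_length (by simpa using h), List.take_replicate, List.count_replicate]
  simp [h]

theorem take_true {m k i : ℕ} (h : m ≤ i) (h' : i ≤ m + k) :
    ((lb m k).take i).count true = i - m := by
  unfold lb
  rw [List.take_append, List.count_append, List.take_replicate, List.take_replicate,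
    List.count_replicate, List.count_replicate]
  simp only [List.length_replicate]
  have : min (i - m) k = i - m := by omega
  simp [this]

theorem size_cons (x : ℂˣ × ℕ) (l : List (ℂˣ × ℕ)) : size (x :: l) = x.2 + size l := rfl

theorem scal_apply {n k : ℕ} (a : ℂˣ) (i j : Fin n) :
    (scal n k a).1 i j = if i = j then (if i.1 < k then (a : ℂ) else 1) else 0 := by
  show Matrix.diagonal (fun i : Fin n => (((if i.1 < k then a else 1 : ℂˣ)) : ℂ)) i j = _
  rw [Matrix.diagonal_apply]
  by_cases h : i = j
  · rw [if_pos h, if_pos h]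
    by_cases h2 : i.1 < k
    · rw [if_pos h2, if_pos h2]
    · rw [if_neg h2, if_neg h2]; rfl
  · rw [if_neg h, if_neg h]

/-- flag matrices give P-words -/
theorem inLU_of_flag (n : ℕ) (l : List (ℂˣ × ℕ)) : ∀ (hk : size l ≤ n) (Y : G (size l)),
    IsFlagMat l Y.1 → InLU n (cm l) (emb n (size l) hk Y) := by
  induction l with
  | nil =>
    intro hk Y _
    show emb n (size []) hk Y = 1
    have : Y = 1 := by
      apply Units.ext
      ext i j
      exact absurd i.2 (by simp [size])
    rw [this, map_one]
  | cons x l ih =>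
    intro hk Y hY
    obtain ⟨B, Y', hY1, hY2⟩ := hY
    rw [size_cons] at hk
    have hdet : Y'.det ≠ 0 := by
      have h1 : (Y.1 : Matrix (Fin (size (x :: l))) (Fin (size (x :: l))) ℂ).det ≠ 0 :=
        ((Matrix.isUnit_iff_isUnit_det _).1 Y.isUnit).ne_zero
      rw [hY1] at h1
      change ((fromBlocks ((x.1 : ℂ) • (1 : Matrix (Fin x.2) (Fin x.2) ℂ)) B 0 Y').submatrix
        finSumFinEquiv.symm finSumFinEquiv.symm : Matrix (Fin (x.2 + size l)) (Fin (x.2 + size l)) ℂ).det ≠ 0 at h1
      rw [Matrix.det_submatrix_equiv_self, Matrix.det_fromBlocks_zero₂₁] at h1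
      exact right_ne_zero_of_mul h1
    let Yu : G (size l) := Matrix.GeneralLinearGroup.mkOfDetNeZero Y' hdet
    have hYu : Yu.1 = Y' := rfl
    refine ⟨emb n (size l) (by omega) Yu, ih _ Yu (by rw [hYu]; exact hY2), ?_⟩
    have hsz : sz (List.map Prod.swap l) = size l := sz_cm l
    rw [hsz]
    have hent : ∀ (i j : ℕ) (hi : i < x.2 + size l) (hj : j < x.2 + size l),
        Y.1 (⟨i, hi⟩ : Fin (size (x :: l))) (⟨j, hj⟩ : Fin (size (x :: l))) =
        fromBlocks ((x.1 : ℂ) • (1 : Matrix (Fin x.2) (Fin x.2) ℂ)) B 0 Y'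
          (finSumFinEquiv.symm ⟨i, hi⟩) (finSumFinEquiv.symm ⟨j, hj⟩) := by
      intro i j hi hj
      rw [hY1]; rfl
    have hinl : ∀ (i : ℕ) (hi : i < x.2) (hi' : i < x.2 + size l),
        (finSumFinEquiv.symm (⟨i, hi'⟩ : Fin (x.2 + size l)) : Fin x.2 ⊕ Fin (size l)) =
          Sum.inl ⟨i, hi⟩ := by
      intro i hi hi'
      rw [Equiv.symm_apply_eq, finSumFinEquiv_apply_left]
      rfl
    have hinr : ∀ (i : ℕ) (hi : x.2 ≤ i) (hi' : i < x.2 + size l),
        (finSumFinEquiv.symm (⟨i, hi'⟩ : Fin (x.2 + size l)) : Fin x.2 ⊕ Fin (size l)) =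
          Sum.inr ⟨i - x.2, by omega⟩ := by
      intro i hi hi'
      rw [Equiv.symm_apply_eq, finSumFinEquiv_apply_right]
      ext
      simp only [Fin.val_natAdd]
      omega
    refine ⟨by rw [lb_length]; exact hk, fun _ => rfl, ?_, fun b => ?_, ?_, ?_⟩
    · rw [lb_length]; exact emb_mem _ _
    · cases b
      · rw [lb_count_false]; exact scal_mem_GLk le_rfl _
      · rw [lb_count_true]; exact emb_mem _ _
    · intro i j a b ha hb hab
      have hab' : a = true ∧ b = false := by
        revert hab; cases a <;> cases b <;> simp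
      obtain ⟨rfl, rfl⟩ := hab'
      obtain ⟨h1, h2⟩ := lab_true ha
      have h3 := lab_false hb
      rw [emb_val, embM_lt _ (by rw [size_cons]; exact h2) (by rw [size_cons]; omega), hent _ _ h2 (by omega),
        hinr _ h1 h2, hinl _ h3 (by omega)]
      rfl
    · intro i j u v a ha hb hu hv
      cases a
      · have h1 := lab_false ha
        have h3 := lab_false hb
        rw [take_false h1.le] at hu
        rw [take_false h3.le] at hv
        have hui : u = i := Fin.ext hu
        have hvj : v = j := Fin.ext hv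
        subst hui hvj
        rw [emb_val, embM_lt _ (by rw [size_cons]; omega) (by rw [size_cons]; omega),
          hent _ _ (by omega) (by omega), hinl _ h1 (by omega), hinl _ h3 (by omega)]
        simp only [fromBlocks_apply₁₁, Matrix.smul_apply, Matrix.one_apply,
          smul_eq_mul, mul_ite, mul_one, mul_zero, Bool.false_eq_true, if_false, scal_apply,
          Fin.ext_iff, h1, if_true]
      · obtain ⟨h1, h2⟩ := lab_true ha
        obtain ⟨h3, h4⟩ := lab_true hb
        rw [take_true h1 h2.le] at hu
        rw [take_true h3 h4.le] at hv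
        rw [emb_val, embM_lt _ (by rw [size_cons]; omega) (by rw [size_cons]; omega),
          hent _ _ (by omega) (by omega), hinr _ h1 h2, hinr _ h3 h4]
        simp only [if_true, fromBlocks_apply₂₂]
        rw [emb_val, embM_lt _ (by omega) (by omega), hYu]
        congr 1
        · exact Fin.ext hu.symm
        · exact Fin.ext hv.symm

/-- P-words give flag matrices -/
theorem flag_of_inLU (n : ℕ) (l : List (ℂˣ × ℕ)) : ∀ (hk : size l ≤ n) (P : G n),
    InLU n (cm l) P → IsFlagMat l (P.1.submatrix (Fin.castLE hk) (Fin.castLE hk)) := by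
  induction l with
  | nil => intro _ _ _; trivial
  | cons x l ih =>
    intro hk P hP
    obtain ⟨q, hq, hpar⟩ := hP
    have hsz : sz (List.map Prod.swap l) = size l := sz_cm l
    rw [hsz] at hpar
    have hk' := hk
    rw [size_cons] at hk'
    have hl : size l ≤ n := by omega
    refine ⟨Matrix.of fun i j => P.1 ⟨i.1, by omega⟩ ⟨x.2 + j.1, by omega⟩,
      q.1.submatrix (Fin.castLE hl) (Fin.castLE hl), ?_, ih hl q hq⟩
    ext i j
    obtain ⟨a, rfl⟩ := (finSumFinEquiv (m := x.2) (n := size l)).surjective i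
    obtain ⟨b, rfl⟩ := (finSumFinEquiv (m := x.2) (n := size l)).surjective j
    rw [Matrix.submatrix_apply, Matrix.submatrix_apply, Equiv.symm_apply_apply,
      Equiv.symm_apply_apply]
    rcases a with a | a <;> rcases b with b | b
    · simp only [fromBlocks_apply₁₁, finSumFinEquiv_apply_left]
      have h1 := hpar.diag ⟨a.1, by omega⟩ ⟨b.1, by omega⟩ ⟨a.1, by omega⟩ ⟨b.1, by omega⟩ false
        (lab_lb_lt a.2) (lab_lb_lt b.2) (take_false a.2.le).symm (take_false b.2.le).symm
      simp only [Bool.false_eq_true, if_false, scal_apply, a.2, if_true] at h1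
      have h2 : P.1 (Fin.castLE hk (Fin.castAdd (size l) a)) (Fin.castLE hk (Fin.castAdd (size l) b)) =
        P.1 ⟨a.1, by omega⟩ ⟨b.1, by omega⟩ := rfl
      rw [h2, h1]
      simp [Matrix.one_apply, Fin.ext_iff]
    · simp only [fromBlocks_apply₁₂, finSumFinEquiv_apply_left, finSumFinEquiv_apply_right,
        Matrix.of_apply]
      rfl
    · simp only [fromBlocks_apply₂₁, finSumFinEquiv_apply_left, finSumFinEquiv_apply_right,
        Matrix.zero_apply]
      exact hpar.zero ⟨x.2 + a.1, by omega⟩ ⟨b.1, by omega⟩ true false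
        (lab_lb_ge (by simp) (by simp)) (lab_lb_lt b.2) (by simp)
    · simp only [fromBlocks_apply₂₂, finSumFinEquiv_apply_right, Matrix.submatrix_apply]
      have h1 := hpar.diag ⟨x.2 + a.1, by omega⟩ ⟨x.2 + b.1, by omega⟩ ⟨a.1, by omega⟩
        ⟨b.1, by omega⟩ true (lab_lb_ge (by simp) (by simp)) (lab_lb_ge (by simp) (by simp))
        (by rw [take_true (by simp) (by simp)]; simp)
        (by rw [take_true (by simp) (by simp)]; simp)
      simp only [if_true] at h1
      exact h1

theorem inLU_of_flagG {n k : ℕ} (l : List (ℂˣ × ℕ)) (hk : k ≤ n) (Y : G k)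
    (h : IsFlagG l k Y.1) : InLU n (cm l) (emb n k hk Y) := by
  obtain ⟨rfl, h⟩ := h
  exact inLU_of_flag n l hk Y h

theorem flagG_of_inLU {n k : ℕ} (l : List (ℂˣ × ℕ)) (hk : k ≤ n) (P : G n) (hP : P ∈ GLk n k)
    (hl : size l = k) (h : InLU n (cm l) P) : IsFlagG l k (unemb n k hk P hP).1 := by
  subst hl
  exact ⟨rfl, flag_of_inLU n l hk P h⟩

end Crest.Agent.R003.Sys4
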