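import Crest.Agent.R003.Defs

/-!
# Row 3 (S0003): the labelled Bruhat lemma and the rank normal form (helper686)
-/

set_option autoImplicit false

open Module

namespace Crest.Agent.R003

section Basis

variable {K V : Type*} [Field K] [AddCommGroup V] [Module K V]

theorem span_range_finBasis_coe [FiniteDimensional K V] (A : Submodule K V) :
    Submodule.span K (Set.range fun i => (finBasis K A i : V)) = A := by
  have h : (Set.range fun i => (finBasis K A i : V)) = A.subtype '' Set.range (finBasis K A) := by
    rw [← Set.range_comp]; rfl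
  rw [h, ← Submodule.map_span, Basis.span_eq, Submodule.map_subtype_top]

theorem four_basis [FiniteDimensional K V] (A₁ A₂ A₃ A₄ : Submodule K V)
    (hs : (A₁ ⊔ A₂) ⊔ (A₃ ⊔ A₄) = ⊤)
    (hd : (finrank K A₁ + finrank K A₂) + (finrank K A₃ + finrank K A₄) = finrank K V) :
    ∃ b : Basis ((Fin (finrank K A₁) ⊕ Fin (finrank K A₂)) ⊕
        (Fin (finrank K A₃) ⊕ Fin (finrank K A₄))) K V,
      (∀ i, b (Sum.inl (Sum.inl i)) ∈ A₁) ∧ (∀ i, b (Sum.inl (Sum.inr i)) ∈ A₂) ∧
      (∀ i, b (Sum.inr (Sum.inl i)) ∈ A₃) ∧ (∀ i, b (Sum.inr (Sum.inr i)) ∈ A₄) := by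
  let v : ((Fin (finrank K A₁) ⊕ Fin (finrank K A₂)) ⊕
        (Fin (finrank K A₃) ⊕ Fin (finrank K A₄))) → V := Sum.elim
    (Sum.elim (fun i => (finBasis K A₁ i : V)) (fun i => (finBasis K A₂ i : V)))
    (Sum.elim (fun i => (finBasis K A₃ i : V)) (fun i => (finBasis K A₄ i : V)))
  have hspan : ⊤ ≤ Submodule.span K (Set.range v) := by
    have h0 : Set.range v = (Set.range (fun i => (finBasis K A₁ i : V)) ∪
        Set.range (fun i => (finBasis K A₂ i : V))) ∪
        (Set.range (fun i => (finBasis K A₃ i : V)) ∪ Set.range (fun i => (finBasis K A₄ i : V))) := by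
      simp only [v, Set.Sum.elim_range]
    rw [h0, Submodule.span_union, Submodule.span_union, Submodule.span_union,
      span_range_finBasis_coe, span_range_finBasis_coe, span_range_finBasis_coe,
      span_range_finBasis_coe, hs]
  have hcard : Fintype.card ((Fin (finrank K A₁) ⊕ Fin (finrank K A₂)) ⊕
        (Fin (finrank K A₃) ⊕ Fin (finrank K A₄))) = finrank K V := by
    simp only [Fintype.card_sum, Fintype.card_fin]
    omega
  refine ⟨basisOfTopLeSpanOfCardEqFinrank v hspan hcard, ?_, ?_, ?_, ?_⟩ <;> intro i <;>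
    rw [coe_basisOfTopLeSpanOfCardEqFinrank]
  · exact (finBasis K A₁ i).2
  · exact (finBasis K A₂ i).2
  · exact (finBasis K A₃ i).2
  · exact (finBasis K A₄ i).2

/-- a basis adapted to two subspaces -/
theorem adapted_basis [FiniteDimensional K V] (U W : Submodule K V) {k : ℕ}
    (hk : finrank K V = k) :
    ∃ (b : Basis (Fin k) K V) (f : Fin k → Bool × Bool),
      (∀ i, (f i).1 = false → b i ∈ U) ∧ (∀ i, (f i).2 = false → b i ∈ W) ∧
      (Finset.univ.filter fun i => (f i).1 = false).card = finrank K U ∧
      (Finset.univ.filter fun i => (f i).2 = false).card = finrank K W := by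
  classical
  obtain ⟨C, hC⟩ := Submodule.exists_isCompl (U ⊓ W)
  obtain ⟨V1, hV1⟩ := Submodule.exists_isCompl (U ⊔ W)
  have hmod : ∀ Y : Submodule K V, U ⊓ W ≤ Y → (U ⊓ W) ⊔ (Y ⊓ C) = Y := by
    intro Y hY
    rw [inf_comm Y C, ← sup_inf_assoc_of_le C hY, hC.sup_eq_top, top_inf_eq]
  have hdis : ∀ Y : Submodule K V, (U ⊓ W) ⊓ (Y ⊓ C) = ⊥ := by
    intro Y
    have := hC.inf_eq_bot
    refine le_bot_iff.1 (le_trans ?_ this.le)
    exact inf_le_inf_left _ inf_le_right
  have dim1 : ∀ Y : Submodule K V, U ⊓ W ≤ Y →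
      finrank K ↥(U ⊓ W) + finrank K ↥(Y ⊓ C) = finrank K Y := by
    intro Y hY
    have h := Submodule.finrank_sup_add_finrank_inf_eq (U ⊓ W) (Y ⊓ C)
    rw [hmod Y hY, hdis Y, finrank_bot] at h
    omega
  have hU := dim1 U inf_le_left
  have hW := dim1 W inf_le_right
  have hUW := Submodule.finrank_sup_add_finrank_inf_eq U W
  have hV := Submodule.finrank_add_eq_of_isCompl hV1
  have hs : ((U ⊓ W) ⊔ (U ⊓ C)) ⊔ ((W ⊓ C) ⊔ V1) = ⊤ := by
    rw [hmod U inf_le_left, ← top_le_iff, ← hV1.sup_eq_top, ← sup_assoc]
    refine sup_le_sup_right (sup_le le_sup_left ?_) _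
    calc W = (U ⊓ W) ⊔ (W ⊓ C) := (hmod W inf_le_right).symm
      _ ≤ U ⊔ W ⊓ C := sup_le_sup_right inf_le_left _
  obtain ⟨B, h1, h2, h3, h4⟩ := four_basis (U ⊓ W) (U ⊓ C) (W ⊓ C) V1 hs (by omega)
  have hcard : Fintype.card ((Fin (finrank K ↥(U ⊓ W)) ⊕ Fin (finrank K ↥(U ⊓ C))) ⊕
        (Fin (finrank K ↥(W ⊓ C)) ⊕ Fin (finrank K ↥V1))) = k := by
    simp only [Fintype.card_sum, Fintype.card_fin]
    omega
  generalize finrank K ↥(U ⊓ W) = a at *
  generalize finrank K ↥(U ⊓ C) = u at *
  generalize finrank K ↥(W ⊓ C) = w at *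
  generalize finrank K ↥V1 = v1 at *
  let e := Fintype.equivFinOfCardEq hcard
  let g : ((Fin a ⊕ Fin u) ⊕ (Fin w ⊕ Fin v1)) → Bool × Bool :=
    Sum.elim (Sum.elim (fun _ => (false, false)) (fun _ => (false, true)))
      (Sum.elim (fun _ => (true, false)) (fun _ => (true, true)))
  refine ⟨B.reindex e, fun i => g (e.symm i), ?_, ?_, ?_, ?_⟩
  · intro i hi
    rw [Basis.reindex_apply]
    replace hi : (g (e.symm i)).1 = false := hi
    generalize e.symm i = x at hi ⊢
    rcases x with (x | x) | (x | x)
    · exact (Submodule.mem_inf.1 (h1 x)).1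
    · exact (Submodule.mem_inf.1 (h2 x)).1
    · simp [g] at hi
    · simp [g] at hi
  · intro i hi
    rw [Basis.reindex_apply]
    replace hi : (g (e.symm i)).2 = false := hi
    generalize e.symm i = x at hi ⊢
    rcases x with (x | x) | (x | x)
    · exact (Submodule.mem_inf.1 (h1 x)).2
    · simp [g] at hi
    · exact (Submodule.mem_inf.1 (h3 x)).1
    · simp [g] at hi
  · have h1 : (Finset.univ.filter fun i => (g (e.symm i)).1 = false).card =
        (Finset.univ.filter fun x => (g x).1 = false).card := by
      refine Finset.card_bij' (fun i _ => e.symm i) (fun x _ => e x) ?_ ?_ ?_ ?_ <;> simp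
    rw [h1, ← hU]
    have h2 : (Finset.univ.filter fun x => (g x).1 = false) =
        Finset.univ.map ⟨Sum.inl, Sum.inl_injective⟩ := by
      ext x
      rcases x with (x | x) | (x | x) <;> simp [g]
    rw [h2, Finset.card_map, Finset.card_univ, Fintype.card_sum, Fintype.card_fin,
      Fintype.card_fin]
  · have h1 : (Finset.univ.filter fun i => (g (e.symm i)).2 = false).card =
        (Finset.univ.filter fun x => (g x).2 = false).card := by
      refine Finset.card_bij' (fun i _ => e.symm i) (fun x _ => e x) ?_ ?_ ?_ ?_ <;> simp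
    rw [h1, ← hW]
    have h2 : (Finset.univ.filter fun x => (g x).2 = false) =
        Finset.univ.image (Sum.map Sum.inl Sum.inl : Fin a ⊕ Fin w → _) := by
      ext x
      simp only [Finset.mem_filter, Finset.mem_univ, true_and, Finset.mem_image]
      constructor
      · rcases x with (x | x) | (x | x)
        · intro _; exact ⟨Sum.inl x, rfl⟩
        · intro h; simp [g] at h
        · intro _; exact ⟨Sum.inr x, rfl⟩
        · intro h; simp [g] at h
      · rintro ⟨y | y, rfl⟩ <;> simp [g]
    rw [h2, Finset.card_image_of_injective _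
      (Function.Injective.sumMap Sum.inl_injective Sum.inl_injective), Finset.card_univ,
      Fintype.card_sum, Fintype.card_fin, Fintype.card_fin]

end Basis

section Core

variable {K : Type*} [Field K] {k : ℕ}

/-- vectors vanishing where `E = true` -/
def zsub (K : Type*) [Field K] {k : ℕ} (E : Fin k → Bool) : Submodule K (Fin k → K) where
  carrier := {v | ∀ i, E i = true → v i = 0}
  add_mem' := by
    intro a b ha hb i hi
    rw [Pi.add_apply, ha i hi, hb i hi, add_zero]
  zero_mem' := by
    intro i _
    rfl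
  smul_mem' := by
    intro c a ha i hi
    rw [Pi.smul_apply, ha i hi, smul_zero]

theorem mem_zsub {E : Fin k → Bool} {v : Fin k → K} :
    v ∈ zsub K E ↔ ∀ i, E i = true → v i = 0 := Iff.rfl

/-- `zsub` is isomorphic to the functions on `{E = false}` -/
noncomputable def zsubEquiv (E : Fin k → Bool) : zsub K E ≃ₗ[K] ({i // E i = false} → K) where
  toFun v i := v.1 i.1
  map_add' _ _ := rfl
  map_smul' _ _ := rfl
  invFun w := ⟨fun i => if h : E i = false then w ⟨i, h⟩ else 0, by
    intro i hi
    simp [hi]⟩
  left_inv := by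
    intro v
    ext i
    by_cases h : E i = false
    · simp [h]
    · have h' : E i = true := by simpa using h
      simp [h', v.2 i h']
  right_inv := by
    intro w
    funext i
    simp [i.2]

theorem finrank_zsub (E : Fin k → Bool) :
    finrank K (zsub K E) = (Finset.univ.filter fun i => E i = false).card := by
  rw [LinearEquiv.finrank_eq (zsubEquiv E), finrank_fintype_fun_eq_card, Fintype.card_subtype]

theorem card_true_eq {f : Fin k → Bool} {E : Fin k → Bool}
    (h : (Finset.univ.filter fun i => f i = false).card =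
      (Finset.univ.filter fun i => E i = false).card) (b : Bool) :
    (Finset.univ.filter fun i => f i = b).card = (Finset.univ.filter fun i => E i = b).card := by
  cases b with
  | false => exact h
  | true =>
    have h1 := Finset.card_filter_add_card_filter_not (s := (Finset.univ : Finset (Fin k)))
      (fun i => f i = false)
    have h2 := Finset.card_filter_add_card_filter_not (s := (Finset.univ : Finset (Fin k)))
      (fun i => E i = false)
    simp only [Bool.not_eq_false] at h1 h2
    omega

/-- coordinates of the vectors of `W` with respect to an adapted basis -/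
theorem repr_eq_zero_of_adapted {V : Type*} [AddCommGroup V] [Module K V] [FiniteDimensional K V]
    (b : Basis (Fin k) K V) (W : Submodule K V) (t : Fin k → Bool)
    (h : ∀ i, t i = false → b i ∈ W)
    (hc : (Finset.univ.filter fun i => t i = false).card = finrank K W) {v : V} (hv : v ∈ W)
    {i : Fin k} (hi : t i = true) : b.repr v i = 0 := by
  classical
  have hli : LinearIndependent K (fun j : {j // t j = false} => b j.1) :=
    b.linearIndependent.comp _ Subtype.val_injective
  have hr : Set.range (fun j : {j // t j = false} => b j.1) = b '' {j | t j = false} := by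
    ext x
    simp
  have hW : Submodule.span K (b '' {j | t j = false}) = W := by
    apply Submodule.eq_of_le_of_finrank_eq
    · rw [Submodule.span_le]
      rintro _ ⟨j, hj, rfl⟩
      exact h j hj
    · rw [← hr, finrank_span_eq_card hli, ← hc, Fintype.card_subtype]
  rw [← hW, Basis.mem_span_image] at hv
  by_contra hne
  have : i ∈ ((b.repr v).support : Set (Fin k)) := by simpa using hne
  have := hv this
  simp [hi] at this

/-- Bruhat decomposition with joint labels. -/
theorem bruhat_core (X : Matrix (Fin k) (Fin k) K) (hX : IsUnit X) (E F : Fin k → Bool) :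
    ∃ (f : Fin k → Bool × Bool) (q q' : Matrix (Fin k) (Fin k) K), IsUnit q ∧ IsUnit q' ∧
      X = q * q' ∧
      (∀ i j, E i = true → (f j).1 = false → q i j = 0) ∧
      (∀ i j, (f i).2 = true → F j = false → q' i j = 0) ∧
      (∀ b, (Finset.univ.filter fun i => (f i).1 = b).card =
        (Finset.univ.filter fun i => E i = b).card) ∧
      (∀ b, (Finset.univ.filter fun i => (f i).2 = b).card =
        (Finset.univ.filter fun i => F i = b).card) := by
  classical
  have hXi : Function.Injective (Matrix.mulVecLin X) := by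
    rw [Matrix.coe_mulVecLin]
    exact Matrix.mulVec_injective_of_isUnit hX
  obtain ⟨b, f, hb1, hb2, hc1, hc2⟩ := adapted_basis (zsub K E)
    ((zsub K F).map (Matrix.mulVecLin X)) (k := k) (by simp)
  let c := Pi.basisFun K (Fin k)
  have hq1 : c.toMatrix b * b.toMatrix c = 1 := Basis.toMatrix_mul_toMatrix_flip _ _
  have hq2 : b.toMatrix c * c.toMatrix b = 1 := Basis.toMatrix_mul_toMatrix_flip _ _
  have hu1 : IsUnit (c.toMatrix b) := ⟨⟨_, _, hq1, hq2⟩, rfl⟩
  have hu2 : IsUnit (b.toMatrix c) := ⟨⟨_, _, hq2, hq1⟩, rfl⟩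
  refine ⟨f, c.toMatrix b, b.toMatrix c * X, hu1, hu2.mul hX, ?_, ?_, ?_, ?_, ?_⟩
  · rw [← Matrix.mul_assoc, hq1, Matrix.one_mul]
  · intro i j hi hj
    have := hb1 j hj i hi
    rw [Basis.toMatrix_apply, Pi.basisFun_repr]
    exact this
  · intro i j hi hj
    have hmem : X.mulVec (Pi.single j 1) ∈ (zsub K F).map (Matrix.mulVecLin X) := by
      refine ⟨Pi.single j 1, ?_, rfl⟩
      intro l hl
      have : l ≠ j := by
        rintro rfl
        rw [hl] at hj
        exact Bool.noConfusion hj
      rw [Pi.single_eq_of_ne this]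
    have h0 := repr_eq_zero_of_adapted b _ (fun i => (f i).2) hb2 hc2 hmem hi
    have h1 : (b.toMatrix c * X) i j = b.repr (X.mulVec (Pi.single j 1)) i := by
      rw [Matrix.mul_apply]
      have h2 : X.mulVec (Pi.single j 1) = ∑ l, X l j • c l := by
        ext l
        rw [Finset.sum_apply]
        simp [c, Pi.basisFun_apply, Pi.single_apply]
      rw [h2, map_sum, Finsupp.finset_sum_apply]
      refine Finset.sum_congr rfl fun l _ => ?_
      rw [Basis.toMatrix_apply, map_smul, Finsupp.smul_apply, smul_eq_mul, mul_comm]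
    rw [h1, h0]
  · intro b'
    refine card_true_eq (f := fun i => (f i).1) (E := E) ?_ b'
    rw [hc1, finrank_zsub]
  · intro b'
    refine card_true_eq (f := fun i => (f i).2) (E := F) ?_ b'
    rw [hc2, (Submodule.equivMapOfInjective _ hXi (zsub K F)).symm.finrank_eq, finrank_zsub]

/-- two functions with the same fibre cardinalities differ by a permutation -/
theorem exists_perm_of_card_eq {α β : Type*} [Fintype α] [DecidableEq β] (f g : α → β)
    (h : ∀ b, (Finset.univ.filter fun i => f i = b).card =
      (Finset.univ.filter fun i => g i = b).card) :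
    ∃ σ : Equiv.Perm α, ∀ i, g i = f (σ i) := by
  classical
  have e : ∀ b, {i // g i = b} ≃ {i // f i = b} := by
    intro b
    refine Fintype.equivOfCardEq ?_
    rw [Fintype.card_subtype, Fintype.card_subtype, h b]
  refine ⟨(Equiv.sigmaFiberEquiv g).symm.trans ((Equiv.sigmaCongrRight e).trans
    (Equiv.sigmaFiberEquiv f)), ?_⟩
  intro i
  simp only [Equiv.trans_apply, Equiv.sigmaFiberEquiv, Equiv.coe_fn_symm_mk, Equiv.coe_fn_mk,
    Equiv.sigmaCongrRight_apply, Sigma.map]
  exact ((e (g i)) ⟨i, rfl⟩).2.symm

end Core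

end Crest.Agent.R003
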