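import Crest.Agent.R003.Bruhat686
import Crest.Agent.R003.Iface

/-!
# Row 3 (S0003): Bruhat lemma for `GLk n k` and label lists (helper686)
-/

set_option autoImplicit false

namespace Crest.Agent.R003

/-- `Fin n ≃ Fin k ⊕ Fin (n - k)` -/
def splitE {n k : ℕ} (h : k ≤ n) : Fin n ≃ Fin k ⊕ Fin (n - k) :=
  (finCongr (by omega : n = k + (n - k))).trans finSumFinEquiv.symm

theorem splitE_lt {n k : ℕ} (h : k ≤ n) (i : Fin n) (hi : i.1 < k) :
    splitE h i = Sum.inl ⟨i.1, hi⟩ := by
  rw [splitE, Equiv.trans_apply, Equiv.symm_apply_eq]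
  ext
  simp

theorem splitE_ge {n k : ℕ} (h : k ≤ n) (i : Fin n) (hi : k ≤ i.1) :
    splitE h i = Sum.inr ⟨i.1 - k, by omega⟩ := by
  rw [splitE, Equiv.trans_apply, Equiv.symm_apply_eq]
  ext
  simp
  omega

/-- top left block embedding -/
noncomputable def emb686 {n k : ℕ} (h : k ≤ n) (A : Matrix (Fin k) (Fin k) ℂ) :
    Matrix (Fin n) (Fin n) ℂ :=
  (Matrix.fromBlocks A 0 0 1).submatrix (splitE h) (splitE h)

theorem emb_mul {n k : ℕ} (h : k ≤ n) (A B : Matrix (Fin k) (Fin k) ℂ) :
    emb686 h (A * B) = emb686 h A * emb686 h B := by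
  rw [emb686, emb686, emb686, Matrix.submatrix_mul_equiv, Matrix.fromBlocks_multiply]
  simp

theorem emb_one {n k : ℕ} (h : k ≤ n) : emb686 h (1 : Matrix (Fin k) (Fin k) ℂ) = 1 := by
  rw [emb686, Matrix.fromBlocks_one, Matrix.submatrix_one_equiv]

theorem emb_lt {n k : ℕ} (h : k ≤ n) (A : Matrix (Fin k) (Fin k) ℂ) (i j : Fin n)
    (hi : i.1 < k) (hj : j.1 < k) : emb686 h A i j = A ⟨i.1, hi⟩ ⟨j.1, hj⟩ := by
  rw [emb686, Matrix.submatrix_apply, splitE_lt h i hi, splitE_lt h j hj, Matrix.fromBlocks_apply₁₁]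

theorem emb_ge {n k : ℕ} (h : k ≤ n) (A : Matrix (Fin k) (Fin k) ℂ) (i j : Fin n)
    (hij : k ≤ i.1 ∨ k ≤ j.1) : emb686 h A i j = if i = j then 1 else 0 := by
  rw [emb686, Matrix.submatrix_apply]
  by_cases hi : i.1 < k
  · have hj : k ≤ j.1 := by omega
    rw [splitE_lt h i hi, splitE_ge h j hj, Matrix.fromBlocks_apply₁₂, if_neg]
    · rfl
    · rintro rfl; omega
  · have hi' : k ≤ i.1 := by omega
    by_cases hj : j.1 < k
    · rw [splitE_ge h i hi', splitE_lt h j hj, Matrix.fromBlocks_apply₂₁, if_neg]
      · rfl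
      · rintro rfl; omega
    · have hj' : k ≤ j.1 := by omega
      rw [splitE_ge h i hi', splitE_ge h j hj', Matrix.fromBlocks_apply₂₂, Matrix.one_apply]
      by_cases e : i = j
      · subst e; simp
      · rw [if_neg e, if_neg]
        intro e'
        apply e
        have := congrArg Fin.val e'
        simp only at this
        ext
        omega

/-- top left block embedding of the group -/
noncomputable def embG {n k : ℕ} (h : k ≤ n) (A : GL (Fin k) ℂ) : G n where
  val := emb686 h A.1
  inv := emb686 h (A⁻¹).1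
  val_inv := by rw [← emb_mul, ← Units.val_mul, mul_inv_cancel, Units.val_one, emb_one]
  inv_val := by rw [← emb_mul, ← Units.val_mul, inv_mul_cancel, Units.val_one, emb_one]

theorem embG_mem {n k : ℕ} (h : k ≤ n) (A : GL (Fin k) ℂ) : embG h A ∈ GLk n k := by
  intro i j hij
  exact emb_ge h A.1 i j hij

/-- the top left block -/
noncomputable def subm {n k : ℕ} (h : k ≤ n) (X : Matrix (Fin n) (Fin n) ℂ) :
    Matrix (Fin k) (Fin k) ℂ := X.submatrix (Fin.castLE h) (Fin.castLE h)

theorem emb_subm {n k : ℕ} (h : k ≤ n) (X : G n) (hX : X ∈ GLk n k) :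
    emb686 h (subm h X.1) = X.1 := by
  ext i j
  by_cases hij : k ≤ i.1 ∨ k ≤ j.1
  · rw [emb_ge h _ i j hij, hX i j hij]
  · rw [not_or, not_le, not_le] at hij
    rw [emb_lt h _ i j hij.1 hij.2, subm, Matrix.submatrix_apply]
    rfl

theorem subm_emb {n k : ℕ} (h : k ≤ n) (A : Matrix (Fin k) (Fin k) ℂ) :
    subm h (emb686 h A) = A := by
  ext i j
  rw [subm, Matrix.submatrix_apply, emb_lt h A _ _ (by simp) (by simp)]
  rfl

theorem emb_injective686 {n k : ℕ} (h : k ≤ n) :
    Function.Injective (emb686 h : Matrix (Fin k) (Fin k) ℂ → _) := by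
  intro A B hAB
  rw [← subm_emb h A, hAB, subm_emb]

/-- every element of `GLk n k` comes from `GL_k` -/
theorem exists_embG {n k : ℕ} (h : k ≤ n) (X : G n) (hX : X ∈ GLk n k) :
    ∃ A : GL (Fin k) ℂ, embG h A = X := by
  have h1 : subm h X.1 * subm h (X⁻¹).1 = 1 := by
    apply emb_injective686 h
    rw [emb_mul, emb_subm h X hX, emb_subm h X⁻¹ ((GLk n k).inv_mem hX), emb_one,
      ← Units.val_mul, mul_inv_cancel, Units.val_one]
  have h2 : subm h (X⁻¹).1 * subm h X.1 = 1 := by
    apply emb_injective686 h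
    rw [emb_mul, emb_subm h X hX, emb_subm h X⁻¹ ((GLk n k).inv_mem hX), emb_one,
      ← Units.val_mul, inv_mul_cancel, Units.val_one]
  refine ⟨⟨_, _, h1, h2⟩, ?_⟩
  apply Units.ext
  exact emb_subm h X hX

theorem embG_mul {n k : ℕ} (h : k ≤ n) (A B : GL (Fin k) ℂ) :
    embG h (A * B) = embG h A * embG h B := by
  apply Units.ext
  exact emb_mul h A.1 B.1

/-- counting with `List.get` -/
theorem card_get_eq_count {α : Type*} [DecidableEq α] (l : List α) (a : α) :
    (Finset.univ.filter fun i : Fin l.length => l.get i = a).card = l.count a := by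
  induction l with
  | nil => simp
  | cons b l ih =>
    have h := Fin.card_filter_univ_succ (fun i : Fin (l.length + 1) => (b :: l).get i = a)
    have h2 : (Finset.univ.filter fun i : Fin (b :: l).length => (b :: l).get i = a).card =
      (Finset.univ.filter fun i : Fin (l.length + 1) => (b :: l).get i = a).card := rfl
    rw [h2, h, List.count_cons, ← ih]
    by_cases hb : b = a
    · subst hb
      simp
    · simp [hb]

/-- the labels of a list as a function on `Fin k` -/
def gl {Λ : Type} {k : ℕ} (l : List Λ) (h : l.length = k) (i : Fin k) : Λ := l.get (Fin.cast h.symm i)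

theorem card_gl {Λ : Type} [DecidableEq Λ] {k : ℕ} (l : List Λ) (h : l.length = k) (a : Λ) :
    (Finset.univ.filter fun i : Fin k => gl l h i = a).card = l.count a := by
  subst h
  exact card_get_eq_count l a

theorem lab_eq_some_iff {Λ : Type} {k : ℕ} (l : List Λ) (h : l.length = k) (i : ℕ) (a : Λ) :
    lab l i = some a ↔ ∃ hi : i < k, gl l h ⟨i, hi⟩ = a := by
  subst h
  rw [lab, List.getElem?_eq_some_iff]
  rfl

theorem count_map_fst (L : List (Bool × Bool)) (b : Bool) :
    (L.map Prod.fst).count b = L.count (b, false) + L.count (b, true) := by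
  induction L with
  | nil => simp
  | cons x L ih =>
    rw [List.map_cons, List.count_cons, List.count_cons, List.count_cons, ih]
    rcases x with ⟨x1, x2⟩
    cases b <;> cases x1 <;> cases x2 <;> simp <;> omega

theorem count_map_snd (L : List (Bool × Bool)) (b : Bool) :
    (L.map Prod.snd).count b = L.count (false, b) + L.count (true, b) := by
  induction L with
  | nil => simp
  | cons x L ih =>
    rw [List.map_cons, List.count_cons, List.count_cons, List.count_cons, ih]
    rcases x with ⟨x1, x2⟩
    cases b <;> cases x1 <;> cases x2 <;> simp <;> omega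

theorem length_eq_of_count {E F : List Bool} (h : ∀ b, E.count b = F.count b) :
    E.length = F.length := by
  rw [← List.count_true_add_count_false E, ← List.count_true_add_count_false F, h, h]

/-- JOINT BRUHAT LEMMA: the class sizes `s` of the middle corner are determined, the order of the
joint labels in the middle is arbitrary. -/
theorem bruhat_joint {n k : ℕ} (hk : k ≤ n) (X : G n) (hX : X ∈ GLk n k) (E F : List Bool)
    (hE : E.length = k) (hF : F.length = k) :
    ∃ s : Bool × Bool → ℕ,
      (∀ b, s (b, false) + s (b, true) = E.count b) ∧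
      (∀ b, s (false, b) + s (true, b) = F.count b) ∧
      ∀ L : List (Bool × Bool), (∀ a, L.count a = s a) → L.length = k ∧
        (∀ b, (L.map Prod.fst).count b = E.count b) ∧
        (∀ b, (L.map Prod.snd).count b = F.count b) ∧
        ∃ q q' : G n, q ∈ GLk n k ∧ q' ∈ GLk n k ∧ X = q * q' ∧
          (∀ (i j : Fin n) (a b : Bool), lab E i.1 = some a →
            lab (L.map Prod.fst) j.1 = some b → ¬ a ≤ b → q.1 i j = 0) ∧
          (∀ (i j : Fin n) (a b : Bool), lab (L.map Prod.snd) i.1 = some a →
            lab F j.1 = some b → ¬ a ≤ b → q'.1 i j = 0) := by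
  classical
  obtain ⟨A, rfl⟩ := exists_embG hk X hX
  obtain ⟨f, q, q', hq, hq', hA, hz, hz', hc, hc'⟩ :=
    bruhat_core (K := ℂ) A.1 A.isUnit (gl E hE) (gl F hF)
  have hs1 : ∀ b, (Finset.univ.filter fun i => f i = (b, false)).card +
      (Finset.univ.filter fun i => f i = (b, true)).card = E.count b := by
    intro b
    rw [← card_gl E hE b, ← hc b, ← Finset.card_union_of_disjoint]
    · congr 1
      ext i
      simp only [Finset.mem_union, Finset.mem_filter, Finset.mem_univ, true_and, Prod.ext_iff]
      cases (f i).2 <;> simp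
    · rw [Finset.disjoint_filter]
      intro i _ h1 h2
      rw [h1] at h2
      simp at h2
  have hs2 : ∀ b, (Finset.univ.filter fun i => f i = (false, b)).card +
      (Finset.univ.filter fun i => f i = (true, b)).card = F.count b := by
    intro b
    rw [← card_gl F hF b, ← hc' b, ← Finset.card_union_of_disjoint]
    · congr 1
      ext i
      simp only [Finset.mem_union, Finset.mem_filter, Finset.mem_univ, true_and, Prod.ext_iff]
      cases (f i).1 <;> simp
    · rw [Finset.disjoint_filter]
      intro i _ h1 h2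
      rw [h1] at h2
      simp at h2
  refine ⟨fun a => (Finset.univ.filter fun i => f i = a).card, hs1, hs2, ?_⟩
  intro L hL
  have hc1 : ∀ b, (L.map Prod.fst).count b = E.count b := by
    intro b
    rw [count_map_fst, hL, hL, hs1]
  have hc2 : ∀ b, (L.map Prod.snd).count b = F.count b := by
    intro b
    rw [count_map_snd, hL, hL, hs2]
  have hlen : L.length = k := by
    rw [← hE, ← length_eq_of_count hc1, List.length_map]
  refine ⟨hlen, hc1, hc2, ?_⟩
  obtain ⟨σ, hσ⟩ := exists_perm_of_card_eq f (gl L hlen) (by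
    intro a
    rw [card_gl L hlen a]
    refine Eq.trans (hL a).symm ?_
    congr 1
    exact lawful_beq_subsingleton _ _)
  obtain ⟨u, rfl⟩ := hq
  obtain ⟨u', rfl⟩ := hq'
  let v : GL (Fin k) ℂ := ⟨u.1.submatrix id σ, (u⁻¹).1.submatrix σ id, by
      rw [Matrix.submatrix_mul_equiv, ← Units.val_mul, mul_inv_cancel]
      simp, by
      rw [← Matrix.submatrix_mul _ _ _ id _ Function.bijective_id, ← Units.val_mul, inv_mul_cancel]
      simp⟩
  let v' : GL (Fin k) ℂ := ⟨u'.1.submatrix σ id, (u'⁻¹).1.submatrix id σ, by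
      rw [← Matrix.submatrix_mul _ _ _ id _ Function.bijective_id, ← Units.val_mul, mul_inv_cancel]
      simp, by
      rw [Matrix.submatrix_mul_equiv, ← Units.val_mul, inv_mul_cancel]
      simp⟩
  have hv : A = v * v' := by
    apply Units.ext
    rw [hA, Units.val_mul]
    change _ = u.1.submatrix id σ * u'.1.submatrix σ id
    rw [Matrix.submatrix_mul_equiv]
    simp
  refine ⟨embG hk v, embG hk v', embG_mem _ _, embG_mem _ _, ?_, ?_, ?_⟩
  · rw [hv, embG_mul]
  · intro i j a b ha hb hab
    obtain ⟨hi, ha⟩ := (lab_eq_some_iff E hE _ _).1 ha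
    rw [lab, List.getElem?_map, Option.map_eq_some_iff] at hb
    obtain ⟨x, hx, rfl⟩ := hb
    obtain ⟨hj, hx⟩ := (lab_eq_some_iff L hlen _ _).1 hx
    have h1 : (embG hk v).1 i j = u.1 ⟨i.1, hi⟩ (σ ⟨j.1, hj⟩) := emb_lt hk v.1 i j hi hj
    rw [h1]
    have ha' : a = true := by
      cases a with
      | true => rfl
      | false => exact absurd (Bool.false_le _) hab
    have hb' : x.1 = false := by
      rcases x with ⟨x1, x2⟩
      cases x1 with
      | false => rfl
      | true => exact absurd (Bool.le_true _) hab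
    apply hz
    · rw [ha, ha']
    · rw [← hσ, hx, hb']
  · intro i j a b ha hb hab
    obtain ⟨hj, hb⟩ := (lab_eq_some_iff F hF _ _).1 hb
    rw [lab, List.getElem?_map, Option.map_eq_some_iff] at ha
    obtain ⟨x, hx, rfl⟩ := ha
    obtain ⟨hi, hx⟩ := (lab_eq_some_iff L hlen _ _).1 hx
    have h1 : (embG hk v').1 i j = u'.1 (σ ⟨i.1, hi⟩) ⟨j.1, hj⟩ := emb_lt hk v'.1 i j hi hj
    rw [h1]
    have hb' : b = false := by
      cases b with
      | false => rfl
      | true => exact absurd (Bool.le_true _) hab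
    have ha' : x.2 = true := by
      rcases x with ⟨x1, x2⟩
      cases x2 with
      | true => rfl
      | false => exact absurd (Bool.false_le _) hab
    apply hz'
    · rw [← hσ, hx, ha']
    · rw [hb, hb']

end Crest.Agent.R003
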