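import Crest.Agent.R003.BruhatG686

/-!
# Row 3 (S0003): block extraction for `Bool` labels and `Bruhat n` (helper686)
-/

set_option autoImplicit false

namespace Crest.Agent.R003

section pos

variable {Λ : Type} [DecidableEq Λ]

theorem count_take_succ (l : List Λ) (i : ℕ) (a : Λ) (h : lab l i = some a) :
    (l.take (i + 1)).count a = (l.take i).count a + 1 := by
  have h' : l[i]? = some a := h
  rw [List.take_add_one, h']
  simp

theorem count_take_lt686 (l : List Λ) (i : ℕ) (a : Λ) (h : lab l i = some a) :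
    (l.take i).count a < l.count a := by
  have h1 := count_take_succ l i a h
  have h2 : (l.take (i + 1)).count a ≤ l.count a := (List.take_sublist _ _).count_le _
  omega

theorem count_take_inj (l : List Λ) (i j : ℕ) (a : Λ) (hi : lab l i = some a)
    (hj : lab l j = some a) (h : (l.take i).count a = (l.take j).count a) : i = j := by
  have key : ∀ i j : ℕ, lab l i = some a → i < j →
      (l.take i).count a < (l.take j).count a := by
    intro i j hi hij
    have h1 := count_take_succ l i a hi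
    have h2 : (l.take (i + 1)).count a ≤ (l.take j).count a := by
      apply List.Sublist.count_le
      exact List.take_sublist_take_left (by omega)
    omega
  rcases lt_trichotomy i j with h1 | h1 | h1
  · exact absurd h (key i j hi h1).ne
  · exact h1
  · exact absurd h.symm (key j i hj h1).ne

variable [Fintype Λ]

/-- class and position -/
def cp (l : List Λ) {k : ℕ} (hl : l.length = k) (i : Fin k) : Σ a : Λ, Fin (l.count a) :=
  ⟨gl l hl i, ⟨(l.take i.1).count (gl l hl i),
    count_take_lt686 l i.1 _ ((lab_eq_some_iff l hl _ _).2 ⟨i.2, rfl⟩)⟩⟩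

omit [Fintype Λ] in
theorem cp_injective (l : List Λ) {k : ℕ} (hl : l.length = k) : Function.Injective (cp l hl) := by
  intro i j h
  have h1 : gl l hl i = gl l hl j := congrArg Sigma.fst h
  have h2 : (l.take i.1).count (gl l hl i) = (l.take j.1).count (gl l hl j) :=
    congrArg (fun x : (Σ a : Λ, Fin (l.count a)) => x.2.1) h
  apply Fin.ext
  refine count_take_inj l i.1 j.1 (gl l hl i) ((lab_eq_some_iff l hl _ _).2 ⟨i.2, rfl⟩)
    ((lab_eq_some_iff l hl _ _).2 ⟨j.2, h1.symm⟩) ?_
  rw [h2, h1]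

theorem cp_bijective (l : List Λ) {k : ℕ} (hl : l.length = k) : Function.Bijective (cp l hl) := by
  rw [Fintype.bijective_iff_injective_and_card]
  refine ⟨cp_injective l hl, ?_⟩
  rw [Fintype.card_fin, Fintype.card_sigma]
  simp only [Fintype.card_fin]
  rw [← hl, ← Multiset.coe_card, ← Multiset.toFinset_sum_count_eq]
  symm
  simp only [Multiset.coe_count]
  refine (Finset.sum_subset (Finset.subset_univ _) ?_).symm
  intro a _ ha
  rw [Multiset.mem_toFinset, Multiset.mem_coe] at ha
  exact List.count_eq_zero.2 ha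

/-- class and position, as an equivalence -/
noncomputable def cpE (l : List Λ) {k : ℕ} (hl : l.length = k) :
    Fin k ≃ Σ a : Λ, Fin (l.count a) := Equiv.ofBijective _ (cp_bijective l hl)

end pos

/-- BLOCK EXTRACTION for linearly ordered finite label types. -/
theorem extract_of_zero {Λ : Type} [LinearOrder Λ] [Fintype Λ] {n : ℕ} (c c' : List Λ) (P : G n)
    (hlen : c.length ≤ n) (hcnt : ∀ l, c.count l = c'.count l) (hmem : P ∈ GLk n c.length)
    (hzero : ∀ (i j : Fin n) (a b : Λ), lab c i.1 = some a → lab c' j.1 = some b → ¬ a ≤ b →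
      P.1 i j = 0) : ∃ g : Λ → G n, IsPar c c' g P := by
  classical
  have hcl : c'.length = c.length := by
    rw [← Multiset.coe_card, ← Multiset.coe_card, ← Multiset.toFinset_sum_count_eq,
      ← Multiset.toFinset_sum_count_eq]
    have : (c : Multiset Λ) = (c' : Multiset Λ) := by
      ext a
      simp [hcnt a]
    rw [this]
  obtain ⟨A, rfl⟩ := exists_embG hlen P hmem
  -- reorder
  let e : Fin c.length ≃ Σ a : Λ, Fin (c.count a) := cpE c rfl
  let e' : Fin c.length ≃ Σ a : Λ, Fin (c.count a) := (cpE c' hcl).trans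
    (Equiv.sigmaCongrRight fun a => finCongr (hcnt a).symm)
  let A' : Matrix (Σ a : Λ, Fin (c.count a)) (Σ a : Λ, Fin (c.count a)) ℂ :=
    A.1.submatrix e.symm e'.symm
  have hA' : IsUnit A' := (Matrix.isUnit_submatrix_equiv e.symm e'.symm).2 A.isUnit
  have he : ∀ i, (e i).1 = gl c rfl i := fun i => rfl
  have he' : ∀ i, (e' i).1 = gl c' hcl i := fun i => rfl
  have htri : A'.BlockTriangular Sigma.fst := by
    intro x y hxy
    obtain ⟨i, rfl⟩ := e.surjective x
    obtain ⟨j, rfl⟩ := e'.surjective y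
    have h1 : A' (e i) (e' j) = A.1 i j := by
      simp [A']
    rw [he, he'] at hxy
    rw [h1]
    have h2 := hzero ⟨i.1, lt_of_lt_of_le i.2 hlen⟩ ⟨j.1, lt_of_lt_of_le j.2 hlen⟩ (gl c rfl i)
      (gl c' hcl j) ((lab_eq_some_iff c rfl _ _).2 ⟨i.2, rfl⟩)
      ((lab_eq_some_iff c' hcl _ _).2 ⟨j.2, rfl⟩) (not_le_of_gt hxy)
    rw [← h2]
    exact (emb_lt hlen A.1 ⟨i.1, lt_of_lt_of_le i.2 hlen⟩ ⟨j.1, lt_of_lt_of_le j.2 hlen⟩
      i.2 j.2).symm
  have hdet : ∀ a, (A'.toSquareBlock Sigma.fst a).det ≠ 0 := by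
    have h1 : A'.det ≠ 0 := by
      have := (Matrix.isUnit_iff_isUnit_det _).1 hA'
      exact this.ne_zero
    rw [htri.det_fintype] at h1
    intro a
    exact Finset.prod_ne_zero_iff.1 h1 a (Finset.mem_univ a)
  let M : ∀ a, Matrix (Fin (c.count a)) (Fin (c.count a)) ℂ := fun a => fun s t => A' ⟨a, s⟩ ⟨a, t⟩
  have hM : ∀ a, IsUnit (M a) := by
    intro a
    rw [Matrix.isUnit_iff_isUnit_det, isUnit_iff_ne_zero]
    let f : Fin (c.count a) ≃ {x : Σ a : Λ, Fin (c.count a) // x.1 = a} :=
      { toFun := fun s => ⟨⟨a, s⟩, rfl⟩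
        invFun := fun x => Fin.cast (by rw [x.2]) x.1.2
        left_inv := fun s => rfl
        right_inv := by
          rintro ⟨⟨b, s⟩, rfl⟩
          rfl }
    have h2 : M a = (A'.toSquareBlock Sigma.fst a).submatrix f f := rfl
    rw [h2, Matrix.det_submatrix_equiv_self]
    exact hdet a
  refine ⟨fun a => embG ((List.count_le_length).trans hlen) (hM a).unit, ⟨hlen, hcnt, hmem,
    fun a => embG_mem _ _, hzero, ?_⟩⟩
  intro i j u v a hi hj hu hv
  obtain ⟨hi', hia⟩ := (lab_eq_some_iff c rfl _ _).1 hi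
  obtain ⟨hj', hja⟩ := (lab_eq_some_iff c' hcl _ _).1 hj
  have hu' : u.1 < c.count a := by rw [hu]; exact count_take_lt686 c i.1 a hi
  have hv' : v.1 < c.count a := by rw [hv, hcnt a]; exact count_take_lt686 c' j.1 a hj
  have h1 : (embG ((List.count_le_length).trans hlen : c.count a ≤ n) (hM a).unit).1 u v =
      A' ⟨a, ⟨u.1, hu'⟩⟩ ⟨a, ⟨v.1, hv'⟩⟩ := emb_lt _ _ u v hu' hv'
  rw [h1]
  have h2 : e ⟨i.1, hi'⟩ = ⟨a, ⟨u.1, hu'⟩⟩ := by
    subst hia
    refine Sigma.ext rfl (heq_of_eq ?_)
    ext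
    exact hu.symm
  have h3 : e' ⟨j.1, hj'⟩ = ⟨a, ⟨v.1, hv'⟩⟩ := by
    subst hja
    refine Sigma.ext rfl (heq_of_eq ?_)
    ext
    exact hv.symm
  rw [← h2, ← h3]
  have h4 : A' (e ⟨i.1, hi'⟩) (e' ⟨j.1, hj'⟩) = A.1 ⟨i.1, hi'⟩ ⟨j.1, hj'⟩ := by
    simp [A']
  rw [h4]
  exact emb_lt hlen A.1 i j hi' hj'

/-- a list with prescribed counts -/
def lst (s : Bool × Bool → ℕ) : List (Bool × Bool) :=
  List.replicate (s (false, false)) (false, false) ++ List.replicate (s (false, true)) (false, true)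
    ++ List.replicate (s (true, false)) (true, false) ++ List.replicate (s (true, true)) (true, true)

theorem count_lst (s : Bool × Bool → ℕ) (a : Bool × Bool) : (lst s).count a = s a := by
  rcases a with ⟨x, y⟩
  cases x <;> cases y <;> simp [lst, List.count_replicate]

/-- BRUHAT with joint labels in any order, `IsPar` form. -/
theorem bruhat_joint_par {n k : ℕ} (hk : k ≤ n) (X : G n) (hX : X ∈ GLk n k) (E F : List Bool)
    (hE : E.length = k) (hF : F.length = k) :
    ∃ s : Bool × Bool → ℕ,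
      (∀ b, s (b, false) + s (b, true) = E.count b) ∧
      (∀ b, s (false, b) + s (true, b) = F.count b) ∧
      ∀ L : List (Bool × Bool), (∀ a, L.count a = s a) → L.length = k ∧
        ∃ (q q' : G n) (g g' : Bool → G n), X = q * q' ∧ IsPar E (L.map Prod.fst) g q ∧
          IsPar (L.map Prod.snd) F g' q' := by
  obtain ⟨s, h1, h2, hL⟩ := bruhat_joint hk X hX E F hE hF
  refine ⟨s, h1, h2, ?_⟩
  intro L hs
  obtain ⟨hlen, hc1, hc2, q, q', hq, hq', hX', hz, hz'⟩ := hL L hs
  refine ⟨hlen, ?_⟩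
  obtain ⟨g, hg⟩ := extract_of_zero E (L.map Prod.fst) q (by omega) (fun b => (hc1 b).symm)
    (by rw [hE]; exact hq) hz
  obtain ⟨g', hg'⟩ := extract_of_zero (L.map Prod.snd) F q' (by rw [List.length_map]; omega)
    hc2 (by rw [List.length_map, hlen]; exact hq') hz'
  exact ⟨q, q', g, g', hX', hg, hg'⟩

/-- Lemma BRUHAT. -/
theorem bruhat (n : ℕ) : Bruhat n := by
  intro k hk X hX E F hE hF
  obtain ⟨s, -, -, hL⟩ := bruhat_joint_par hk X hX E F hE hF
  obtain ⟨hlen, q, q', g, g', hX', hg, hg'⟩ := hL (lst s) (count_lst s)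
  exact ⟨(lst s).map Prod.fst, (lst s).map Prod.snd, q, q', g, g', by rw [List.length_map, hlen],
    by rw [List.length_map, hlen], hg, hg', hX'⟩

end Crest.Agent.R003
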