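import Crest.Agent.R003.Semi382

set_option autoImplicit false

namespace Crest.Agent.R003.Semi

open Matrix Module

variable {ι m n : Type*}

/-- value of a word in the matrices `S i` -/
def wordMat [Fintype m] [DecidableEq m] (S : ι → Matrix m m ℂ) (w : List ι) : Matrix m m ℂ :=
  (w.map S).prod

@[simp] theorem wordMat_nil [Fintype m] [DecidableEq m] (S : ι → Matrix m m ℂ) :
    wordMat S [] = 1 := rfl

@[simp] theorem wordMat_cons [Fintype m] [DecidableEq m] (S : ι → Matrix m m ℂ) (i : ι)
    (w : List ι) : wordMat S (i :: w) = S i * wordMat S w := by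
  simp [wordMat]

/-- density: a simple module, finite dimensional over `ℂ` -/
theorem exists_smul_eq {A V : Type*} [Ring A] [Algebra ℂ A] [AddCommGroup V] [Module ℂ V]
    [Module A V] [IsScalarTower ℂ A V] [IsSimpleModule A V] [FiniteDimensional ℂ V]
    (f : V →ₗ[ℂ] V) : ∃ a : A, ∀ v : V, f v = a • v := by
  classical
  have hb := IsSimpleModule.algebraMap_end_bijective_of_isAlgClosed (A := A) (V := V) ℂ
  let F : Module.End (Module.End A V) V :=
    { toFun := f
      map_add' := f.map_add
      map_smul' := fun e v => by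
        obtain ⟨c, rfl⟩ := hb.2 e
        simp only [Module.End.smul_def, RingHom.id_apply, Module.algebraMap_end_apply]
        exact f.map_smul c v }
  let b := Module.finBasis ℂ V
  obtain ⟨a, ha⟩ := jacobson_density (R := A) (M := V) F (Finset.univ.image b)
  refine ⟨a, fun v => ?_⟩
  have h1 : f = Algebra.lsmul ℂ ℂ V a := by
    apply b.ext
    intro i
    exact ha (b i) (Finset.mem_image_of_mem _ (Finset.mem_univ i))
  rw [h1]
  rfl

theorem isSimple_of_MIrr [Fintype m] [DecidableEq m] {S : ι → Matrix m m ℂ} (h : MIrr S) :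
    IsSimpleModule (Alg S) (m → ℂ) := by
  rw [isSimpleModule_iff]
  have hne := h.1
  refine { toNontrivial := ?_, eq_bot_or_eq_top := ?_ }
  · refine ⟨⊥, ⊤, fun h0 => ?_⟩
    obtain ⟨k⟩ := hne
    have : (Pi.single k (1 : ℂ) : m → ℂ) ∈ (⊤ : Submodule (Alg S) (m → ℂ)) := trivial
    rw [← h0, Submodule.mem_bot] at this
    have := congrFun this k
    simp at this
  · intro W
    rcases h.2 _ (inv_restrict W) with h0 | h0
    · left
      rw [eq_bot_iff]
      intro x hx
      have : x ∈ W.restrictScalars ℂ := hx
      rw [h0, Submodule.mem_bot] at this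
      rw [Submodule.mem_bot]
      exact this
    · right
      rw [eq_top_iff]
      intro x _
      have : x ∈ W.restrictScalars ℂ := by rw [h0]; trivial
      exact this

/-- **Burnside's theorem**: the words of an irreducible family span all matrices. -/
theorem span_word_eq_top [Fintype m] [DecidableEq m] {S : ι → Matrix m m ℂ} (h : MIrr S) :
    Submodule.span ℂ (Set.range (wordMat S)) = ⊤ := by
  have hs := isSimple_of_MIrr h
  have hst : IsScalarTower ℂ (Alg S) (m → ℂ) := ⟨fun c a v => rfl⟩
  rw [eq_top_iff]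
  intro M _
  obtain ⟨a, ha⟩ := exists_smul_eq (A := Alg S) (V := m → ℂ) (Matrix.toLin' M)
  have ha' : Matrix.toLin' M = a.1 := LinearMap.ext ha
  have hmem : Matrix.toLin' M ∈ Subalgebra.toSubmodule (Alg S) := by
    rw [ha']; exact a.2
  rw [Algebra.adjoin_eq_span] at hmem
  have hle : (Submonoid.closure (Set.range fun i => Matrix.toLin' (S i)) :
      Set (Module.End ℂ (m → ℂ))) ⊆
      (Matrix.toLin' : Matrix m m ℂ ≃ₗ[ℂ] _) '' Set.range (wordMat S) := by
    intro x hx
    obtain ⟨l, hl, rfl⟩ := Submonoid.exists_list_of_mem_closure hx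
    clear hx
    induction l with
    | nil => exact ⟨1, ⟨[], rfl⟩, by simp; rfl⟩
    | cons y l ih =>
      obtain ⟨i, hi⟩ := hl y (by simp)
      obtain ⟨M', ⟨w, rfl⟩, hM'⟩ := ih (fun z hz => hl z (by simp [hz]))
      refine ⟨S i * wordMat S w, ⟨i :: w, by simp⟩, ?_⟩
      rw [List.prod_cons, ← hM', ← hi, Matrix.toLin'_mul]
      rfl
  have h3 := Submodule.span_mono (R := ℂ) hle hmem
  rw [← LinearEquiv.coe_coe, Submodule.span_image] at h3
  obtain ⟨M', hM', hM''⟩ := h3
  have : M' = M := Matrix.toLin'.injective hM''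
  rwa [← this]

/-- the matrix whose determinant detects that the words `w` form a basis -/
def wordDet [Fintype m] [DecidableEq m] (S : ι → Matrix m m ℂ) (w : m × m → List ι) :
    Matrix (m × m) (m × m) ℂ :=
  Matrix.of fun a b => wordMat S (w a) b.1 b.2

/-- **irreducible implies an open condition** -/
theorem exists_wordDet_ne_zero [Fintype m] [DecidableEq m] {S : ι → Matrix m m ℂ} (h : MIrr S) :
    ∃ w : m × m → List ι, (wordDet S w).det ≠ 0 := by
  obtain ⟨f, hf1, hf2, hf3⟩ := Submodule.exists_fun_fin_finrank_span_eq ℂ (Set.range (wordMat S))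
  have hcard : finrank ℂ (Submodule.span ℂ (Set.range (wordMat S))) = Fintype.card (m × m) := by
    rw [span_word_eq_top h, finrank_top, Module.finrank_matrix]
    simp [Fintype.card_prod]
  let e : m × m ≃ Fin (finrank ℂ (Submodule.span ℂ (Set.range (wordMat S)))) :=
    Fintype.equivFinOfCardEq hcard.symm
  choose w hw using hf1
  refine ⟨fun a => w (e a), ?_⟩
  have hli : LinearIndependent ℂ (fun a => f (e a)) := hf3.comp _ e.injective
  have hli2 : LinearIndependent ℂ (wordDet S (fun a => w (e a))).row := by
    have h1 : (wordDet S (fun a => w (e a))).row =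
        ((LinearEquiv.curry ℂ ℂ m m).symm.toLinearMap) ∘ (fun a => f (e a)) := by
      funext a b
      simp only [wordDet, Matrix.row, Matrix.of_apply, hw, Function.comp]
      rfl
    rw [h1]
    exact hli.map' _ (LinearEquiv.ker _)
  rw [Matrix.linearIndependent_rows_iff_isUnit, Matrix.isUnit_iff_isUnit_det] at hli2
  exact hli2.ne_zero

/-- **the open condition implies irreducible** -/
theorem MIrr_of_wordDet_ne_zero [Fintype m] [DecidableEq m] [Nonempty m] {S : ι → Matrix m m ℂ}
    (w : m × m → List ι) (hw : (wordDet S w).det ≠ 0) : MIrr S := by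
  have hu : IsUnit (wordDet S w) := by
    rw [Matrix.isUnit_iff_isUnit_det]; exact IsUnit.mk0 _ hw
  have hli : LinearIndependent ℂ (wordDet S w).row := Matrix.linearIndependent_rows_iff_isUnit.2 hu
  have hspan : ⊤ ≤ Submodule.span ℂ (Set.range (wordDet S w).row) := by
    rw [LinearIndependent.span_eq_top_of_card_eq_finrank hli]
    simp
  have hspan2 : ∀ M : Matrix m m ℂ, M ∈ Submodule.span ℂ (Set.range (wordMat S)) := by
    intro M
    have h1 : (fun b : m × m => M b.1 b.2) ∈ Submodule.span ℂ (Set.range (wordDet S w).row) :=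
      hspan trivial
    have h2 := Submodule.mem_map_of_mem (f := (LinearEquiv.curry ℂ ℂ m m).toLinearMap) h1
    rw [← Submodule.span_image] at h2
    refine Submodule.span_mono ?_ h2
    rintro _ ⟨_, ⟨a, rfl⟩, rfl⟩
    exact ⟨w a, rfl⟩
  refine ⟨inferInstance, fun W hW => ?_⟩
  have hword : ∀ w : List ι, ∀ x ∈ W, (wordMat S w).mulVec x ∈ W := by
    intro w
    induction w with
    | nil => intro x hx; simpa using hx
    | cons i w ih =>
      intro x hx
      rw [wordMat_cons, ← Matrix.mulVec_mulVec]
      exact hW i _ (ih x hx)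
  have hall : ∀ M : Matrix m m ℂ, ∀ x ∈ W, M.mulVec x ∈ W := by
    intro M x hx
    have := hspan2 M
    induction this using Submodule.span_induction with
    | mem M hM => obtain ⟨w, rfl⟩ := hM; exact hword w x hx
    | zero => simp
    | add M M' _ _ h1 h2 => rw [Matrix.add_mulVec]; exact W.add_mem h1 h2
    | smul c M _ h1 => rw [Matrix.smul_mulVec]; exact W.smul_mem c h1
  by_cases h0 : W = ⊥
  · exact Or.inl h0
  · right
    obtain ⟨x, hx, hx0⟩ := Submodule.exists_mem_ne_zero_of_ne_bot h0
    obtain ⟨k, hk⟩ : ∃ k, x k ≠ 0 := by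
      by_contra hcon
      push Not at hcon
      exact hx0 (funext hcon)
    rw [eq_top_iff]
    intro y _
    have h1 := hall (Matrix.of fun a b => if b = k then y a / x k else 0) x hx
    have h2 : (Matrix.of fun a b => if b = k then y a / x k else 0).mulVec x = y := by
      funext a
      simp only [mulVec, dotProduct, Matrix.of_apply, ite_mul, zero_mul]
      rw [Finset.sum_ite_eq' Finset.univ k]
      simp [hk]
    rwa [h2] at h1

end Crest.Agent.R003.Semi
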