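import Crest.Agent.R003.Par961

/-!
# Row 3 (S0003): list lemmas about `restr`, and `Calc n` (helper961)
-/

set_option autoImplicit false
set_option linter.unusedSectionVars false

namespace Crest.Agent.R003

open P961

lemma restr_nil (d : List Bool) (b : Bool) : restr [] d b = [] := rfl

lemma restr_cons (a x : Bool) (c d : List Bool) (b : Bool) :
    restr (a :: c) (x :: d) b = (if a = b then [x] else []) ++ restr c d b := by
  unfold restr
  by_cases h : a = b
  · simp [h]
  · simp [h]

lemma restr_length {c d : List Bool} (h : c.length = d.length) (b : Bool) :
    (restr c d b).length = c.count b := by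
  induction c generalizing d with
  | nil => simp [restr_nil]
  | cons a c ih =>
    cases d with
    | nil => simp at h
    | cons x d =>
      rw [restr_cons, List.length_append, ih (by simpa using h), List.count_cons]
      by_cases hab : a = b
      · simp [hab, add_comm]
      · simp [hab]

lemma restr_take {c d : List Bool} (h : c.length = d.length) (b : Bool) (i : ℕ) :
    (restr c d b).take ((c.take i).count b) = restr (c.take i) (d.take i) b := by
  induction c generalizing d i with
  | nil => simp [restr_nil]
  | cons a c ih =>
    cases d with
    | nil => simp at h
    | cons x d =>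
      cases i with
      | zero => simp [restr_nil]
      | succ i =>
        rw [List.take_succ_cons, List.take_succ_cons, restr_cons, restr_cons, List.count_cons]
        by_cases hab : a = b
        · simp only [hab, if_true, beq_self_eq_true, List.cons_append, List.nil_append,
            List.take_succ_cons, ih (show c.length = d.length by simpa using h)]
        · simp only [hab, if_false, beq_iff_eq, add_zero, List.nil_append,
            ih (show c.length = d.length by simpa using h)]

lemma restr_lab {c d : List Bool} (h : c.length = d.length) {b : Bool} {i : ℕ}
    (hi : lab c i = some b) : lab (restr c d b) ((c.take i).count b) = lab d i := by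
  induction c generalizing d i with
  | nil => simp at hi
  | cons a c ih =>
    cases d with
    | nil => simp at h
    | cons x d =>
      have h' : c.length = d.length := by simpa using h
      cases i with
      | zero =>
        simp only [lab, List.getElem?_cons_zero, Option.some.injEq] at hi
        subst hi
        rw [restr_cons]
        simp [lab]
      | succ i =>
        simp only [lab, List.getElem?_cons_succ] at hi
        rw [List.take_succ_cons, restr_cons, List.count_cons]
        have h2 := ih h' hi
        by_cases hab : a = b
        · simp only [lab, hab, if_true, beq_self_eq_true, List.cons_append, List.nil_append,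
            List.getElem?_cons_succ]
          exact h2
        · simp only [lab, hab, if_false, beq_iff_eq, add_zero, List.nil_append,
            List.getElem?_cons_succ]
          exact h2

lemma restr_count (c d : List Bool) (b x : Bool) : (restr c d b).count x = (jl c d).count (b, x) := by
  induction c generalizing d with
  | nil => simp [restr_nil]
  | cons a c ih =>
    cases d with
    | nil => simp [restr]
    | cons y d =>
      rw [restr_cons, List.count_append, ih]
      change _ = ((a, y) :: jl c d).count (b, x)
      rw [List.count_cons]
      by_cases hab : a = b
      · by_cases hyx : y = x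
        · simp [hab, hyx, add_comm]
        · simp [hab, hyx]
      · simp [hab]

lemma jl_length {c d : List Bool} (h : c.length = d.length) : (jl c d).length = c.length := by
  simp [h]

lemma jl_take (c d : List Bool) (i : ℕ) : (jl c d).take i = jl (c.take i) (d.take i) := by
  unfold jl
  exact List.take_zipWith

lemma jl_lab {c d : List Bool} {i : ℕ} {a b : Bool} :
    lab (jl c d) i = some (a, b) ↔ lab c i = some a ∧ lab d i = some b := by
  unfold lab jl
  rw [List.getElem?_zip_eq_some]

lemma jl_map_fst {c d : List Bool} (h : c.length = d.length) : (jl c d).map Prod.fst = c :=
  List.map_fst_zip h.le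

lemma jl_map_snd {c d : List Bool} (h : c.length = d.length) : (jl c d).map Prod.snd = d :=
  List.map_snd_zip h.ge

lemma jl_count_fst {c d : List Bool} (h : c.length = d.length) (e : Bool) :
    c.count e = (jl c d).count (e, false) + (jl c d).count (e, true) := by
  rw [← restr_count, ← restr_count, ← restr_length h e]
  generalize restr c d e = l
  induction l with
  | nil => rfl
  | cons a l ih =>
    rw [List.count_cons, List.count_cons, List.length_cons, ih]
    cases a <;> simp <;> omega

lemma lab_replicate {k : ℕ} {b : Bool} {i : ℕ} (h : i < k) : lab (List.replicate k b) i = some b := by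
  unfold lab
  rw [List.getElem?_replicate, if_pos h]

lemma lab_replicate_none {k : ℕ} {b : Bool} {i : ℕ} (h : k ≤ i) :
    lab (List.replicate k b) i = none := by
  unfold lab
  rw [List.getElem?_replicate, if_neg (by omega)]

lemma count_take_lt {l : List Bool} {i : ℕ} {a : Bool} (h : lab l i = some a) :
    (l.take i).count a < l.count a := by
  have h1 : i < l.length := (List.getElem?_eq_some_iff.1 h).1
  have h2 : (l.take (i + 1)).count a = (l.take i).count a + 1 := by
    rw [List.take_add_one, List.count_append]
    unfold lab at h
    rw [h]; simp
  have h3 : (l.take (i + 1)).count a ≤ l.count a := (List.take_sublist _ _).count_le _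
  omega

lemma lab_none {Λ : Type} {l : List Λ} {i : ℕ} (h : l.length ≤ i) : lab l i = none :=
  List.getElem?_eq_none h

lemma dsg_isPar_right (n : ℕ) (e c : List Bool) (σ : Bool → Bool → ℂˣ) (hec : e.length = c.length)
    (hc : c.length ≤ n) :
    IsPar c c (fun b => dsg n (restr c e b) (List.replicate (c.count b) b) σ) (dsg n e c σ) := by
  apply isPar_dg c hc
  · intro i hi
    simp only [lab_none (hec ▸ hi : e.length ≤ i.1)]
  · intro i u a hi hu
    have h1 := restr_lab hec.symm hi
    rw [← hu] at h1
    have h2 : u.1 < c.count a := by rw [hu]; exact count_take_lt hi
    rw [h1, hi, lab_replicate h2]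
  · intro a u hu
    have h1 : (restr c e a).length ≤ u.1 := by rw [restr_length hec.symm]; exact hu
    simp only [lab_none h1]

lemma dsg_isPar_left (n : ℕ) (e c : List Bool) (σ : Bool → Bool → ℂˣ) (hec : e.length = c.length)
    (hc : c.length ≤ n) :
    IsPar e e (fun b => dsg n (List.replicate (e.count b) b) (restr e c b) σ) (dsg n e c σ) := by
  apply isPar_dg e (hec ▸ hc)
  · intro i hi
    simp only [lab_none hi]
  · intro i u a hi hu
    have h1 := restr_lab hec hi
    rw [← hu] at h1
    have h2 : u.1 < e.count a := by rw [hu]; exact count_take_lt hi
    rw [h1, hi, lab_replicate h2]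
  · intro a u hu
    simp only [lab_replicate_none hu]

/-- the calculus of `IsPar` -/
theorem calc_holds (n : ℕ) : Calc n := by
  refine ⟨?_, ?_, ?_, ?_, ?_, ?_⟩
  · intro c c' c'' g g' P P' h h'; exact h.mul h'
  · intro c c' g P h; exact h.inv
  · intro c hc; exact IsPar.one hc
  · intro c c' g g' P h h'; exact h.unique h'
  · intro e c σ hec hc; exact dsg_isPar_right n e c σ hec hc
  · intro e c σ hec hc; exact dsg_isPar_left n e c σ hec hc

end Crest.Agent.R003
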