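import Mathlib

/-! R003 (S0003): gap combinatorics for the driver.  helper537 -/

set_option autoImplicit false

namespace Crest.Agent.R003

section Gap

variable {N : Type*} [DecidableEq N]

/-- A nonempty duplicate-free list of signed names closed under partners contains a pair
`x^s ... x^{-s}` whose interior is empty or contains a letter whose partner is not in the interior. -/
theorem exists_min_pair (g : List (N × Bool)) (hne : g ≠ [])
    (hcl : ∀ z ∈ g, (z.1, !z.2) ∈ g) (hnd : g.Nodup) :
    ∃ (u m v : List (N × Bool)) (x : N) (s : Bool),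
      g = u ++ (x, s) :: (m ++ (x, !s) :: v) ∧
        (m = [] ∨ ∃ z ∈ m, (z.1, !z.2) ∉ m) := by
  classical
  -- the set of lengths of interiors
  have hex : ∃ n : ℕ, ∃ (u m v : List (N × Bool)) (x : N) (s : Bool),
      g = u ++ (x, s) :: (m ++ (x, !s) :: v) ∧ m.length = n := by
    obtain ⟨z, hz⟩ := List.exists_mem_of_ne_nil g hne
    have hz' := hcl z hz
    obtain ⟨u, v, huv⟩ := List.append_of_mem hz
    obtain ⟨x, s⟩ := z
    rw [huv] at hz'
    rcases List.mem_append.1 hz' with h | h
    · obtain ⟨a, b, hab⟩ := List.append_of_mem h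
      refine ⟨b.length, a, b, v, x, !s, ?_, rfl⟩
      rw [huv, hab]
      simp
    · rcases List.mem_cons.1 h with h | h
      · simp at h
      · obtain ⟨a, b, hab⟩ := List.append_of_mem h
        exact ⟨a.length, u, a, b, x, s, by rw [huv, hab], rfl⟩
  obtain ⟨u, m, v, x, s, hg, hm⟩ := Nat.find_spec hex
  refine ⟨u, m, v, x, s, hg, ?_⟩
  by_contra hcon
  push Not at hcon
  obtain ⟨hm0, hm1⟩ := hcon
  obtain ⟨z, hz⟩ := List.exists_mem_of_ne_nil m hm0
  have hz' := hm1 z hz
  obtain ⟨a, b, hab⟩ := List.append_of_mem hz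
  obtain ⟨y, t⟩ := z
  rw [hab] at hz'
  rcases List.mem_append.1 hz' with h | h
  · obtain ⟨c, d, hcd⟩ := List.append_of_mem h
    refine Nat.find_min hex (m := d.length) ?_ ⟨u ++ (x, s) :: c, d, b ++ (x, !s) :: v, y, !t, ?_, rfl⟩
    · rw [← hm, hab, hcd]; simp; omega
    · rw [hg, hab, hcd]; simp
  · rcases List.mem_cons.1 h with h | h
    · simp at h
    · obtain ⟨c, d, hcd⟩ := List.append_of_mem h
      refine Nat.find_min hex (m := c.length) ?_
        ⟨u ++ (x, s) :: a, c, d ++ (x, !s) :: v, y, t, ?_, rfl⟩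
      · rw [← hm, hab, hcd]; simp; omega
      · rw [hg, hab, hcd]; simp

/-- Trichotomy for a gap all of whose letters have their partners in the gap:
either an adjacent pair, or an interleaved pair of pairs. -/
theorem gap_cases (g : List (N × Bool)) (hne : g ≠ [])
    (hcl : ∀ z ∈ g, (z.1, !z.2) ∈ g) (hnd : g.Nodup) :
    (∃ (u v : List (N × Bool)) (x : N) (s : Bool), g = u ++ (x, s) :: (x, !s) :: v) ∨
    (∃ (b a1 a2 a3 b' : List (N × Bool)) (x y : N) (s t : Bool), x ≠ y ∧
      g = b ++ (x, s) :: (a1 ++ (y, t) :: (a2 ++ (x, !s) :: (a3 ++ (y, !t) :: b')))) := by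
  classical
  obtain ⟨u, m, v, x, s, hg, hm⟩ := exists_min_pair g hne hcl hnd
  rcases hm with rfl | ⟨z, hz, hz'⟩
  · exact Or.inl ⟨u, v, x, s, by simpa using hg⟩
  · right
    obtain ⟨y, t⟩ := z
    have hyg : (y, t) ∈ g := by rw [hg]; simp [hz]
    have hy' := hcl _ hyg
    simp only at hy' hz'
    have hxy : x ≠ y := by
      rintro rfl
      -- then (x,t) occurs in m, and also outside
      rw [hg] at hnd
      have h1 : (x, t) ∈ m := hz
      rw [List.nodup_append] at hnd
      obtain ⟨_, h2, _⟩ := hnd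
      rw [List.nodup_cons] at h2
      obtain ⟨h3, h4⟩ := h2
      by_cases hts : t = s
      · subst hts; exact h3 (by simp [h1])
      · have hts' : t = !s := by cases t <;> cases s <;> simp_all
        subst hts'
        rw [List.nodup_append] at h4
        exact h4.2.2 _ h1 _ (by simp) rfl
    obtain ⟨a, b, hab⟩ := List.append_of_mem hz
    rw [hg] at hy'
    rcases List.mem_append.1 hy' with h | h
    · obtain ⟨c, d, hcd⟩ := List.append_of_mem h
      refine ⟨c, d, a, b, v, y, x, !t, s, hxy.symm, ?_⟩
      rw [hg, hab, hcd]; simp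
    · rcases List.mem_cons.1 h with h | h
      · exact absurd (Prod.mk.inj h).1.symm hxy
      · rcases List.mem_append.1 h with h | h
        · exact absurd h hz'
        · rcases List.mem_cons.1 h with h | h
          · exact absurd (Prod.mk.inj h).1.symm hxy
          · obtain ⟨c, d, hcd⟩ := List.append_of_mem h
            refine ⟨u, a, b, c, d, x, y, s, t, hxy, ?_⟩
            rw [hg, hab, hcd]; simp

end Gap

end Crest.Agent.R003

namespace Crest.Agent.R003

section Rotate

variable {α : Type*} (P : α → Prop) [DecidablePred P]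

/-- A cyclic word containing both a `P`-letter and a non-`P`-letter can be rotated so that it starts
with a `P`-letter followed by a maximal nonempty block of non-`P`-letters. -/
theorem exists_rotated_gap (w : List α) (hP : ∃ a ∈ w, P a) (hN : ∃ b ∈ w, ¬ P b) :
    ∃ (p : α) (g rest : List α), w ~r (p :: (g ++ rest)) ∧ P p ∧ g ≠ [] ∧ (∀ z ∈ g, ¬ P z) ∧
      (rest = [] ∨ ∃ p' r, rest = p' :: r ∧ P p') := by
  classical
  obtain ⟨b, hb, hbN⟩ := hN
  obtain ⟨a, ha, haP⟩ := hP
  obtain ⟨u, v, rfl⟩ := List.append_of_mem hb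
  -- rotate to b :: (v ++ u)
  have h1 : (u ++ b :: v) ~r (b :: (v ++ u)) := by
    simpa using (List.isRotated_append (l := u) (l' := b :: v))
  have ha' : a ∈ v ++ u := by
    have h2 : a ∈ b :: (v ++ u) := (h1.perm.mem_iff).1 ha
    rcases List.mem_cons.1 h2 with h | h
    · exact absurd (h ▸ haP) hbN
    · exact h
  -- last P-letter of v ++ u
  have key : ∀ l : List α, (∃ a ∈ l, P a) → ∃ A p B, l = A ++ p :: B ∧ P p ∧ ∀ z ∈ B, ¬ P z := by
    intro l
    induction l with
    | nil => rintro ⟨_, h, _⟩; simp at h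
    | cons x l ih =>
      rintro ⟨y, hy, hyP⟩
      by_cases hl : ∃ a ∈ l, P a
      · obtain ⟨A, p, B, rfl, hp, hB⟩ := ih hl
        exact ⟨x :: A, p, B, rfl, hp, hB⟩
      · rcases List.mem_cons.1 hy with h | h
        · subst h
          refine ⟨[], y, l, rfl, hyP, ?_⟩
          intro z hz hzP
          exact hl ⟨z, hz, hzP⟩
        · exact absurd ⟨y, h, hyP⟩ hl
  obtain ⟨A, p, B, hAB, hp, hB⟩ := key (v ++ u) ⟨a, ha', haP⟩
  have h3 : (b :: (v ++ u)) ~r (p :: (B ++ (b :: A))) := by
    rw [hAB]
    have := List.isRotated_append (l := b :: A) (l' := p :: B)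
    simpa using this
  refine ⟨p, (B ++ (b :: A)).takeWhile (fun z => !decide (P z)),
    (B ++ (b :: A)).dropWhile (fun z => !decide (P z)), ?_, hp, ?_, ?_, ?_⟩
  · rw [List.takeWhile_append_dropWhile]
    exact h1.trans h3
  · cases B with
    | nil => simp [hbN]
    | cons x B => simp [hB x (by simp)]
  · intro z hz
    have := List.mem_takeWhile_imp hz
    simpa using this
  · rcases h : (B ++ (b :: A)).dropWhile (fun z => !decide (P z)) with _ | ⟨p', r⟩
    · exact Or.inl rfl
    · right
      refine ⟨p', r, rfl, ?_⟩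
      have := List.dropWhile_get_zero_not (p := fun z => !decide (P z)) (B ++ (b :: A))
        (by rw [h]; simp)
      simpa [h] using this

end Rotate

end Crest.Agent.R003
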