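import Mathlib
import Crest.Agent.R003.Gap537

/-! R003 (S0003): the case distinction of the driver, on an abstract letter type.  helper537 -/

set_option autoImplicit false

namespace Crest.Agent.R003

variable {L N : Type*} [DecidableEq N]

/-- Case distinction for a cyclic word containing a P-letter and a full letter, all of whose full
letters have their partners in the word. `F` embeds full letters, `f` recognises them. -/
theorem letter_cases (F : N × Bool → L) (f : L → Option (N × Bool)) (hF : ∀ z, f (F z) = some z)
    (hf : ∀ l z, f l = some z → l = F z) (w : List L)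
    (hP : ∃ p ∈ w, f p = none) (hN : ∃ z, F z ∈ w)
    (hnd : (w.filterMap f).Nodup) (hcl : ∀ z, F z ∈ w → F (z.1, !z.2) ∈ w) :
    (∃ (v : List L) (x : N) (s : Bool), w ~r (F (x, s) :: F (x, !s) :: v) ∧ ∃ p ∈ v, f p = none) ∨
    (∃ (p p' : L) (b a : List (N × Bool)) (c d : List L) (x : N) (s : Bool),
      f p = none ∧ f p' = none ∧
      w ~r (p :: (b.map F ++ F (x, s) :: (a.map F ++ p' :: (c ++ F (x, !s) :: d))))) ∨
    (∃ (p : L) (b a1 a2 a3 : List (N × Bool)) (b' : List L) (x y : N) (s t : Bool),
      f p = none ∧ x ≠ y ∧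
      w ~r (p :: (b.map F ++ F (x, s) :: (a1.map F ++ F (y, t) :: (a2.map F ++
        F (x, !s) :: (a3.map F ++ F (y, !t) :: b')))))) := by
  classical
  obtain ⟨p0, hp0, hp0P⟩ := hP
  obtain ⟨z0, hz0⟩ := hN
  obtain ⟨p, g, rest, hrot, hp, hg, hgN, hrest⟩ :=
    exists_rotated_gap (fun l : L => f l = none) w ⟨p0, hp0, hp0P⟩ ⟨F z0, hz0, by simp [hF]⟩
  -- g is a list of full letters
  have hmapg : ∀ l : List L, (∀ z ∈ l, ¬ f z = none) → ∃ l0 : List (N × Bool), l = l0.map F := by
    intro l
    induction l with
    | nil => intro _; exact ⟨[], rfl⟩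
    | cons z l ih =>
      intro h
      obtain ⟨l0, hl0⟩ := ih (fun y hy => h y (List.mem_cons_of_mem _ hy))
      have hz := h z (by simp)
      obtain ⟨z', hz'⟩ := Option.ne_none_iff_exists'.1 hz
      exact ⟨z' :: l0, by rw [hl0, hf z z' hz']; rfl⟩
  obtain ⟨g0, rfl⟩ := hmapg g hgN
  have hg0 : g0 ≠ [] := by rintro rfl; exact hg rfl
  have hmem : ∀ l, l ∈ w ↔ l ∈ p :: (g0.map F ++ rest) := fun l => hrot.perm.mem_iff
  have hnd' : ((p :: (g0.map F ++ rest)).filterMap f).Nodup :=
    ((hrot.perm.filterMap f).nodup_iff).1 hnd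
  have hfm : ∀ l : List (N × Bool), (l.map F).filterMap f = l := by
    intro l
    induction l with
    | nil => rfl
    | cons z l ih => rw [List.map_cons, List.filterMap_cons_some (hF z), ih]
  have hnd2 : (g0 ++ rest.filterMap f).Nodup := by
    rw [List.filterMap_cons_none hp, List.filterMap_append, hfm] at hnd'
    exact hnd'
  have hFinj : Function.Injective F := by
    intro a b hab
    have := congrArg f hab
    rw [hF, hF] at this
    exact Option.some.inj this
  have hFp : ∀ z, F z ≠ p := by
    rintro z rfl; rw [hF] at hp; exact absurd hp (by simp)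
  by_cases hout : ∃ z ∈ g0, F (z.1, !z.2) ∈ rest
  · -- S2
    right; left
    obtain ⟨⟨x, s⟩, hz, hz'⟩ := hout
    obtain ⟨b, a, hba⟩ := List.append_of_mem hz
    rcases hrest with h | ⟨p', r, hr, hp'⟩
    · rw [h] at hz'; simp at hz'
    · rw [hr] at hz'
      have hz'' : F (x, !s) ∈ r := by
        rcases List.mem_cons.1 hz' with h | h
        · have h' : f (F (x, !s)) = f p' := congrArg f h
          rw [hF, hp'] at h'; exact absurd h' (by simp)
        · exact h
      obtain ⟨c, d, hcd⟩ := List.append_of_mem hz''
      refine ⟨p, p', b, a, c, d, x, s, hp, hp', ?_⟩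
      refine hrot.trans ?_
      rw [hba, hr, hcd]
      simp only [List.map_append, List.map_cons, List.append_assoc, List.cons_append]
      exact List.IsRotated.refl _
  · push Not at hout
    have hclg : ∀ z ∈ g0, (z.1, !z.2) ∈ g0 := by
      intro z hz
      have h1 : F z ∈ w := (hmem _).2 (List.mem_cons_of_mem _ (List.mem_append_left _
        (List.mem_map_of_mem hz)))
      have h2 := (hmem _).1 (hcl z h1)
      rcases List.mem_cons.1 h2 with h | h
      · exact absurd h (hFp _)
      · rcases List.mem_append.1 h with h | h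
        · obtain ⟨y, hy, hyz⟩ := List.mem_map.1 h
          rw [← hFinj hyz]; exact hy
        · exact absurd h (hout z hz)
    rcases gap_cases g0 hg0 hclg (List.Nodup.of_append_left hnd2) with
      ⟨u, v, x, s, hu⟩ | ⟨b, a1, a2, a3, b', x, y, s, t, hxy, hu⟩
    · left
      refine ⟨v.map F ++ rest ++ p :: u.map F, x, s, ?_, p, by simp, hp⟩
      refine hrot.trans ?_
      rw [hu]
      have := List.isRotated_append (l := p :: u.map F) (l' := F (x, s) :: F (x, !s) :: (v.map F ++ rest))
      simpa only [List.map_append, List.map_cons, List.append_assoc, List.cons_append] using this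
    · right; right
      refine ⟨p, b, a1, a2, a3, b'.map F ++ rest, x, y, s, t, hp, hxy, ?_⟩
      refine hrot.trans ?_
      rw [hu]
      simp only [List.map_append, List.map_cons, List.append_assoc, List.cons_append]
      exact List.IsRotated.refl _

end Crest.Agent.R003
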