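import Mathlib

/-!
# R3 (S0003), Part 3 (iv): linear algebra of centralisers (helper475)
-/

set_option autoImplicit false

namespace Crest.Agent.R003.Cg

open Matrix Module

universe u

variable {E : Type u} [Field E] {n : ℕ}

/-- `ad X (Y) = X Y - Y X` -/
def ad (X : Matrix (Fin n) (Fin n) E) :
    Matrix (Fin n) (Fin n) E →ₗ[E] Matrix (Fin n) (Fin n) E :=
  LinearMap.mulLeft E X - LinearMap.mulRight E X

@[simp] theorem ad_apply (X Y : Matrix (Fin n) (Fin n) E) : ad X Y = X * Y - Y * X := rfl

/-- the trace form -/
def tf : LinearMap.BilinForm E (Matrix (Fin n) (Fin n) E) :=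
  LinearMap.mk₂ E (fun P Q => (P * Q).trace)
    (fun a b c => by rw [add_mul, trace_add])
    (fun a b c => by rw [smul_mul_assoc, trace_smul])
    (fun a b c => by rw [mul_add, trace_add])
    (fun a b c => by rw [mul_smul_comm, trace_smul])

@[simp] theorem tf_apply (P Q : Matrix (Fin n) (Fin n) E) : tf P Q = (P * Q).trace := rfl

theorem tf_comm (P Q : Matrix (Fin n) (Fin n) E) : tf P Q = tf Q P := by
  simp [trace_mul_comm P Q]

theorem tf_single (P : Matrix (Fin n) (Fin n) E) (i j : Fin n) :
    (P * Matrix.single i j 1).trace = P j i := by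
  rw [Matrix.trace_mul_comm]
  simp [Matrix.trace, Matrix.mul_apply, Matrix.single_apply, ite_and]

theorem tf_isRefl : (tf : LinearMap.BilinForm E (Matrix (Fin n) (Fin n) E)).IsRefl := by
  intro P Q h
  rw [tf_comm]; exact h

theorem tf_nondeg : (tf : LinearMap.BilinForm E (Matrix (Fin n) (Fin n) E)).Nondegenerate := by
  have h1 : ∀ P : Matrix (Fin n) (Fin n) E, (∀ Q, (P * Q).trace = 0) → P = 0 := by
    intro P h
    ext i j
    rw [← tf_single P j i, h]
    rfl
  refine ⟨fun P h => h1 P h, fun P h => h1 P fun Q => ?_⟩
  rw [trace_mul_comm]; exact h Q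

theorem trace_ad_mul (X P Q : Matrix (Fin n) (Fin n) E) :
    (ad X P * Q).trace = - (P * ad X Q).trace := by
  rw [ad_apply, ad_apply, sub_mul, mul_sub, trace_sub, trace_sub]
  have h1 : (X * P * Q).trace = (P * (Q * X)).trace := by
    rw [mul_assoc, trace_mul_comm, mul_assoc]
  rw [h1, mul_assoc]
  ring

/-- the orthogonal of the range of `ad X` is the centraliser -/
theorem orth_range (X : Matrix (Fin n) (Fin n) E) :
    tf.orthogonal (LinearMap.range (ad X)) = LinearMap.ker (ad X) := by
  ext Q
  rw [LinearMap.BilinForm.mem_orthogonal_iff, LinearMap.mem_ker]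
  constructor
  · intro h
    apply (tf_nondeg (E := E) (n := n)).1
    intro P
    have h1 := h (ad X P) ⟨P, rfl⟩
    rw [tf_apply, trace_ad_mul, neg_eq_zero] at h1
    rw [tf_comm]
    exact h1
  · rintro h _ ⟨P, rfl⟩
    rw [tf_apply, trace_ad_mul, h, mul_zero, trace_zero, neg_zero]

theorem range_ad (X : Matrix (Fin n) (Fin n) E) :
    LinearMap.range (ad X) = tf.orthogonal (LinearMap.ker (ad X)) := by
  rw [← orth_range, LinearMap.BilinForm.orthogonal_orthogonal tf_nondeg tf_isRefl]

theorem mem_range_ad (X Q : Matrix (Fin n) (Fin n) E) :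
    Q ∈ LinearMap.range (ad X) ↔ ∀ P ∈ LinearMap.ker (ad X), (P * Q).trace = 0 := by
  rw [range_ad, LinearMap.BilinForm.mem_orthogonal_iff]
  rfl

theorem finrank_mat : finrank E (Matrix (Fin n) (Fin n) E) = n ^ 2 := by
  rw [finrank_matrix, Fintype.card_fin, finrank_self]; ring

theorem finrank_ad (X : Matrix (Fin n) (Fin n) E) :
    finrank E (LinearMap.range (ad X)) + finrank E (LinearMap.ker (ad X)) = n ^ 2 := by
  rw [LinearMap.finrank_range_add_finrank_ker, finrank_mat]

/-- (D) a nonscalar matrix has a centraliser of dimension at most `n² - n` -/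
theorem finrank_cen_le (X : Matrix (Fin n) (Fin n) E) (hX : ∀ c : E, X ≠ c • 1) :
    finrank E (LinearMap.ker (ad X)) + n ≤ n ^ 2 := by
  have h1 : ∃ φ : Fin n → E, LinearIndependent E ![φ, φ ᵥ* X] := by
    by_contra hcon
    push Not at hcon
    obtain ⟨a, ha⟩ := (Matrix.toLin' Xᵀ).exists_eq_smul_id_of_forall_notLinearIndependent
      (fun v => by
        have := hcon v
        rwa [Matrix.toLin'_apply, Matrix.mulVec_transpose])
    apply hX a
    have h2 : Xᵀ = a • 1 := by
      apply Matrix.toLin'.injective
      rw [ha, map_smul, Matrix.toLin'_one]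
      rfl
    rw [← Matrix.transpose_transpose X, h2, Matrix.transpose_smul, Matrix.transpose_one]
  obtain ⟨φ, hφ⟩ := h1
  let F : (Fin n → E) →ₗ[E] Matrix (Fin n) (Fin n) E :=
    { toFun := fun w => ad X (Matrix.vecMulVec w φ)
      map_add' := fun a b => by rw [Matrix.add_vecMulVec, map_add]
      map_smul' := fun a b => by rw [Matrix.smul_vecMulVec, map_smul]; rfl }
  have hF : Function.Injective F := by
    rw [← LinearMap.ker_eq_bot, LinearMap.ker_eq_bot']
    intro w hw
    have hw' : Matrix.vecMulVec (X *ᵥ w) φ = Matrix.vecMulVec w (φ ᵥ* X) := by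
      have : X * Matrix.vecMulVec w φ - Matrix.vecMulVec w φ * X = 0 := hw
      rw [Matrix.mul_vecMulVec, Matrix.vecMulVec_mul] at this
      exact sub_eq_zero.1 this
    -- (X w)_i φ_j = w_i (φ X)_j
    ext i
    have h2 := LinearIndependent.pair_iff.1 hφ (-(X *ᵥ w) i) (w i) (by
      ext j
      have := congrFun (congrFun hw' i) j
      rw [Matrix.vecMulVec_apply, Matrix.vecMulVec_apply] at this
      simp only [Pi.add_apply, Pi.smul_apply, smul_eq_mul, Pi.zero_apply]
      rw [← this]; ring)
    exact h2.2
  have h3 : n ≤ finrank E (LinearMap.range (ad X)) := by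
    have h4 : finrank E (LinearMap.range F) = n := by
      rw [LinearMap.finrank_range_of_inj hF, finrank_fin_fun]
    refine h4.symm.le.trans (Submodule.finrank_mono ?_)
    rintro _ ⟨w, rfl⟩
    exact ⟨_, rfl⟩
  have h5 := finrank_ad X
  omega

/-- independent vectors stay independent along a line, for some nonzero parameter -/
theorem exists_indep {W ι : Type*} [AddCommGroup W] [Module E W] [Infinite E] [Fintype ι]
    [DecidableEq ι] (w w' : ι → W) (h : LinearIndependent E w) :
    ∃ t : E, t ≠ 0 ∧ LinearIndependent E (fun i => w i + t • w' i) := by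
  classical
  -- a left inverse
  have hker : LinearMap.ker (Fintype.linearCombination E w) = ⊥ := by
    rw [LinearMap.ker_eq_bot]
    exact h.fintypeLinearCombination_injective
  obtain ⟨G, hG⟩ := LinearMap.exists_leftInverse_of_injective _ hker
  have hGw : ∀ i, G (w i) = Pi.single i 1 := by
    intro i
    have := LinearMap.congr_fun hG (Pi.single i 1)
    rwa [LinearMap.comp_apply, Fintype.linearCombination_apply_single, one_smul,
      LinearMap.id_apply] at this
  let N : Matrix ι ι E := Matrix.of fun i j => G (w' i) j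
  let p : Polynomial E := (1 + (Polynomial.X : Polynomial E) • N.map Polynomial.C).det
  have hp : ∀ t : E, p.eval t = (1 + t • N).det := by
    intro t
    have h1 : p.eval t = (Polynomial.evalRingHom t) p := rfl
    rw [h1, RingHom.map_det]
    congr 1
    ext i j
    simp [Matrix.one_apply, apply_ite, N]
    ring
  have hp0 : p * Polynomial.X ≠ 0 := by
    apply mul_ne_zero _ Polynomial.X_ne_zero
    intro h0
    have h1 := hp 0
    rw [h0, zero_smul, add_zero, det_one, Polynomial.eval_zero] at h1
    exact zero_ne_one h1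
  obtain ⟨t, ht⟩ : ∃ t : E, (p * Polynomial.X).eval t ≠ 0 := by
    by_contra hcon
    push Not at hcon
    exact hp0 (Polynomial.funext fun t => by rw [hcon t, Polynomial.eval_zero])
  rw [Polynomial.eval_mul, Polynomial.eval_X] at ht
  have ht0 : t ≠ 0 := right_ne_zero_of_mul ht
  have ht1 : (1 + t • N).det ≠ 0 := by rw [← hp]; exact left_ne_zero_of_mul ht
  refine ⟨t, ht0, ?_⟩
  have h2 : LinearIndependent E (1 + t • N).row :=
    Matrix.linearIndependent_rows_of_det_ne_zero ht1
  have h3 : (1 + t • N).row = G ∘ (fun i => w i + t • w' i) := by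
    funext i j
    simp only [Function.comp_apply, map_add, map_smul, hGw, Pi.add_apply, Pi.smul_apply]
    simp [Matrix.row, Matrix.one_apply, Pi.single_apply, N, eq_comm]
  rw [h3] at h2
  exact h2.of_comp _

/-- (A) if the rank of `A` is maximal along the line `A + t B` then `B` maps `ker A` into
`range A`. -/
theorem map_ker_le {V W : Type*} [AddCommGroup V] [Module E V] [AddCommGroup W] [Module E W]
    [FiniteDimensional E W] [Infinite E] (A B : V →ₗ[E] W)
    (h : ∀ t : E, finrank E (LinearMap.range (A + t • B)) ≤ finrank E (LinearMap.range A))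
    (y : V) (hy : A y = 0) : B y ∈ LinearMap.range A := by
  classical
  by_contra hcon
  let r := finrank E (LinearMap.range A)
  let b : Basis (Fin r) E (LinearMap.range A) := finBasis E _
  choose u hu using fun i => (b i).2
  have hli : LinearIndependent E (fun i : Option (Fin r) => (i.elim (B y) (fun i => A (u i)) : W)) := by
    rw [linearIndependent_option]
    constructor
    · have h1 : ((fun i : Option (Fin r) => (i.elim (B y) (fun i => A (u i)) : W)) ∘ some) =
          (LinearMap.range A).subtype ∘ b := by
        funext i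
        simp [hu]
      rw [h1]
      exact b.linearIndependent.map' _ (Submodule.ker_subtype _)
    · intro hmem
      apply hcon
      have h2 : Submodule.span E (Set.range ((fun i : Option (Fin r) =>
          (i.elim (B y) (fun i => A (u i)) : W)) ∘ some)) ≤ LinearMap.range A := by
        rw [Submodule.span_le]
        rintro _ ⟨i, rfl⟩
        exact ⟨u i, rfl⟩
      exact h2 hmem
  obtain ⟨t, ht0, ht⟩ := exists_indep _ (fun i : Option (Fin r) => (i.elim (0 : W) (fun i => B (u i)))) hli
  have hmem : ∀ i : Option (Fin r), ((i.elim (B y) (fun i => A (u i)) : W) +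
      t • (i.elim (0 : W) (fun i => B (u i)))) ∈ LinearMap.range (A + t • B) := by
    intro i
    cases i with
    | none =>
      refine ⟨t⁻¹ • y, ?_⟩
      simp [hy, smul_smul, ht0]
    | some i => exact ⟨u i, by simp⟩
  let w : Option (Fin r) → LinearMap.range (A + t • B) := fun i => ⟨_, hmem i⟩
  have hw : LinearIndependent E w := by
    apply LinearIndependent.of_comp (LinearMap.range (A + t • B)).subtype
    exact ht
  have h3 := hw.fintype_card_le_finrank
  have h4 := h t
  rw [Fintype.card_option, Fintype.card_fin] at h3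
  omega

end Crest.Agent.R003.Cg
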