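import Crest.Agent.R003.Cg475A

/-!
# R3 (S0003), Part 3 (iv): cyclic decomposition, `dim [C(X),C(X)] ≥ dim C(X) - n` (helper475)
-/

set_option autoImplicit false

namespace Crest.Agent.R003.Cg

open Matrix Module Polynomial

universe u

variable {E : Type u} [Field E]

/-- decomposition of a vector space with an operator into cyclic ones -/
theorem exists_cyclic {V : Type u} [AddCommGroup V] [Module E V] [FiniteDimensional E V]
    (φ : V →ₗ[E] V) :
    ∃ (ι : Type u) (_ : Fintype ι) (e : ι → (V →ₗ[E] V)) (w : ι → V),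
      (∀ i, Commute (e i) φ) ∧ (∀ i, e i * e i = e i) ∧ (∀ i j, i ≠ j → e i * e j = 0) ∧
      ∑ i, e i = 1 ∧ (∀ i v, ∃ p : E[X], e i v = aeval φ p (w i)) ∧ (∀ i, e i (w i) = w i) := by
  classical
  have htor : Module.IsTorsion E[X] (AEval' φ) := by
    apply Module.AEval.isTorsion_of_finiteDimensional
  obtain ⟨ι, hι, q, hq, k, ⟨Θ₀⟩⟩ := Module.equiv_directSum_of_isTorsion (R := E[X]) htor
  let Q : ι → Type u := fun i => E[X] ⧸ (Submodule.span E[X] {q i ^ k i})
  let Θ : AEval' φ ≃ₗ[E[X]] (∀ i, E[X] ⧸ (Submodule.span E[X] {q i ^ k i})) :=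
    Θ₀.trans (DirectSum.linearEquivFunOnFintype E[X] ι _)
  let one : ∀ i, E[X] ⧸ (Submodule.span E[X] {q i ^ k i}) := fun i => Submodule.Quotient.mk 1
  let P : ι → (AEval' φ →ₗ[E[X]] AEval' φ) := fun i =>
    Θ.symm.toLinearMap ∘ₗ LinearMap.single E[X] _ i ∘ₗ LinearMap.proj i ∘ₗ Θ.toLinearMap
  have hP : ∀ i x, Θ (P i x) = Pi.single i (Θ x i) := by
    intro i x
    simp [P]
  have hPP : ∀ i x, P i (P i x) = P i x := by
    intro i x
    apply Θ.injective
    rw [hP, hP, Pi.single_eq_same]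
  have hPP' : ∀ i j, i ≠ j → ∀ x, P i (P j x) = 0 := by
    intro i j hij x
    apply Θ.injective
    rw [hP, hP, Pi.single_eq_of_ne hij, map_zero, Pi.single_zero]
  have hPs : ∀ x, ∑ i, P i x = x := by
    intro x
    apply Θ.injective
    rw [map_sum]
    simp_rw [hP]
    exact Finset.univ_sum_single (Θ x)
  let o : V ≃ₗ[E] AEval' φ := AEval'.of φ
  have hoX : ∀ v, o (φ v) = (X : E[X]) • o v := fun v => (AEval'.X_smul_of φ v).symm
  have hoE : ∀ (p : E[X]) (x : AEval' φ), o.symm (p • x) = aeval φ p (o.symm x) := fun p x =>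
    AEval.of_symm_smul φ p x
  let e : ι → (V →ₗ[E] V) := fun i =>
    o.symm.toLinearMap ∘ₗ (P i).restrictScalars E ∘ₗ o.toLinearMap
  have he : ∀ i v, e i v = o.symm (P i (o v)) := fun i v => rfl
  refine ⟨ι, hι, e, fun i => o.symm (Θ.symm (Pi.single i (one i))), ?_, ?_, ?_, ?_, ?_, ?_⟩
  · intro i
    apply LinearMap.ext
    intro v
    rw [Module.End.mul_apply, Module.End.mul_apply, he, he, hoX, map_smul, hoE, aeval_X]
  · intro i
    apply LinearMap.ext
    intro v
    rw [Module.End.mul_apply, he, he, LinearEquiv.apply_symm_apply, hPP]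
  · intro i j hij
    apply LinearMap.ext
    intro v
    rw [Module.End.mul_apply, he, he, LinearEquiv.apply_symm_apply, hPP' i j hij, map_zero]
    rfl
  · apply LinearMap.ext
    intro v
    rw [LinearMap.sum_apply]
    simp_rw [he]
    rw [← map_sum, hPs, LinearEquiv.symm_apply_apply]
    rfl
  · intro i v
    obtain ⟨p, hp⟩ := Submodule.Quotient.mk_surjective _ (Θ (o v) i)
    refine ⟨p, ?_⟩
    rw [he, ← hoE]
    congr 1
    apply Θ.injective
    rw [hP, map_smul, LinearEquiv.apply_symm_apply, ← hp, ← Pi.single_smul]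
    congr 1
    change _ = Submodule.Quotient.mk (p • (1 : E[X]))
    rw [smul_eq_mul, mul_one]
  · intro i
    rw [he, LinearEquiv.apply_symm_apply]
    congr 1
    apply Θ.injective
    rw [hP, LinearEquiv.apply_symm_apply, Pi.single_eq_same]

/-- matrix version -/
theorem exists_cyclic_mat {n : ℕ} (X : Matrix (Fin n) (Fin n) E) :
    ∃ (ι : Type u) (_ : Fintype ι) (e : ι → Matrix (Fin n) (Fin n) E) (w : ι → (Fin n → E)),
      (∀ i, e i * X = X * e i) ∧ (∀ i, e i * e i = e i) ∧ (∀ i j, i ≠ j → e i * e j = 0) ∧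
      ∑ i, e i = 1 ∧ (∀ i v, ∃ p : E[X], e i *ᵥ v = (aeval X p) *ᵥ (w i)) ∧
      (∀ i, e i *ᵥ w i = w i) := by
  obtain ⟨ι, hι, e, w, h1, h2, h3, h4, h5, h6⟩ := exists_cyclic (Matrix.toLinAlgEquiv' X)
  refine ⟨ι, hι, fun i => Matrix.toLinAlgEquiv'.symm (e i), w, ?_, ?_, ?_, ?_, ?_, ?_⟩
  · intro i
    apply Matrix.toLinAlgEquiv'.injective
    rw [map_mul, map_mul, AlgEquiv.apply_symm_apply]
    exact (h1 i)
  · intro i
    rw [← map_mul, h2]
  · intro i j hij
    rw [← map_mul, h3 i j hij, map_zero]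
  · rw [← map_sum, h4, map_one]
  · intro i v
    obtain ⟨p, hp⟩ := h5 i v
    refine ⟨p, ?_⟩
    have h7 : ∀ (A : Matrix (Fin n) (Fin n) E) (v : Fin n → E),
        A *ᵥ v = Matrix.toLinAlgEquiv' A v := fun A v => (Matrix.toLinAlgEquiv'_apply A v).symm
    rw [h7, h7, AlgEquiv.apply_symm_apply, hp]
    congr 1
    rw [← Polynomial.aeval_algHom_apply]
  · intro i
    have h7 : ∀ (A : Matrix (Fin n) (Fin n) E) (v : Fin n → E),
        A *ᵥ v = Matrix.toLinAlgEquiv' A v := fun A v => (Matrix.toLinAlgEquiv'_apply A v).symm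
    rw [h7, AlgEquiv.apply_symm_apply, h6]

theorem commute_aeval {R : Type*} [Ring R] [Algebra E R] {a b : R} (h : Commute a b) (p : E[X]) :
    Commute a (aeval b p) := by
  induction p using Polynomial.induction_on' with
  | add p q hp hq => rw [map_add]; exact hp.add_right hq
  | monomial k c =>
    rw [aeval_monomial]
    exact (Algebra.commute_algebraMap_right c a).mul_right (h.pow_right k)

/-- the span of the commutators of elements of `C(X)` -/
def com {n : ℕ} (X : Matrix (Fin n) (Fin n) E) : Submodule E (Matrix (Fin n) (Fin n) E) :=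
  Submodule.span E {Z | ∃ Y ∈ LinearMap.ker (ad X), ∃ Y' ∈ LinearMap.ker (ad X),
    Z = Y * Y' - Y' * Y}

theorem mem_ker_ad {n : ℕ} (X Y : Matrix (Fin n) (Fin n) E) :
    Y ∈ LinearMap.ker (ad X) ↔ X * Y = Y * X := by
  rw [LinearMap.mem_ker, ad_apply, sub_eq_zero]

theorem finrank_ker_le_com {n : ℕ} (X : Matrix (Fin n) (Fin n) E) :
    finrank E (LinearMap.ker (ad X)) ≤ n + finrank E (com X) := by
  obtain ⟨ι, hι, e, w, h1, h2, h3, h4, h5, h6⟩ := exists_cyclic_mat X
  let Φ : LinearMap.ker (ad X) →ₗ[E] (Fin n → E) :=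
    { toFun := fun Y => ∑ i, e i *ᵥ (Y.1 *ᵥ w i)
      map_add' := fun a b => by
        simp only [Submodule.coe_add, Matrix.add_mulVec, Matrix.mulVec_add, Finset.sum_add_distrib]
      map_smul' := fun c a => by
        simp only [Submodule.coe_smul, Matrix.smul_mulVec, Matrix.mulVec_smul, Finset.smul_sum,
          RingHom.id_apply] }
  have hker : ∀ Y ∈ LinearMap.ker Φ, (Y : Matrix (Fin n) (Fin n) E) ∈ com X := by
    intro Y hY
    have hYX := (mem_ker_ad X Y.1).1 Y.2
    have hsum : ∑ i, e i *ᵥ (Y.1 *ᵥ w i) = 0 := hY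
    have h7 : ∀ j, e j *ᵥ (Y.1 *ᵥ w j) = 0 := by
      intro j
      have h8 := congrArg (fun v => e j *ᵥ v) hsum
      simp only [Matrix.mulVec_zero] at h8
      rw [Matrix.mulVec_sum, Finset.sum_eq_single j] at h8
      · rw [Matrix.mulVec_mulVec, h2] at h8
        exact h8
      · intro i _ hij
        rw [Matrix.mulVec_mulVec, h3 j i (Ne.symm hij), Matrix.zero_mulVec]
      · simp
    have hYe : ∀ j, e j * Y.1 * e j = 0 := by
      intro j
      apply Matrix.toLin'.injective
      apply LinearMap.ext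
      intro v
      rw [Matrix.toLin'_apply, map_zero, LinearMap.zero_apply, mul_assoc, ← Matrix.mulVec_mulVec,
        ← Matrix.mulVec_mulVec]
      obtain ⟨p, hp⟩ := h5 j v
      have hc1 : Commute (e j) (aeval X p) := commute_aeval (h1 j) p
      have hc2 : Commute Y.1 (aeval X p) := commute_aeval hYX.symm p
      rw [hp, Matrix.mulVec_mulVec _ Y.1, hc2.eq, ← Matrix.mulVec_mulVec, Matrix.mulVec_mulVec _ (e j),
        hc1.eq, ← Matrix.mulVec_mulVec, h7, Matrix.mulVec_zero]
    have hdec : Y.1 = ∑ i, ∑ j, e i * Y.1 * e j := by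
      calc Y.1 = (∑ i, e i) * Y.1 * (∑ j, e j) := by rw [h4, one_mul, mul_one]
        _ = ∑ i, ∑ j, e i * Y.1 * e j := by
          rw [Finset.sum_mul, Finset.sum_mul]
          refine Finset.sum_congr rfl fun i _ => ?_
          rw [← Finset.mul_sum]
    rw [hdec]
    refine Submodule.sum_mem _ fun i _ => Submodule.sum_mem _ fun j _ => ?_
    by_cases hij : i = j
    · subst hij
      rw [hYe]; exact Submodule.zero_mem _
    · apply Submodule.subset_span
      have hei : ∀ i, X * e i = e i * X := fun i => (h1 i).symm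
      refine ⟨e i, (mem_ker_ad X _).2 (hei i), e i * Y.1 * e j, (mem_ker_ad X _).2 ?_, ?_⟩
      · rw [← mul_assoc, ← mul_assoc, hei, mul_assoc (e i) X, hYX, mul_assoc, mul_assoc, mul_assoc, hei,
          mul_assoc]
      · rw [← mul_assoc, ← mul_assoc, h2, mul_assoc (e i * Y.1), h3 j i (Ne.symm hij), mul_zero,
          sub_zero]
  have h8 := LinearMap.finrank_range_add_finrank_ker Φ
  have h9 : finrank E (LinearMap.range Φ) ≤ n := by
    have := Submodule.finrank_le (LinearMap.range Φ)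
    rwa [finrank_fin_fun] at this
  have h10 : finrank E (LinearMap.ker Φ) ≤ finrank E (com X) := by
    let ψ : LinearMap.ker Φ →ₗ[E] com X :=
      LinearMap.codRestrict (com X)
        ((LinearMap.ker (ad X)).subtype ∘ₗ (LinearMap.ker Φ).subtype) (fun Y => hker Y.1 Y.2)
    apply LinearMap.finrank_le_finrank_of_injective (f := ψ)
    intro a b hab
    have := congrArg Subtype.val hab
    exact Subtype.ext (Subtype.ext this)
  omega

/-- (C) the orthogonal of `[C(X),C(X)]` -/
theorem finrank_orth_com {n : ℕ} (X : Matrix (Fin n) (Fin n) E) :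
    finrank E (tf.orthogonal (com X)) + finrank E (LinearMap.ker (ad X)) ≤ n ^ 2 + n := by
  have h1 := finrank_ker_le_com X
  have h2 := LinearMap.BilinForm.finrank_orthogonal (tf_nondeg (E := E) (n := n)) (com X)
  have h3 := Submodule.finrank_le (com X)
  rw [finrank_mat] at h2 h3
  omega

end Crest.Agent.R003.Cg
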