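import Crest.Agent.R003.Cg475B

/-!
# R3 (S0003), Part 3 (iv), Lemma (4): tuples with a nontrivial centraliser (helper475)

`x : J → M_n(E)`, `z = dim C(x) ≥ 2` implies `dim span {δ x} + z ≤ |J| n²` (`|J| ≥ 2`).
-/

set_option autoImplicit false

namespace Crest.Agent.R003.Cg

open Matrix Module Polynomial

universe u v

section der

variable {F : Type v} {E : Type u} [Field F] [Field E] [Algebra F E] {n : ℕ}

theorem map_der_mul (δ : Derivation F E E) (A B : Matrix (Fin n) (Fin n) E) :
    (A * B).map δ = A.map δ * B + A * B.map δ := by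
  ext i j
  simp only [Matrix.map_apply, Matrix.mul_apply, Matrix.add_apply, map_sum, Derivation.leibniz,
    smul_eq_mul, Finset.sum_add_distrib]
  rw [add_comm]
  congr 1
  exact Finset.sum_congr rfl fun k _ => mul_comm _ _

end der

variable {E : Type u} [Field E] {n : ℕ}

/-- the centraliser of a tuple -/
def cen {J : Type*} (x : J → Matrix (Fin n) (Fin n) E) : Submodule E (Matrix (Fin n) (Fin n) E) :=
  ⨅ j, LinearMap.ker (ad (x j))

theorem mem_cen {J : Type*} (x : J → Matrix (Fin n) (Fin n) E) (Z : Matrix (Fin n) (Fin n) E) :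
    Z ∈ cen x ↔ ∀ j, x j * Z = Z * x j := by
  simp only [cen, Submodule.mem_iInf, mem_ker_ad]

theorem one_mem_cen {J : Type*} (x : J → Matrix (Fin n) (Fin n) E) : 1 ∈ cen x := by
  rw [mem_cen]; intro j; simp

/-- Lemma (4), linear part. `D` is a space of "tangent vectors" `v` at the tuple `x`, each of which
has a companion `Ξ` with `[v_j, X] + [x_j, Ξ] = 0` and `Ξ ⊥ [C(X), C(X)]`, for every `X ∈ C(x)`. -/
theorem tuple_bound [Infinite E] {J : Type*} [Fintype J] (x : J → Matrix (Fin n) (Fin n) E)
    (D : Submodule E (J → Matrix (Fin n) (Fin n) E))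
    (hD : ∀ X ∈ cen x, ∀ v ∈ D, ∃ Ξ ∈ tf.orthogonal (com X),
      ∀ j, v j * X - X * v j + (x j * Ξ - Ξ * x j) = 0)
    (hJ : 2 ≤ Fintype.card J) (hz : 2 ≤ finrank E (cen x)) :
    finrank E D + finrank E (cen x) ≤ Fintype.card J * n ^ 2 := by
  classical
  -- choose X
  have hex : ∃ k : ℕ, ∃ X ∈ cen x, finrank E (LinearMap.ker (ad X)) = k := ⟨_, 1, one_mem_cen x, rfl⟩
  obtain ⟨X, hX, hXk⟩ := Nat.find_spec hex
  have hmin : ∀ Z ∈ cen x, finrank E (LinearMap.ker (ad X)) ≤ finrank E (LinearMap.ker (ad Z)) := by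
    intro Z hZ
    rw [hXk]
    exact Nat.find_min' hex ⟨Z, hZ, rfl⟩
  -- a nonscalar element of the centraliser
  have hns : ∃ Z ∈ cen x, ∀ c : E, Z ≠ c • 1 := by
    by_contra hcon
    push Not at hcon
    have h1 : cen x ≤ Submodule.span E {(1 : Matrix (Fin n) (Fin n) E)} := by
      intro Z hZ
      obtain ⟨c, hc⟩ := hcon Z hZ
      rw [Submodule.mem_span_singleton]
      exact ⟨c, hc.symm⟩
    have h2 := Submodule.finrank_mono h1
    have h3 := finrank_span_le_card (R := E) ({(1 : Matrix (Fin n) (Fin n) E)} : Set _)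
    simp at h3
    omega
  obtain ⟨Z₀, hZ₀, hZ₀'⟩ := hns
  have h4 : finrank E (LinearMap.ker (ad X)) + n ≤ n ^ 2 :=
    (Nat.add_le_add_right (hmin Z₀ hZ₀) n).trans (finrank_cen_le Z₀ hZ₀')
  -- `C(x) ⊆ [C(X),C(X)]^⊥`
  have h5 : cen x ≤ tf.orthogonal (com X) := by
    intro Z hZ
    have h6 : ∀ Y ∈ LinearMap.ker (ad X), ad Z Y ∈ LinearMap.range (ad X) := by
      intro Y hY
      refine map_ker_le (ad X) (ad Z) (fun t => ?_) Y hY
      have h7 : ad X + t • ad Z = ad (X + t • Z) := by
        ext1 W
        simp only [LinearMap.add_apply, LinearMap.smul_apply, ad_apply, add_mul, mul_add, smul_mul_assoc,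
          mul_smul_comm, smul_sub]
        abel
      rw [h7]
      have h8 := hmin (X + t • Z) (Submodule.add_mem _ hX (Submodule.smul_mem _ t hZ))
      have h9 := finrank_ad X
      have h10 := finrank_ad (X + t • Z)
      omega
    rw [LinearMap.BilinForm.mem_orthogonal_iff]
    intro P hP
    induction hP using Submodule.span_induction with
    | mem P hP =>
      obtain ⟨Y, hY, Y', hY', rfl⟩ := hP
      have h11 := (mem_range_ad X (ad Z Y)).1 (h6 Y hY) Y' hY'
      change ((Y * Y' - Y' * Y) * Z).trace = 0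
      rw [ad_apply, mul_sub, trace_sub, sub_eq_zero] at h11
      rw [sub_mul, trace_sub, sub_eq_zero]
      have e1 : (Y * Y' * Z).trace = (Y' * (Z * Y)).trace := by
        rw [mul_assoc, trace_mul_comm, mul_assoc]
      rw [e1, h11, mul_assoc]
    | zero => simp
    | add P Q _ _ hP hQ =>
      change tf (P + Q) Z = 0
      rw [map_add, LinearMap.add_apply]
      have a1 : tf P Z = 0 := hP
      have a2 : tf Q Z = 0 := hQ
      rw [a1, a2, add_zero]
    | smul c P _ hP =>
      change tf (c • P) Z = 0
      rw [map_smul, LinearMap.smul_apply]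
      have a1 : tf P Z = 0 := hP
      rw [a1, smul_zero]
  -- the space `ℒ`
  let V := tf.orthogonal (com X)
  let Λ : (J → Matrix (Fin n) (Fin n) E) × Matrix (Fin n) (Fin n) E →ₗ[E]
      (J → Matrix (Fin n) (Fin n) E) :=
    { toFun := fun p j => p.1 j * X - X * p.1 j + (x j * p.2 - p.2 * x j)
      map_add' := fun a b => by
        funext j
        simp only [Prod.fst_add, Prod.snd_add, Pi.add_apply, add_mul, mul_add]
        abel
      map_smul' := fun c a => by
        funext j
        simp only [Prod.smul_fst, Prod.smul_snd, Pi.smul_apply, smul_mul_assoc, mul_smul_comm,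
          RingHom.id_apply, ← smul_sub, ← smul_add] }
  let L : Submodule E ((J → Matrix (Fin n) (Fin n) E) × Matrix (Fin n) (Fin n) E) :=
    LinearMap.ker Λ ⊓ V.comap (LinearMap.snd E _ _)
  -- upper bound
  have h12 : finrank E L ≤ finrank E V + Fintype.card J * finrank E (LinearMap.ker (ad X)) := by
    let π : L →ₗ[E] V := LinearMap.codRestrict V (LinearMap.snd E _ _ ∘ₗ L.subtype) (fun p => p.2.2)
    have h13 := LinearMap.finrank_range_add_finrank_ker π
    have h14 : finrank E (LinearMap.range π) ≤ finrank E V := Submodule.finrank_le _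
    have h15 : finrank E (LinearMap.ker π) ≤ Fintype.card J * finrank E (LinearMap.ker (ad X)) := by
      let ψ : LinearMap.ker π →ₗ[E] (J → LinearMap.ker (ad X)) :=
        LinearMap.pi fun j => LinearMap.codRestrict (LinearMap.ker (ad X))
          (LinearMap.proj j ∘ₗ LinearMap.fst E _ _ ∘ₗ L.subtype ∘ₗ (LinearMap.ker π).subtype)
          (fun p => by
            have hp1 : Λ p.1.1 = 0 := p.1.2.1
            have hp2 : p.1.1.2 = 0 := congrArg Subtype.val p.2
            have hp3 : p.1.1.1 j * X - X * p.1.1.1 j + (x j * p.1.1.2 - p.1.1.2 * x j) = 0 :=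
              congrFun hp1 j
            rw [hp2, mul_zero, zero_mul, sub_zero, add_zero, sub_eq_zero] at hp3
            exact (mem_ker_ad X _).2 hp3.symm)
      have hψ : Function.Injective ψ := by
        intro p q hpq
        have h16 : p.1.1.1 = q.1.1.1 := by
          funext j
          exact congrArg Subtype.val (congrFun hpq j)
        have hp2 : p.1.1.2 = 0 := congrArg Subtype.val p.2
        have hq2 : q.1.1.2 = 0 := congrArg Subtype.val q.2
        exact Subtype.ext (Subtype.ext (Prod.ext h16 (hp2.trans hq2.symm)))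
      have h17 := LinearMap.finrank_le_finrank_of_injective hψ
      rw [Module.finrank_pi_fintype] at h17
      simpa using h17
    omega
  -- lower bound
  have h18 : finrank E D + finrank E (cen x) ≤ finrank E L := by
    let π : L →ₗ[E] (J → Matrix (Fin n) (Fin n) E) := LinearMap.fst E _ _ ∘ₗ L.subtype
    have h19 := LinearMap.finrank_range_add_finrank_ker π
    have h20 : D ≤ LinearMap.range π := by
      intro v hv
      obtain ⟨Ξ, hΞ, hΞ'⟩ := hD X hX v hv
      exact ⟨⟨(v, Ξ), ⟨funext hΞ', hΞ⟩⟩, rfl⟩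
    have h21 := Submodule.finrank_mono h20
    have h22 : finrank E (cen x) ≤ finrank E (LinearMap.ker π) := by
      let ψ : cen x →ₗ[E] LinearMap.ker π :=
        LinearMap.codRestrict _ (LinearMap.codRestrict L
          (LinearMap.inr E _ _ ∘ₗ (cen x).subtype) (fun Z => by
            refine ⟨?_, h5 Z.2⟩
            funext j
            have := (mem_cen x Z.1).1 Z.2 j
            change (0 : Matrix (Fin n) (Fin n) E) * X - X * 0 + (x j * Z.1 - Z.1 * x j) = 0
            rw [this]; simp)) (fun Z => rfl)
      apply LinearMap.finrank_le_finrank_of_injective (f := ψ)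
      intro a b hab
      have := congrArg (fun z => z.1.1.2) hab
      exact Subtype.ext this
    omega
  have h23 := finrank_orth_com X
  have h24 : finrank E V + finrank E (LinearMap.ker (ad X)) ≤ n ^ 2 + n := h23
  obtain ⟨m, hm⟩ := Nat.exists_eq_add_of_le hJ
  rw [hm] at h12 ⊢
  nlinarith

end Crest.Agent.R003.Cg
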