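import Crest.Agent.R003.Cg475C

/-!
# R3 (S0003), Part 3 (iv), (Ce): the differential of a product of commutators (helper475)
-/

set_option autoImplicit false

namespace Crest.Agent.R003.Cg

open Matrix Module Polynomial

universe u v

section comm

variable {E : Type u} [Field E] {n : ℕ}

/-- the differential of the commutator -/
def dC (A B : GL (Fin n) E) :
    Matrix (Fin n) (Fin n) E × Matrix (Fin n) (Fin n) E →ₗ[E] Matrix (Fin n) (Fin n) E :=
  LinearMap.coprod
    (LinearMap.mulRight E (B.1 * (A⁻¹).1 * (B⁻¹).1) -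
      LinearMap.mulLeft E (A.1 * B.1 * (A⁻¹).1) ∘ₗ LinearMap.mulRight E ((A⁻¹).1 * (B⁻¹).1))
    (LinearMap.mulLeft E A.1 ∘ₗ LinearMap.mulRight E ((A⁻¹).1 * (B⁻¹).1) -
      LinearMap.mulLeft E (A.1 * B.1 * (A⁻¹).1 * (B⁻¹).1) ∘ₗ LinearMap.mulRight E (B⁻¹).1)

theorem dC_apply (A B : GL (Fin n) E) (a b : Matrix (Fin n) (Fin n) E) :
    dC A B (a, b) = a * (B.1 * (A⁻¹).1 * (B⁻¹).1) -
      (A.1 * B.1 * (A⁻¹).1) * (a * ((A⁻¹).1 * (B⁻¹).1)) +
      (A.1 * (b * ((A⁻¹).1 * (B⁻¹).1)) -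
      (A.1 * B.1 * (A⁻¹).1 * (B⁻¹).1) * (b * (B⁻¹).1)) := rfl

theorem eq_of_trace {P Q : Matrix (Fin n) (Fin n) E}
    (h : ∀ a : Matrix (Fin n) (Fin n) E, (a * P).trace = (a * Q).trace) : P = Q := by
  rw [← sub_eq_zero]
  apply (tf_nondeg (E := E) (n := n)).2
  intro a
  change (a * (P - Q)).trace = 0
  rw [mul_sub, trace_sub, h a, sub_self]

theorem comm_of_dC (A B : GL (Fin n) E) (R : Matrix (Fin n) (Fin n) E)
    (h : ∀ a b, (dC A B (a, b) * R).trace = 0) :
    A.1 * ((A * B * A⁻¹ * B⁻¹).1 * R) = ((A * B * A⁻¹ * B⁻¹).1 * R) * A.1 ∧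
    B.1 * ((A * B * A⁻¹ * B⁻¹).1 * R) = ((A * B * A⁻¹ * B⁻¹).1 * R) * B.1 := by
  have hA : A.1 * (A⁻¹).1 = 1 := by rw [← Units.val_mul, mul_inv_cancel]; rfl
  have hA' : (A⁻¹).1 * A.1 = 1 := by rw [← Units.val_mul, inv_mul_cancel]; rfl
  have hB : B.1 * (B⁻¹).1 = 1 := by rw [← Units.val_mul, mul_inv_cancel]; rfl
  have hB' : (B⁻¹).1 * B.1 = 1 := by rw [← Units.val_mul, inv_mul_cancel]; rfl
  have e1 : B.1 * (A⁻¹).1 * (B⁻¹).1 * R = (A⁻¹).1 * (B⁻¹).1 * R * (A.1 * B.1 * (A⁻¹).1) := by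
    apply eq_of_trace
    intro a
    have := h a 0
    rw [dC_apply, zero_mul, zero_mul, mul_zero, mul_zero, sub_zero, add_zero, sub_mul, trace_sub,
      sub_eq_zero] at this
    rw [← mul_assoc, this, mul_assoc (A.1 * B.1 * (A⁻¹).1), trace_mul_comm]
    simp only [mul_assoc]
  have e2 : (A⁻¹).1 * (B⁻¹).1 * R * A.1 = (B⁻¹).1 * R * (A.1 * B.1 * (A⁻¹).1 * (B⁻¹).1) := by
    apply eq_of_trace
    intro b
    have := h 0 b
    rw [dC_apply, zero_mul, zero_mul, mul_zero, sub_zero, zero_add, sub_mul, trace_sub,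
      sub_eq_zero] at this
    have e3 : (b * ((A⁻¹).1 * (B⁻¹).1 * R * A.1)).trace =
        (A.1 * (b * ((A⁻¹).1 * (B⁻¹).1)) * R).trace := by
      rw [mul_assoc A.1, trace_mul_comm A.1]
      simp only [mul_assoc]
    rw [e3, this, mul_assoc (A.1 * B.1 * (A⁻¹).1 * (B⁻¹).1), trace_mul_comm]
    simp only [mul_assoc]
  simp only [Units.val_mul]
  set Q := A.1 * B.1 * (A⁻¹).1 * (B⁻¹).1 * R with hQ
  have f1 : Q = (B⁻¹).1 * R * (A.1 * B.1 * (A⁻¹).1) := by
    have := congrArg (fun Z => A.1 * Z) e1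
    simp only [← mul_assoc, hA, one_mul] at this
    rw [hQ, this]
    simp only [← mul_assoc]
  have f2 : (B⁻¹).1 * R = A.1 * Q * (B⁻¹).1 * (A⁻¹).1 := by
    have h2 : (A⁻¹).1 * (B⁻¹).1 * R * A.1 = Q * (B⁻¹).1 := by
      rw [e2, f1]; simp only [mul_assoc]
    have h3 := congrArg (fun Z => A.1 * Z * (A⁻¹).1) h2
    simp only [← mul_assoc, hA, one_mul] at h3
    rw [mul_assoc ((B⁻¹).1 * R), hA, mul_one] at h3
    exact h3
  have g1 : Q = A.1 * Q * (A⁻¹).1 := by
    conv_lhs => rw [f1, f2]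
    rw [mul_assoc (A.1 * Q * (B⁻¹).1), ← mul_assoc (A⁻¹).1, ← mul_assoc (A⁻¹).1, hA', one_mul,
      mul_assoc (A.1 * Q), ← mul_assoc (B⁻¹).1, hB', one_mul]
  have g2 : Q = A.1 * (B.1 * Q * (B⁻¹).1) * (A⁻¹).1 := by
    conv_lhs => rw [hQ, mul_assoc _ (B⁻¹).1, f2]
    simp only [← mul_assoc]
    rw [mul_assoc (A.1 * B.1) (A⁻¹).1 A.1, hA', mul_one]
  have g1' : A.1 * Q = Q * A.1 := by
    conv_rhs => rw [g1]
    rw [mul_assoc, hA', mul_one]
  have g3 : Q = B.1 * Q * (B⁻¹).1 := by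
    have h4 : (A⁻¹).1 * Q * A.1 = B.1 * Q * (B⁻¹).1 := by
      conv_lhs => rw [g2]
      rw [← mul_assoc, ← mul_assoc, hA', one_mul, mul_assoc, hA', mul_one]
    rw [mul_assoc, ← g1', ← mul_assoc, hA', one_mul] at h4
    exact h4
  refine ⟨g1', ?_⟩
  conv_rhs => rw [g3]
  rw [mul_assoc, hB', mul_one]

end comm

section prod

variable {E : Type u} [Field E] {n : ℕ} {ι : Type*}

/-- product of commutators -/
def Wp (T : ι × Bool → GL (Fin n) E) (l : List ι) : GL (Fin n) E :=
  (l.map fun i => T (i, false) * T (i, true) * (T (i, false))⁻¹ * (T (i, true))⁻¹).prod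

@[simp] theorem Wp_nil (T : ι × Bool → GL (Fin n) E) : Wp T [] = 1 := rfl

theorem Wp_cons (T : ι × Bool → GL (Fin n) E) (i : ι) (l : List ι) :
    Wp T (i :: l) = (T (i, false) * T (i, true) * (T (i, false))⁻¹ * (T (i, true))⁻¹) * Wp T l := by
  rw [Wp, List.map_cons, List.prod_cons]; rfl

/-- its differential -/
def dW (T : ι × Bool → GL (Fin n) E) : List ι →
    ((ι × Bool → Matrix (Fin n) (Fin n) E) →ₗ[E] Matrix (Fin n) (Fin n) E)
  | [] => 0
  | i :: l => LinearMap.mulRight E (Wp T l).1 ∘ₗ dC (T (i, false)) (T (i, true)) ∘ₗ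
      (LinearMap.prod (LinearMap.proj (i, false)) (LinearMap.proj (i, true))) +
      LinearMap.mulLeft E (T (i, false) * T (i, true) * (T (i, false))⁻¹ * (T (i, true))⁻¹).1 ∘ₗ
        dW T l

theorem dW_cons (T : ι × Bool → GL (Fin n) E) (i : ι) (l : List ι)
    (v : ι × Bool → Matrix (Fin n) (Fin n) E) :
    dW T (i :: l) v = dC (T (i, false)) (T (i, true)) (v (i, false), v (i, true)) * (Wp T l).1 +
      (T (i, false) * T (i, true) * (T (i, false))⁻¹ * (T (i, true))⁻¹).1 * dW T l v := rfl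

theorem dW_congr (T : ι × Bool → GL (Fin n) E) (l : List ι)
    (v v' : ι × Bool → Matrix (Fin n) (Fin n) E) (h : ∀ i ∈ l, ∀ b, v (i, b) = v' (i, b)) :
    dW T l v = dW T l v' := by
  induction l with
  | nil => rfl
  | cons i l ih =>
    rw [dW_cons, dW_cons, ih (fun j hj => h j (List.mem_cons_of_mem _ hj)),
      h i List.mem_cons_self, h i List.mem_cons_self]

theorem comm_Wp (T : ι × Bool → GL (Fin n) E) (l : List ι) (Q : Matrix (Fin n) (Fin n) E)
    (h : ∀ i ∈ l, ∀ b, (T (i, b)).1 * Q = Q * (T (i, b)).1) : (Wp T l).1 * Q = Q * (Wp T l).1 := by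
  have hinv : ∀ g : GL (Fin n) E, g.1 * Q = Q * g.1 → (g⁻¹).1 * Q = Q * (g⁻¹).1 := by
    intro g hg
    have h1 : (g⁻¹).1 * g.1 = 1 := by rw [← Units.val_mul, inv_mul_cancel]; rfl
    have h2 : g.1 * (g⁻¹).1 = 1 := by rw [← Units.val_mul, mul_inv_cancel]; rfl
    calc (g⁻¹).1 * Q = (g⁻¹).1 * Q * (g.1 * (g⁻¹).1) := by rw [h2, mul_one]
      _ = (g⁻¹).1 * (Q * g.1) * (g⁻¹).1 := by simp only [mul_assoc]
      _ = (g⁻¹).1 * (g.1 * Q) * (g⁻¹).1 := by rw [hg]
      _ = Q * (g⁻¹).1 := by rw [← mul_assoc, h1, one_mul]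
  have hmul : ∀ g g' : GL (Fin n) E, g.1 * Q = Q * g.1 → g'.1 * Q = Q * g'.1 →
      (g * g').1 * Q = Q * (g * g').1 := by
    intro g g' hg hg'
    rw [Units.val_mul, mul_assoc, hg', ← mul_assoc, hg, mul_assoc]
  induction l with
  | nil => simp
  | cons i l ih =>
    rw [Wp_cons]
    have h1 := h i List.mem_cons_self false
    have h2 := h i List.mem_cons_self true
    exact hmul _ _ (hmul _ _ (hmul _ _ (hmul _ _ h1 h2) (hinv _ h1)) (hinv _ h2))
      (ih fun j hj => h j (List.mem_cons_of_mem _ hj))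

/-- the orthogonal of the image of the differential -/
theorem comm_of_dW (T : ι × Bool → GL (Fin n) E) (l : List ι) (hl : l.Nodup)
    (R : Matrix (Fin n) (Fin n) E) (h : ∀ v, (dW T l v * R).trace = 0) :
    ∀ i ∈ l, ∀ b, (T (i, b)).1 * ((Wp T l).1 * R) = ((Wp T l).1 * R) * (T (i, b)).1 := by
  classical
  induction l generalizing R with
  | nil => simp
  | cons i l ih =>
    obtain ⟨hi, hl'⟩ := List.nodup_cons.1 hl
    set C := T (i, false) * T (i, true) * (T (i, false))⁻¹ * (T (i, true))⁻¹ with hC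
    -- the part at `i`
    have h1 : ∀ a b, (dC (T (i, false)) (T (i, true)) (a, b) * ((Wp T l).1 * R)).trace = 0 := by
      intro a b
      let v : ι × Bool → Matrix (Fin n) (Fin n) E :=
        fun p => if p.1 = i then (if p.2 then b else a) else 0
      have h2 := h v
      have h3 : dW T l v = 0 := by
        rw [dW_congr T l v 0 (fun j hj b' => ?_), map_zero]
        have : j ≠ i := fun hji => hi (hji ▸ hj)
        simp [v, this]
      rw [dW_cons, h3, mul_zero, add_zero] at h2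
      have h4 : v (i, false) = a := by simp [v]
      have h5 : v (i, true) = b := by simp [v]
      rw [h4, h5, mul_assoc] at h2
      exact h2
    obtain ⟨h6, h7⟩ := comm_of_dC _ _ _ h1
    have hQ : (Wp T (i :: l)).1 * R = C.1 * ((Wp T l).1 * R) := by
      rw [Wp_cons, Units.val_mul, mul_assoc]
    -- `Q` commutes with `C`
    have h8 : C.1 * (C.1 * ((Wp T l).1 * R)) = (C.1 * ((Wp T l).1 * R)) * C.1 := by
      have := comm_Wp T [i] (C.1 * ((Wp T l).1 * R)) (by
        intro j hj b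
        rw [List.mem_singleton] at hj
        subst hj
        cases b
        · exact h6
        · exact h7)
      rwa [Wp_cons, Wp_nil, mul_one] at this
    have hC1 : (C⁻¹).1 * C.1 = 1 := by rw [← Units.val_mul, inv_mul_cancel]; rfl
    have h9 : (Wp T l).1 * (R * C.1) = C.1 * ((Wp T l).1 * R) := by
      have h10 := congrArg (fun Z => (C⁻¹).1 * Z) h8
      simp only [← mul_assoc, hC1, one_mul] at h10
      rw [← mul_assoc, ← h10, mul_assoc]
    have h11 := ih hl' (R * C.1) (by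
      intro v
      let v' : ι × Bool → Matrix (Fin n) (Fin n) E := fun p => if p.1 = i then 0 else v p
      have h12 := h v'
      have h13 : v' (i, false) = 0 := by simp [v']
      have h14 : v' (i, true) = 0 := by simp [v']
      have h15 : dW T l v' = dW T l v := by
        apply dW_congr
        intro j hj b
        have : j ≠ i := fun hji => hi (hji ▸ hj)
        simp [v', this]
      have h16 : dC (T (i, false)) (T (i, true))
          ((0 : Matrix (Fin n) (Fin n) E), (0 : Matrix (Fin n) (Fin n) E)) = 0 :=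
        LinearMap.map_zero (dC (T (i, false)) (T (i, true)))
      rw [dW_cons, h13, h14, h16, zero_mul, zero_add, h15] at h12
      rw [← mul_assoc, trace_mul_comm, ← mul_assoc]
      exact h12)
    rw [hQ]
    intro j hj b
    rcases List.mem_cons.1 hj with rfl | hj'
    · cases b
      · exact h6
      · exact h7
    · have := h11 j hj' b
      rw [h9] at this
      exact this

/-- (Ce) the kernel of the differential -/
theorem finrank_ker_dW [Fintype ι] (T : ι × Bool → GL (Fin n) E) (l : List ι) (hl : l.Nodup)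
    (hmem : ∀ i, i ∈ l) :
    finrank E (LinearMap.ker (dW T l)) + n ^ 2 ≤
      2 * Fintype.card ι * n ^ 2 + finrank E (cen fun p => (T p).1) := by
  classical
  have h1 := LinearMap.finrank_range_add_finrank_ker (dW T l)
  rw [Module.finrank_pi_fintype] at h1
  simp only [finrank_mat, Finset.sum_const, Finset.card_univ, Fintype.card_prod, Fintype.card_bool,
    smul_eq_mul] at h1
  -- orthogonal of the range
  have h2 := LinearMap.BilinForm.finrank_orthogonal (tf_nondeg (E := E) (n := n))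
    (LinearMap.range (dW T l))
  have h3 := Submodule.finrank_le (LinearMap.range (dW T l))
  rw [finrank_mat] at h2 h3
  have h4 : finrank E (tf.orthogonal (LinearMap.range (dW T l))) ≤
      finrank E (cen fun p => (T p).1) := by
    let ψ : tf.orthogonal (LinearMap.range (dW T l)) →ₗ[E] cen fun p => (T p).1 :=
      LinearMap.codRestrict _ (LinearMap.mulLeft E (Wp T l).1 ∘ₗ
        (tf.orthogonal (LinearMap.range (dW T l))).subtype) (by
          intro R
          rw [mem_cen]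
          rintro ⟨i, b⟩
          exact comm_of_dW T l hl R.1 (fun v => R.2 _ ⟨v, rfl⟩) i (hmem i) b)
    apply LinearMap.finrank_le_finrank_of_injective (f := ψ)
    intro a b hab
    have h5 : (Wp T l).1 * a.1 = (Wp T l).1 * b.1 := congrArg Subtype.val hab
    have h6 := congrArg (fun Z => ((Wp T l)⁻¹).1 * Z) h5
    have h7 : ((Wp T l)⁻¹).1 * (Wp T l).1 = 1 := by rw [← Units.val_mul, inv_mul_cancel]; rfl
    simp only [← mul_assoc, h7, one_mul] at h6
    exact Subtype.ext h6
  have h5 : 2 * Fintype.card ι * n ^ 2 = Fintype.card ι * 2 * n ^ 2 := by ring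
  omega

end prod

end Crest.Agent.R003.Cg
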