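import Crest.Agent.R003.Cg475D

/-!
# R3 (S0003), Part 3 (iv): the count (helper475)
-/

set_option autoImplicit false

namespace Crest.Agent.R003.Cg

open Matrix Module Polynomial

universe u v

variable {F : Type v} {E : Type u} [Field F] [Field E] [Algebra F E] {n : ℕ}

theorem map_der_inv (δ : Derivation F E E) (A : GL (Fin n) E) :
    (A⁻¹).1.map δ = -((A⁻¹).1 * (A.1.map δ * (A⁻¹).1)) := by
  have h1 : (A⁻¹).1 * A.1 = 1 := by rw [← Units.val_mul, inv_mul_cancel]; rfl
  have h2 : A.1 * (A⁻¹).1 = 1 := by rw [← Units.val_mul, mul_inv_cancel]; rfl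
  have h3 : (1 : Matrix (Fin n) (Fin n) E).map δ = 0 := by
    ext i j
    rw [Matrix.map_apply, Matrix.one_apply]
    split_ifs <;> simp
  have h4 := map_der_mul δ A.1 (A⁻¹).1
  rw [h2, h3] at h4
  have h5 : A.1 * (A⁻¹).1.map δ = -(A.1.map δ * (A⁻¹).1) := (neg_eq_of_add_eq_zero_right h4.symm).symm
  calc (A⁻¹).1.map δ = (A⁻¹).1 * (A.1 * (A⁻¹).1.map δ) := by rw [← mul_assoc, h1, one_mul]
    _ = _ := by rw [h5, mul_neg]

theorem map_der_comm (δ : Derivation F E E) (A B : GL (Fin n) E) :
    (A * B * A⁻¹ * B⁻¹).1.map δ = dC A B (A.1.map δ, B.1.map δ) := by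
  simp only [Units.val_mul]
  rw [map_der_mul, map_der_mul, map_der_mul, map_der_inv, map_der_inv, dC_apply]
  simp only [add_mul, mul_neg, neg_mul, mul_assoc]
  abel

theorem map_der_Wp {ι : Type*} (δ : Derivation F E E) (T : ι × Bool → GL (Fin n) E) (l : List ι) :
    (Wp T l).1.map δ = dW T l (fun p => (T p).1.map δ) := by
  induction l with
  | nil =>
    rw [Wp_nil]
    change (1 : Matrix (Fin n) (Fin n) E).map δ = 0
    ext i j
    rw [Matrix.map_apply, Matrix.one_apply]
    split_ifs <;> simp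
  | cons i l ih =>
    rw [Wp_cons, Units.val_mul, map_der_mul, map_der_comm, ih, dW_cons]

/-- the tangent space of a tuple -/
def tan (F : Type v) {E : Type u} [Field F] [Field E] [Algebra F E] {n : ℕ} {J : Type*}
    (x : J → Matrix (Fin n) (Fin n) E) : Submodule E (J → Matrix (Fin n) (Fin n) E) :=
  LinearMap.range
    ({ toFun := fun δ j => (x j).map δ
       map_add' := fun a b => by funext j; ext; simp
       map_smul' := fun a b => by funext j; ext; simp } :
      Derivation F E E →ₗ[E] (J → Matrix (Fin n) (Fin n) E))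

theorem mem_tan {J : Type*} (x : J → Matrix (Fin n) (Fin n) E)
    (v : J → Matrix (Fin n) (Fin n) E) :
    v ∈ tan F x ↔ ∃ δ : Derivation F E E, ∀ j, (x j).map δ = v j := by
  constructor
  · rintro ⟨δ, rfl⟩
    exact ⟨δ, fun j => rfl⟩
  · rintro ⟨δ, h⟩
    exact ⟨δ, funext h⟩

/-- Lemma (4) -/
theorem tan_bound [Infinite E] {J : Type*} [Fintype J] (x : J → Matrix (Fin n) (Fin n) E)
    (hJ : 2 ≤ Fintype.card J) (hz : 2 ≤ finrank E (cen x)) :
    finrank E (tan F x) + finrank E (cen x) ≤ Fintype.card J * n ^ 2 := by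
  refine tuple_bound x (tan F x) ?_ hJ hz
  intro X hX v hv
  obtain ⟨δ, hδ⟩ := (mem_tan x v).1 hv
  have hX' := (mem_cen x X).1 hX
  refine ⟨X.map δ, ?_, ?_⟩
  · rw [LinearMap.BilinForm.mem_orthogonal_iff]
    intro P hP
    induction hP using Submodule.span_induction with
    | mem P hP =>
      obtain ⟨Y, hY, Y', hY', rfl⟩ := hP
      have hY1 := (mem_ker_ad X Y).1 hY
      have h1 : ad (X.map δ) Y ∈ LinearMap.range (ad X) := by
        refine ⟨-(Y.map δ), ?_⟩
        have h2 := congrArg (fun Z => Z.map δ) hY1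
        simp only [map_der_mul] at h2
        rw [ad_apply, ad_apply, eq_comm]
        rw [← sub_eq_zero] at h2 ⊢
        rw [← h2]
        noncomm_ring
      have h11 := (mem_range_ad X (ad (X.map δ) Y)).1 h1 Y' hY'
      change ((Y * Y' - Y' * Y) * X.map δ).trace = 0
      rw [ad_apply, mul_sub, trace_sub, sub_eq_zero] at h11
      rw [sub_mul, trace_sub, sub_eq_zero]
      have e1 : (Y * Y' * X.map δ).trace = (Y' * (X.map δ * Y)).trace := by
        rw [mul_assoc, trace_mul_comm, mul_assoc]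
      rw [e1, h11, mul_assoc]
    | zero => simp
    | add P Q _ _ hP hQ =>
      change tf (P + Q) (X.map δ) = 0
      rw [map_add, LinearMap.add_apply]
      have a1 : tf P (X.map δ) = 0 := hP
      have a2 : tf Q (X.map δ) = 0 := hQ
      rw [a1, a2, add_zero]
    | smul c P _ hP =>
      change tf (c • P) (X.map δ) = 0
      rw [map_smul, LinearMap.smul_apply]
      have a1 : tf P (X.map δ) = 0 := hP
      rw [a1, smul_zero]
  · intro j
    have h2 := congrArg (fun Z => Z.map δ) (hX' j)
    simp only [map_der_mul] at h2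
    rw [hδ j] at h2
    rw [← sub_eq_zero] at h2
    rw [← h2]
    noncomm_ring

/-- the count: both halves of a generic solution are generic tuples -/
theorem count [Infinite E] {ι₁ ι₂ : Type*} [Fintype ι₁] [Fintype ι₂]
    (x : ι₁ × Bool → GL (Fin n) E) (y : ι₂ × Bool → GL (Fin n) E) (l₁ : List ι₁) (l₂ : List ι₂)
    (hl₁ : l₁.Nodup) (hl₂ : l₂.Nodup) (hm₁ : ∀ i, i ∈ l₁) (hm₂ : ∀ i, i ∈ l₂)
    (c : F) (hW : (Wp x l₁ * Wp y l₂).1 = Matrix.scalar (Fin n) (algebraMap F E c))
    (h₁ : 1 ≤ Fintype.card ι₁) (h₂ : 1 ≤ Fintype.card ι₂)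
    (hD : (2 * Fintype.card ι₁ + 2 * Fintype.card ι₂) * n ^ 2 + 1 ≤
      finrank E (tan F (Sum.elim (fun p => (x p).1) (fun p => (y p).1))) + n ^ 2) :
    tan F (fun p => (x p).1) = ⊤ := by
  classical
  set D := tan F (Sum.elim (fun p => (x p).1) (fun p => (y p).1)) with hDdef
  -- derivations kill `W`
  have hWδ : ∀ δ : Derivation F E E,
      (Wp x l₁).1.map δ * (Wp y l₂).1 + (Wp x l₁).1 * (Wp y l₂).1.map δ = 0 := by
    intro δ
    rw [← map_der_mul, ← Units.val_mul, hW]
    ext i j
    rw [Matrix.map_apply, Matrix.scalar_apply, Matrix.diagonal_apply]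
    split_ifs <;> simp
  have hinv : ∀ (g : GL (Fin n) E), (g⁻¹).1 * g.1 = 1 := fun g => by
    rw [← Units.val_mul, inv_mul_cancel]; rfl
  have hinv' : ∀ (g : GL (Fin n) E), g.1 * (g⁻¹).1 = 1 := fun g => by
    rw [← Units.val_mul, mul_inv_cancel]; rfl
  -- first projection
  have A1 : finrank E D ≤ finrank E (tan F (fun p => (x p).1)) +
      finrank E (LinearMap.ker (dW y l₂)) := by
    let ρ : D →ₗ[E] (ι₁ × Bool → Matrix (Fin n) (Fin n) E) :=
      LinearMap.funLeft E _ (Sum.inl : ι₁ × Bool → (ι₁ × Bool) ⊕ (ι₂ × Bool)) ∘ₗ D.subtype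
    have h3 := LinearMap.finrank_range_add_finrank_ker ρ
    have h4 : LinearMap.range ρ ≤ tan F (fun p => (x p).1) := by
      rintro _ ⟨v, rfl⟩
      obtain ⟨δ, hδ⟩ := (mem_tan _ _).1 v.2
      exact (mem_tan _ _).2 ⟨δ, fun j => hδ (Sum.inl j)⟩
    have h5 := Submodule.finrank_mono h4
    have h6 : finrank E (LinearMap.ker ρ) ≤ finrank E (LinearMap.ker (dW y l₂)) := by
      let ψ : LinearMap.ker ρ →ₗ[E] LinearMap.ker (dW y l₂) :=
        LinearMap.codRestrict _ (LinearMap.funLeft E _
          (Sum.inr : ι₂ × Bool → (ι₁ × Bool) ⊕ (ι₂ × Bool)) ∘ₗ D.subtype ∘ₗ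
            (LinearMap.ker ρ).subtype) (by
          intro v
          obtain ⟨δ, hδ⟩ := (mem_tan _ _).1 v.1.2
          have hv : ∀ p, v.1.1 (Sum.inl p) = 0 := fun p => congrFun (LinearMap.mem_ker.1 v.2) p
          have e1 : (fun p => (x p).1.map δ) = 0 := by
            funext p
            exact (hδ (Sum.inl p)).trans (hv p)
          have e2 := hWδ δ
          rw [map_der_Wp δ x l₁, e1, map_zero, zero_mul, zero_add] at e2
          have e3 := congrArg (fun Z => ((Wp x l₁)⁻¹).1 * Z) e2
          simp only [← mul_assoc, hinv, one_mul, mul_zero] at e3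
          rw [map_der_Wp] at e3
          rw [LinearMap.mem_ker, ← e3]
          congr 1
          funext p
          exact (hδ (Sum.inr p)).symm)
      apply LinearMap.finrank_le_finrank_of_injective (f := ψ)
      intro a b hab
      have ha : ∀ p, a.1.1 (Sum.inl p) = 0 := fun p => congrFun (LinearMap.mem_ker.1 a.2) p
      have hb : ∀ p, b.1.1 (Sum.inl p) = 0 := fun p => congrFun (LinearMap.mem_ker.1 b.2) p
      have hab' := congrArg Subtype.val hab
      refine Subtype.ext (Subtype.ext (funext fun p => ?_))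
      cases p with
      | inl p => rw [ha, hb]
      | inr p => exact congrFun hab' p
    omega
  -- second projection
  have A2 : finrank E D ≤ finrank E (tan F (fun p => (y p).1)) +
      finrank E (LinearMap.ker (dW x l₁)) := by
    let ρ : D →ₗ[E] (ι₂ × Bool → Matrix (Fin n) (Fin n) E) :=
      LinearMap.funLeft E _ (Sum.inr : ι₂ × Bool → (ι₁ × Bool) ⊕ (ι₂ × Bool)) ∘ₗ D.subtype
    have h3 := LinearMap.finrank_range_add_finrank_ker ρ
    have h4 : LinearMap.range ρ ≤ tan F (fun p => (y p).1) := by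
      rintro _ ⟨v, rfl⟩
      obtain ⟨δ, hδ⟩ := (mem_tan _ _).1 v.2
      exact (mem_tan _ _).2 ⟨δ, fun j => hδ (Sum.inr j)⟩
    have h5 := Submodule.finrank_mono h4
    have h6 : finrank E (LinearMap.ker ρ) ≤ finrank E (LinearMap.ker (dW x l₁)) := by
      let ψ : LinearMap.ker ρ →ₗ[E] LinearMap.ker (dW x l₁) :=
        LinearMap.codRestrict _ (LinearMap.funLeft E _
          (Sum.inl : ι₁ × Bool → (ι₁ × Bool) ⊕ (ι₂ × Bool)) ∘ₗ D.subtype ∘ₗ
            (LinearMap.ker ρ).subtype) (by
          intro v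
          obtain ⟨δ, hδ⟩ := (mem_tan _ _).1 v.1.2
          have hv : ∀ p, v.1.1 (Sum.inr p) = 0 := fun p => congrFun (LinearMap.mem_ker.1 v.2) p
          have e1 : (fun p => (y p).1.map δ) = 0 := by
            funext p
            exact (hδ (Sum.inr p)).trans (hv p)
          have e2 := hWδ δ
          rw [map_der_Wp δ y l₂, e1, map_zero, mul_zero, add_zero] at e2
          have e3 := congrArg (fun Z => Z * ((Wp y l₂)⁻¹).1) e2
          simp only [mul_assoc, hinv', mul_one, zero_mul] at e3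
          rw [map_der_Wp] at e3
          rw [LinearMap.mem_ker, ← e3]
          congr 1
          funext p
          exact (hδ (Sum.inl p)).symm)
      apply LinearMap.finrank_le_finrank_of_injective (f := ψ)
      intro a b hab
      have ha : ∀ p, a.1.1 (Sum.inr p) = 0 := fun p => congrFun (LinearMap.mem_ker.1 a.2) p
      have hb : ∀ p, b.1.1 (Sum.inr p) = 0 := fun p => congrFun (LinearMap.mem_ker.1 b.2) p
      have hab' := congrArg Subtype.val hab
      refine Subtype.ext (Subtype.ext (funext fun p => ?_))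
      cases p with
      | inr p => rw [ha, hb]
      | inl p => exact congrFun hab' p
    omega
  have B1 := finrank_ker_dW y l₂ hl₂ hm₂
  have B2 := finrank_ker_dW x l₁ hl₁ hm₁
  have C1 := tan_bound (F := F) (fun p => (x p).1) (by
    rw [Fintype.card_prod, Fintype.card_bool]; omega)
  have C2 := tan_bound (F := F) (fun p => (y p).1) (by
    rw [Fintype.card_prod, Fintype.card_bool]; omega)
  rw [Fintype.card_prod, Fintype.card_bool] at C1 C2
  have e1 : 2 * Fintype.card ι₁ * n ^ 2 = Fintype.card ι₁ * 2 * n ^ 2 := by ring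
  have e2 : 2 * Fintype.card ι₂ * n ^ 2 = Fintype.card ι₂ * 2 * n ^ 2 := by ring
  have e3 : (2 * Fintype.card ι₁ + 2 * Fintype.card ι₂) * n ^ 2 =
    Fintype.card ι₁ * 2 * n ^ 2 + Fintype.card ι₂ * 2 * n ^ 2 := by ring
  rw [e1] at B2
  rw [e2] at B1
  rw [e3] at hD
  apply Submodule.eq_top_of_finrank_eq
  apply le_antisymm (Submodule.finrank_le _)
  rw [Module.finrank_pi_fintype]
  simp only [finrank_mat, Finset.sum_const, Finset.card_univ, Fintype.card_prod, Fintype.card_bool,
    smul_eq_mul]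
  by_cases hy : 2 ≤ finrank E (cen fun p => (y p).1)
  · have C2' := C2 hy
    by_cases hx : 2 ≤ finrank E (cen fun p => (x p).1)
    · have C1' := C1 hx
      omega
    · omega
  · omega

end Crest.Agent.R003.Cg
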