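import Mathlib

/-!
# R3 (S0003), Part 3(iv), block (De): derivations and transcendence degree, characteristic 0

`exists_derivation`: values of an `F`-derivation `E → E` can be prescribed on an algebraically
independent family.
`card_le_finrank`: if `L : (τ → E) →ₗ[E] M` kills `(δ (y_t))_t` for every `F`-derivation `δ` of `E`
then every subfamily of `y` algebraically independent over `F` has at most `dim ker L` elements.
`trdeg_adjoin_le_finrank`: the same for `trdeg F F(y)`.
-/

set_option autoImplicit false

namespace Crest.Agent.R003

open MvPolynomial Algebra TensorProduct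

universe u v w

section

variable {F : Type u} {E : Type v} [Field F] [Field E] [Algebra F E]

/-- Extension of derivations along formally étale maps. -/
theorem exists_derivation_of_formallyEtale (A : Type*) [CommRing A] [Algebra F A]
    [Algebra A E] [IsScalarTower F A E] [FormallyEtale A E] (D : Derivation F A E) :
    ∃ δ : Derivation F E E, ∀ a : A, δ (algebraMap A E a) = D a := by
  let l : Ω[A⁄F] →ₗ[A] E := D.liftKaehlerDifferential
  let l' : E ⊗[A] Ω[A⁄F] →ₗ[E] E := LinearMap.liftBaseChange E l
  let l'' : Ω[E⁄F] →ₗ[E] E :=
    l' ∘ₗ (KaehlerDifferential.tensorKaehlerEquivOfFormallyEtale F A E).symm.toLinearMap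
  refine ⟨l''.compDer (KaehlerDifferential.D F E), fun a => ?_⟩
  change l' ((KaehlerDifferential.tensorKaehlerEquivOfFormallyEtale F A E).symm
    (KaehlerDifferential.D F E (algebraMap A E a))) = D a
  rw [KaehlerDifferential.tensorKaehlerEquivOfFormallyEtale_symm_D_algebraMap]
  simp [l', l]

/-- A transcendence basis makes `E` formally étale over the polynomial ring (char 0), so
derivations with arbitrary values exist. -/
theorem exists_derivation_of_isTranscendenceBasis [CharZero F] {ι : Type w} (b : ι → E)
    (hb : IsTranscendenceBasis F b) (v : ι → E) :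
    ∃ δ : Derivation F E E, ∀ i, δ (b i) = v i := by
  let A := MvPolynomial ι F
  let _ : Algebra A E := (aeval b : MvPolynomial ι F →ₐ[F] E).toAlgebra
  have hmap : ∀ f : A, algebraMap A E f = aeval b f := fun f => rfl
  have : IsScalarTower F A E := IsScalarTower.of_algebraMap_eq (fun x => by
    rw [hmap]; simp [A])
  have hinj : Function.Injective (algebraMap A E) := hb.1
  let Q := FractionRing A
  have : FaithfulSMul A E := (faithfulSMul_iff_algebraMap_injective A E).2 hinj
  let _ : Algebra Q E := FractionRing.liftAlgebra A E
  have : IsScalarTower A Q E := FractionRing.isScalarTower_liftAlgebra A E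
  have : CharZero E := charZero_of_injective_algebraMap (algebraMap F E).injective
  have hAQ : CharZero Q := ⟨fun a b h => by
      have := congrArg (algebraMap Q E) h
      simpa using this⟩
  have h1 : FormallyEtale A Q := FormallyEtale.of_isLocalization (nonZeroDivisors A)
  have halg : Algebra.IsAlgebraic A E := by
    have h0 := hb.isAlgebraic
    refine ⟨fun a => ?_⟩
    have h00 : IsAlgebraic (adjoin F (Set.range b)) (RingHom.id E a) := h0.isAlgebraic a
    let f : A →+* adjoin F (Set.range b) :=
      ((aeval b : MvPolynomial ι F →ₐ[F] E).codRestrict (adjoin F (Set.range b))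
        (fun x => by rw [adjoin_range_eq_range_aeval]; exact ⟨x, rfl⟩)).toRingHom
    refine IsAlgebraic.of_ringHom_of_comp_eq f (RingHom.id E) h00 ?_ Function.injective_id ?_
    · rintro ⟨y, hy⟩
      have hy' := hy
      rw [adjoin_range_eq_range_aeval] at hy'
      obtain ⟨x, hx⟩ := hy'
      exact ⟨x, Subtype.ext hx⟩
    · ext x <;> rfl
  have halg' : Algebra.IsAlgebraic Q E :=
    Algebra.IsAlgebraic.extendScalars (R := A) (S := Q) (A := E) (IsFractionRing.injective A Q)
  have h2 : FormallyEtale Q E := FormallyEtale.of_isSeparable Q E
  have h3 : FormallyEtale A E := FormallyEtale.comp A Q E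
  obtain ⟨δ, hδ⟩ := exists_derivation_of_formallyEtale (F := F) (E := E) A (mkDerivation F v)
  refine ⟨δ, fun i => ?_⟩
  have := hδ (X i)
  rw [hmap, aeval_X, mkDerivation_X] at this
  exact this

/-- Values of a derivation may be prescribed on any algebraically independent family (char 0). -/
theorem exists_derivation [CharZero F] {ι : Type w} (b : ι → E)
    (hb : AlgebraicIndependent F b) (v : ι → E) :
    ∃ δ : Derivation F E E, ∀ i, δ (b i) = v i := by
  classical
  have h1 : AlgebraicIndepOn F id (Set.range b) := (algebraicIndependent_subtype_range hb.injective).2 hb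
  obtain ⟨t, hst, ht⟩ := exists_isTranscendenceBasis_superset (A := E) h1
  obtain ⟨δ, hδ⟩ := exists_derivation_of_isTranscendenceBasis (F := F) ((↑) : t → E) ht
    (fun x => if h : ∃ i, b i = x.1 then v h.choose else 0)
  refine ⟨δ, fun i => ?_⟩
  have h2 := hδ ⟨b i, hst ⟨i, rfl⟩⟩
  have h3 : ∃ i', b i' = b i := ⟨i, rfl⟩
  rw [dif_pos h3] at h2
  rw [h2, hb.injective h3.choose_spec]

/-- If the linear map `L` kills all `(δ (y_t))_t`, `δ` an `F`-derivation of `E`, then an
algebraically independent (over `F`) subfamily of `y` has at most `dim ker L` members. -/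
theorem card_le_finrank_ker [CharZero F] {τ : Type*} [Finite τ] (y : τ → E)
    {M : Type*} [AddCommGroup M] [Module E M] (L : (τ → E) →ₗ[E] M)
    (hL : ∀ δ : Derivation F E E, L (fun t => δ (y t)) = 0)
    {ι : Type*} [Finite ι] (j : ι → τ) (hj : AlgebraicIndependent F (y ∘ j)) :
    Nat.card ι ≤ Module.finrank E (LinearMap.ker L) := by
  classical
  have := Fintype.ofFinite ι
  choose δ hδ using fun i : ι => exists_derivation (F := F) (y ∘ j) hj (Pi.single i 1)
  let w : ι → LinearMap.ker L := fun i => ⟨fun t => δ i (y t), hL (δ i)⟩
  have hw : LinearIndependent E w := by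
    have h1 : LinearIndependent E (fun i : ι => (fun i' : ι => δ i (y (j i')))) := by
      have h2 : (fun i : ι => (fun i' : ι => δ i (y (j i')))) =
          fun i => (Pi.single i (1 : E) : ι → E) := by
        funext i i'
        exact hδ i i'
      rw [h2]
      exact Pi.linearIndependent_single_one ι E
    have h3 : (fun i : ι => (fun i' : ι => δ i (y (j i')))) =
        ((LinearMap.funLeft E E j) ∘ₗ (LinearMap.ker L).subtype) ∘ w := by
      funext i i'
      rfl
    rw [h3] at h1
    exact h1.of_comp _
  have := hw.fintype_card_le_finrank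
  rwa [Nat.card_eq_fintype_card]

end

end Crest.Agent.R003
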