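import Mathlib

/-!
# R3 (S0003), Part 3(iv), block (Kr)

Krull's height theorem in transcendence degree form, over an arbitrary field `K`:
if `P` is a prime of `K[x_i : i ∈ σ]`, then there are indices `j : ι → σ` whose variables are
algebraically independent modulo `P` and `|σ| ≤ ht P + |ι|`.

`exists_generic`: a common zero `T` of `f_1, …, f_m` has a generic point over it, with at least
`|σ| - m` algebraically independent coordinates.
-/

set_option autoImplicit false

namespace Crest.Agent.R003

open MvPolynomial

universe u v

theorem optionEquivLeft_rename {K : Type u} [Field K] {ι τ : Type v} (j : ι → τ)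
    (f : MvPolynomial (Option ι) K) :
    optionEquivLeft K τ (rename (Option.map j) f) =
      Polynomial.map (rename j : MvPolynomial ι K →ₐ[K] MvPolynomial τ K).toRingHom
        (optionEquivLeft K ι f) := by
  have h : ((optionEquivLeft K τ).toAlgHom.comp (rename (Option.map j))) =
      (Polynomial.mapAlgHom (rename j : MvPolynomial ι K →ₐ[K] MvPolynomial τ K)).comp
        (optionEquivLeft K ι).toAlgHom := by
    apply MvPolynomial.algHom_ext
    intro i
    cases i with
    | none => simp [optionEquivLeft_X_none]
    | some i => simp [optionEquivLeft_X_some]
  exact DFunLike.congr_fun h f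

/-- Height plus number of algebraically independent variables is at least the number of variables.
-/
theorem card_le_height_add (K : Type u) [Field K] (σ : Type v) [Finite σ]
    (P : Ideal (MvPolynomial σ K)) [hP : P.IsPrime] :
    ∃ (ι : Type v) (_ : Finite ι) (j : ι → σ),
      (∀ f : MvPolynomial ι K, rename j f ∈ P → f = 0) ∧
      (Nat.card σ : ℕ∞) ≤ P.height + (Nat.card ι : ℕ∞) := by
  induction σ using Finite.induction_empty_option with
  | of_equiv e H =>
    rename_i α β
    let E : MvPolynomial α K ≃ₐ[K] MvPolynomial β K := renameEquiv K e
    obtain ⟨ι, hι, j, h1, h2⟩ := H (P.comap E.toRingEquiv.toRingHom)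
    refine ⟨ι, hι, e ∘ j, ?_, ?_⟩
    · intro f hf
      apply h1 f
      rw [Ideal.mem_comap]
      have : E (rename j f) = rename (e ∘ j) f := by
        simp [E, rename_rename]
      change E (rename j f) ∈ P
      rw [this]; exact hf
    · have hh : (P.comap E.toRingEquiv.toRingHom).height = P.height :=
        RingEquiv.height_comap E.toRingEquiv P
      rw [hh, Nat.card_congr e] at h2
      exact h2
  | h_empty =>
    refine ⟨PEmpty, inferInstance, fun x => x.elim, ?_, by simp⟩
    intro f hf
    by_contra hne
    have h1 : f = C (coeff 0 f) := eq_C_of_isEmpty f
    rw [h1] at hf hne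
    simp only [rename_C] at hf
    have h2 : coeff 0 f ≠ 0 := by
      intro h; apply hne; rw [h, C_0]
    apply hP.ne_top
    rw [Ideal.eq_top_iff_one]
    have := P.mul_mem_left (C (coeff 0 f)⁻¹) hf
    rwa [← C_mul, inv_mul_cancel₀ h2, C_1] at this
  | h_option IH =>
    rename_i τ _
    let e := (optionEquivLeft K τ).toRingEquiv
    let Q : Ideal (Polynomial (MvPolynomial τ K)) := P.comap e.symm.toRingHom
    have hQ : Q.IsPrime := Ideal.comap_isPrime _ _
    have hQh : Q.height = P.height := RingEquiv.height_comap e.symm P
    have hmem : ∀ f, f ∈ P ↔ e f ∈ Q := by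
      intro f
      change f ∈ P ↔ e.symm (e f) ∈ P
      rw [RingEquiv.symm_apply_apply]
    let p : Ideal (MvPolynomial τ K) := Q.comap Polynomial.C
    have hp : p.IsPrime := Ideal.comap_isPrime _ _
    obtain ⟨ι, hι, j, h1, h2⟩ := IH p
    have : Q.LiesOver p := ⟨rfl⟩
    have hpX : (p.map (Polynomial.C)).IsPrime := inferInstance
    have hle : p.map Polynomial.C ≤ Q := Ideal.map_comap_le
    have hht : p.height ≤ (p.map (Polynomial.C : MvPolynomial τ K →+* _)).height := by
      have : (p.map (Polynomial.C : MvPolynomial τ K →+* _)).LiesOver p := by
        refine ⟨?_⟩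
        refine le_antisymm Ideal.le_comap_map ?_
        intro x hx
        have := Ideal.mem_map_C_iff.1 (show Polynomial.C x ∈ p.map Polynomial.C from hx) 0
        simpa using this
      rw [Ideal.height_eq_height_add_of_liesOver_of_hasGoingDown p
        (p.map (Polynomial.C : MvPolynomial τ K →+* _))]
      exact le_self_add
    rcases eq_or_lt_of_le hle with heq | hlt
    · refine ⟨Option ι, inferInstance, Option.map j, ?_, ?_⟩
      · intro f hf
        rw [hmem] at hf
        have h3 : e (rename (Option.map j) f) =
            Polynomial.map (rename j : MvPolynomial ι K →ₐ[K] MvPolynomial τ K).toRingHom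
              (optionEquivLeft K ι f) := optionEquivLeft_rename j f
        rw [h3, ← heq, Ideal.mem_map_C_iff] at hf
        have h4 : optionEquivLeft K ι f = 0 := by
          ext1 n
          rw [Polynomial.coeff_zero]
          apply h1
          have := hf n
          rwa [Polynomial.coeff_map] at this
        exact (optionEquivLeft K ι).injective (by rw [h4, map_zero])
      · rw [← hQh, ← heq, Finite.card_option, Finite.card_option]
        push_cast
        rw [← add_assoc]
        gcongr
        exact h2.trans (by gcongr)
    · refine ⟨ι, hι, fun i => some (j i), ?_, ?_⟩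
      · intro f hf
        apply h1
        rw [hmem] at hf
        have h3 : e (rename (fun i => some (j i)) f) = Polynomial.C (rename j f) := by
          have h : ((optionEquivLeft K τ).toAlgHom.comp (rename (fun i => some (j i)))) =
              ((Algebra.ofId (MvPolynomial τ K) (Polynomial (MvPolynomial τ K))).restrictScalars K).comp
                (rename j : MvPolynomial ι K →ₐ[K] MvPolynomial τ K) := by
            apply MvPolynomial.algHom_ext
            intro i
            simp [optionEquivLeft_X_some, Algebra.ofId_apply]
          exact DFunLike.congr_fun h f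
        rw [h3] at hf
        exact hf
      · rw [← hQh, Finite.card_option]
        push_cast
        have h5 : p.height + 1 ≤ Q.height := by
          have h6 := Ideal.height_strict_mono_of_isPrime_of_isPrime hlt
          exact (by gcongr : p.height + 1 ≤ (p.map Polynomial.C).height + 1).trans
            (Order.add_one_le_of_lt h6)
        calc (Nat.card τ : ℕ∞) + 1 ≤ (p.height + Nat.card ι) + 1 := by gcongr
          _ = (p.height + 1) + Nat.card ι := by ring
          _ ≤ Q.height + Nat.card ι := by gcongr

end Crest.Agent.R003
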