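import Mathlib
import Crest.Agent.R003.Td576

/-!
# R3 (S0003): enough derivations imply algebraic independence (characteristic 0)
-/

set_option autoImplicit false

namespace Crest.Agent.R003

open MvPolynomial

universe u v w

variable {K : Type u} {E : Type v} [Field K] [Field E] [Algebra K E]

/-- chain rule for derivations and polynomials -/
theorem derivation_aeval {ι : Type w} [Fintype ι] (δ : Derivation K E E) (y : ι → E)
    (f : MvPolynomial ι K) :
    δ (aeval y f) = ∑ i, aeval y (pderiv i f) * δ (y i) := by
  classical
  induction f using MvPolynomial.induction_on with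
  | C a => simp [Derivation.map_algebraMap]
  | add p q hp hq => simp [hp, hq, add_mul, Finset.sum_add_distrib]
  | mul_X p j hp =>
    rw [map_mul, aeval_X, Derivation.leibniz, hp]
    have h1 : ∀ i, aeval y (pderiv i (p * X j)) * δ (y i) =
        (if i = j then aeval y p * δ (y j) else 0) + y j * (aeval y (pderiv i p) * δ (y i)) := by
      intro i
      rw [pderiv_mul, map_add, map_mul, map_mul, aeval_X, pderiv_X]
      rcases eq_or_ne i j with rfl | hij
      · simp; ring
      · rw [Pi.single_eq_of_ne hij.symm, if_neg hij]; simp; ring
    rw [Finset.sum_congr rfl (fun i _ => h1 i), Finset.sum_add_distrib, Finset.sum_ite_eq',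
      ← Finset.mul_sum]
    simp [smul_eq_mul]

/-- If the `E`-span of the vectors `(δ y_i)_i`, `δ` a `K`-derivation of `E`, is everything, then `y`
is algebraically independent over `K` (characteristic 0). -/
theorem algebraicIndependent_of_derivation_span [CharZero K] {ι : Type w} [Finite ι] (y : ι → E)
    (hspan : Submodule.span E (Set.range (fun (δ : Derivation K E E) (i : ι) => δ (y i))) = ⊤) :
    AlgebraicIndependent K y := by
  classical
  have := Fintype.ofFinite ι
  -- an equation `∑ a_i δ y_i = 0` for all `δ` forces `a = 0`
  have key : ∀ a : ι → E, (∀ δ : Derivation K E E, ∑ i, a i * δ (y i) = 0) → a = 0 := by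
    intro a ha
    let l : (ι → E) →ₗ[E] E := ∑ i, a i • LinearMap.proj i
    have hl : ∀ w : ι → E, l w = ∑ i, a i * w i := by
      intro w; simp [l]
    have h1 : Submodule.span E (Set.range (fun (δ : Derivation K E E) (i : ι) => δ (y i))) ≤
        LinearMap.ker l := by
      rw [Submodule.span_le]
      rintro _ ⟨δ, rfl⟩
      rw [SetLike.mem_coe, LinearMap.mem_ker, hl]
      exact ha δ
    rw [hspan] at h1
    funext i
    have h2 : (Pi.single i 1 : ι → E) ∈ LinearMap.ker l := h1 trivial
    rw [LinearMap.mem_ker, hl, Finset.sum_eq_single i] at h2
    · simpa using h2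
    · intro j _ hj
      rw [Pi.single_eq_of_ne hj, mul_zero]
    · simp
  have main : ∀ n : ℕ, ∀ f : MvPolynomial ι K, f.totalDegree < n → aeval y f = 0 → f = 0 := by
    intro n
    induction n with
    | zero => intro f hf; omega
    | succ n IH =>
      intro f hf h0
      have hp : ∀ i, pderiv i f = 0 := by
        intro i
        by_contra hne
        have h1 : aeval y (pderiv i f) = 0 := by
          have h2 := key (fun i => aeval y (pderiv i f)) (fun δ => by
            rw [← derivation_aeval, h0, map_zero])
          exact congrFun h2 i
        apply hne
        apply IH _ _ h1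
        have h3 : (pderiv i f).totalDegree < f.totalDegree := by
          obtain ⟨m, hm⟩ := (support_nonempty (p := pderiv i f)).2 hne
          rw [totalDegree, Finset.sup_lt_iff]
          · intro m' hm'
            have h4 : coeff (m' + Finsupp.single i 1) f ≠ 0 := by
              rw [mem_support_iff, coeff_pderiv] at hm'
              exact left_ne_zero_of_mul hm'
            have h5 := le_totalDegree (mem_support_iff.2 h4)
            have h6 : ((m' + Finsupp.single i 1).sum fun _ e => e) = (m'.sum fun _ e => e) + 1 := by
              rw [Finsupp.sum_add_index' (by simp) (by simp)]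
              simp
            omega
          · have h4 : coeff (m + Finsupp.single i 1) f ≠ 0 := by
              rw [mem_support_iff, coeff_pderiv] at hm
              exact left_ne_zero_of_mul hm
            have h5 := le_totalDegree (mem_support_iff.2 h4)
            have h6 : ((m + Finsupp.single i 1).sum fun _ e => e) = (m.sum fun _ e => e) + 1 := by
              rw [Finsupp.sum_add_index' (by simp) (by simp)]
              simp
            show 0 < _
            omega
        omega
      have hC : f = C (coeff 0 f) := by
        ext m
        rw [coeff_C]
        split_ifs with hm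
        · rw [hm]
        · have : ∃ i, m i ≠ 0 := by
            by_contra hcon
            push Not at hcon
            exact hm (by ext i; simp [hcon i])
          obtain ⟨i, hi⟩ := this
          have h1 : coeff (m - Finsupp.single i 1) (pderiv i f) = 0 := by rw [hp i]; simp
          rw [coeff_pderiv] at h1
          have h2 : m - Finsupp.single i 1 + Finsupp.single i 1 = m := by
            ext j
            rcases eq_or_ne j i with rfl | hj
            · simp; omega
            · simp [Finsupp.single_eq_of_ne hj]
          rw [h2] at h1
          have h3 : (((m - Finsupp.single i 1 : ι →₀ ℕ) i : K) + 1) ≠ 0 := by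
            exact Nat.cast_add_one_ne_zero _
          exact (mul_eq_zero.1 h1).resolve_right h3
      rw [hC] at h0 ⊢
      rw [aeval_C] at h0
      rw [(map_eq_zero_iff _ (algebraMap K E).injective).1 h0, C_0]
  rw [AlgebraicIndependent, injective_iff_map_eq_zero]
  intro f hf
  exact main _ f (Nat.lt_succ_self _) hf

/-- the span of the vectors `(δ y_t)_t`, `δ` running over the `K`-derivations of `E` -/
def derSpan (K : Type u) {E : Type v} [Field K] [Field E] [Algebra K E] {τ : Type w}
    (y : τ → E) : Submodule E (τ → E) :=
  Submodule.span E (Set.range (fun (δ : Derivation K E E) (t : τ) => δ (y t)))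

/-- `trdeg_K K(y) ≤ dim_E {δ y}` (characteristic 0) -/
theorem td_le_finrank_derSpan [CharZero K] {τ : Type w} [Finite τ] (y : τ → E) :
    td K (Set.range y) ≤ Module.finrank E (derSpan K y) := by
  obtain ⟨s, hs, hcard⟩ := exists_algebraicIndependent K y
  rw [← hcard, ← Nat.card_coe_set_eq]
  have h := card_le_finrank_ker (F := K) y (derSpan K y).mkQ ?_ (fun i : s => i.1) hs
  · rwa [Submodule.ker_mkQ] at h
  · intro δ
    rw [Submodule.mkQ_apply, Submodule.Quotient.mk_eq_zero]
    exact Submodule.subset_span ⟨δ, rfl⟩

end Crest.Agent.R003
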