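import Crest.Agent.R003.Cg475E
import Crest.Agent.R003.Td576
import Crest.Agent.R003.Deb576

/-!
# R3 (S0003), Part 3 (iv): the first handle of a generic solution is a generic pair (helper475)
-/

set_option autoImplicit false

namespace Crest.Agent.R003.Cg

open Matrix Module Polynomial

universe u v

variable {F : Type v} {E : Type u} [Field F] [Field E] [Algebra F E] {n : ℕ}

theorem Wp_map {ι κ : Type*} (T : κ × Bool → GL (Fin n) E) (f : ι → κ) (l : List ι) :
    Wp T (l.map f) = Wp (fun p : ι × Bool => T (f p.1, p.2)) l := by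
  rw [Wp, Wp, List.map_map]; rfl

theorem Wp_finRange_succ {g : ℕ} (T : Fin (g + 1) × Bool → GL (Fin n) E) :
    Wp T (List.finRange (g + 1)) =
      Wp (fun p : Unit × Bool => T (0, p.2)) [()] *
        Wp (fun p : Fin g × Bool => T (p.1.succ, p.2)) (List.finRange g) := by
  rw [List.finRange_succ, Wp_cons, Wp_map, Wp_cons, Wp_nil, mul_one]

theorem gen_indep [CharZero F] {g : ℕ} (hg : 1 ≤ g) (T : Fin (g + 1) × Bool → GL (Fin n) E) (c : F)
    (hT : (Wp T (List.finRange (g + 1))).1 = Matrix.scalar (Fin n) (algebraMap F E c))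
    (htd : 2 * (g + 1) * n ^ 2 + 1 ≤ td F (Set.range fun q : (Fin (g + 1) × Bool) × Fin n × Fin n =>
      (T q.1).1 q.2.1 q.2.2) + n ^ 2) :
    AlgebraicIndependent F (Sum.elim (fun p : Fin n × Fin n => (T (0, false)).1 p.1 p.2)
      (fun p : Fin n × Fin n => (T (0, true)).1 p.1 p.2)) := by
  classical
  have : CharZero E := charZero_of_injective_algebraMap (algebraMap F E).injective
  let x : Unit × Bool → GL (Fin n) E := fun p => T (0, p.2)
  let y : Fin g × Bool → GL (Fin n) E := fun p => T (p.1.succ, p.2)
  have hcount := count (F := F) x y [()] (List.finRange g) (by simp) (List.nodup_finRange g)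
    (by simp) (List.mem_finRange) c (by
      rw [← hT, Wp_finRange_succ]) (by simp) (by simpa using hg) (by
      -- rank of the tangent space
      let J := (Unit × Bool) ⊕ (Fin g × Bool)
      let X : J → Matrix (Fin n) (Fin n) E := Sum.elim (fun p => (x p).1) (fun p => (y p).1)
      let e : Fin (g + 1) × Bool → J := fun q => Fin.cases (motive := fun _ => J) (Sum.inl ((), q.2))
        (fun i => Sum.inr (i, q.2)) q.1
      have he : ∀ q, X (e q) = (T q).1 := by
        rintro ⟨i, b⟩
        cases i using Fin.cases with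
        | zero => rfl
        | succ i => rfl
      let Ψ : (J → Matrix (Fin n) (Fin n) E) →ₗ[E]
          ((Fin (g + 1) × Bool) × Fin n × Fin n → E) :=
        { toFun := fun v q => v (e q.1) q.2.1 q.2.2
          map_add' := fun a b => rfl
          map_smul' := fun a b => rfl }
      have h1 : derSpan F (fun q : (Fin (g + 1) × Bool) × Fin n × Fin n =>
          (T q.1).1 q.2.1 q.2.2) ≤ (tan F X).map Ψ := by
        rw [derSpan, Submodule.span_le]
        rintro _ ⟨δ, rfl⟩
        refine ⟨fun j => (X j).map δ, (mem_tan _ _).2 ⟨δ, fun j => rfl⟩, ?_⟩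
        funext q
        change ((X (e q.1)).map δ) q.2.1 q.2.2 = _
        rw [he, Matrix.map_apply]
      have h2 := td_le_finrank_derSpan (K := F) (fun q : (Fin (g + 1) × Bool) × Fin n × Fin n =>
          (T q.1).1 q.2.1 q.2.2)
      have h3 := Submodule.finrank_mono h1
      have h4 : finrank E ((tan F X).map Ψ) ≤ finrank E (tan F X) := Submodule.finrank_map_le _ _
      have h5 : (2 * Fintype.card Unit + 2 * Fintype.card (Fin g)) * n ^ 2 =
        2 * (g + 1) * n ^ 2 := by
        rw [Fintype.card_unit, Fintype.card_fin]; ring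
      rw [h5]
      change _ ≤ finrank E (tan F X) + n ^ 2
      omega)
  apply algebraicIndependent_of_derivation_span
  rw [eq_top_iff]
  intro v _
  have h6 : (fun p : Unit × Bool => Matrix.of fun i j =>
      v (if p.2 then Sum.inr (i, j) else Sum.inl (i, j))) ∈ tan F (fun p => (x p).1) := by
    rw [hcount]; trivial
  obtain ⟨δ, hδ⟩ := (mem_tan _ _).1 h6
  apply Submodule.subset_span
  refine ⟨δ, ?_⟩
  funext q
  rcases q with p | p
  · have := congrFun (congrFun (hδ ((), false)) p.1) p.2
    simpa [x] using this
  · have := congrFun (congrFun (hδ ((), true)) p.1) p.2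
    simpa [x] using this

end Crest.Agent.R003.Cg
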