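import Mathlib

/-!
# R3, closed-root reduction (pure free group form)

A closed linear word (every name occurs once as `x` and once as `x⁻¹`) becomes a product of
commutators of new free generators after an invertible substitution.
-/

set_option autoImplicit false

namespace Crest.Agent.R003.CR

open FreeGroup

variable {N : Type*}

/-- the inverse letter -/
def linv (l : N × Bool) : N × Bool := (l.1, !l.2)

@[simp] theorem linv_linv (l : N × Bool) : linv (linv l) = l := by
  cases l; simp [linv]

theorem linv_ne (l : N × Bool) : linv l ≠ l := by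
  rcases l with ⟨x, b⟩
  cases b <;> simp [linv]

theorem mk_linv (l : N × Bool) : FreeGroup.mk [linv l] = (FreeGroup.mk [l])⁻¹ := by
  rcases l with ⟨x, b⟩
  rw [FreeGroup.inv_mk]
  simp [FreeGroup.invRev, linv]

/-- closed linear word -/
def IsClosed (w : List (N × Bool)) : Prop := w.Nodup ∧ ∀ l ∈ w, linv l ∈ w

/-- removing two inverse letters at adjacent positions -/
theorem IsClosed.cancel {b b' : List (N × Bool)} {A : N × Bool}
    (h : IsClosed (b ++ A :: linv A :: b')) : IsClosed (b ++ b') := by
  obtain ⟨h1, h2⟩ := h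
  have hp : (b ++ A :: linv A :: b').Perm (A :: linv A :: (b ++ b')) := by
    refine List.perm_middle.trans ?_
    exact (List.perm_middle).cons _
  have h1' := hp.nodup_iff.1 h1
  rw [List.nodup_cons, List.nodup_cons] at h1'
  obtain ⟨hA, hA', hn⟩ := h1'
  refine ⟨hn, fun l hl => ?_⟩
  have hl' : l ∈ b ++ A :: linv A :: b' := hp.mem_iff.2 (by simp only [List.mem_cons]; tauto)
  have h3 := hp.mem_iff.1 (h2 l hl')
  simp only [List.mem_cons] at h3
  rcases h3 with h3 | h3 | h3
  · exfalso
    apply hA'
    rw [← h3, linv_linv]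
    exact hl
  · exfalso
    have : l = A := by rw [← linv_linv l, h3, linv_linv]
    subst this
    exact hA (List.mem_cons_of_mem _ hl)
  · exact h3

/-- removing two linked pairs -/
theorem IsClosed.handle {b a1 a2 a3 b' : List (N × Bool)} {A B : N × Bool}
    (h : IsClosed (b ++ A :: (a1 ++ B :: (a2 ++ linv A :: (a3 ++ linv B :: b'))))) :
    IsClosed (b ++ (a3 ++ (a2 ++ (a1 ++ b')))) := by
  obtain ⟨h1, h2⟩ := h
  have hp : (b ++ A :: (a1 ++ B :: (a2 ++ linv A :: (a3 ++ linv B :: b')))).Perm
      (A :: B :: linv A :: linv B :: (b ++ (a3 ++ (a2 ++ (a1 ++ b'))))) := by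
    classical
    rw [List.perm_iff_count]
    intro l
    simp only [List.count_append, List.count_cons]
    omega
  have h1' := hp.nodup_iff.1 h1
  simp only [List.nodup_cons, List.mem_cons, not_or] at h1'
  obtain ⟨⟨hA1, hA2, hA3, hA4⟩, ⟨hB1, hB2, hB3⟩, ⟨hC1, hC2⟩, hD, hn⟩ := h1'
  refine ⟨hn, fun l hl => ?_⟩
  have hl' := hp.mem_iff.2 (show l ∈ A :: B :: linv A :: linv B ::
    (b ++ (a3 ++ (a2 ++ (a1 ++ b')))) by simp only [List.mem_cons]; tauto)
  have h3 := hp.mem_iff.1 (h2 l hl')
  simp only [List.mem_cons] at h3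
  have key : ∀ X : N × Bool, linv l = X → l = linv X := fun X hX => by rw [← hX, linv_linv]
  rcases h3 with h3 | h3 | h3 | h3 | h3
  · exact absurd (key _ h3 ▸ hl) hC2
  · exact absurd (key _ h3 ▸ hl) hD
  · have := key _ h3
    rw [linv_linv] at this
    exact absurd (this ▸ hl) hA4
  · have := key _ h3
    rw [linv_linv] at this
    exact absurd (this ▸ hl) hB3
  · exact h3

/-- decomposition of a nonempty closed word -/
theorem IsClosed.exists_decomp {w : List (N × Bool)} (h : IsClosed w) (hne : w ≠ []) :
    (∃ b A b', w = b ++ A :: linv A :: b') ∨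
    ∃ b A a1 B a2 a3 b',
      w = b ++ A :: (a1 ++ B :: (a2 ++ linv A :: (a3 ++ linv B :: b'))) := by
  classical
  -- some pair
  have hex : ∃ n : ℕ, ∃ b A c b', w = b ++ A :: (c ++ linv A :: b') ∧ c.length = n := by
    obtain ⟨A, t, rfl⟩ := List.exists_cons_of_ne_nil hne
    have hA := h.2 A (by simp)
    rw [List.mem_cons] at hA
    rcases hA with hA | hA
    · exact absurd hA (linv_ne A)
    · obtain ⟨c, b', rfl⟩ := List.append_of_mem hA
      exact ⟨c.length, [], A, c, b', rfl, rfl⟩
  obtain ⟨b, A, c, b', hw, hc⟩ := Nat.find_spec hex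
  have hmin := fun m hm => Nat.find_min hex (m := m) hm
  cases c with
  | nil => exact Or.inl ⟨b, A, b', hw⟩
  | cons B c =>
    right
    have hB : linv B ∈ w := h.2 B (by rw [hw]; simp)
    rw [hw] at hB
    simp only [List.mem_append, List.mem_cons, List.cons_append] at hB
    rcases hB with hB | hB | hB | hB | hB | hB
    · obtain ⟨b1, b2, rfl⟩ := List.append_of_mem hB
      refine ⟨b1, linv B, b2, A, [], c, b', ?_⟩
      rw [hw, linv_linv]
      simp only [List.append_assoc, List.cons_append, List.nil_append]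
    · -- linv B = A : then B = linv A, duplicate
      exfalso
      have h1 := h.1
      rw [hw] at h1
      have hBA : B = linv A := by rw [← hB, linv_linv]
      subst hBA
      rw [List.nodup_append] at h1
      have h2 := h1.2.1
      simp at h2
    · exact absurd hB (linv_ne B)
    · exfalso
      obtain ⟨c1, c2, rfl⟩ := List.append_of_mem hB
      have := hmin c1.length (by rw [← hc, List.length_cons, List.length_append]; omega)
      apply this
      refine ⟨b ++ [A], B, c1, c2 ++ linv A :: b', ?_, rfl⟩
      rw [hw]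
      simp
    · exfalso
      -- linv B = linv A, B = A duplicate
      have h1 := h.1
      rw [hw] at h1
      have hBA : B = A := by rw [← linv_linv B, hB, linv_linv]
      subst hBA
      rw [List.nodup_append] at h1
      have h2 := h1.2.1
      simp at h2
    · obtain ⟨b1, b2, rfl⟩ := List.append_of_mem hB
      refine ⟨b, A, [], B, c, b1, b2, ?_⟩
      rw [hw]
      simp

/-- the standard closed word `∏ [a_i, b_i]` in any group -/
def cprod {G : Type*} [Group G] (h : ℕ) (T : Fin h × Bool → G) : G :=
  ((List.finRange h).map fun i =>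
    T (i, false) * T (i, true) * (T (i, false))⁻¹ * (T (i, true))⁻¹).prod

theorem map_cprod {G H : Type*} [Group G] [Group H] (f : G →* H) (h : ℕ) (T : Fin h × Bool → G) :
    f (cprod h T) = cprod h (fun p => f (T p)) := by
  unfold cprod
  rw [map_list_prod, List.map_map]
  congr 1
  apply List.map_congr_left
  intro i _
  simp

theorem cprod_succ {G : Type*} [Group G] (h : ℕ) (T : Fin (h + 1) × Bool → G) :
    cprod (h + 1) T = T (0, false) * T (0, true) * (T (0, false))⁻¹ * (T (0, true))⁻¹ *
      cprod h (fun p => T (p.1.succ, p.2)) := by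
  unfold cprod
  rw [List.finRange_succ, List.map_cons, List.prod_cons, List.map_map]
  rfl

/-- new generators -/
abbrev Gen (h m : ℕ) : Type := (Fin h × Bool) ⊕ Fin m

/-- The reduction datum of a closed word. -/
structure Red (w : List (N × Bool)) where
  /-- genus -/
  h : ℕ
  /-- number of free generators -/
  m : ℕ
  /-- substitution for the old names -/
  Psi : N → FreeGroup (Gen h m)
  /-- the new generators in terms of the old names -/
  Theta : Gen h m → FreeGroup N
  /-- the word becomes a product of commutators -/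
  word : FreeGroup.lift Psi (FreeGroup.mk w) =
    cprod h (fun p => FreeGroup.of (Sum.inl p : Gen h m))
  /-- the substitution is invertible -/
  inv : ∀ x, (x, true) ∈ w → FreeGroup.lift Theta (Psi x) = FreeGroup.of x
  /-- the new generators only use the names of the word -/
  mem : ∀ y, Theta y ∈ Subgroup.closure (FreeGroup.of '' {x | (x, true) ∈ w})
  /-- names for the free generators -/
  y : Fin m → N
  y_inj : Function.Injective y
  y_mem : ∀ j, (y j, true) ∈ w

/-- shift of the new generators -/
def shF (h m : ℕ) : FreeGroup (Gen h m) →* FreeGroup (Gen (h + 1) m) :=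
  FreeGroup.map (Sum.map (fun p => (p.1.succ, p.2)) id)

/-- shift of the free generators -/
def shM (h m : ℕ) : FreeGroup (Gen h m) →* FreeGroup (Gen h (m + 1)) :=
  FreeGroup.map (Sum.map id Fin.succ)

/-- value of a letter in a group -/
def lv {G : Type*} [Group G] (ρ : N → G) (l : N × Bool) : G := cond l.2 (ρ l.1) (ρ l.1)⁻¹

theorem lift_mk_cons {G : Type*} [Group G] (ρ : N → G) (l : N × Bool) (w : List (N × Bool)) :
    FreeGroup.lift ρ (FreeGroup.mk (l :: w)) = lv ρ l * FreeGroup.lift ρ (FreeGroup.mk w) := by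
  simp [lv, FreeGroup.lift_mk]

theorem lift_mk_append {G : Type*} [Group G] (ρ : N → G) (v w : List (N × Bool)) :
    FreeGroup.lift ρ (FreeGroup.mk (v ++ w)) =
      FreeGroup.lift ρ (FreeGroup.mk v) * FreeGroup.lift ρ (FreeGroup.mk w) := by
  simp [FreeGroup.lift_mk]

theorem lv_linv {G : Type*} [Group G] (ρ : N → G) (l : N × Bool) :
    lv ρ (linv l) = (lv ρ l)⁻¹ := by
  rcases l with ⟨x, b⟩
  cases b <;> simp [lv, linv]

/-- `ρ` is unchanged on the letters of a word when the value of another name is updated -/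
theorem lift_mk_congr {G : Type*} [Group G] {ρ ρ' : N → G} {w : List (N × Bool)}
    (h : ∀ l ∈ w, ρ l.1 = ρ' l.1) :
    FreeGroup.lift ρ (FreeGroup.mk w) = FreeGroup.lift ρ' (FreeGroup.mk w) := by
  induction w with
  | nil => simp [FreeGroup.lift_mk]
  | cons l w ih =>
    rw [lift_mk_cons, lift_mk_cons, ih (fun l hl => h l (List.mem_cons_of_mem _ hl))]
    simp [lv, h l (by simp)]

/-- the names of a word -/
def nms (w : List (N × Bool)) : Set N := {x | (x, true) ∈ w}

theorem IsClosed.mem_nms {w : List (N × Bool)} (hw : IsClosed w) {l : N × Bool} (hl : l ∈ w) :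
    l.1 ∈ nms w := by
  rcases l with ⟨x, b⟩
  cases b
  · exact hw.2 _ hl
  · exact hl

theorem mk_mem_closure (S : Set N) {v : List (N × Bool)} (hv : ∀ l ∈ v, l.1 ∈ S) :
    FreeGroup.mk v ∈ Subgroup.closure (FreeGroup.of '' S) := by
  induction v with
  | nil => exact Subgroup.one_mem _
  | cons l v ih =>
    have h1 : FreeGroup.mk (l :: v) = FreeGroup.mk [l] * FreeGroup.mk v := by
      rw [FreeGroup.mul_mk]; rfl
    rw [h1]
    refine Subgroup.mul_mem _ ?_ (ih fun l hl => hv l (List.mem_cons_of_mem _ hl))
    have hS := hv l (by simp)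
    have h2 : FreeGroup.of l.1 ∈ Subgroup.closure (FreeGroup.of '' S) :=
      Subgroup.subset_closure ⟨_, hS, rfl⟩
    rcases l with ⟨x, b⟩
    cases b
    · have h3 : FreeGroup.mk [(x, false)] = (FreeGroup.of x)⁻¹ := mk_linv (x, true)
      rw [h3]
      exact Subgroup.inv_mem _ h2
    · exact h2

theorem Red.back {w : List (N × Bool)} (R : Red w) (hw : IsClosed w) {v : List (N × Bool)}
    (hv : ∀ l ∈ v, l ∈ w) :
    FreeGroup.lift (fun x => FreeGroup.lift R.Theta (R.Psi x)) (FreeGroup.mk v) =
      FreeGroup.mk v := by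
  have h1 : FreeGroup.lift (fun x => FreeGroup.lift R.Theta (R.Psi x)) (FreeGroup.mk v) =
      FreeGroup.lift FreeGroup.of (FreeGroup.mk v) := by
    apply lift_mk_congr
    intro l hl
    exact R.inv _ (hw.mem_nms (hv l hl))
  rw [h1, FreeGroup.lift_of_eq_id]
  rfl

theorem lift_lift {G : Type*} [Group G] {α : Type*} (f : FreeGroup α →* G) (ρ : N → FreeGroup α)
    (g : FreeGroup N) :
    f (FreeGroup.lift ρ g) = FreeGroup.lift (fun x => f (ρ x)) g := by
  have : f.comp (FreeGroup.lift ρ) = FreeGroup.lift (fun x => f (ρ x)) := by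
    ext x
    simp
  rw [← this]
  rfl

/-- the empty word -/
def Red.nil : Red ([] : List (N × Bool)) where
  h := 0
  m := 0
  Psi := fun _ => 1
  Theta := fun y => by
    rcases y with y | y
    · exact y.1.elim0
    · exact y.elim0
  word := by simp [FreeGroup.lift_mk, cprod]
  inv := fun x hx => by simp at hx
  mem := fun y => by
    rcases y with y | y
    · exact y.1.elim0
    · exact y.elim0
  y := fun j => j.elim0
  y_inj := fun j => j.elim0
  y_mem := fun j => j.elim0

theorem Red.cancel {b b' : List (N × Bool)} {A : N × Bool}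
    (hw : IsClosed (b ++ A :: linv A :: b')) (R : Red (b ++ b')) :
    Nonempty (Red (b ++ A :: linv A :: b')) := by
  classical
  have hw' := hw.cancel
  -- the name of `A` does not occur in the rest
  have hA : ∀ l ∈ b ++ b', l.1 ≠ A.1 := by
    have hp : (b ++ A :: linv A :: b').Perm (A :: linv A :: (b ++ b')) := by
      refine List.perm_middle.trans ?_
      exact (List.perm_middle).cons _
    have h1 := hp.nodup_iff.1 hw.1
    simp only [List.nodup_cons, List.mem_cons, not_or] at h1
    obtain ⟨⟨h2, h3⟩, h4, h5⟩ := h1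
    intro l hl he
    rcases l with ⟨x, s⟩
    rcases A with ⟨y, t⟩
    simp only at he
    subst he
    rcases s with _ | _ <;> rcases t with _ | _ <;> first | exact h3 hl | exact h4 hl
  set Psi : N → FreeGroup (Gen R.h (R.m + 1)) := fun x =>
    if x = A.1 then FreeGroup.of (Sum.inr 0) else shM R.h R.m (R.Psi x) with hPsi
  set Theta : Gen R.h (R.m + 1) → FreeGroup N :=
    Sum.elim (fun p => R.Theta (Sum.inl p))
      (Fin.cases (FreeGroup.of A.1) (fun j => R.Theta (Sum.inr j))) with hTheta
  have hcomp : ∀ g, FreeGroup.lift Theta (shM R.h R.m g) = FreeGroup.lift R.Theta g := by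
    intro g
    have : (FreeGroup.lift Theta).comp (shM R.h R.m) = FreeGroup.lift R.Theta := by
      ext y
      rcases y with y | y <;> simp [shM, hTheta]
    rw [← this]
    rfl
  refine ⟨⟨R.h, R.m + 1, Psi, Theta, ?_, ?_, ?_, Fin.cases A.1 R.y, ?_, ?_⟩⟩
  · have h1 : FreeGroup.lift Psi (FreeGroup.mk (b ++ A :: linv A :: b')) =
        FreeGroup.lift Psi (FreeGroup.mk (b ++ b')) := by
      rw [lift_mk_append, lift_mk_cons, lift_mk_cons, lift_mk_append, lv_linv]
      group
    have h2 : FreeGroup.lift Psi (FreeGroup.mk (b ++ b')) =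
        shM R.h R.m (FreeGroup.lift R.Psi (FreeGroup.mk (b ++ b'))) := by
      rw [lift_lift]
      apply lift_mk_congr
      intro l hl
      simp [hPsi, hA l hl]
    rw [h1, h2, R.word, map_cprod]
    simp [shM]
  · intro x hx
    by_cases hxA : x = A.1
    · simp only [hPsi, hxA, if_true, FreeGroup.lift_apply_of, hTheta, Sum.elim_inr, Fin.cases_zero]
    · simp only [hPsi, hxA, if_false]
      rw [hcomp]
      apply R.inv
      simp only [List.mem_append, List.mem_cons] at hx ⊢
      rcases hx with hx | hx | hx | hx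
      · exact Or.inl hx
      · exact absurd (congrArg Prod.fst hx) hxA
      · exact absurd (congrArg Prod.fst hx) hxA
      · exact Or.inr hx
  · have hmono : Subgroup.closure (FreeGroup.of '' {x | (x, true) ∈ b ++ b'}) ≤
        Subgroup.closure (FreeGroup.of '' {x | (x, true) ∈ b ++ A :: linv A :: b'}) := by
      apply Subgroup.closure_mono
      apply Set.image_mono
      intro x hx
      change (x, true) ∈ b ++ b' at hx
      change (x, true) ∈ b ++ A :: linv A :: b'
      simp only [List.mem_append, List.mem_cons] at hx ⊢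
      tauto
    intro y
    rcases y with y | y
    · exact hmono (R.mem _)
    · refine Fin.cases ?_ (fun j => ?_) y
      · exact Subgroup.subset_closure ⟨A.1, hw.mem_nms (l := A) (by simp), rfl⟩
      · exact hmono (R.mem _)
  · intro i j
    refine Fin.cases ?_ (fun i => ?_) i <;> refine Fin.cases ?_ (fun j => ?_) j
    · simp
    · intro h
      exact absurd h.symm (hA _ (R.y_mem j))
    · intro h
      exact absurd h (hA _ (R.y_mem i))
    · intro h
      exact congrArg Fin.succ (R.y_inj h)
  · intro j
    refine Fin.cases ?_ (fun j => ?_) j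
    · exact hw.mem_nms (l := A) (by simp)
    · have := R.y_mem j
      simp only [Fin.cases_succ]
      simp only [List.mem_append, List.mem_cons] at this ⊢
      tauto

theorem Red.handle {b a1 a2 a3 b' : List (N × Bool)} {A B : N × Bool}
    (hw : IsClosed (b ++ A :: (a1 ++ B :: (a2 ++ linv A :: (a3 ++ linv B :: b')))))
    (R : Red (b ++ (a3 ++ (a2 ++ (a1 ++ b'))))) :
    Nonempty (Red (b ++ A :: (a1 ++ B :: (a2 ++ linv A :: (a3 ++ linv B :: b'))))) := by
  classical
  set w := b ++ A :: (a1 ++ B :: (a2 ++ linv A :: (a3 ++ linv B :: b'))) with hwdef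
  set w' := b ++ (a3 ++ (a2 ++ (a1 ++ b'))) with hw'def
  have hw' : IsClosed w' := hw.handle
  have hp : w.Perm (A :: B :: linv A :: linv B :: w') := by
    rw [List.perm_iff_count]
    intro l
    simp only [hwdef, hw'def, List.count_append, List.count_cons]
    omega
  have h1 := hp.nodup_iff.1 hw.1
  simp only [List.nodup_cons, List.mem_cons, not_or] at h1
  obtain ⟨⟨hA1, hA2, hA3, hA4⟩, ⟨hB1, hB2, hB3⟩, ⟨hC1, hC2⟩, hD, hn⟩ := h1
  have hA : ∀ l ∈ w', l.1 ≠ A.1 := by
    intro l hl he
    rcases l with ⟨x, s⟩
    rcases A with ⟨y, t⟩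
    simp only at he
    subst he
    rcases s with _ | _ <;> rcases t with _ | _ <;> first | exact hA4 hl | exact hC2 hl
  have hB : ∀ l ∈ w', l.1 ≠ B.1 := by
    intro l hl he
    rcases l with ⟨x, s⟩
    rcases B with ⟨y, t⟩
    simp only at he
    subst he
    rcases s with _ | _ <;> rcases t with _ | _ <;> first | exact hB3 hl | exact hD hl
  have hAB : B.1 ≠ A.1 := by
    intro he
    rcases B with ⟨x, s⟩
    rcases A with ⟨y, t⟩
    simp only at he
    subst he
    rcases s with _ | _ <;> rcases t with _ | _ <;>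
      first | exact hA1 rfl | exact hB1 rfl
  set P : N → FreeGroup (Gen (R.h + 1) R.m) := fun x => shF R.h R.m (R.Psi x) with hP
  set ga : FreeGroup (Gen (R.h + 1) R.m) := FreeGroup.of (Sum.inl (0, false)) with hga
  set gb : FreeGroup (Gen (R.h + 1) R.m) := FreeGroup.of (Sum.inl (0, true)) with hgb
  set e0 := FreeGroup.lift P (FreeGroup.mk b) with he0
  set e1 := FreeGroup.lift P (FreeGroup.mk a1) with he1
  set e2 := FreeGroup.lift P (FreeGroup.mk a2) with he2
  set e3 := FreeGroup.lift P (FreeGroup.mk a3) with he3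
  set e4 := FreeGroup.lift P (FreeGroup.mk b') with he4
  set d0 := e0 * e3 * e2 with hd0
  set VA := e0⁻¹ * ga * d0 with hVA
  set VB := e1⁻¹ * d0⁻¹ * gb * d0 * e2⁻¹ with hVB
  set Psi : N → FreeGroup (Gen (R.h + 1) R.m) := fun x =>
    if x = A.1 then cond A.2 VA VA⁻¹ else if x = B.1 then cond B.2 VB VB⁻¹ else P x with hPsi
  have hlA : lv Psi A = VA := by
    simp only [lv, hPsi, if_true]
    cases A.2 <;> simp
  have hlB : lv Psi B = VB := by
    simp only [lv, hPsi, hAB, if_true, if_false]
    cases B.2 <;> simp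
  have hcongr : ∀ v : List (N × Bool), (∀ l ∈ v, l ∈ w') →
      FreeGroup.lift Psi (FreeGroup.mk v) = FreeGroup.lift P (FreeGroup.mk v) := by
    intro v hv
    apply lift_mk_congr
    intro l hl
    simp [hPsi, hA l (hv l hl), hB l (hv l hl)]
  have hsplit : FreeGroup.lift P (FreeGroup.mk w') = e0 * (e3 * (e2 * (e1 * e4))) := by
    have : ∀ {G : Type _} [Group G] (ρ : N → G), FreeGroup.lift ρ (FreeGroup.mk w') =
        FreeGroup.lift ρ (FreeGroup.mk b) * (FreeGroup.lift ρ (FreeGroup.mk a3) *
        (FreeGroup.lift ρ (FreeGroup.mk a2) * (FreeGroup.lift ρ (FreeGroup.mk a1) *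
        FreeGroup.lift ρ (FreeGroup.mk b')))) := by
      intro G _ ρ
      rw [← lift_mk_append, ← lift_mk_append, ← lift_mk_append, ← lift_mk_append]
    exact this P
  -- the old names
  set D : FreeGroup N := FreeGroup.mk b * FreeGroup.mk a3 * FreeGroup.mk a2 with hDD
  set ta : FreeGroup N := FreeGroup.mk b * FreeGroup.mk [A] * D⁻¹ with hta
  set tb : FreeGroup N := D * FreeGroup.mk a1 * FreeGroup.mk [B] * FreeGroup.mk a2 * D⁻¹ with htb
  set Theta : Gen (R.h + 1) R.m → FreeGroup N :=
    Sum.elim (fun p => Fin.cases (cond p.2 tb ta) (fun i => R.Theta (Sum.inl (i, p.2))) p.1)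
      (fun j => R.Theta (Sum.inr j)) with hTheta
  have hcomp : ∀ g, FreeGroup.lift Theta (shF R.h R.m g) = FreeGroup.lift R.Theta g := by
    intro g
    have : (FreeGroup.lift Theta).comp (shF R.h R.m) = FreeGroup.lift R.Theta := by
      ext y
      rcases y with y | y <;> simp [shF, hTheta]
    rw [← this]
    rfl
  have hback : ∀ v : List (N × Bool), (∀ l ∈ v, l ∈ w') →
      FreeGroup.lift Theta (FreeGroup.lift P (FreeGroup.mk v)) = FreeGroup.mk v := by
    intro v hv
    rw [lift_lift (FreeGroup.lift Theta) P]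
    have : (fun x => FreeGroup.lift Theta (P x)) = fun x => FreeGroup.lift R.Theta (R.Psi x) := by
      funext x
      exact hcomp _
    rw [this]
    exact R.back hw' hv
  have hb0 := hback b (fun l hl => by simp [hw'def, hl])
  have hb1 := hback a1 (fun l hl => by simp [hw'def, hl])
  have hb2 := hback a2 (fun l hl => by simp [hw'def, hl])
  have hb3 := hback a3 (fun l hl => by simp [hw'def, hl])
  have hTa : FreeGroup.lift Theta ga = ta := by simp [hga, hTheta]
  have hTb : FreeGroup.lift Theta gb = tb := by simp [hgb, hTheta]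
  have hTVA : FreeGroup.lift Theta VA = FreeGroup.mk [A] := by
    simp only [hVA, hd0, _root_.map_mul, _root_.map_inv, he0, he2, he3, hb0, hb2, hb3, hTa, hta, hDD]
    group
  have hTVB : FreeGroup.lift Theta VB = FreeGroup.mk [B] := by
    simp only [hVB, hd0, _root_.map_mul, _root_.map_inv, he0, he1, he2, he3, hb0, hb1, hb2, hb3, hTb, htb, hDD]
    group
  refine ⟨⟨R.h + 1, R.m, Psi, Theta, ?_, ?_, ?_, R.y, R.y_inj, ?_⟩⟩
  · have h2 : FreeGroup.lift Psi (FreeGroup.mk w) =
        e0 * (VA * (e1 * (VB * (e2 * (VA⁻¹ * (e3 * (VB⁻¹ * e4))))))) := by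
      rw [hwdef, lift_mk_append, lift_mk_cons, lift_mk_append, lift_mk_cons, lift_mk_append,
        lift_mk_cons, lift_mk_append, lift_mk_cons, lv_linv, lv_linv, hlA, hlB,
        hcongr b (fun l hl => by simp [hw'def, hl]), hcongr a1 (fun l hl => by simp [hw'def, hl]),
        hcongr a2 (fun l hl => by simp [hw'def, hl]), hcongr a3 (fun l hl => by simp [hw'def, hl]),
        hcongr b' (fun l hl => by simp [hw'def, hl])]
    have h3 : e0 * (e3 * (e2 * (e1 * e4))) = shF R.h R.m (FreeGroup.lift R.Psi (FreeGroup.mk w')) := by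
      rw [lift_lift, hsplit]
    have h4 : e0 * (VA * (e1 * (VB * (e2 * (VA⁻¹ * (e3 * (VB⁻¹ * e4))))))) =
        ga * gb * ga⁻¹ * gb⁻¹ * (e0 * (e3 * (e2 * (e1 * e4)))) := by
      rw [hVA, hVB, hd0]
      group
    rw [h2, h4, h3, R.word, map_cprod, cprod_succ]
    simp [shF, hga, hgb]
  · intro x hx
    have hx' := hp.mem_iff.1 hx
    simp only [List.mem_cons] at hx'
    by_cases hxA : x = A.1
    · simp only [hPsi, hxA, if_true]
      rcases A with ⟨y, t⟩
      rcases t with _ | _
      · simp only [cond_false, _root_.map_inv, hTVA]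
        rw [← mk_linv]
        rfl
      · simp only [cond_true, hTVA]
        rfl
    · by_cases hxB : x = B.1
      · simp only [hPsi, hxB, hAB, if_true, if_false]
        rcases B with ⟨y, t⟩
        rcases t with _ | _
        · simp only [cond_false, _root_.map_inv, hTVB]
          rw [← mk_linv]
          rfl
        · simp only [cond_true, hTVB]
          rfl
      · simp only [hPsi, hxA, hxB, if_false, hP]
        rw [hcomp]
        apply R.inv
        rcases hx' with hx' | hx' | hx' | hx' | hx'
        · exact absurd (congrArg Prod.fst hx') hxA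
        · exact absurd (congrArg Prod.fst hx') hxB
        · exact absurd (congrArg Prod.fst hx') hxA
        · exact absurd (congrArg Prod.fst hx') hxB
        · exact hx'
  · have hmono : Subgroup.closure (FreeGroup.of '' {x | (x, true) ∈ w'}) ≤
        Subgroup.closure (FreeGroup.of '' {x | (x, true) ∈ w}) := by
      apply Subgroup.closure_mono
      apply Set.image_mono
      intro x hx
      change (x, true) ∈ w' at hx
      change (x, true) ∈ w
      rw [hp.mem_iff]
      simp only [List.mem_cons]
      tauto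
    have hmk : ∀ v : List (N × Bool), (∀ l ∈ v, l ∈ w) →
        FreeGroup.mk v ∈ Subgroup.closure (FreeGroup.of '' {x | (x, true) ∈ w}) := by
      intro v hv
      exact mk_mem_closure _ (fun l hl => hw.mem_nms (hv l hl))
    have m0 := hmk b (fun l hl => by simp [hwdef, hl])
    have m1 := hmk a1 (fun l hl => by simp [hwdef, hl])
    have m2 := hmk a2 (fun l hl => by simp [hwdef, hl])
    have m3 := hmk a3 (fun l hl => by simp [hwdef, hl])
    have mA := hmk [A] (fun l hl => by simp at hl; subst hl; simp [hwdef])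
    have mB := hmk [B] (fun l hl => by simp at hl; subst hl; simp [hwdef])
    have mD : D ∈ Subgroup.closure (FreeGroup.of '' {x | (x, true) ∈ w}) :=
      Subgroup.mul_mem _ (Subgroup.mul_mem _ m0 m3) m2
    have mta : ta ∈ Subgroup.closure (FreeGroup.of '' {x | (x, true) ∈ w}) :=
      Subgroup.mul_mem _ (Subgroup.mul_mem _ m0 mA) (Subgroup.inv_mem _ mD)
    have mtb : tb ∈ Subgroup.closure (FreeGroup.of '' {x | (x, true) ∈ w}) :=
      Subgroup.mul_mem _ (Subgroup.mul_mem _ (Subgroup.mul_mem _ (Subgroup.mul_mem _ mD m1) mB) m2)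
        (Subgroup.inv_mem _ mD)
    intro y
    rcases y with ⟨i, s⟩ | y
    · refine Fin.cases ?_ (fun j => ?_) i
      · cases s
        · exact mta
        · exact mtb
      · exact hmono (R.mem _)
    · exact hmono (R.mem _)
  · intro j
    rw [hp.mem_iff]
    simp only [List.mem_cons]
    exact Or.inr (Or.inr (Or.inr (Or.inr (R.y_mem j))))

/-- **Closed-root reduction.** -/
theorem exists_red (n : ℕ) : ∀ w : List (N × Bool), w.length ≤ n → IsClosed w → Nonempty (Red w) := by
  induction n with
  | zero =>
    intro w hl hw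
    obtain rfl := List.length_eq_zero_iff.1 (Nat.le_zero.1 hl)
    exact ⟨Red.nil⟩
  | succ n ih =>
    intro w hl hw
    by_cases hne : w = []
    · subst hne
      exact ⟨Red.nil⟩
    · rcases hw.exists_decomp hne with ⟨b, A, b', rfl⟩ | ⟨b, A, a1, B, a2, a3, b', rfl⟩
      · obtain ⟨R⟩ := ih (b ++ b') (by simp at hl ⊢; omega) hw.cancel
        exact R.cancel hw
      · obtain ⟨R⟩ := ih _ (by simp at hl ⊢; omega) hw.handle
        exact R.handle hw

end Crest.Agent.R003.CR
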