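import Crest.Agent.R003.Iface

/-!
# Row 3: step S5 at the level of points (helper227)

From `Calc`, `Extract`, `Glue`, `NF5`: forward and backward transformation of the points for step S5.
-/

set_option autoImplicit false

namespace Crest.Agent.R003.S227

/-! ### small lemmas about lists of labels -/

theorem count_restr (c d : List Bool) (b a : Bool) :
    (restr c d b).count a = (jl c d).count (b, a) := by
  unfold restr jl
  induction c generalizing d with
  | nil => simp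
  | cons x c ih =>
    cases d with
    | nil => simp
    | cons y d =>
      simp only [List.zip_cons_cons, List.filter_cons, List.count_cons]
      by_cases hx : x = b
      · simp only [hx, decide_true, ↓reduceIte, List.map_cons, List.count_cons, ih]
        by_cases hy : y = a
        · simp [hy]
        · simp [hy]
      · have : ¬ ((x, y) == (b, a)) = true := by simp [hx]
        simp only [hx, decide_false, Bool.false_eq_true, ↓reduceIte, ih, this, add_zero]

theorem length_restr (c d : List Bool) (b : Bool) (h : c.length = d.length) :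
    (restr c d b).length = c.count b := by
  unfold restr
  induction c generalizing d with
  | nil => simp
  | cons x c ih =>
    cases d with
    | nil => simp at h
    | cons y d =>
      simp only [List.length_cons, Nat.add_right_cancel_iff] at h
      simp only [List.zip_cons_cons, List.filter_cons, List.count_cons]
      by_cases hx : x = b
      · simp [hx, ← ih d h]
      · simp [hx, ← ih d h]

theorem restr_replicate (c : List Bool) (m : ℕ) (e b : Bool) (h : c.length ≤ m) :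
    restr c (List.replicate m e) b = List.replicate (c.count b) e := by
  unfold restr
  induction c generalizing m with
  | nil => simp
  | cons x c ih =>
    cases m with
    | zero => simp at h
    | succ m =>
      simp only [List.length_cons, Nat.add_le_add_iff_right] at h
      simp only [List.replicate_succ, List.zip_cons_cons, List.filter_cons, List.count_cons]
      by_cases hx : x = b
      · simp [hx, ih m h, List.replicate_succ]
      · simp [hx, ih m h]

theorem count_jl_swap (c d : List Bool) (b a : Bool) :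
    (jl c d).count (b, a) = (jl d c).count (a, b) := by
  unfold jl
  induction c generalizing d with
  | nil => simp
  | cons x c ih =>
    cases d with
    | nil => simp
    | cons y d =>
      simp only [List.zip_cons_cons, List.count_cons, ih]
      congr 1
      simp [Prod.ext_iff, and_comm]

theorem beq_prod_eq : (instBEqProd : BEq (Bool × Bool)) = instBEqOfDecidableEq :=
  lawful_beq_subsingleton _ _

/-- `IsPar.cnt` for joint labels, with the instance used in `Glue` -/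
theorem _root_.Crest.Agent.R003.IsPar.cnt227 {n : ℕ} {c d c' d' : List Bool} {nn : Bool × Bool → G n} {L : G n}
    (h : IsPar (jl c d) (jl c' d') nn L) (l : Bool × Bool) :
    (jl c d).count l = (jl c' d').count l := by
  rw [beq_prod_eq]; exact h.cnt l

/-- a diagonal sign matrix with constant label lists is a scalar -/
theorem dsg_replicate (n m : ℕ) (e c : Bool) (σ : Bool → Bool → ℂˣ) :
    dsg n (List.replicate m e) (List.replicate m c) σ = scal n m (σ e c) := by
  unfold dsg scal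
  congr 1
  funext i
  simp only [lab, List.getElem?_replicate]
  split_ifs with h
  · rfl
  · rfl

theorem dg_inv_of {n : ℕ} (d : Fin n → ℂˣ) (h : ∀ i, d i * d i = 1) : dg d * dg d = (1 : G n) := by
  apply Units.ext
  rw [Units.val_mul]
  show Matrix.diagonal _ * Matrix.diagonal _ = (1 : Matrix (Fin n) (Fin n) ℂ)
  rw [Matrix.diagonal_mul_diagonal, ← Matrix.diagonal_one]
  congr 1
  funext i
  rw [← Units.val_mul, h i, Units.val_one]

theorem sg_mul_self (e y : Bool) : sg e y * sg e y = 1 := by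
  unfold sg; split_ifs <;> simp

theorem dsg_sg_mul_self (n : ℕ) (e c : List Bool) (σ : Bool → Bool → ℂˣ)
    (h : ∀ x y, σ x y * σ x y = 1) : dsg n e c σ * dsg n e c σ = 1 := by
  unfold dsg
  apply dg_inv_of
  intro i
  generalize lab e i.1 = u
  generalize lab c i.1 = v
  rcases u with _ | u <;> rcases v with _ | v <;> simp [h]

variable {n : ℕ}

/-- The equations of the new points of step S5. -/
structure New5 (n k : ℕ) (c1 E X X' Y c3 Et Yt XE XY : List Bool) (σ2 σ3 : Bool → Bool → ℂˣ)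
    (G1 G2 G3 : Bool → G n) (h1 h3 : Bool → G n) (a n' b m' : Bool → Bool → G n)
    (lE lX rY rX : Bool → G n) (q1 q3 zL zR : G n) : Prop where
  pq1 : IsPar c1 Et h1 q1
  pq3 : IsPar Yt c3 h3 q3
  rh1 : ∀ e, G1 e * lE e * (h1 e)⁻¹ = 1
  rh3 : ∀ y, rY y * G3 y * (h3 y)⁻¹ = 1
  plE : ∀ e, IsPar (restr E X e) (restr Et XE e) (a e) (lE e)
  plX : ∀ x, IsPar (restr XE Et x) (restr X E x) (n' x) (lX x)
  prY : ∀ y, IsPar (restr Yt XY y) (restr Y X' y) (b y) (rY y)
  prX : ∀ x, IsPar (restr X' Y x) (restr XY Yt x) (m' x) (rX x)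
  rt : ∀ x, G2 x * (rX x * (dsg n (restr XY Yt x) (restr XE Et x) (fun y e => sg e y) * lX x)) = 1
  lk1 : ∀ e x, scal n ((jl E X).count (e, x)) (σ2 e x) * ((n' x e)⁻¹ * (a e x)⁻¹) = 1
  lk2 : ∀ x y, scal n ((jl X' Y).count (x, y)) (σ3 x y) * ((b y x)⁻¹ * (m' x y)⁻¹) = 1
  pzL : zL ∈ GLk n k
  pzR : zR ∈ GLk n k

/-- the `E`-blocks of `D12` -/
def DE (n : ℕ) (E X : List Bool) (σ : Bool → Bool → ℂˣ) (e : Bool) : G n :=
  dsg n (List.replicate (E.count e) e) (restr E X e) σ

/-- the `Y`-blocks of `D23` -/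
def DY (n : ℕ) (X' Y : List Bool) (σ : Bool → Bool → ℂˣ) (y : Bool) : G n :=
  dsg n (restr Y X' y) (List.replicate (Y.count y) y) σ

theorem DE_isPar (hC : Calc n) (E X : List Bool) (σ : Bool → Bool → ℂˣ) (h : E.length = X.length)
    (hn : E.length ≤ n) (e : Bool) :
    IsPar (restr E X e) (restr E X e) (fun x => scal n ((jl E X).count (e, x)) (σ e x))
      (DE n E X σ e) := by
  have hlen := length_restr E X e h
  have h1 := hC.2.2.2.2.1 (List.replicate (E.count e) e) (restr E X e) σ (by simp [hlen])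
    (by rw [hlen]; exact (List.count_le_length).trans hn)
  have h2 : (fun b => dsg n (restr (restr E X e) (List.replicate (E.count e) e) b)
      (List.replicate ((restr E X e).count b) b) σ) =
      fun x => scal n ((jl E X).count (e, x)) (σ e x) := by
    funext x
    rw [restr_replicate _ _ _ _ (by rw [hlen]), dsg_replicate, count_restr]
  rw [h2] at h1
  exact h1

theorem DY_isPar (hC : Calc n) (X' Y : List Bool) (σ : Bool → Bool → ℂˣ) (h : X'.length = Y.length)
    (hn : Y.length ≤ n) (y : Bool) :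
    IsPar (restr Y X' y) (restr Y X' y) (fun x => scal n ((jl X' Y).count (x, y)) (σ x y))
      (DY n X' Y σ y) := by
  have hlen := length_restr Y X' y h.symm
  have h1 := hC.2.2.2.2.2 (restr Y X' y) (List.replicate (Y.count y) y) σ (by simp [hlen])
    (by rw [List.length_replicate]; exact (List.count_le_length).trans hn)
  have h2 : (fun b => dsg n (List.replicate ((restr Y X' y).count b) b)
      (restr (restr Y X' y) (List.replicate (Y.count y) y) b) σ) =
      fun x => scal n ((jl X' Y).count (x, y)) (σ x y) := by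
    funext x
    rw [restr_replicate _ _ _ _ (by rw [hlen]), dsg_replicate, count_restr, count_jl_swap]
  rw [h2] at h1
  exact h1

theorem DE_blk (hC : Calc n) (E X : List Bool) (σ : Bool → Bool → ℂˣ) (h : E.length = X.length)
    (hn : X.length ≤ n) : IsPar E E (DE n E X σ) (dsg n E X σ) :=
  hC.2.2.2.2.2 E X σ h hn

theorem DY_blk (hC : Calc n) (X' Y : List Bool) (σ : Bool → Bool → ℂˣ) (h : X'.length = Y.length)
    (hn : Y.length ≤ n) : IsPar Y Y (DY n X' Y σ) (dsg n X' Y σ) :=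
  hC.2.2.2.2.1 X' Y σ h hn

/-- the matrix `Θ` -/
def Th (n : ℕ) (Et Yt : List Bool) (N1 N3 : G n) : G n := N1 * dsg n Et Yt sg * N3

/-- the sign blocks of `Θ` -/
def Dx (n : ℕ) (Et Yt XE XY : List Bool) (x : Bool) : G n :=
  dsg n (restr XY Yt x) (restr XE Et x) (fun y e => sg e y)

theorem Dx_mul_self (Et Yt XE XY : List Bool) (x : Bool) :
    Dx n Et Yt XE XY x * Dx n Et Yt XE XY x = 1 :=
  dsg_sg_mul_self n _ _ _ fun _ _ => sg_mul_self _ _

/-- the properties of the new corner -/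
structure Cor5 (n k : ℕ) (E X X' Y Et Yt XE XY : List Bool) (N1 N3 : G n) : Prop where
  lEt : Et.length = k
  lYt : Yt.length = k
  lXE : XE.length = k
  lXY : XY.length = k
  lr : ∀ x, (restr XE Et x).length = (restr XY Yt x).length
  cL : ∀ l, (jl E X).count l = (jl Et XE).count l
  cR : ∀ l, (jl XY Yt).count l = (jl X' Y).count l
  pN1 : IsPar Et Et (fun _ => 1) N1
  pN3 : IsPar Yt Yt (fun _ => 1) N3
  intN : ∀ O : Subring ℂ, N1 ∈ GO O n ∧ N3 ∈ GO O n
  pTh : IsPar XE XY (Dx n Et Yt XE XY) (Th n Et Yt N1 N3)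

/-- the functions `Φ` of `Glue` -/
structure GlueFun (n : ℕ) (c d c' d' : List Bool) (Φ : (Bool → G n) → (Bool → G n) → G n → G n) :
    Prop where
  pol : ∀ (ι : Type) (S : Set (ι → G n)) (g h : Bool → (ι → G n) → G n) (ζ : (ι → G n) → G n),
        (∀ b, PolG S (g b)) → (∀ b, PolG S (h b)) → PolG S ζ →
        (∀ ρ ∈ S, ∃ nn, GlueData c d c' d' nn (fun b => g b ρ) (fun b => h b ρ) (ζ ρ)) →
        PolG S (fun ρ => Φ (fun b => g b ρ) (fun b => h b ρ) (ζ ρ))
  int : ∀ (O : Subring ℂ) (g h : Bool → G n) (ζ : G n), (∀ b, g b ∈ GO O n) →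
        (∀ b, h b ∈ GO O n) →
        ζ ∈ GO O n → (∃ nn, GlueData c d c' d' nn g h ζ) → Φ g h ζ ∈ GO O n
  par : ∀ (nn : Bool × Bool → G n) (g h : Bool → G n) (ζ : G n), GlueData c d c' d' nn g h ζ →
        IsPar (jl c d) (jl c' d') nn (Φ g h ζ) ∧ IsPar c c' g (Φ g h ζ) ∧
          IsPar d d' h (Φ g h ζ)
  surj : ∀ (nn : Bool × Bool → G n) (g h : Bool → G n) (L : G n),
        IsPar (jl c d) (jl c' d') nn L →
        IsPar c c' g L → IsPar d d' h L → ∃ ζ ∈ GLk n c.length, Φ g h ζ = L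

/-- the old points as functions of the new ones -/
def L5 (n : ℕ) (E X : List Bool) (σ2 : Bool → Bool → ℂˣ)
    (ΦL : (Bool → G n) → (Bool → G n) → G n → G n) (lE lX : Bool → G n) (zL : G n) : G n :=
  ΦL (fun e => (DE n E X σ2 e)⁻¹ * lE e) (fun x => (lX x)⁻¹) zL

def R5 (n : ℕ) (X' Y : List Bool) (σ3 : Bool → Bool → ℂˣ)
    (ΦR : (Bool → G n) → (Bool → G n) → G n → G n) (rX rY : Bool → G n) (zR : G n) : G n :=
  ΦR (fun x => (rX x)⁻¹) (fun y => rY y * (DY n X' Y σ3 y)⁻¹) zR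

def P1of (n : ℕ) (E X : List Bool) (σ2 : Bool → Bool → ℂˣ) (N1 L q1 : G n) : G n :=
  q1 * N1⁻¹ * L⁻¹ * (dsg n E X σ2)⁻¹

def P3of (n : ℕ) (X' Y : List Bool) (σ3 : Bool → Bool → ℂˣ) (N3 R q3 : G n) : G n :=
  (dsg n X' Y σ3)⁻¹ * R⁻¹ * N3⁻¹ * q3

theorem _root_.Crest.Agent.R003.Calc.mul227 (hC : Calc n) {c c' c'' : List Bool} {g g' : Bool → G n} {P P' : G n}
    (h : IsPar c c' g P) (h' : IsPar c' c'' g' P') : IsPar c c'' (fun b => g b * g' b) (P * P') :=
  hC.1 c c' c'' g g' P P' h h'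

theorem _root_.Crest.Agent.R003.Calc.inv227 (hC : Calc n) {c c' : List Bool} {g : Bool → G n} {P : G n}
    (h : IsPar c c' g P) : IsPar c' c (fun b => (g b)⁻¹) P⁻¹ :=
  hC.2.1 c c' g P h

theorem _root_.Crest.Agent.R003.Calc.uniq227 (hC : Calc n) {c c' : List Bool} {g g' : Bool → G n} {P : G n}
    (h : IsPar c c' g P) (h' : IsPar c c' g' P) : g = g' :=
  hC.2.2.2.1 c c' g g' P h h'

theorem _root_.Crest.Agent.R003.IsPar.congr227 {c c' : List Bool} {g g' : Bool → G n} {P : G n}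
    (h : IsPar c c' g P) (hg : ∀ b, g b = g' b) : IsPar c c' g' P := by
  have : g = g' := funext hg
  rw [← this]; exact h

section bwd

variable {k : ℕ} {c1 E X X' Y c3 Et Yt XE XY : List Bool} {σ2 σ3 : Bool → Bool → ℂˣ}
  {G1 G2 G3 : Bool → G n} {h1 h3 : Bool → G n} {a n' b m' : Bool → Bool → G n}
  {lE lX rY rX : Bool → G n} {q1 q3 zL zR : G n} {N1 N3 : G n}

theorem New5.glueL (hC : Calc n) (hE : E.length = k) (hX : X.length = k) (hk : k ≤ n)
    (H : New5 n k c1 E X X' Y c3 Et Yt XE XY σ2 σ3 G1 G2 G3 h1 h3 a n' b m' lE lX rY rX q1 q3 zL zR) :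
    GlueData E X Et XE (fun p => (n' p.2 p.1)⁻¹) (fun e => (DE n E X σ2 e)⁻¹ * lE e)
      (fun x => (lX x)⁻¹) zL := by
  refine ⟨fun e => ?_, fun x => ?_, by rw [hE]; exact H.pzL⟩
  · have h1 := hC.mul227 (hC.inv227 (DE_isPar hC E X σ2 (hE.trans hX.symm) (hE.trans_le hk) e)) (H.plE e)
    refine h1.congr227 fun x => ?_
    have h2 := H.lk1 e x
    have h3 : (n' x e)⁻¹ * (a e x)⁻¹ = (scal n ((jl E X).count (e, x)) (σ2 e x))⁻¹ :=
      (eq_inv_of_mul_eq_one_right h2)
    rw [← h3]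
    simp
  · exact hC.inv227 (H.plX x)

theorem New5.glueR (hC : Calc n) (hX' : X'.length = k) (hY : Y.length = k) (hXY : XY.length = k)
    (hk : k ≤ n)
    (H : New5 n k c1 E X X' Y c3 Et Yt XE XY σ2 σ3 G1 G2 G3 h1 h3 a n' b m' lE lX rY rX q1 q3 zL zR) :
    GlueData XY Yt X' Y (fun p => (m' p.1 p.2)⁻¹) (fun x => (rX x)⁻¹)
      (fun y => rY y * (DY n X' Y σ3 y)⁻¹) zR := by
  refine ⟨fun x => ?_, fun y => ?_, by rw [hXY]; exact H.pzR⟩
  · exact hC.inv227 (H.prX x)
  · have h1 := hC.mul227 (H.prY y) (hC.inv227 (DY_isPar hC X' Y σ3 (hX'.trans hY.symm) (hY.trans_le hk) y))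
    refine h1.congr227 fun x => ?_
    have h2 := H.lk2 x y
    have h3 : (b y x)⁻¹ * (m' x y)⁻¹ = (scal n ((jl X' Y).count (x, y)) (σ3 x y))⁻¹ :=
      (eq_inv_of_mul_eq_one_right h2)
    rw [← h3]
    simp

/-- BACKWARD: every solution of the new equations gives a solution of the old ones -/
theorem New5.bwd (hC : Calc n) (hE : E.length = k) (hX : X.length = k)
    (hX' : X'.length = k) (hY : Y.length = k) (hk : k ≤ n)
    (hcor : Cor5 n k E X X' Y Et Yt XE XY N1 N3)
    {ΦL ΦR : (Bool → G n) → (Bool → G n) → G n → G n}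
    (hL : GlueFun n E X Et XE ΦL) (hR : GlueFun n XY Yt X' Y ΦR)
    (H : New5 n k c1 E X X' Y c3 Et Yt XE XY σ2 σ3 G1 G2 G3 h1 h3 a n' b m' lE lX rY rX q1 q3 zL zR) :
    let L := L5 n E X σ2 ΦL lE lX zL
    let R := R5 n X' Y σ3 ΦR rX rY zR
    let P1 := P1of n E X σ2 N1 L q1
    let P2 := L * Th n Et Yt N1 N3 * R
    let P3 := P3of n X' Y σ3 N3 R q3
    IsPar c1 E G1 P1 ∧ IsPar X X' G2 P2 ∧ IsPar Y c3 G3 P3 ∧
      P1 * (dsg n E X σ2 * P2) * (dsg n X' Y σ3 * P3) = q1 * (dsg n Et Yt sg * q3) := by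
  intro L R P1 P2 P3
  obtain ⟨-, L1, L2⟩ := hL.par _ _ _ _ (H.glueL hC hE hX hk)
  obtain ⟨-, R1, R2⟩ := hR.par _ _ _ _ (H.glueR hC hX' hY hcor.lXY hk)
  refine ⟨?_, ?_, ?_, ?_⟩
  · have := hC.mul227 (hC.mul227 (hC.mul227 H.pq1 (hC.inv227 hcor.pN1)) (hC.inv227 L1))
      (hC.inv227 (DE_blk hC E X σ2 (hE.trans hX.symm) (hX.trans_le hk)))
    refine this.congr227 fun e => ?_
    have h2 := H.rh1 e
    rw [mul_inv_eq_one] at h2
    rw [← h2]
    simp
  · have := hC.mul227 (hC.mul227 L2 hcor.pTh) R1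
    refine this.congr227 fun x => ?_
    have h2 := H.rt x
    have h3 := Dx_mul_self (n := n) Et Yt XE XY x
    have h4 : (Dx n Et Yt XE XY x)⁻¹ = Dx n Et Yt XE XY x := inv_eq_of_mul_eq_one_right h3
    change G2 x * (rX x * (Dx n Et Yt XE XY x * lX x)) = 1 at h2
    have h5 := eq_inv_of_mul_eq_one_left h2
    rw [h5]
    simp [h4, mul_assoc]
  · have := hC.mul227 (hC.mul227 (hC.mul227 (hC.inv227 (DY_blk hC X' Y σ3 (hX'.trans hY.symm)
      (hY.trans_le hk))) (hC.inv227 R2)) (hC.inv227 hcor.pN3)) H.pq3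
    refine this.congr227 fun y => ?_
    have h2 := H.rh3 y
    rw [mul_inv_eq_one] at h2
    rw [← h2]
    simp
  · simp only [P1, P2, P3, P1of, P3of, Th]
    group

end bwd

/-- FORWARD: old points give new points -/
theorem fwd5 (hC : Calc n) (hX : Extract n) (hG : Glue n) (hN : NF5 n) {k : ℕ} (hk : k ≤ n)
    {c1 E X X' Y c3 : List Bool} (σ2 σ3 : Bool → Bool → ℂˣ) {G1 G2 G3 : Bool → G n}
    {P1 P2 P3 : G n} (lE : E.length = k) (lX : X.length = k) (lX' : X'.length = k)
    (lY : Y.length = k) (H1 : IsPar c1 E G1 P1) (H2 : IsPar X X' G2 P2) (H3 : IsPar Y c3 G3 P3) :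
    ∃ (Et Yt XE XY : List Bool) (N1 N3 : G n)
      (ΦL ΦR : (Bool → G n) → (Bool → G n) → G n → G n)
      (h1 h3 : Bool → G n) (a n' b m' : Bool → Bool → G n)
      (uE uX vY vX : Bool → G n) (q1 q3 zL zR : G n),
      Cor5 n k E X X' Y Et Yt XE XY N1 N3 ∧
      GlueFun n E X Et XE ΦL ∧ GlueFun n XY Yt X' Y ΦR ∧
      New5 n k c1 E X X' Y c3 Et Yt XE XY σ2 σ3 G1 G2 G3 h1 h3 a n' b m' uE uX vY vX q1 q3 zL zR ∧
      P1of n E X σ2 N1 (L5 n E X σ2 ΦL uE uX zL) q1 = P1 ∧
      L5 n E X σ2 ΦL uE uX zL * Th n Et Yt N1 N3 * R5 n X' Y σ3 ΦR vX vY zR = P2 ∧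
      P3of n X' Y σ3 N3 (R5 n X' Y σ3 ΦR vX vY zR) q3 = P3 := by
  obtain ⟨Et, Yt, XE, XY, nn, mm, L, R, N1, N3, lEt, lYt, lXE, lXY, hlr, hLj, hRj, hN1, hN3, hNO,
    hTh, hP2⟩ := hN k hk E X X' Y G2 P2 lE lX lX' lY H2
  obtain ⟨gL, hL, hL1, hL2, hL3, hL4⟩ := hX E X Et XE (lE.trans lX.symm) (lEt.trans lXE.symm) nn L hLj
  obtain ⟨gR, hR, hR1, hR2, hR3, hR4⟩ := hX XY Yt X' Y (lXY.trans lYt.symm) (lX'.trans lY.symm) mm R
    hRj
  obtain ⟨ΦL, A1, A2, A3, A4⟩ := hG E X Et XE (lE.trans lX.symm) (lEt.trans lXE.symm)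
    (lE.trans_le hk) hLj.cnt227
  obtain ⟨ΦR, B1, B2, B3, B4⟩ := hG XY Yt X' Y (lXY.trans lYt.symm) (lX'.trans lY.symm)
    (lXY.trans_le hk) hRj.cnt227
  obtain ⟨zL, hzL, hzL'⟩ := A4 nn gL hL L hLj hL1 hL2
  obtain ⟨zR, hzR, hzR'⟩ := B4 mm gR hR R hRj hR1 hR2
  have dE := DE_blk hC E X σ2 (lE.trans lX.symm) (lX.trans_le hk)
  have dY := DY_blk hC X' Y σ3 (lX'.trans lY.symm) (lY.trans_le hk)
  have hcor : Cor5 n k E X X' Y Et Yt XE XY N1 N3 :=
    ⟨lEt, lYt, lXE, lXY, hlr, hLj.cnt227, hRj.cnt227, hN1, hN3, hNO, hTh⟩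
  have hL5 : L5 n E X σ2 ΦL (fun e => DE n E X σ2 e * gL e) (fun x => (hL x)⁻¹) zL = L := by
    unfold L5
    rw [← hzL']
    congr 1
    all_goals (funext e; simp)
  have hR5 : R5 n X' Y σ3 ΦR (fun x => (gR x)⁻¹) (fun y => hR y * DY n X' Y σ3 y) zR = R := by
    unfold R5
    rw [← hzR']
    congr 1
    all_goals (funext e; simp)
  refine ⟨Et, Yt, XE, XY, N1, N3, ΦL, ΦR,
    fun e => G1 e * (DE n E X σ2 e * gL e), fun y => (hR y * DY n X' Y σ3 y) * G3 y,
    fun e x => scal n ((jl E X).count (e, x)) (σ2 e x) * nn (e, x), fun x e => (nn (e, x))⁻¹,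
    fun y x => mm (x, y) * scal n ((jl X' Y).count (x, y)) (σ3 x y), fun x y => (mm (x, y))⁻¹,
    fun e => DE n E X σ2 e * gL e, fun x => (hL x)⁻¹, fun y => hR y * DY n X' Y σ3 y,
    fun x => (gR x)⁻¹, P1 * dsg n E X σ2 * L * N1, N3 * R * dsg n X' Y σ3 * P3, zL, zR,
    hcor, ⟨A1, A2, A3, A4⟩, ⟨B1, B2, B3, B4⟩, ?_, ?_, ?_, ?_⟩
  · constructor
    · refine (hC.mul227 (hC.mul227 (hC.mul227 H1 dE) hL1) hN1).congr227 fun e => ?_
      simp [mul_assoc]
    · refine (hC.mul227 (hC.mul227 (hC.mul227 hN3 hR2) dY) H3).congr227 fun e => ?_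
      simp [mul_assoc]
    · intro e; group
    · intro e; group
    · intro e
      exact hC.mul227 (DE_isPar hC E X σ2 (lE.trans lX.symm) (lE.trans_le hk) e) (hL3 e)
    · intro x
      exact hC.inv227 (hL4 x)
    · intro y
      exact hC.mul227 (hR4 y) (DY_isPar hC X' Y σ3 (lX'.trans lY.symm) (lY.trans_le hk) y)
    · intro x
      exact hC.inv227 (hR3 x)
    · intro x
      have h1 := hC.mul227 (hC.mul227 hL2 hTh) hR1
      rw [← hP2] at h1
      have h2 := congrFun (hC.uniq227 H2 h1) x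
      have h3 := Dx_mul_self (n := n) Et Yt XE XY x
      have h4 : (Dx n Et Yt XE XY x)⁻¹ = Dx n Et Yt XE XY x := inv_eq_of_mul_eq_one_right h3
      change G2 x * ((gR x)⁻¹ * (Dx n Et Yt XE XY x * (hL x)⁻¹)) = 1
      rw [h2]
      change hL x * Dx n Et Yt XE XY x * gR x * ((gR x)⁻¹ * (Dx n Et Yt XE XY x * (hL x)⁻¹)) = 1
      rw [show hL x * Dx n Et Yt XE XY x * gR x * ((gR x)⁻¹ * (Dx n Et Yt XE XY x * (hL x)⁻¹))
        = hL x * (Dx n Et Yt XE XY x * Dx n Et Yt XE XY x) * (hL x)⁻¹ by group, h3]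
      simp
    · intro e x
      simp
    · intro x y
      simp
    · rw [← lE]; exact hzL
    · rw [← lXY]; exact hzR
  · rw [hL5]
    unfold P1of
    group
  · rw [hL5, hR5]
    exact hP2.symm
  · rw [hR5]
    unfold P3of
    group

end Crest.Agent.R003.S227
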