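import Crest.Agent.R003.Core5_227
import Crest.Agent.R003.App638

/-!
# Row 3: step S5, polynomiality and integrality of the map (helper227)
-/

set_option autoImplicit false

namespace Crest.Agent.R003.S227

variable {n : ℕ}

theorem dsgGO {O : Subring ℂ} (e c : List Bool) {σ : Bool → Bool → ℂˣ}
    (h : ∀ x y, IsSc O (σ x y)) : dsg n e c σ ∈ GO O n := by
  have key : ∀ u v : Option Bool, IsSc O (match u, v with
    | some x, some y => σ x y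
    | _, _ => (1 : ℂˣ)) := by
    intro u v
    rcases u with _ | u <;> rcases v with _ | v
    · exact IsSc.one
    · exact IsSc.one
    · exact IsSc.one
    · exact h u v
  exact dg_mem_GO (fun i => (key _ _).1) (fun i => (key _ _).inv_mem)

section

variable {k : ℕ} {c1 E X X' Y c3 Et Yt XE XY : List Bool} {σ2 σ3 : Bool → Bool → ℂˣ}
  {N1 N3 : G n} {ΦL ΦR : (Bool → G n) → (Bool → G n) → G n → G n}

theorem intL5 {O : Subring ℂ} (hL : GlueFun n E X Et XE ΦL) (hs : ∀ x y, IsSc O (σ2 x y))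
    {lE lX : Bool → G n} {zL : G n} (h1 : ∀ e, lE e ∈ GO O n) (h2 : ∀ x, lX x ∈ GO O n)
    (h3 : zL ∈ GO O n) (nn : Bool × Bool → G n)
    (hd : GlueData E X Et XE nn (fun e => (DE n E X σ2 e)⁻¹ * lE e) (fun x => (lX x)⁻¹) zL) :
    L5 n E X σ2 ΦL lE lX zL ∈ GO O n :=
  hL.int O _ _ _ (fun e => (GO O n).mul_mem ((GO O n).inv_mem (dsgGO _ _ hs)) (h1 e))
    (fun x => (GO O n).inv_mem (h2 x)) h3 ⟨nn, hd⟩

theorem intR5 {O : Subring ℂ} (hR : GlueFun n XY Yt X' Y ΦR) (hs : ∀ x y, IsSc O (σ3 x y))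
    {rX rY : Bool → G n} {zR : G n} (h1 : ∀ e, rX e ∈ GO O n) (h2 : ∀ x, rY x ∈ GO O n)
    (h3 : zR ∈ GO O n) (nn : Bool × Bool → G n)
    (hd : GlueData XY Yt X' Y nn (fun x => (rX x)⁻¹) (fun y => rY y * (DY n X' Y σ3 y)⁻¹) zR) :
    R5 n X' Y σ3 ΦR rX rY zR ∈ GO O n :=
  hR.int O _ _ _ (fun x => (GO O n).inv_mem (h1 x))
    (fun e => (GO O n).mul_mem (h2 e) ((GO O n).inv_mem (dsgGO _ _ hs))) h3 ⟨nn, hd⟩

theorem intTh {O : Subring ℂ} (hc : Cor5 n k E X X' Y Et Yt XE XY N1 N3) :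
    Th n Et Yt N1 N3 ∈ GO O n := by
  refine (GO O n).mul_mem ((GO O n).mul_mem (hc.intN O).1 (dsgGO _ _ fun x y => ?_)) (hc.intN O).2
  unfold sg
  split_ifs
  · exact IsSc.neg_one
  · exact IsSc.one

theorem intP1 {O : Subring ℂ} (hc : Cor5 n k E X X' Y Et Yt XE XY N1 N3)
    (hs : ∀ x y, IsSc O (σ2 x y)) {L q1 : G n} (hL : L ∈ GO O n) (hq : q1 ∈ GO O n) :
    P1of n E X σ2 N1 L q1 ∈ GO O n :=
  (GO O n).mul_mem ((GO O n).mul_mem ((GO O n).mul_mem hq ((GO O n).inv_mem (hc.intN O).1))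
    ((GO O n).inv_mem hL)) ((GO O n).inv_mem (dsgGO _ _ hs))

theorem intP3 {O : Subring ℂ} (hc : Cor5 n k E X X' Y Et Yt XE XY N1 N3)
    (hs : ∀ x y, IsSc O (σ3 x y)) {R q3 : G n} (hR : R ∈ GO O n) (hq : q3 ∈ GO O n) :
    P3of n X' Y σ3 N3 R q3 ∈ GO O n :=
  (GO O n).mul_mem ((GO O n).mul_mem ((GO O n).mul_mem ((GO O n).inv_mem (dsgGO _ _ hs))
    ((GO O n).inv_mem hR)) ((GO O n).inv_mem (hc.intN O).2)) hq

variable {ι : Type} {m : ℕ} {S : Set (ι → G n)}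

theorem polL5 (hL : GlueFun n E X Et XE ΦL) {lE lX : Bool → (ι → G n) → G n}
    {zL : (ι → G n) → G n} (h1 : ∀ e, PolG S (lE e)) (h2 : ∀ x, PolG S (lX x)) (h3 : PolG S zL)
    (hd : ∀ ρ ∈ S, ∃ nn, GlueData E X Et XE nn (fun e => (DE n E X σ2 e)⁻¹ * lE e ρ)
      (fun x => (lX x ρ)⁻¹) (zL ρ)) :
    PolG S (fun ρ => L5 n E X σ2 ΦL (fun e => lE e ρ) (fun x => lX x ρ) (zL ρ)) :=
  hL.pol ι S (fun e ρ => (DE n E X σ2 e)⁻¹ * lE e ρ) (fun x ρ => (lX x ρ)⁻¹) zL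
    (fun e => (PolG.const _).mul (h1 e)) (fun x => (h2 x).inv) h3 hd

theorem polR5 (hR : GlueFun n XY Yt X' Y ΦR) {rX rY : Bool → (ι → G n) → G n}
    {zR : (ι → G n) → G n} (h1 : ∀ e, PolG S (rX e)) (h2 : ∀ x, PolG S (rY x)) (h3 : PolG S zR)
    (hd : ∀ ρ ∈ S, ∃ nn, GlueData XY Yt X' Y nn (fun x => (rX x ρ)⁻¹)
      (fun y => rY y ρ * (DY n X' Y σ3 y)⁻¹) (zR ρ)) :
    PolG S (fun ρ => R5 n X' Y σ3 ΦR (fun x => rX x ρ) (fun y => rY y ρ) (zR ρ)) :=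
  hR.pol ι S (fun x ρ => (rX x ρ)⁻¹) (fun y ρ => rY y ρ * (DY n X' Y σ3 y)⁻¹) zR
    (fun x => (h1 x).inv) (fun e => (h2 e).mul (PolG.const _)) h3 hd

theorem polP1 {L q1 : (ι → G n) → G n} (hL : PolG S L) (hq : PolG S q1) :
    PolG S (fun ρ => P1of n E X σ2 N1 (L ρ) (q1 ρ)) :=
  ((hq.mul (PolG.const _)).mul hL.inv).mul (PolG.const _)

theorem polP3 {R q3 : (ι → G n) → G n} (hR : PolG S R) (hq : PolG S q3) :
    PolG S (fun ρ => P3of n X' Y σ3 N3 (R ρ) (q3 ρ)) :=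
  (((PolG.const _).mul hR.inv).mul (PolG.const _)).mul hq

theorem polP2 {L R : (ι → G n) → G n} (hL : PolG S L) (hR : PolG S R) :
    PolG S (fun ρ => L ρ * Th n Et Yt N1 N3 * R ρ) :=
  (hL.mul (PolG.const _)).mul hR

end

end Crest.Agent.R003.S227
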