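import Mathlib

/-!
# Row 3 (S0003): definitions (helper34)

`G n = GL_n(ℂ)`; polynomial functions `Pol ι n` on families `ι → G n`; approximability `Appr`;
labelled block triangular matrices `IsPar`; FLAT words `Wd = List Lt`; systems `Sys`.
-/

set_option autoImplicit false

namespace Crest.Agent.R003

/-- the group `GL_n(ℂ)` -/
abbrev G (n : ℕ) := GL (Fin n) ℂ

/-- polynomial functions on families of invertible matrices: the algebra generated by the entries of
`ρ x` and of `(ρ x)⁻¹` -/
def Pol (ι : Type) (n : ℕ) : Subalgebra ℂ ((ι → G n) → ℂ) :=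
  Algebra.adjoin ℂ
    ({F | ∃ (x : ι) (i j : Fin n), F = fun ρ => (ρ x).1 i j} ∪
     {F | ∃ (x : ι) (i j : Fin n), F = fun ρ => ((ρ x)⁻¹).1 i j})

/-- matrices with entries in `O` whose inverse has entries in `O` -/
def GO (O : Subring ℂ) (n : ℕ) : Subgroup (G n) where
  carrier := {g | ∀ i j, g.1 i j ∈ O ∧ (g⁻¹).1 i j ∈ O}
  mul_mem' := by
    intro a b ha hb i j
    constructor
    · rw [Units.val_mul, Matrix.mul_apply]
      exact O.sum_mem fun k _ => O.mul_mem (ha i k).1 (hb k j).1
    · rw [_root_.mul_inv_rev, Units.val_mul, Matrix.mul_apply]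
      exact O.sum_mem fun k _ => O.mul_mem (hb i k).2 (ha k j).2
  one_mem' := by
    intro i j
    rw [inv_one, Units.val_one, Matrix.one_apply]
    split_ifs
    · exact ⟨O.one_mem, O.one_mem⟩
    · exact ⟨O.zero_mem, O.zero_mem⟩
  inv_mem' := by
    intro a ha i j
    rw [inv_inv]
    exact ⟨(ha i j).2, (ha i j).1⟩

/-- `ρ` is approximable in `S`: every polynomial function vanishing at all points of `S` which are
`O`-integral at the names in `Q`, vanishes at `ρ`. -/
def Appr {ι : Type} {n : ℕ} (O : Subring ℂ) (S : Set (ι → G n)) (Q : Set ι) (ρ : ι → G n) : Prop :=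
  ∀ F ∈ Pol ι n, (∀ ρ' ∈ S, (∀ x ∈ Q, ρ' x ∈ GO O n) → F ρ' = 0) → F ρ = 0

/-- `Φ : (ι → G n) → G m` agrees on `S` with a polynomial map (also for the inverse) -/
def PolG {ι : Type} {n m : ℕ} (S : Set (ι → G n)) (Φ : (ι → G n) → G m) : Prop :=
  ∀ i j, (∃ F ∈ Pol ι n, ∀ ρ ∈ S, (Φ ρ).1 i j = F ρ) ∧
    (∃ F ∈ Pol ι n, ∀ ρ ∈ S, ((Φ ρ)⁻¹).1 i j = F ρ)

/-- scalars allowed in words: roots of unity in `O` -/
def IsSc (O : Subring ℂ) (a : ℂˣ) : Prop := (a : ℂ) ∈ O ∧ ∃ m : ℕ, 0 < m ∧ a ^ m = 1

/-- invertible diagonal matrix -/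
def dg {n : ℕ} (d : Fin n → ℂˣ) : G n where
  val := Matrix.diagonal fun i => (d i : ℂ)
  inv := Matrix.diagonal fun i => ((d i)⁻¹ : ℂˣ)
  val_inv := by rw [Matrix.diagonal_mul_diagonal]; simp
  inv_val := by rw [Matrix.diagonal_mul_diagonal]; simp

/-- `GL_k` as the top left block of `GL_n` (identity elsewhere). -/
def GLk (n k : ℕ) : Subgroup (G n) where
  carrier := {g | ∀ i j : Fin n, (k ≤ i.1 ∨ k ≤ j.1) → g.1 i j = if i = j then 1 else 0}
  mul_mem' := by
    intro a b ha hb i j hij
    rw [Units.val_mul, Matrix.mul_apply]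
    rcases hij with h | h
    · rw [Finset.sum_eq_single i]
      · rw [ha i i (Or.inl h), hb i j (Or.inl h)]; simp
      · intro l _ hl
        rw [ha i l (Or.inl h), if_neg (Ne.symm hl), zero_mul]
      · simp
    · rw [Finset.sum_eq_single j]
      · rw [hb j j (Or.inr h), ha i j (Or.inr h)]; simp
      · intro l _ hl
        rw [hb l j (Or.inr h), if_neg hl, mul_zero]
      · simp
  one_mem' := by
    intro i j _
    rw [Units.val_one, Matrix.one_apply]
  inv_mem' := by
    intro a ha i j hij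
    rcases hij with h | h
    · -- row i of a is e_i, so row i of a⁻¹ is e_i
      have h1 : (a.1 * (a⁻¹).1) i j = (1 : Matrix (Fin n) (Fin n) ℂ) i j := by
        rw [← Units.val_mul, mul_inv_cancel]; rfl
      rw [Matrix.mul_apply, Finset.sum_eq_single i] at h1
      · rw [ha i i (Or.inl h), if_pos rfl, one_mul, Matrix.one_apply] at h1
        exact h1
      · intro l _ hl
        rw [ha i l (Or.inl h), if_neg (Ne.symm hl), zero_mul]
      · simp
    · have h1 : ((a⁻¹).1 * a.1) i j = (1 : Matrix (Fin n) (Fin n) ℂ) i j := by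
        rw [← Units.val_mul, inv_mul_cancel]; rfl
      rw [Matrix.mul_apply, Finset.sum_eq_single j] at h1
      · rw [ha j j (Or.inr h), if_pos rfl, mul_one, Matrix.one_apply] at h1
        exact h1
      · intro l _ hl
        rw [ha l j (Or.inr h), if_neg hl, mul_zero]
      · simp

/-- the scalar `a` of `GL_k ⊆ GL_n` -/
def scal (n k : ℕ) (a : ℂˣ) : G n := dg fun i => if i.1 < k then a else 1

/-- the `i`-th label. (NB: never write `c[i]` with a variable called `c`: `c[` is a Mathlib token.) -/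
abbrev lab {Λ : Type} (l : List Λ) (i : ℕ) : Option Λ := l[i]?

/-- `P ∈ GL_k` is block triangular for the labels `c` (rows) and `c'` (columns), with diagonal blocks
`g l`, where the class of the label `l` is identified with `[0, count l)` order-preservingly. -/
structure IsPar {n : ℕ} {Λ : Type} [PartialOrder Λ] [DecidableEq Λ] (c c' : List Λ) (g : Λ → G n)
    (P : G n) : Prop where
  len : c.length ≤ n
  cnt : ∀ l, c.count l = c'.count l
  mem : P ∈ GLk n c.length
  blk : ∀ l, g l ∈ GLk n (c.count l)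
  zero : ∀ (i j : Fin n) (a b : Λ), lab c i.1 = some a → lab c' j.1 = some b → ¬ a ≤ b → P.1 i j = 0
  diag : ∀ (i j u v : Fin n) (a : Λ), lab c i.1 = some a → lab c' j.1 = some a →
    u.1 = (c.take i.1).count a → v.1 = (c'.take j.1).count a → P.1 i j = (g a).1 u v

/-- labels `d` restricted to the class `b` of `c` -/
def restr (c d : List Bool) (b : Bool) : List Bool :=
  ((c.zip d).filter (fun x => x.1 = b)).map Prod.snd

/-- the diagonal matrix with entries `σ (e i) (c i)` -/
def dsg (n : ℕ) (e c : List Bool) (σ : Bool → Bool → ℂˣ) : G n :=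
  dg fun i => match lab e i.1, lab c i.1 with
    | some x, some y => σ x y
    | _, _ => 1

/-- Letters. `full x true` is the letter `x`, `full x false` the letter `x⁻¹`; `par p e σ c c' g` is
a P-letter named `p` with left sign `σ` (with respect to the labels `e` of the previous letter), left
labels `c`, right labels `c'` and child names `g b`. -/
inductive Lt : Type
  | full (x : ℕ) (ε : Bool) : Lt
  | par (p : ℕ) (e : List Bool) (σ : Bool → Bool → ℂˣ) (c c' : List Bool) (g : Bool → ℕ) : Lt

/-- words -/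
abbrev Wd := List Lt

namespace Lt

/-- value of a letter -/
def eval {n : ℕ} (ρ : ℕ → G n) : Lt → G n
  | full x ε => if ε then ρ x else (ρ x)⁻¹
  | par p e σ c _ _ => dsg n e c σ * ρ p

/-- the constraint of a letter of rank `k` -/
def Sat {n : ℕ} (ρ : ℕ → G n) (k : ℕ) : Lt → Prop
  | full x _ => ρ x ∈ GLk n k
  | par p _ _ c c' g => IsPar c c' (fun b => ρ (g b)) (ρ p)

/-- occurrences of full names: (name, rank, sign); child names count as positive occurrences -/
def occ (k : ℕ) : Lt → Multiset (ℕ × ℕ × Bool)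
  | full x ε => {(x, k, ε)}
  | par _ _ _ c _ g => {(g false, c.count false, true), (g true, c.count true, true)}

/-- names of the P-letters -/
def pn : Lt → Multiset ℕ
  | full _ _ => 0
  | par p _ _ _ _ _ => {p}

/-- the sign is trivial -/
def Untw : Lt → Prop
  | full _ _ => True
  | par _ _ σ _ _ _ => ∀ x y, σ x y = 1

/-- nondegenerate P-letter -/
def Nd : Lt → Prop
  | full _ _ => False
  | par _ _ _ c _ _ => ∀ b, 0 < c.count b

open Classical in
/-- weights: `3k+1` for a full letter of rank `k`, `3k` for a nondegenerate P-letter (plus `3k-1` if it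
has a sign), `3k+2` for a degenerate P-letter (twice if it has a sign). -/
noncomputable def wt (k : ℕ) : Lt → Multiset ℕ
  | full _ _ => {3 * k + 1}
  | par _ _ σ c _ _ =>
      if ∀ b, 0 < c.count b then
        if ∀ x y, σ x y = 1 then {3 * k} else {3 * k, 3 * k - 1}
      else if ∀ x y, σ x y = 1 then {3 * k + 2} else {3 * k + 2, 3 * k + 2}

/-- full letter -/
def IsFull : Lt → Prop
  | full _ _ => True
  | par _ _ _ _ _ _ => False

end Lt

namespace Wd

/-- value of a word -/
def eval {n : ℕ} (ρ : ℕ → G n) (w : Wd) : G n := (w.map (Lt.eval ρ)).prod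

/-- the constraints of a word of rank `k` -/
def Sat {n : ℕ} (ρ : ℕ → G n) (w : Wd) (k : ℕ) : Prop := ∀ l ∈ w, Lt.Sat ρ k l

/-- right labels of the last letter (`d` if the word is empty, `none` for a full letter) -/
def last : Wd → Option (List Bool) → Option (List Bool)
  | [], d => d
  | Lt.full _ _ :: w, _ => last w none
  | Lt.par _ _ _ _ c' _ :: w, _ => last w (some c')

/-- well-formedness of a word of rank `k` after a letter with right labels `prev` -/
def WF (O : Subring ℂ) : Wd → ℕ → Option (List Bool) → Prop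
  | [], _, _ => True
  | Lt.full _ _ :: w, k, _ => WF O w k none
  | Lt.par _ e σ c c' _ :: w, k, prev =>
      c.length = k ∧ (∀ b, c.count b = c'.count b) ∧
      ((∀ x y, σ x y = 1) ∨ prev = some e) ∧ (∀ x y, IsSc O (σ x y)) ∧ WF O w k (some c')

def occ (w : Wd) (k : ℕ) : Multiset (ℕ × ℕ × Bool) := (w.map (Lt.occ k)).sum

def pn (w : Wd) : Multiset ℕ := (w.map Lt.pn).sum

noncomputable def wt (w : Wd) (k : ℕ) : Multiset ℕ := (w.map (Lt.wt k)).sum

/-- the word has a nondegenerate P-letter -/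
def hasNd (w : Wd) : Prop := ∃ l ∈ w, l.Nd

/-- the word has only full letters -/
def isFull (w : Wd) : Prop := ∀ l ∈ w, l.IsFull

end Wd

/-- a root word: rank, scalar, word; the equation is `ξ · w = 1` -/
structure Root where
  k : ℕ
  ξ : ℂˣ
  w : Wd

/-- a system: root words and free names (with ranks) -/
structure Sys where
  roots : List Root
  free : List (ℕ × ℕ)

namespace Root

def Sol {n : ℕ} (r : Root) (ρ : ℕ → G n) : Prop :=
  Wd.Sat ρ r.w r.k ∧ scal n r.k r.ξ * Wd.eval ρ r.w = 1

/-- cyclic well-formedness -/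
def WF (O : Subring ℂ) (n : ℕ) (r : Root) : Prop :=
  r.k ≤ n ∧ IsSc O r.ξ ∧ Wd.WF O r.w r.k (Wd.last r.w none)

def occ (r : Root) : Multiset (ℕ × ℕ × Bool) := Wd.occ r.w r.k
def pn (r : Root) : Multiset ℕ := Wd.pn r.w
noncomputable def wt (r : Root) : Multiset ℕ := (3 * r.k) ::ₘ Wd.wt r.w r.k

end Root

namespace Sys

/-- the solutions of a system in `GL_n(ℂ)` -/
def Sol (n : ℕ) (S : Sys) : Set (ℕ → G n) :=
  {ρ | (∀ r ∈ S.roots, r.Sol ρ) ∧ ∀ z ∈ S.free, ρ z.1 ∈ GLk n z.2}

def occ (S : Sys) : Multiset (ℕ × ℕ × Bool) := (S.roots.map Root.occ).sum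
def pn (S : Sys) : Multiset ℕ := (S.roots.map Root.pn).sum
noncomputable def wt (S : Sys) : Multiset ℕ := (S.roots.map Root.wt).sum

/-- relevant names -/
def names (S : Sys) : Set ℕ :=
  {x | (∃ k ε, (x, k, ε) ∈ S.occ) ∨ x ∈ S.pn ∨ x ∈ S.free.map Prod.fst}

/-- well-formed systems: every full name occurs exactly once as `x` and once as `x⁻¹` (with the same
rank; child names are positive occurrences), all other names occur once. -/
structure WF (O : Subring ℂ) (n : ℕ) (S : Sys) : Prop where
  roots : ∀ r ∈ S.roots, r.WF O n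
  free : ∀ z ∈ S.free, z.2 ≤ n
  lin : ∃ V : Multiset (ℕ × ℕ),
    S.occ = V.map (fun v => (v.1, v.2, true)) + V.map (fun v => (v.1, v.2, false)) ∧
    (V.map Prod.fst + S.pn + ((S.free.map Prod.fst : List ℕ) : Multiset ℕ)).Nodup

end Sys

/-- `Adm k0 S`: all roots have rank `≤ k0`, those of rank `k0` have a nondegenerate P-letter -/
def Adm (k0 : ℕ) (S : Sys) : Prop := ∀ r ∈ S.roots, r.k < k0 ∨ (r.k = k0 ∧ Wd.hasNd r.w)

/-- the closed surface statement in rank `k`: solutions of `∏ [A_i,B_i] = ξ` in `GL_k(ℂ)` are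
approximable. -/
def Closed (O : Subring ℂ) (k : ℕ) : Prop :=
  ∀ (h : ℕ) (ξ : ℂˣ), IsSc O ξ → ∀ T : Fin h × Bool → G k,
    ((List.finRange h).map fun i => T (i, false) * T (i, true) * (T (i, false))⁻¹ *
      (T (i, true))⁻¹).prod = scal k k ξ →
    Appr O {T : Fin h × Bool → G k | ((List.finRange h).map fun i => T (i, false) * T (i, true) *
      (T (i, false))⁻¹ * (T (i, true))⁻¹).prod = scal k k ξ} Set.univ T

/-- Standing assumption on `O` used by the elimination: a unit of infinite order. -/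
def Good (O : Subring ℂ) : Prop :=
  ∃ u : ℂˣ, (u : ℂ) ∈ O ∧ ((u⁻¹ : ℂˣ) : ℂ) ∈ O ∧ ∀ m : ℕ, 0 < m → u ^ m ≠ 1

/-- THE ELIMINATION THEOREM (target of part 2), as a proposition. -/
def ElimStatement (O : Subring ℂ) (n k0 : ℕ) : Prop :=
  Good O → (∀ k < k0, Closed O k) → ∀ S : Sys, S.WF O n →
    Adm k0 S → ∀ ρ ∈ S.Sol n, Appr O (S.Sol n) S.names ρ

end Crest.Agent.R003
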