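import Mathlib
import Crest.Prelude.Def_CharVarRel

set_option autoImplicit false

open Crest.NumberTheoryR.CharVarRel

noncomputable section

namespace Crest.Agent.R003

/-- The ring of algebraic integers inside the subfield `F` of `ℂ`. -/
def OO (F : Subfield ℂ) : Subring ℂ := F.toSubring ⊓ (integralClosure ℤ ℂ).toSubring

theorem mem_OO {F : Subfield ℂ} {z : ℂ} : z ∈ OO F ↔ z ∈ F ∧ IsIntegral ℤ z := by
  simp [OO, mem_integralClosure_iff]

theorem K_le_rootField (K : Subfield ℂ) (n : ℕ) : K ≤ rootField K n := fun _ hx =>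
  Subfield.subset_closure (Or.inl (Or.inl hx))

theorem sqrt_mem_rootField (K : Subfield ℂ) (n : ℕ) {z : ℂ} (hz : z ^ 2 = 2) : z ∈ rootField K n :=
  Subfield.subset_closure (Or.inl (Or.inr hz))

theorem root_mem_rootField (K : Subfield ℂ) (n : ℕ) {z : ℂ} (hz : z ^ n = 1) : z ∈ rootField K n :=
  Subfield.subset_closure (Or.inr hz)

theorem F_le_unitRootField (F : Subfield ℂ) (r : ℕ) : F ≤ unitRootField F r := fun _ hx =>
  Subfield.subset_closure (Or.inl hx)

theorem OO_mono {F F' : Subfield ℂ} (h : F ≤ F') : OO F ≤ OO F' := fun _ hx =>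
  mem_OO.2 ⟨h (mem_OO.1 hx).1, (mem_OO.1 hx).2⟩

/-! ### `rootField K n` is a number field -/

/-- a subfield of `ℂ` as an intermediate field of `ℂ/ℚ` -/
def asIF (K : Subfield ℂ) : IntermediateField ℚ ℂ where
  toSubalgebra :=
    { K.toSubring.toSubsemiring with
      algebraMap_mem' := fun q => by
        have : (algebraMap ℚ ℂ q) = ((q : ℚ) : ℂ) := rfl
        rw [this]
        exact SubfieldClass.ratCast_mem K q }
  inv_mem' := fun _ hx => K.inv_mem hx

theorem mem_asIF {K : Subfield ℂ} {z : ℂ} : z ∈ asIF K ↔ z ∈ K := Iff.rfl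

theorem finite_roots_pow (n : ℕ) (hn : 0 < n) (a : ℂ) : {z : ℂ | z ^ n = a}.Finite := by
  refine Set.Finite.subset ((Polynomial.nthRoots n a).toFinset.finite_toSet) fun z hz => ?_
  simp only [Multiset.mem_toFinset, Finset.mem_coe, Polynomial.mem_nthRoots hn]
  exact hz

theorem finiteDimensional_rootField (K : Subfield ℂ) (hK : FiniteDimensional ℚ K) (n : ℕ)
    (hn : 0 < n) : FiniteDimensional ℚ (rootField K n) := by
  let S : Set ℂ := {z : ℂ | z ^ 2 = 2} ∪ {z : ℂ | z ^ n = 1}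
  have hS : S.Finite := (finite_roots_pow 2 (by norm_num) 2).union (finite_roots_pow n hn 1)
  have hSf : Finite S := hS
  have hint : ∀ x ∈ S, IsIntegral ℚ x := by
    rintro x (hx | hx)
    · refine IsIntegral.of_pow (n := 2) (by norm_num) ?_
      have h2 : x ^ 2 = 2 := hx
      rw [h2]
      exact isIntegral_algebraMap (R := ℚ) (x := 2)
    · refine IsIntegral.of_pow hn ?_
      have h2 : x ^ n = 1 := hx
      rw [h2]
      exact isIntegral_one
  have hM : FiniteDimensional ℚ (IntermediateField.adjoin ℚ S) :=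
    IntermediateField.finiteDimensional_adjoin hint
  have hK' : FiniteDimensional ℚ (asIF K) := hK
  have hsup : FiniteDimensional ℚ ((asIF K ⊔ IntermediateField.adjoin ℚ S : IntermediateField ℚ ℂ)) :=
    IntermediateField.finiteDimensional_sup _ _
  have hle : rootField K n ≤ (asIF K ⊔ IntermediateField.adjoin ℚ S).toSubfield := by
    unfold rootField
    rw [Subfield.closure_le]
    rintro x ((hx | hx) | hx)
    · exact (le_sup_left : asIF K ≤ asIF K ⊔ IntermediateField.adjoin ℚ S) (mem_asIF.2 hx)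
    · exact (le_sup_right : IntermediateField.adjoin ℚ S ≤ asIF K ⊔ IntermediateField.adjoin ℚ S)
        (IntermediateField.subset_adjoin ℚ S (Or.inl hx))
    · exact (le_sup_right : IntermediateField.adjoin ℚ S ≤ asIF K ⊔ IntermediateField.adjoin ℚ S)
        (IntermediateField.subset_adjoin ℚ S (Or.inr hx))
  have hle' : asIF (rootField K n) ≤ asIF K ⊔ IntermediateField.adjoin ℚ S := fun x hx => hle hx
  have : FiniteDimensional ℚ (asIF (rootField K n)) :=
    FiniteDimensional.of_injective (IntermediateField.inclusion hle').toLinearMap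
      (IntermediateField.inclusion_injective hle')
  exact this

theorem numberField_of_finiteDimensional (F : Subfield ℂ) (hF : FiniteDimensional ℚ F) :
    NumberField F where
  to_charZero := inferInstance
  to_finiteDimensional := hF

/-! ### the units -/

theorem inv_mem_of_mul_eq_one {F : Subfield ℂ} {z w : ℂ} (hw : w ∈ OO F) (h : z * w = 1) :
    z⁻¹ ∈ OO F := by
  rwa [inv_eq_of_mul_eq_one_right h]

/-- the positive square root of `2` in `ℂ` -/
def s2 : ℂ := (Real.sqrt 2 : ℝ)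

theorem s2_sq : s2 ^ 2 = 2 := by
  unfold s2
  rw [← Complex.ofReal_pow, Real.sq_sqrt (by norm_num)]
  norm_num

theorem s2_mem (K : Subfield ℂ) (n : ℕ) : s2 ∈ OO (rootField K n) := by
  rw [mem_OO]
  refine ⟨sqrt_mem_rootField K n s2_sq, IsIntegral.of_pow (n := 2) (by norm_num) ?_⟩
  rw [s2_sq]
  exact isIntegral_algebraMap (R := ℤ) (x := 2)

/-- the unit `1 + √2` -/
def u0 : ℂˣ where
  val := 1 + s2
  inv := s2 - 1
  val_inv := by linear_combination s2_sq
  inv_val := by linear_combination s2_sq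

theorem u0_mem (K : Subfield ℂ) (n : ℕ) : (u0 : ℂ) ∈ OO (rootField K n) :=
  Subring.add_mem _ (Subring.one_mem _) (s2_mem K n)

theorem u0_inv_mem (K : Subfield ℂ) (n : ℕ) : ((u0⁻¹ : ℂˣ) : ℂ) ∈ OO (rootField K n) :=
  Subring.sub_mem _ (s2_mem K n) (Subring.one_mem _)

theorem one_lt_norm_u0 : 1 < ‖(u0 : ℂ)‖ := by
  have h1 : (u0 : ℂ) = ((1 + Real.sqrt 2 : ℝ) : ℂ) := by
    show 1 + s2 = _
    unfold s2
    push_cast
    rfl
  rw [h1, Complex.norm_real, Real.norm_eq_abs, abs_of_pos (by positivity)]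
  have : 0 < Real.sqrt 2 := by positivity
  linarith

theorem u0_pow_ne_one {m : ℕ} (hm : 0 < m) : u0 ^ m ≠ 1 := by
  intro h
  have h1 : ‖(u0 : ℂ)‖ ^ m = 1 := by
    rw [← norm_pow, ← Units.val_pow_eq_pow_val, h]
    simp
  have h2 := one_lt_pow₀ one_lt_norm_u0 (Nat.pos_iff_ne_zero.1 hm)
  rw [h1] at h2
  exact lt_irrefl _ h2

/-- roots of unity of `F` are units of `OO F` -/
theorem rootOfUnity_mem {F : Subfield ℂ} {z : ℂ} (hz : z ∈ F) {m : ℕ} (hm : 0 < m)
    (h : z ^ m = 1) : z ∈ OO F ∧ z⁻¹ ∈ OO F := by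
  have h1 : ∀ w : ℂ, w ∈ F → w ^ m = 1 → w ∈ OO F := fun w hw hw' =>
    mem_OO.2 ⟨hw, IsIntegral.of_pow hm (by rw [hw']; exact isIntegral_one)⟩
  exact ⟨h1 z hz h, h1 _ (F.inv_mem hz) (by rw [inv_pow, h, inv_one])⟩

/-- the primitive root of unity of order `n` -/
def zt (n : ℕ) : ℂ := Complex.exp (2 * Real.pi * Complex.I / n)

theorem zt_prim {n : ℕ} (hn : n ≠ 0) : IsPrimitiveRoot (zt n) n := Complex.isPrimitiveRoot_exp n hn

theorem zt_mem (K : Subfield ℂ) {n : ℕ} (hn : 0 < n) :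
    zt n ∈ OO (rootField K n) ∧ (zt n)⁻¹ ∈ OO (rootField K n) :=
  rootOfUnity_mem (root_mem_rootField K n (zt_prim hn.ne').pow_eq_one) hn
    (zt_prim hn.ne').pow_eq_one

/-- `1 - μ` is a unit for primitive roots of unity `μ` of order `p q`. -/
theorem one_sub_inv_mem {F : Subfield ℂ} {p q : ℕ} (hp : p.Prime) (hq : q.Prime) (hpq : p ≠ q)
    (hF : ∀ z : ℂ, z ^ (p * q) = 1 → z ∈ F) {μ : ℂ} (hμ : IsPrimitiveRoot μ (p * q)) :
    (1 - μ)⁻¹ ∈ OO F := by
  have hpos : 0 < p * q := Nat.mul_pos hp.pos hq.pos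
  have hn : ∀ {l : ℕ}, l.Prime → ∀ k : ℕ, l ^ k ≠ p * q := by
    intro l hl k hk
    have h1 : p ∣ l ^ k := hk ▸ Dvd.intro _ rfl
    have h2 : q ∣ l ^ k := hk ▸ Dvd.intro_left _ rfl
    have h3 := (Nat.prime_dvd_prime_iff_eq hp hl).1 (hp.dvd_of_dvd_pow h1)
    have h4 := (Nat.prime_dvd_prime_iff_eq hq hl).1 (hq.dvd_of_dvd_pow h2)
    exact hpq (h3.trans h4.symm)
  have h1 : Polynomial.eval 1 (Polynomial.cyclotomic (p * q) ℂ) = 1 :=
    Polynomial.eval_one_cyclotomic_not_prime_pow hn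
  rw [Polynomial.cyclotomic_eq_prod_X_sub_primitiveRoots hμ, Polynomial.eval_prod] at h1
  simp only [Polynomial.eval_sub, Polynomial.eval_X, Polynomial.eval_C] at h1
  have hmem : μ ∈ primitiveRoots (p * q) ℂ := (mem_primitiveRoots hpos).2 hμ
  rw [← Finset.mul_prod_erase _ _ hmem] at h1
  refine inv_mem_of_mul_eq_one (Subring.prod_mem _ fun x hx => ?_) h1
  have hx' := isPrimitiveRoot_of_mem_primitiveRoots (Finset.mem_of_mem_erase hx)
  exact Subring.sub_mem _ (Subring.one_mem _) (rootOfUnity_mem (hF x hx'.pow_eq_one) hpos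
    hx'.pow_eq_one).1

theorem zt_pow_ne {r p q : ℕ} (hp : p.Prime) (hq : q.Prime) (hrp : r < p)
    (hrq : r < q) {i j : ℕ} (hij : i < j) (hj : j ≤ r) :
    IsPrimitiveRoot (zt (p * q) ^ (j - i)) (p * q) := by
  have hpos : 0 < p * q := Nat.mul_pos hp.pos hq.pos
  refine (zt_prim hpos.ne').pow_of_coprime _ ?_
  have h0 : 0 < j - i := by omega
  refine Nat.Coprime.mul_right ?_ ?_
  · exact (Nat.Prime.coprime_iff_not_dvd hp).2 (fun h => by
      have := Nat.le_of_dvd h0 h; omega) |>.symm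
  · exact (Nat.Prime.coprime_iff_not_dvd hq).2 (fun h => by
      have := Nat.le_of_dvd h0 h; omega) |>.symm

theorem zt_sub_inv_mem (K : Subfield ℂ) {r p q : ℕ} (hp : p.Prime) (hq : q.Prime) (hpq : p ≠ q)
    (hrp : r < p) (hrq : r < q) {i j : ℕ} (hij : i ≠ j) (hi : i ≤ r) (hj : j ≤ r) :
    (zt (p * q) ^ i - zt (p * q) ^ j)⁻¹ ∈ OO (rootField K (p * q)) := by
  have hpos : 0 < p * q := Nat.mul_pos hp.pos hq.pos
  have main : ∀ i j : ℕ, i < j → j ≤ r →
      (zt (p * q) ^ i - zt (p * q) ^ j)⁻¹ ∈ OO (rootField K (p * q)) := by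
    intro i j hij hj
    have h1 : zt (p * q) ^ i - zt (p * q) ^ j = zt (p * q) ^ i * (1 - zt (p * q) ^ (j - i)) := by
      rw [mul_sub, mul_one, ← pow_add, Nat.add_sub_cancel' hij.le]
    rw [h1, mul_inv, ← inv_pow]
    exact Subring.mul_mem _ (Subring.pow_mem _ (zt_mem K hpos).2 _)
      (one_sub_inv_mem hp hq hpq (fun z hz => root_mem_rootField K _ hz)
        (zt_pow_ne hp hq hrp hrq hij hj))
  rcases lt_or_gt_of_ne hij with h | h
  · exact main i j h hj
  · have := Subring.neg_mem _ (main j i h hi)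
    rwa [← inv_neg, neg_sub] at this

theorem zt_pow_injOn {r p q : ℕ} (hp : p.Prime) (hq : q.Prime)
    (hrp : r < p) {i j : ℕ} (hi : i ≤ r) (hj : j ≤ r)
    (h : zt (p * q) ^ i = zt (p * q) ^ j) : i = j := by
  have hpos : 0 < p * q := Nat.mul_pos hp.pos hq.pos
  have h1 : p ≤ p * q := Nat.le_mul_of_pos_right _ hq.pos
  exact (zt_prim hpos.ne').pow_inj (by omega) (by omega) h

/-! ### embeddings -/

/-- `rootField K (p*q)` contains a non-real number. -/
theorem exists_not_real (K : Subfield ℂ) {n : ℕ} (hn : 2 < n) :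
    ∃ z ∈ rootField K n, (starRingEnd ℂ) z ≠ z := by
  refine ⟨zt n, root_mem_rootField K n (zt_prim (by omega)).pow_eq_one, fun h => ?_⟩
  have hpr := zt_prim (n := n) (by omega)
  have hnorm : ‖zt n‖ = 1 := hpr.norm'_eq_one (by omega)
  have h1 : zt n * zt n = 1 := by
    have := Complex.mul_conj' (zt n)
    rw [h, hnorm] at this
    simpa using this
  have h2 : zt n ^ 2 = 1 := by rw [sq, h1]
  have := hpr.dvd_of_pow_eq_one _ h2
  have := Nat.le_of_dvd (by norm_num) this
  omega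

theorem rat_sq_ne_two (b : ℚ) : b ^ 2 ≠ 2 := by
  intro h
  have h1 : ((b : ℝ)) ^ 2 = 2 := by exact_mod_cast h
  have h2 : Real.sqrt 2 = |(b : ℝ)| := by rw [← h1, Real.sqrt_sq_eq_abs]
  refine irrational_sqrt_two ⟨|b|, ?_⟩
  rw [h2]
  push_cast
  rfl

/-- there is an embedding of `rootField K n` different from the identity and from complex
conjugation: one sending `√2` to `-√2`. -/
theorem exists_embedding (K : Subfield ℂ) (hK : FiniteDimensional ℚ K) {n : ℕ} (hn : 0 < n) :
    ∃ σ : rootField K n →+* ℂ, σ ≠ (rootField K n).subtype ∧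
      σ ≠ (starRingEnd ℂ).comp (rootField K n).subtype := by
  have hfd := finiteDimensional_rootField K hK n hn
  have hnf : NumberField (rootField K n) := numberField_of_finiteDimensional _ hfd
  let x : rootField K n := ⟨s2, sqrt_mem_rootField K n s2_sq⟩
  have hx2 : x ^ 2 = 2 := Subtype.ext s2_sq
  have hs0 : s2 ≠ 0 := by
    intro h
    have := s2_sq
    rw [h] at this
    norm_num at this
  -- minimal polynomial of x
  have hmin : minpoly ℚ x = Polynomial.X ^ 2 - Polynomial.C 2 := by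
    symm
    apply minpoly.eq_of_irreducible_of_monic
    · exact X_pow_sub_C_irreducible_of_prime Nat.prime_two rat_sq_ne_two
    · simp [hx2]
    · exact Polynomial.monic_X_pow_sub_C _ (by norm_num)
  have hroot : (-s2) ∈ (minpoly ℚ x).rootSet ℂ := by
    rw [hmin, Polynomial.mem_rootSet]
    refine ⟨(Polynomial.monic_X_pow_sub_C _ (by norm_num)).ne_zero, ?_⟩
    simp [s2_sq]
  rw [← NumberField.Embeddings.range_eval_eq_rootSet_minpoly (rootField K n) ℂ x] at hroot
  obtain ⟨σ, hσ⟩ := hroot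
  have hσ' : σ x = -s2 := hσ
  refine ⟨σ, fun h => ?_, fun h => ?_⟩
  · rw [h] at hσ'
    have : s2 = -s2 := hσ'
    exact hs0 (self_eq_neg.1 this)
  · rw [h] at hσ'
    have h1 : (starRingEnd ℂ) s2 = -s2 := hσ'
    unfold s2 at h1
    rw [Complex.conj_ofReal] at h1
    exact hs0 (self_eq_neg.1 h1)

end Crest.Agent.R003
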