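import Crest.Agent.R003.Calc961

/-!
# Row 3 (S0003): `Extract n` and `Glue n` (helper961)
-/

set_option autoImplicit false
set_option linter.unusedSectionVars false

namespace Crest.Agent.R003

open P961

section general

variable {n : ℕ} {Λ : Type} [PartialOrder Λ] [DecidableEq Λ]

/-- diagonal block as a unit -/
noncomputable def blkG {L : Type*} [PartialOrder L] [DecidableEq L] {c c' : Fin n → L}
    (hs : ∀ b, cs c b = cs c' b) (P : G n) (h : Tri c c' P.1) (b : L) : G n where
  val := blk c c' b P.1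
  inv := blk c' c b (P⁻¹).1
  val_inv := by
    have hPQ : P.1 * (P⁻¹).1 = 1 := by rw [← Units.val_mul, mul_inv_cancel, Units.val_one]
    have htri : Tri c' c (P⁻¹).1 := h.inv hs hPQ
    rw [← blk_mul hs (fun b => (hs b).symm) h htri b, hPQ, blk_one]
  inv_val := by
    have hPQ : P.1 * (P⁻¹).1 = 1 := by rw [← Units.val_mul, mul_inv_cancel, Units.val_one]
    have hQP : (P⁻¹).1 * P.1 = 1 := by rw [← Units.val_mul, inv_mul_cancel, Units.val_one]
    have htri : Tri c' c (P⁻¹).1 := h.inv hs hPQ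
    rw [← blk_mul (fun b => (hs b).symm) hs htri h b, hQP, blk_one]

/-- existence of the diagonal blocks -/
lemma exists_isPar {c c' : List Λ} (hlen : c.length ≤ n) (hcnt : ∀ l, c.count l = c'.count l)
    {P : G n} (hP : P ∈ GLk n c.length) (htri : Tri (lb n c) (lb n c') P.1) :
    ∃ g : Λ → G n, IsPar c c' g P := by
  refine ⟨fun a => blkG (cs_eq hlen hcnt) P htri (Sum.inl a), ?_⟩
  apply IsPar.mk' hlen hcnt hP _ htri (fun _ => rfl)
  intro a i j hij
  rw [← cs_lb c a hlen] at hij
  exact blk_out _ _ _ _ _ _ hij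

end general

lemma exists_index {n : ℕ} {l : List Bool} (hl : l.length ≤ n) {a : Bool} {s : ℕ}
    (h : s < l.count a) : ∃ i : Fin n, lab l i.1 = some a ∧ (l.take i.1).count a = s := by
  obtain ⟨i, h1, h2⟩ := exists_pos (lb n l) (Sum.inl a) (t := s) (by rw [cs_lb l a hl]; exact h)
  refine ⟨i, lb_eq_inl.1 h1, ?_⟩
  rw [← cb_lb l a i.1 i.2.le]
  exact h2

lemma lab_lt {Λ : Type} {l : List Λ} {i : ℕ} {a : Λ} (h : lab l i = some a) : i < l.length :=
  (List.getElem?_eq_some_iff.1 h).1

/-- the two `BEq` instances on `Bool × Bool` -/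
lemma count_prod (l : List (Bool × Bool)) (p : Bool × Bool) :
    @List.count (Bool × Bool) instBEqOfDecidableEq p l = List.count p l := by
  congr 1
  exact lawful_beq_subsingleton _ _

namespace IsPar

variable {n : ℕ} {C C' : List (Bool × Bool)} {nn : Bool × Bool → G n} {L : G n}

lemma cnt2 (h : IsPar C C' nn L) (l : Bool × Bool) : C.count l = C'.count l := by
  have := h.cnt l
  rwa [count_prod, count_prod] at this

lemma blk2 (h : IsPar C C' nn L) (l : Bool × Bool) : nn l ∈ GLk n (C.count l) := by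
  have := h.blk l
  rwa [count_prod] at this

lemma diag2 (h : IsPar C C' nn L) (i j u v : Fin n) (a : Bool × Bool) (hi : lab C i.1 = some a)
    (hj : lab C' j.1 = some a) (hu : u.1 = (C.take i.1).count a) (hv : v.1 = (C'.take j.1).count a) :
    L.1 i j = (nn a).1 u v := by
  apply h.diag i j u v a hi hj
  · rw [count_prod]; exact hu
  · rw [count_prod]; exact hv

lemma mk2 (h1 : C.length ≤ n) (h2 : ∀ l, C.count l = C'.count l) (h3 : L ∈ GLk n C.length)
    (h4 : ∀ l, nn l ∈ GLk n (C.count l))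
    (h5 : ∀ (i j : Fin n) (a b : Bool × Bool), lab C i.1 = some a → lab C' j.1 = some b → ¬ a ≤ b →
      L.1 i j = 0)
    (h6 : ∀ (i j u v : Fin n) (a : Bool × Bool), lab C i.1 = some a → lab C' j.1 = some a →
      u.1 = (C.take i.1).count a → v.1 = (C'.take j.1).count a → L.1 i j = (nn a).1 u v) :
    IsPar C C' nn L := by
  refine ⟨h1, ?_, h3, ?_, h5, ?_⟩
  · intro l; rw [count_prod, count_prod]; exact h2 l
  · intro l; rw [count_prod]; exact h4 l
  · intro i j u v a hi hj hu hv
    rw [count_prod] at hu hv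
    exact h6 i j u v a hi hj hu hv

end IsPar

/-- joint labels: triangularity for the joint labels gives triangularity for the first ones -/
lemma tri_fst {n : ℕ} {c d c' d' : List Bool} (h1 : c.length = d.length) (h2 : c'.length = d'.length)
    {P : Matrix (Fin n) (Fin n) ℂ} (h : Tri (lb n (jl c d)) (lb n (jl c' d')) P) :
    Tri (lb n c) (lb n c') P := by
  intro i j hij
  apply h
  intro hle
  apply hij
  rcases hi : lb n (jl c d) i with ⟨a, x⟩ | ⟨⟩
  · rcases hj : lb n (jl c' d') j with ⟨a', x'⟩ | ⟨⟩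
    · rw [hi, hj, Sum.inl_le_inl_iff] at hle
      rw [lb_eq_inl.2 (jl_lab.1 (lb_eq_inl.1 hi)).1, lb_eq_inl.2 (jl_lab.1 (lb_eq_inl.1 hj)).1,
        Sum.inl_le_inl_iff]
      exact hle.1
    · rw [hi, hj] at hle
      exact absurd hle (by simp)
  · rcases hj : lb n (jl c' d') j with ⟨a', x'⟩ | ⟨⟩
    · rw [hi, hj] at hle
      exact absurd hle (by simp)
    · rw [lb_eq_inr, jl_length h1] at hi
      rw [lb_eq_inr, jl_length h2] at hj
      rw [lb_eq_inr.2 hi, lb_eq_inr.2 hj]

lemma extract_one {n : ℕ} {c d c' d' : List Bool} (h1 : c.length = d.length)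
    (h2 : c'.length = d'.length) {nn : Bool × Bool → G n} {L : G n}
    (hL : IsPar (jl c d) (jl c' d') nn L) :
    ∃ g : Bool → G n, IsPar c c' g L ∧
      ∀ e, IsPar (restr c d e) (restr c' d' e) (fun x => nn (e, x)) (g e) := by
  have hlen : c.length ≤ n := jl_length h1 ▸ hL.len
  have hlen' : c'.length ≤ n := jl_length h2 ▸ hL.len'
  have hcnt : ∀ e, c.count e = c'.count e := by
    intro e
    rw [jl_count_fst h1, jl_count_fst h2, hL.cnt2, hL.cnt2]
  obtain ⟨g, hg⟩ := exists_isPar hlen hcnt (jl_length h1 ▸ hL.mem) (tri_fst h1 h2 hL.tri)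
  refine ⟨g, hg, fun e => ?_⟩
  constructor
  · rw [restr_length h1]; exact (List.count_le_length).trans hlen
  · intro x
    rw [restr_count, restr_count, hL.cnt2]
  · rw [restr_length h1]; exact hg.blk e
  · intro x
    rw [restr_count]; exact hL.blk2 (e, x)
  · intro s t x x' hs ht hxx
    have hs' : s.1 < c.count e := by rw [← restr_length h1]; exact lab_lt hs
    have ht' : t.1 < c'.count e := by rw [← restr_length h2]; exact lab_lt ht
    obtain ⟨i, hi, hsi⟩ := exists_index hlen hs'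
    obtain ⟨j, hj, htj⟩ := exists_index hlen' ht'
    have e1 := hg.diag i j s t e hi hj hsi.symm htj.symm
    have e2 := restr_lab h1 hi
    have e3 := restr_lab h2 hj
    rw [hsi, hs] at e2
    rw [htj, ht] at e3
    rw [← e1]
    apply hL.zero i j (e, x) (e, x') (jl_lab.2 ⟨hi, e2.symm⟩) (jl_lab.2 ⟨hj, e3.symm⟩)
    rintro ⟨_, h4⟩
    exact hxx h4
  · intro s t u v x hs ht hu hv
    have hs' : s.1 < c.count e := by rw [← restr_length h1]; exact lab_lt hs
    have ht' : t.1 < c'.count e := by rw [← restr_length h2]; exact lab_lt ht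
    obtain ⟨i, hi, hsi⟩ := exists_index hlen hs'
    obtain ⟨j, hj, htj⟩ := exists_index hlen' ht'
    have e1 := hg.diag i j s t e hi hj hsi.symm htj.symm
    have e2 := restr_lab h1 hi
    have e3 := restr_lab h2 hj
    rw [hsi, hs] at e2
    rw [htj, ht] at e3
    rw [← e1]
    apply hL.diag2 i j u v (e, x) (jl_lab.2 ⟨hi, e2.symm⟩) (jl_lab.2 ⟨hj, e3.symm⟩)
    · rw [hu, ← hsi, restr_take h1, restr_count, jl_take]
    · rw [hv, ← htj, restr_take h2, restr_count, jl_take]

lemma jl_count_swap (c d : List Bool) (a b : Bool) : (jl d c).count (b, a) = (jl c d).count (a, b) := by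
  have h : (jl c d).map Prod.swap = jl d c := List.zip_swap _ _
  rw [← h, show ((b, a) : Bool × Bool) = Prod.swap (a, b) from rfl,
    List.count_map_of_injective _ _ Prod.swap_injective]

lemma IsPar.swap {n : ℕ} {c d c' d' : List Bool} {nn : Bool × Bool → G n} {L : G n}
    (h1 : c.length = d.length) (h2 : c'.length = d'.length)
    (hL : IsPar (jl c d) (jl c' d') nn L) :
    IsPar (jl d c) (jl d' c') (fun p => nn p.swap) L := by
  apply IsPar.mk2
  · rw [jl_length h1.symm, ← h1, ← jl_length h1]; exact hL.len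
  · rintro ⟨x, a⟩
    rw [jl_count_swap c d a x, jl_count_swap c' d' a x]; exact hL.cnt2 _
  · rw [jl_length h1.symm, ← h1, ← jl_length h1]; exact hL.mem
  · rintro ⟨x, a⟩
    rw [jl_count_swap c d a x]; exact hL.blk2 _
  · rintro i j ⟨x, a⟩ ⟨x', a'⟩ hi hj hne
    rw [jl_lab] at hi hj
    apply hL.zero i j (a, x) (a', x') (jl_lab.2 ⟨hi.2, hi.1⟩) (jl_lab.2 ⟨hj.2, hj.1⟩)
    rintro ⟨h3, h4⟩
    exact hne ⟨h4, h3⟩
  · rintro i j u v ⟨x, a⟩ hi hj hu hv
    rw [jl_lab] at hi hj
    apply hL.diag2 i j u v (a, x) (jl_lab.2 ⟨hi.2, hi.1⟩) (jl_lab.2 ⟨hj.2, hj.1⟩)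
    · rw [hu, jl_take, jl_take, jl_count_swap (c.take i.1)]
    · rw [hv, jl_take, jl_take, jl_count_swap (c'.take j.1)]

theorem extract_holds (n : ℕ) : Extract n := by
  intro c d c' d' h1 h2 nn L hL
  obtain ⟨g, hg, hg'⟩ := extract_one h1 h2 hL
  obtain ⟨h, hh, hh'⟩ := extract_one h1.symm h2.symm (hL.swap h1 h2)
  exact ⟨g, h, hg, hh, hg', hh'⟩

/-! ### entries in a subring of functions -/

section ent

variable {X : Type*} {n : ℕ}

def EntIn (A : Subring (X → ℂ)) (M : X → Matrix (Fin n) (Fin n) ℂ) : Prop :=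
  ∀ i j, (fun x => M x i j) ∈ A

variable {A : Subring (X → ℂ)} {M N : X → Matrix (Fin n) (Fin n) ℂ}

lemma EntIn.one : EntIn A (fun _ => (1 : Matrix (Fin n) (Fin n) ℂ)) := by
  intro i j
  by_cases h : i = j
  · subst h
    simp only [Matrix.one_apply_eq]
    exact A.one_mem
  · simp only [Matrix.one_apply_ne h]
    exact A.zero_mem

lemma EntIn.mul (hM : EntIn A M) (hN : EntIn A N) : EntIn A (fun x => M x * N x) := by
  intro i j
  have : (fun x => (M x * N x) i j) = ∑ k, (fun x => M x i k) * (fun x => N x k j) := by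
    funext x
    rw [Matrix.mul_apply, Finset.sum_apply]
    rfl
  rw [this]
  exact A.sum_mem fun k _ => A.mul_mem (hM i k) (hN k j)

lemma EntIn.sub (hM : EntIn A M) (hN : EntIn A N) : EntIn A (fun x => M x - N x) := by
  intro i j
  exact A.sub_mem (hM i j) (hN i j)

lemma EntIn.pow (hM : EntIn A M) (m : ℕ) : EntIn A (fun x => M x ^ m) := by
  induction m with
  | zero => simpa using EntIn.one
  | succ m ih =>
    have := ih.mul hM
    simpa only [pow_succ] using this

lemma EntIn.sum {K : ℕ → X → Matrix (Fin n) (Fin n) ℂ} (hK : ∀ m, EntIn A (K m)) (r : ℕ) :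
    EntIn A (fun x => ∑ m ∈ Finset.range r, K m x) := by
  intro i j
  have : (fun x => (∑ m ∈ Finset.range r, K m x) i j) =
      ∑ m ∈ Finset.range r, (fun x => K m x i j) := by
    funext x
    rw [Matrix.sum_apply, Finset.sum_apply]
  rw [this]
  exact A.sum_mem fun m _ => hK m i j

/-- the inverse formula stays in the subring -/
lemma EntIn.invf {P D : X → Matrix (Fin n) (Fin n) ℂ} (hP : EntIn A P) (hD : EntIn A D) :
    EntIn A (fun x => D x * ∑ m ∈ Finset.range n, (1 - P x * D x) ^ m) :=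
  hD.mul (EntIn.sum (K := fun m x => (1 - P x * D x) ^ m)
    (fun m => (EntIn.one.sub (hP.mul hD)).pow m) n)

end ent

/-! ### the glued matrix -/

section glue

variable {n : ℕ}

/-- entries by label -/
def gx (g : Bool → G n) : Bool ⊕ Unit → Matrix (Fin n) (Fin n) ℂ
  | Sum.inl a => (g a).1
  | Sum.inr _ => 1

def cidx (k0 : ℕ) (t : Fin n) : Fin n := if h : k0 + t.1 < n then ⟨k0 + t.1, h⟩ else t

/-- the glued matrix -/
noncomputable def glM (c d c' d' : List Bool) (g h : Bool → G n) (ζ : G n) :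
    Matrix (Fin n) (Fin n) ℂ :=
  fun i j =>
    if lb n c i = lb n c' j then gx g (lb n c i) (ci (lb n c) i) (ci (lb n c') j)
    else if lb n d i = lb n d' j then gx h (lb n d i) (ci (lb n d) i) (ci (lb n d') j)
    else if (lb n c i = Sum.inl false ∧ lb n c' j = Sum.inl true) ∧
        (lb n d i = Sum.inl false ∧ lb n d' j = Sum.inl true) then
      ζ.1 (ci (lb n (jl c d)) i)
        (cidx ((jl c d).count (false, false)) (ci (lb n (jl c' d')) j))
    else 0

variable {c d c' d' : List Bool} {g h : Bool → G n} {ζ : G n} {nn : Bool × Bool → G n}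

lemma ci_jl {c d : List Bool} {i : Fin n} {a x : Bool} (ha : lab c i.1 = some a)
    (hx : lab d i.1 = some x) :
    (ci (lb n (jl c d)) i).1 = (jl (c.take i.1) (d.take i.1)).count (a, x) := by
  rw [ci_lb (jl_lab.2 ⟨ha, hx⟩), count_prod, jl_take]

lemma glue_F1 (h1 : c.length = d.length) (h2 : c'.length = d'.length)
    (hG : GlueData c d c' d' nn g h ζ) {i j : Fin n} {a x : Bool} (hi : lab c i.1 = some a)
    (hi' : lab d i.1 = some x) (hj : lab c' j.1 = some a) (hj' : lab d' j.1 = some x) :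
    (g a).1 (ci (lb n c) i) (ci (lb n c') j) =
      (nn (a, x)).1 (ci (lb n (jl c d)) i) (ci (lb n (jl c' d')) j) := by
  apply (hG.1 a).diag _ _ _ _ x
  · rw [ci_lb hi, restr_lab h1 hi, hi']
  · rw [ci_lb hj, restr_lab h2 hj, hj']
  · rw [ci_jl hi hi', ci_lb hi, restr_take h1, restr_count]
  · rw [ci_jl hj hj', ci_lb hj, restr_take h2, restr_count]

lemma glue_F1' (h1 : c.length = d.length) (h2 : c'.length = d'.length)
    (hG : GlueData c d c' d' nn g h ζ) {i j : Fin n} {a x : Bool} (hi : lab c i.1 = some a)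
    (hi' : lab d i.1 = some x) (hj : lab c' j.1 = some a) (hj' : lab d' j.1 = some x) :
    (h x).1 (ci (lb n d) i) (ci (lb n d') j) =
      (nn (a, x)).1 (ci (lb n (jl c d)) i) (ci (lb n (jl c' d')) j) := by
  apply (hG.2.1 x).diag _ _ _ _ a
  · rw [ci_lb hi', restr_lab h1.symm hi', hi]
  · rw [ci_lb hj', restr_lab h2.symm hj', hj]
  · rw [ci_jl hi hi', ci_lb hi', restr_take h1.symm, restr_count, jl_count_swap (c.take i.1)]
  · rw [ci_jl hj hj', ci_lb hj', restr_take h2.symm, restr_count, jl_count_swap (c'.take j.1)]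

lemma lb_cases {c d : List Bool} (h : c.length = d.length) (i : Fin n) :
    (∃ a x, lab c i.1 = some a ∧ lab d i.1 = some x) ∨ (c.length ≤ i.1 ∧ d.length ≤ i.1) := by
  by_cases hi : i.1 < c.length
  · left
    exact ⟨_, _, List.getElem?_eq_getElem hi, List.getElem?_eq_getElem (h ▸ hi)⟩
  · right
    omega

lemma len_eq_of_cnt (h1 : c.length = d.length) (h2 : c'.length = d'.length)
    (hcnt : ∀ l, (jl c d).count l = (jl c' d').count l) : c.length = c'.length := by
  rw [← jl_length h1, ← jl_length h2]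
  apply (List.perm_iff_count.2 (fun l => ?_)).length_eq
  exact hcnt l

/-- the glued matrix is block triangular for the joint labels -/
lemma glM_tri (h1 : c.length = d.length) (h2 : c'.length = d'.length)
    (hcnt : ∀ l, (jl c d).count l = (jl c' d').count l)
    (hG : GlueData c d c' d' nn g h ζ) :
    Tri (lb n (jl c d)) (lb n (jl c' d')) (glM c d c' d' g h ζ) := by
  intro i j hij
  have hlen := len_eq_of_cnt h1 h2 hcnt
  rcases lb_cases h1 i with ⟨a, x, hi, hi'⟩ | ⟨hi, hi'⟩
  · rcases lb_cases h2 j with ⟨a', x', hj, hj'⟩ | ⟨hj, hj'⟩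
    · rw [lb_eq_inl.2 (jl_lab.2 ⟨hi, hi'⟩), lb_eq_inl.2 (jl_lab.2 ⟨hj, hj'⟩),
        Sum.inl_le_inl_iff, Prod.mk_le_mk] at hij
      unfold glM
      rw [lb_eq_inl.2 hi, lb_eq_inl.2 hi', lb_eq_inl.2 hj, lb_eq_inl.2 hj']
      split_ifs with e1 e2 e3
      · have e4 : a = a' := Sum.inl_injective e1
        subst e4
        have hxx : ¬ x ≤ x' := fun hle => hij ⟨le_rfl, hle⟩
        change (g a).1 _ _ = 0
        apply (hG.1 a).zero _ _ x x' _ _ hxx
        · rw [ci_lb hi, restr_lab h1 hi, hi']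
        · rw [ci_lb hj, restr_lab h2 hj, hj']
      · have e4 : x = x' := Sum.inl_injective e2
        subst e4
        have hxx : ¬ a ≤ a' := fun hle => hij ⟨hle, le_rfl⟩
        change (h x).1 _ _ = 0
        apply (hG.2.1 x).zero _ _ a a' _ _ hxx
        · rw [ci_lb hi', restr_lab h1.symm hi', hi]
        · rw [ci_lb hj', restr_lab h2.symm hj', hj]
      · exfalso
        obtain ⟨⟨e4, e5⟩, e6, e7⟩ := e3
        have f4 := Sum.inl_injective e4
        have f5 := Sum.inl_injective e5
        have f6 := Sum.inl_injective e6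
        have f7 := Sum.inl_injective e7
        subst f4 f5 f6 f7
        exact hij ⟨by decide, by decide⟩
      · rfl
    · unfold glM
      rw [lb_eq_inl.2 hi, lb_eq_inl.2 hi', lb_eq_inr.2 hj, lb_eq_inr.2 hj']
      simp
  · rcases lb_cases h2 j with ⟨a', x', hj, hj'⟩ | ⟨hj, hj'⟩
    · unfold glM
      rw [lb_eq_inr.2 hi, lb_eq_inr.2 hi', lb_eq_inl.2 hj, lb_eq_inl.2 hj']
      simp
    · exfalso
      apply hij
      rw [lb_eq_inr.2 (by rw [jl_length h1]; exact hi), lb_eq_inr.2 (by rw [jl_length h2]; exact hj)]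

/-- outside -/
lemma glM_out (h1 : c.length = d.length) (h2 : c'.length = d'.length)
    (hcnt : ∀ l, (jl c d).count l = (jl c' d').count l) (i j : Fin n)
    (hij : c.length ≤ i.1 ∨ c.length ≤ j.1) :
    glM c d c' d' g h ζ i j = if i = j then 1 else 0 := by
  have hlen := len_eq_of_cnt h1 h2 hcnt
  rcases lb_cases h1 i with ⟨a, x, hi, hi'⟩ | ⟨hi, hi'⟩
  · have hii := lab_lt hi
    rcases lb_cases h2 j with ⟨a', x', hj, hj'⟩ | ⟨hj, hj'⟩
    · have hjj := lab_lt hj
      omega
    · unfold glM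
      rw [lb_eq_inl.2 hi, lb_eq_inl.2 hi', lb_eq_inr.2 hj, lb_eq_inr.2 hj', if_neg (by simp),
        if_neg (by simp), if_neg (by simp), if_neg]
      rintro rfl
      omega
  · rcases lb_cases h2 j with ⟨a', x', hj, hj'⟩ | ⟨hj, hj'⟩
    · have hjj := lab_lt hj
      unfold glM
      rw [lb_eq_inr.2 hi, lb_eq_inr.2 hi', lb_eq_inl.2 hj, lb_eq_inl.2 hj', if_neg (by simp),
        if_neg (by simp), if_neg (by simp), if_neg]
      rintro rfl
      omega
    · have e1 : (ci (lb n c) i).1 = i.1 - c.length := by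
        rw [ci_val, lb_eq_inr.2 hi, cb_lb_inr _ _ i.2.le]
      have e2 : (ci (lb n c') j).1 = j.1 - c'.length := by
        rw [ci_val, lb_eq_inr.2 hj, cb_lb_inr _ _ j.2.le]
      unfold glM
      rw [if_pos (by rw [lb_eq_inr.2 hi, lb_eq_inr.2 hj])]
      conv_lhs => rw [lb_eq_inr.2 hi]
      change (1 : Matrix (Fin n) (Fin n) ℂ) _ _ = _
      rw [Matrix.one_apply]
      congr 1
      apply propext
      constructor
      · intro h3
        have h4 := congrArg Fin.val h3
        rw [e1, e2] at h4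
        apply Fin.ext
        omega
      · rintro rfl
        apply Fin.ext
        rw [e1, e2, hlen]


lemma cs_jl (h1 : c.length = d.length) (hlen : c.length ≤ n)
    (hcnt : ∀ l, (jl c d).count l = (jl c' d').count l) :
    ∀ b, cs (lb n (jl c d)) b = cs (lb n (jl c' d')) b := by
  apply cs_eq
  · rw [jl_length h1]; exact hlen
  · intro l
    rw [count_prod, count_prod]
    exact hcnt l

lemma cs_jl_inl (h1 : c.length = d.length) (hlen : c.length ≤ n) (l : Bool × Bool) :
    cs (lb n (jl c d)) (Sum.inl l) = (jl c d).count l := by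
  rw [cs_lb _ _ (by rw [jl_length h1]; exact hlen), count_prod]

/-- the joint diagonal blocks of the glued matrix -/
lemma glM_blk (h1 : c.length = d.length) (h2 : c'.length = d'.length) (hlen : c.length ≤ n)
    (hcnt : ∀ l, (jl c d).count l = (jl c' d').count l)
    (hG : GlueData c d c' d' nn g h ζ) (l : Bool × Bool) :
    blk (lb n (jl c d)) (lb n (jl c' d')) (Sum.inl l) (glM c d c' d' g h ζ) = (nn l).1 := by
  obtain ⟨a, x⟩ := l
  have hcs := cs_jl h1 hlen hcnt
  ext s t
  by_cases hst : s.1 < cs (lb n (jl c d)) (Sum.inl (a, x)) ∧ t.1 < cs (lb n (jl c d)) (Sum.inl (a, x))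
  · have ht : t.1 < cs (lb n (jl c' d')) (Sum.inl (a, x)) := by rw [← hcs]; exact hst.2
    have e1 := pos_label (lb n (jl c d)) (Sum.inl (a, x)) s hst.1
    have e2 := pos_label (lb n (jl c' d')) (Sum.inl (a, x)) t ht
    have e3 := ci_pos (lb n (jl c d)) (Sum.inl (a, x)) s hst.1
    have e4 := ci_pos (lb n (jl c' d')) (Sum.inl (a, x)) t ht
    unfold blk
    rw [if_pos hst]
    generalize pos (lb n (jl c d)) (Sum.inl (a, x)) s = i at e1 e3 ⊢
    generalize pos (lb n (jl c' d')) (Sum.inl (a, x)) t = j at e2 e4 ⊢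
    have f1 := jl_lab.1 (lb_eq_inl.1 e1)
    have f2 := jl_lab.1 (lb_eq_inl.1 e2)
    unfold glM
    rw [if_pos (by rw [lb_eq_inl.2 f1.1, lb_eq_inl.2 f2.1])]
    rw [← e3, ← e4, ← glue_F1 h1 h2 hG f1.1 f1.2 f2.1 f2.2]
    conv_lhs => rw [lb_eq_inl.2 f1.1]
    rfl
  · have hst' : cs (lb n (jl c d)) (Sum.inl (a, x)) ≤ s.1 ∨
        cs (lb n (jl c d)) (Sum.inl (a, x)) ≤ t.1 := by
      by_contra hcon
      push Not at hcon
      exact hst hcon
    rw [blk_out _ _ _ _ _ _ hst']
    rw [cs_jl_inl h1 hlen] at hst'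
    have h3 := (hG.1 a).blk x
    rw [restr_count] at h3
    exact (h3 s t hst').symm

/-- the block outside -/
lemma glM_blk_inr (h1 : c.length = d.length) (h2 : c'.length = d'.length) (hlen : c.length ≤ n)
    (hcnt : ∀ l, (jl c d).count l = (jl c' d').count l) :
    blk (lb n (jl c d)) (lb n (jl c' d')) (Sum.inr ()) (glM c d c' d' g h ζ) = 1 := by
  have hcs := cs_jl h1 hlen hcnt
  have hl := len_eq_of_cnt h1 h2 hcnt
  ext s t
  rw [Matrix.one_apply]
  by_cases hst : s.1 < cs (lb n (jl c d)) (Sum.inr ()) ∧ t.1 < cs (lb n (jl c d)) (Sum.inr ())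
  · have ht : t.1 < cs (lb n (jl c' d')) (Sum.inr ()) := by rw [← hcs]; exact hst.2
    have e1 := pos_label (lb n (jl c d)) (Sum.inr ()) s hst.1
    have e2 := pos_label (lb n (jl c' d')) (Sum.inr ()) t ht
    have e3 := cb_pos (lb n (jl c d)) (Sum.inr ()) s hst.1
    have e4 := cb_pos (lb n (jl c' d')) (Sum.inr ()) t ht
    unfold blk
    rw [if_pos hst]
    generalize pos (lb n (jl c d)) (Sum.inr ()) s = i at e1 e3 ⊢
    generalize pos (lb n (jl c' d')) (Sum.inr ()) t = j at e2 e4 ⊢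
    rw [lb_eq_inr, jl_length h1] at e1
    rw [lb_eq_inr, jl_length h2] at e2
    rw [cb_lb_inr _ _ i.2.le, jl_length h1] at e3
    rw [cb_lb_inr _ _ j.2.le, jl_length h2] at e4
    rw [glM_out h1 h2 hcnt i j (Or.inl e1)]
    congr 1
    apply propext
    constructor
    · rintro rfl
      apply Fin.ext
      rw [← e3, ← e4, hl]
    · intro h3
      have h4 := congrArg Fin.val h3
      apply Fin.ext
      omega
  · rw [blk_out]
    by_contra hcon
    push Not at hcon
    exact hst hcon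

lemma GlueData.inv (hG : GlueData c d c' d' nn g h ζ) :
    GlueData c' d' c d (fun p => (nn p)⁻¹) (fun b => (g b)⁻¹) (fun b => (h b)⁻¹) 1 :=
  ⟨fun e => (hG.1 e).inv, fun x => (hG.2.1 x).inv, (GLk n _).one_mem⟩

/-- the inverse of the glued matrix -/
lemma glM_inv (h1 : c.length = d.length) (h2 : c'.length = d'.length) (hlen : c.length ≤ n)
    (hcnt : ∀ l, (jl c d).count l = (jl c' d').count l)
    (hG : GlueData c d c' d' nn g h ζ) :
    glM c d c' d' g h ζ * (glM c' d' c d (fun b => (g b)⁻¹) (fun b => (h b)⁻¹) 1 *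
      ∑ m ∈ Finset.range n, (1 - glM c d c' d' g h ζ *
        glM c' d' c d (fun b => (g b)⁻¹) (fun b => (h b)⁻¹) 1) ^ m) = 1 := by
  classical
  have hl := len_eq_of_cnt h1 h2 hcnt
  have hG' := hG.inv
  have hcnt' : ∀ l, (jl c' d').count l = (jl c d).count l := fun l => (hcnt l).symm
  apply inv_formula (cs_jl h1 hlen hcnt) (glM_tri h1 h2 hcnt hG) (glM_tri h2 h1 hcnt' hG')
  rintro (l | ⟨⟩)
  · rw [glM_blk h1 h2 hlen hcnt hG, glM_blk h2 h1 (hl ▸ hlen) hcnt' hG', ← Units.val_mul,
      mul_inv_cancel, Units.val_one]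
  · rw [glM_blk_inr h1 h2 hlen hcnt, glM_blk_inr h2 h1 (hl ▸ hlen) hcnt', one_mul]

open Classical in
/-- the glued matrix as a unit -/
noncomputable def glU (c d c' d' : List Bool) (g h : Bool → G n) (ζ : G n) : G n :=
  if hu : IsUnit (glM c d c' d' g h ζ) then hu.unit else 1

lemma glU_val (h1 : c.length = d.length) (h2 : c'.length = d'.length) (hlen : c.length ≤ n)
    (hcnt : ∀ l, (jl c d).count l = (jl c' d').count l)
    (hG : GlueData c d c' d' nn g h ζ) : (glU c d c' d' g h ζ).1 = glM c d c' d' g h ζ := by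
  have hu : IsUnit (glM c d c' d' g h ζ) := by
    have h3 := glM_inv h1 h2 hlen hcnt hG
    exact IsUnit.of_mul_eq_one _ h3
  unfold glU
  rw [dif_pos hu]
  rfl

lemma glU_inv_val (h1 : c.length = d.length) (h2 : c'.length = d'.length) (hlen : c.length ≤ n)
    (hcnt : ∀ l, (jl c d).count l = (jl c' d').count l)
    (hG : GlueData c d c' d' nn g h ζ) : ((glU c d c' d' g h ζ)⁻¹).1 =
      glM c' d' c d (fun b => (g b)⁻¹) (fun b => (h b)⁻¹) 1 *
      ∑ m ∈ Finset.range n, (1 - glM c d c' d' g h ζ *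
        glM c' d' c d (fun b => (g b)⁻¹) (fun b => (h b)⁻¹) 1) ^ m := by
  have h3 := glM_inv h1 h2 hlen hcnt hG
  have h4 : ((glU c d c' d' g h ζ)⁻¹).1 * (glU c d c' d' g h ζ).1 = 1 := by
    rw [← Units.val_mul, inv_mul_cancel, Units.val_one]
  rw [glU_val h1 h2 hlen hcnt hG] at h4
  generalize glM c' d' c d (fun b => (g b)⁻¹) (fun b => (h b)⁻¹) 1 *
      ∑ m ∈ Finset.range n, (1 - glM c d c' d' g h ζ *
        glM c' d' c d (fun b => (g b)⁻¹) (fun b => (h b)⁻¹) 1) ^ m = K at h3 ⊢
  calc ((glU c d c' d' g h ζ)⁻¹).1 = ((glU c d c' d' g h ζ)⁻¹).1 * 1 := (mul_one _).symm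
    _ = _ := by rw [← h3, ← mul_assoc, h4, one_mul]

lemma glM_ent {X : Type*} {A : Subring (X → ℂ)} {g h : Bool → X → G n} {ζ : X → G n}
    (hg : ∀ b, EntIn A (fun x => (g b x).1)) (hh : ∀ b, EntIn A (fun x => (h b x).1))
    (hζ : EntIn A (fun x => (ζ x).1)) :
    EntIn A (fun x => glM c d c' d' (fun b => g b x) (fun b => h b x) (ζ x)) := by
  have hgx : ∀ l, EntIn A (fun x => gx (fun b => g b x) l) := by
    rintro (a | ⟨⟩)
    · exact hg a
    · exact EntIn.one
  have hhx : ∀ l, EntIn A (fun x => gx (fun b => h b x) l) := by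
    rintro (a | ⟨⟩)
    · exact hh a
    · exact EntIn.one
  intro i j
  unfold glM
  by_cases e1 : lb n c i = lb n c' j
  · simp only [if_pos e1]
    exact hgx _ _ _
  · by_cases e2 : lb n d i = lb n d' j
    · simp only [if_neg e1, if_pos e2]
      exact hhx _ _ _
    · by_cases e3 : (lb n c i = Sum.inl false ∧ lb n c' j = Sum.inl true) ∧
        (lb n d i = Sum.inl false ∧ lb n d' j = Sum.inl true)
      · simp only [if_neg e1, if_neg e2, if_pos e3]
        exact hζ _ _
      · simp only [if_neg e1, if_neg e2, if_neg e3]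
        exact A.zero_mem

lemma glM_inv_ent {X : Type*} {A : Subring (X → ℂ)} {g h : Bool → X → G n} {ζ : X → G n}
    (hg : ∀ b, EntIn A (fun x => (g b x).1)) (hh : ∀ b, EntIn A (fun x => (h b x).1))
    (hζ : EntIn A (fun x => (ζ x).1))
    (hg' : ∀ b, EntIn A (fun x => ((g b x)⁻¹).1)) (hh' : ∀ b, EntIn A (fun x => ((h b x)⁻¹).1)) :
    EntIn A (fun x => glM c' d' c d (fun b => (g b x)⁻¹) (fun b => (h b x)⁻¹) 1 *
      ∑ m ∈ Finset.range n, (1 - glM c d c' d' (fun b => g b x) (fun b => h b x) (ζ x) *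
        glM c' d' c d (fun b => (g b x)⁻¹) (fun b => (h b x)⁻¹) 1) ^ m) := by
  apply EntIn.invf (glM_ent hg hh hζ)
  exact glM_ent (g := fun b x => (g b x)⁻¹) (h := fun b x => (h b x)⁻¹) (ζ := fun _ => 1) hg' hh'
    EntIn.one


/-! ### polynomiality and integrality -/

/-- restrictions of polynomial functions to `S` -/
def PolS {ι : Type} {n : ℕ} (S : Set (ι → G n)) : Subring (S → ℂ) :=
  (Pol ι n).toSubring.map (RingHom.pi fun x : S => Pi.evalRingHom _ x.1)

lemma mem_PolS {ι : Type} {n : ℕ} {S : Set (ι → G n)} {f : S → ℂ} :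
    f ∈ PolS S ↔ ∃ F ∈ Pol ι n, ∀ ρ, ∀ hρ : ρ ∈ S, f ⟨ρ, hρ⟩ = F ρ := by
  unfold PolS
  rw [Subring.mem_map]
  constructor
  · rintro ⟨F, hF, rfl⟩
    exact ⟨F, hF, fun ρ hρ => rfl⟩
  · rintro ⟨F, hF, h⟩
    refine ⟨F, hF, ?_⟩
    funext x
    exact (h x.1 x.2).symm

lemma PolG.ent {ι : Type} {n m : ℕ} {S : Set (ι → G n)} {Φ : (ι → G n) → G m} (h : PolG S Φ) :
    EntIn (PolS S) (fun x : S => (Φ x.1).1) := by
  intro i j
  obtain ⟨F, hF, h'⟩ := (h i j).1
  exact mem_PolS.2 ⟨F, hF, h'⟩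

lemma PolG.ent' {ι : Type} {n m : ℕ} {S : Set (ι → G n)} {Φ : (ι → G n) → G m} (h : PolG S Φ) :
    EntIn (PolS S) (fun x : S => ((Φ x.1)⁻¹).1) := by
  intro i j
  obtain ⟨F, hF, h'⟩ := (h i j).2
  exact mem_PolS.2 ⟨F, hF, h'⟩

lemma PolG.of_ent {ι : Type} {n m : ℕ} {S : Set (ι → G n)} {Φ : (ι → G n) → G m}
    (h : EntIn (PolS S) (fun x : S => (Φ x.1).1)) (h' : EntIn (PolS S) (fun x : S => ((Φ x.1)⁻¹).1)) :
    PolG S Φ := by
  intro i j
  obtain ⟨F, hF, h1⟩ := mem_PolS.1 (h i j)
  obtain ⟨F', hF', h1'⟩ := mem_PolS.1 (h' i j)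
  exact ⟨⟨F, hF, h1⟩, ⟨F', hF', h1'⟩⟩

/-- the subring of functions on a point -/
def ptS (O : Subring ℂ) : Subring (Unit → ℂ) := O.comap (Pi.evalRingHom _ ())

lemma ent_pt {n : ℕ} {O : Subring ℂ} {M : Matrix (Fin n) (Fin n) ℂ} :
    EntIn (ptS O) (fun _ => M) ↔ ∀ i j, M i j ∈ O := Iff.rfl

/-! ### the block structures of the glued matrix -/

variable {c d c' d' : List Bool} {g h : Bool → G n} {ζ : G n} {nn : Bool × Bool → G n}

lemma tri_snd {c d c' d' : List Bool} (h1 : c.length = d.length) (h2 : c'.length = d'.length)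
    {P : Matrix (Fin n) (Fin n) ℂ} (h : Tri (lb n (jl c d)) (lb n (jl c' d')) P) :
    Tri (lb n d) (lb n d') P := by
  intro i j hij
  apply h
  intro hle
  apply hij
  rcases hi : lb n (jl c d) i with ⟨a, x⟩ | ⟨⟩
  · rcases hj : lb n (jl c' d') j with ⟨a', x'⟩ | ⟨⟩
    · rw [hi, hj, Sum.inl_le_inl_iff] at hle
      rw [lb_eq_inl.2 (jl_lab.1 (lb_eq_inl.1 hi)).2, lb_eq_inl.2 (jl_lab.1 (lb_eq_inl.1 hj)).2,
        Sum.inl_le_inl_iff]
      exact hle.2
    · rw [hi, hj] at hle
      exact absurd hle (by simp)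
  · rcases hj : lb n (jl c' d') j with ⟨a', x'⟩ | ⟨⟩
    · rw [hi, hj] at hle
      exact absurd hle (by simp)
    · rw [lb_eq_inr, jl_length h1, h1] at hi
      rw [lb_eq_inr, jl_length h2, h2] at hj
      rw [lb_eq_inr.2 hi, lb_eq_inr.2 hj]

lemma cnt_fst (h1 : c.length = d.length) (h2 : c'.length = d'.length)
    (hcnt : ∀ l, (jl c d).count l = (jl c' d').count l) (e : Bool) : c.count e = c'.count e := by
  rw [jl_count_fst h1, jl_count_fst h2, hcnt, hcnt]

lemma glM_blk_fst (h1 : c.length = d.length) (h2 : c'.length = d'.length) (hlen : c.length ≤ n)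
    (hcnt : ∀ l, (jl c d).count l = (jl c' d').count l)
    (hG : GlueData c d c' d' nn g h ζ) (a : Bool) :
    blk (lb n c) (lb n c') (Sum.inl a) (glM c d c' d' g h ζ) = (g a).1 := by
  have hcs := cs_eq hlen (cnt_fst h1 h2 hcnt)
  ext s t
  by_cases hst : s.1 < cs (lb n c) (Sum.inl a) ∧ t.1 < cs (lb n c) (Sum.inl a)
  · have ht : t.1 < cs (lb n c') (Sum.inl a) := by rw [← hcs]; exact hst.2
    have e1 := pos_label (lb n c) (Sum.inl a) s hst.1
    have e2 := pos_label (lb n c') (Sum.inl a) t ht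
    have e3 := ci_pos (lb n c) (Sum.inl a) s hst.1
    have e4 := ci_pos (lb n c') (Sum.inl a) t ht
    unfold blk
    rw [if_pos hst]
    generalize pos (lb n c) (Sum.inl a) s = i at e1 e3 ⊢
    generalize pos (lb n c') (Sum.inl a) t = j at e2 e4 ⊢
    unfold glM
    rw [if_pos (by rw [e1, e2])]
    rw [← e3, ← e4]
    conv_lhs => rw [e1]
    rfl
  · have hst' : cs (lb n c) (Sum.inl a) ≤ s.1 ∨ cs (lb n c) (Sum.inl a) ≤ t.1 := by
      by_contra hcon
      push Not at hcon
      exact hst hcon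
    rw [blk_out _ _ _ _ _ _ hst']
    rw [cs_lb _ _ hlen] at hst'
    have h3 := (hG.1 a).mem
    rw [restr_length h1] at h3
    exact (h3 s t hst').symm

lemma glM_blk_snd (h1 : c.length = d.length) (h2 : c'.length = d'.length) (hlen : c.length ≤ n)
    (hcnt : ∀ l, (jl c d).count l = (jl c' d').count l)
    (hG : GlueData c d c' d' nn g h ζ) (x : Bool) :
    blk (lb n d) (lb n d') (Sum.inl x) (glM c d c' d' g h ζ) = (h x).1 := by
  have hcnt' : ∀ e, d.count e = d'.count e := by
    apply cnt_fst h1.symm h2.symm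
    rintro ⟨p, q⟩
    rw [jl_count_swap c d, jl_count_swap c' d']; exact hcnt _
  have hlen' : d.length ≤ n := h1 ▸ hlen
  have hcs := cs_eq hlen' hcnt'
  ext s t
  by_cases hst : s.1 < cs (lb n d) (Sum.inl x) ∧ t.1 < cs (lb n d) (Sum.inl x)
  · have ht : t.1 < cs (lb n d') (Sum.inl x) := by rw [← hcs]; exact hst.2
    have e1 := pos_label (lb n d) (Sum.inl x) s hst.1
    have e2 := pos_label (lb n d') (Sum.inl x) t ht
    have e3 := ci_pos (lb n d) (Sum.inl x) s hst.1
    have e4 := ci_pos (lb n d') (Sum.inl x) t ht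
    unfold blk
    rw [if_pos hst]
    generalize pos (lb n d) (Sum.inl x) s = i at e1 e3 ⊢
    generalize pos (lb n d') (Sum.inl x) t = j at e2 e4 ⊢
    rw [← e3, ← e4]
    unfold glM
    by_cases e5 : lb n c i = lb n c' j
    · rw [if_pos e5]
      rcases lb_cases h1 i with ⟨a, x', hi, hi'⟩ | ⟨hi, hi'⟩
      · have e6 : x' = x := by
          have := lb_eq_inl.1 e1
          rw [hi'] at this
          exact Option.some_injective _ this
        subst e6
        have hj : lab c' j.1 = some a := by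
          rw [← lb_eq_inl, ← e5, lb_eq_inl]; exact hi
        rw [glue_F1' h1 h2 hG hi hi' hj (lb_eq_inl.1 e2), ← glue_F1 h1 h2 hG hi hi' hj (lb_eq_inl.1 e2)]
        conv_lhs => rw [lb_eq_inl.2 hi]
        rfl
      · rw [lb_eq_inr.2 hi'] at e1
        exact absurd e1 (by simp)
    · rw [if_neg e5, if_pos (by rw [e1, e2])]
      conv_lhs => rw [e1]
      rfl
  · have hst' : cs (lb n d) (Sum.inl x) ≤ s.1 ∨ cs (lb n d) (Sum.inl x) ≤ t.1 := by
      by_contra hcon
      push Not at hcon
      exact hst hcon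
    rw [blk_out _ _ _ _ _ _ hst']
    rw [cs_lb _ _ hlen'] at hst'
    have h3 := (hG.2.1 x).mem
    rw [restr_length h1.symm] at h3
    exact (h3 s t hst').symm

lemma glU_mem (h1 : c.length = d.length) (h2 : c'.length = d'.length) (hlen : c.length ≤ n)
    (hcnt : ∀ l, (jl c d).count l = (jl c' d').count l)
    (hG : GlueData c d c' d' nn g h ζ) : glU c d c' d' g h ζ ∈ GLk n c.length := by
  intro i j hij
  rw [glU_val h1 h2 hlen hcnt hG]
  exact glM_out h1 h2 hcnt i j hij

lemma glU_isPar (h1 : c.length = d.length) (h2 : c'.length = d'.length) (hlen : c.length ≤ n)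
    (hcnt : ∀ l, (jl c d).count l = (jl c' d').count l)
    (hG : GlueData c d c' d' nn g h ζ) :
    IsPar (jl c d) (jl c' d') nn (glU c d c' d' g h ζ) := by
  apply IsPar.mk'
  · rw [jl_length h1]; exact hlen
  · intro l; rw [count_prod, count_prod]; exact hcnt l
  · rw [jl_length h1]; exact glU_mem h1 h2 hlen hcnt hG
  · rintro ⟨a, x⟩
    rw [count_prod]
    have h3 := (hG.1 a).blk x
    rwa [restr_count] at h3
  · rw [glU_val h1 h2 hlen hcnt hG]; exact glM_tri h1 h2 hcnt hG
  · intro l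
    rw [glU_val h1 h2 hlen hcnt hG]; exact glM_blk h1 h2 hlen hcnt hG l

lemma glU_isPar_fst (h1 : c.length = d.length) (h2 : c'.length = d'.length) (hlen : c.length ≤ n)
    (hcnt : ∀ l, (jl c d).count l = (jl c' d').count l)
    (hG : GlueData c d c' d' nn g h ζ) : IsPar c c' g (glU c d c' d' g h ζ) := by
  apply IsPar.mk' hlen (cnt_fst h1 h2 hcnt) (glU_mem h1 h2 hlen hcnt hG)
  · intro a
    have h3 := (hG.1 a).mem
    rwa [restr_length h1] at h3
  · rw [glU_val h1 h2 hlen hcnt hG]; exact tri_fst h1 h2 (glM_tri h1 h2 hcnt hG)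
  · intro a
    rw [glU_val h1 h2 hlen hcnt hG]; exact glM_blk_fst h1 h2 hlen hcnt hG a

lemma glU_isPar_snd (h1 : c.length = d.length) (h2 : c'.length = d'.length) (hlen : c.length ≤ n)
    (hcnt : ∀ l, (jl c d).count l = (jl c' d').count l)
    (hG : GlueData c d c' d' nn g h ζ) : IsPar d d' h (glU c d c' d' g h ζ) := by
  have hcnt' : ∀ e, d.count e = d'.count e := by
    apply cnt_fst h1.symm h2.symm
    rintro ⟨p, q⟩
    rw [jl_count_swap c d, jl_count_swap c' d']; exact hcnt _
  apply IsPar.mk' (h1 ▸ hlen) hcnt' (h1 ▸ glU_mem h1 h2 hlen hcnt hG)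
  · intro x
    have h3 := (hG.2.1 x).mem
    rwa [restr_length h1.symm] at h3
  · rw [glU_val h1 h2 hlen hcnt hG]; exact tri_snd h1 h2 (glM_tri h1 h2 hcnt hG)
  · intro x
    rw [glU_val h1 h2 hlen hcnt hG]; exact glM_blk_snd h1 h2 hlen hcnt hG x


/-! ### every block triangular matrix is glued -/

lemma count_add_count_le (l : List (Bool × Bool)) {p q : Bool × Bool} (hpq : p ≠ q) :
    l.count p + l.count q ≤ l.length := by
  induction l with
  | nil => simp
  | cons r l ih =>
    rw [List.count_cons, List.count_cons, List.length_cons]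
    by_cases h1 : r = p
    · have h2 : r ≠ q := h1 ▸ hpq
      simp [h1, hpq]
      omega
    · by_cases h2 : r = q
      · simp [h2, Ne.symm hpq]
        omega
      · simp [h1, h2]
        omega

/-- the corner of `L` -/
noncomputable def crn (c d c' d' : List Bool) (L : Matrix (Fin n) (Fin n) ℂ) :
    Matrix (Fin n) (Fin n) ℂ :=
  fun s t => if s.1 < (jl c d).count (false, false) ∧ (jl c d).count (false, false) ≤ t.1 ∧
      t.1 < (jl c d).count (false, false) + (jl c d).count (true, true) then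
    L (pos (lb n (jl c d)) (Sum.inl (false, false)) s)
      (pos (lb n (jl c' d')) (Sum.inl (true, true)) ⟨t.1 - (jl c d).count (false, false), by omega⟩)
  else 0

lemma crn_sq (c d c' d' : List Bool) (L : Matrix (Fin n) (Fin n) ℂ) :
    crn c d c' d' L * crn c d c' d' L = 0 := by
  ext s t
  rw [Matrix.mul_apply, Matrix.zero_apply]
  apply Finset.sum_eq_zero
  intro k _
  by_cases hk : k.1 < (jl c d).count (false, false)
  · have : crn c d c' d' L s k = 0 := by
      unfold crn
      rw [if_neg]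
      rintro ⟨_, h1, _⟩
      omega
    rw [this, zero_mul]
  · have : crn c d c' d' L k t = 0 := by
      unfold crn
      rw [if_neg]
      rintro ⟨h1, _, _⟩
      omega
    rw [this, mul_zero]

/-- the corner unit -/
noncomputable def crnU (c d c' d' : List Bool) (L : Matrix (Fin n) (Fin n) ℂ) : G n where
  val := 1 + crn c d c' d' L
  inv := 1 - crn c d c' d' L
  val_inv := by
    rw [mul_sub, add_mul, add_mul, crn_sq]
    simp
  inv_val := by
    rw [mul_add, sub_mul, sub_mul, crn_sq]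
    simp

lemma crnU_mem (h1 : c.length = d.length) (L : Matrix (Fin n) (Fin n) ℂ) :
    crnU c d c' d' L ∈ GLk n c.length := by
  intro s t hst
  change (1 + crn c d c' d' L) s t = _
  have h2 := count_add_count_le (jl c d) (show ((false, false) : Bool × Bool) ≠ (true, true) by decide)
  rw [jl_length h1] at h2
  have : crn c d c' d' L s t = 0 := by
    unfold crn
    rw [if_neg]
    rintro ⟨h3, h4, h5⟩
    omega
  rw [Matrix.add_apply, this, add_zero, Matrix.one_apply]

lemma crnU_apply (h1 : c.length = d.length) (hlen : c.length ≤ n)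
    (hcnt : ∀ l, (jl c d).count l = (jl c' d').count l) (L : Matrix (Fin n) (Fin n) ℂ) {i j : Fin n}
    (hi : lb n (jl c d) i = Sum.inl (false, false)) (hj : lb n (jl c' d') j = Sum.inl (true, true)) :
    (crnU c d c' d' L).1 (ci (lb n (jl c d)) i)
        (cidx ((jl c d).count (false, false)) (ci (lb n (jl c' d')) j)) = L i j := by
  have e1 : (ci (lb n (jl c d)) i).1 < (jl c d).count (false, false) := by
    rw [← cs_jl_inl h1 hlen]; exact ci_lt _ hi
  have e2 : (ci (lb n (jl c' d')) j).1 < (jl c d).count (true, true) := by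
    rw [← cs_jl_inl h1 hlen, cs_jl h1 hlen hcnt]; exact ci_lt _ hj
  have h2 := count_add_count_le (jl c d) (show ((false, false) : Bool × Bool) ≠ (true, true) by decide)
  rw [jl_length h1] at h2
  have e3 : (cidx ((jl c d).count (false, false)) (ci (lb n (jl c' d')) j)).1 =
      (jl c d).count (false, false) + (ci (lb n (jl c' d')) j).1 := by
    unfold cidx
    rw [dif_pos (by omega)]
  change (1 + crn c d c' d' L) _ _ = _
  rw [Matrix.add_apply, Matrix.one_apply_ne, zero_add]
  · unfold crn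
    rw [if_pos ⟨e1, by omega, by omega⟩]
    congr 1
    · rw [pos_ci' _ hi]
    · have e4 : (⟨(cidx ((jl c d).count (false, false)) (ci (lb n (jl c' d')) j)).1 -
          (jl c d).count (false, false), by omega⟩ : Fin n) = ci (lb n (jl c' d')) j := by
        apply Fin.ext
        simp only
        omega
      rw [e4, pos_ci' _ hj]
  · intro h3
    have h4 := congrArg Fin.val h3
    omega

lemma bool_aux : ∀ (a a' x x' : Bool), a ≠ a' → x ≠ x' → a ≤ a' → x ≤ x' →
    a = false ∧ a' = true ∧ x = false ∧ x' = true := by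
  decide

lemma glM_crn (h1 : c.length = d.length) (h2 : c'.length = d'.length) {L : G n}
    (hL : IsPar (jl c d) (jl c' d') nn L) (hg : IsPar c c' g L) (hh : IsPar d d' h L) :
    glM c d c' d' g h (crnU c d c' d' L.1) = L.1 := by
  have hcnt : ∀ l, (jl c d).count l = (jl c' d').count l := hL.cnt2
  have hlen : c.length ≤ n := hg.len
  have hl := len_eq_of_cnt h1 h2 hcnt
  ext i j
  by_cases hij : c.length ≤ i.1 ∨ c.length ≤ j.1
  · rw [glM_out h1 h2 hcnt i j hij]
    exact (hg.mem i j hij).symm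
  · rcases lb_cases h1 i with ⟨a, x, hi, hi'⟩ | ⟨hi, hi'⟩
    · rcases lb_cases h2 j with ⟨a', x', hj, hj'⟩ | ⟨hj, hj'⟩
      · unfold glM
        rw [lb_eq_inl.2 hi, lb_eq_inl.2 hi', lb_eq_inl.2 hj, lb_eq_inl.2 hj']
        split_ifs with e1 e2 e3
        · have e4 : a = a' := Sum.inl_injective e1
          subst e4
          exact (hg.diag i j _ _ a hi hj (ci_lb hi) (ci_lb hj)).symm
        · have e4 : x = x' := Sum.inl_injective e2
          subst e4
          exact (hh.diag i j _ _ x hi' hj' (ci_lb hi') (ci_lb hj')).symm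
        · obtain ⟨⟨e4, e5⟩, e6, e7⟩ := e3
          have f4 := Sum.inl_injective e4
          have f5 := Sum.inl_injective e5
          have f6 := Sum.inl_injective e6
          have f7 := Sum.inl_injective e7
          subst f4 f5 f6 f7
          exact crnU_apply h1 hlen hcnt L.1 (lb_eq_inl.2 (jl_lab.2 ⟨hi, hi'⟩))
            (lb_eq_inl.2 (jl_lab.2 ⟨hj, hj'⟩))
        · symm
          apply hL.zero i j (a, x) (a', x') (jl_lab.2 ⟨hi, hi'⟩) (jl_lab.2 ⟨hj, hj'⟩)
          rintro ⟨h3, h4⟩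
          simp only at h3 h4
          obtain ⟨f1, f2, f3, f4⟩ := bool_aux a a' x x' (fun h => e1 (h ▸ rfl)) (fun h => e2 (h ▸ rfl))
            h3 h4
          subst f1 f2 f3 f4
          exact e3 ⟨⟨rfl, rfl⟩, rfl, rfl⟩
      · exfalso; omega
    · exfalso; omega

theorem glue_holds (n : ℕ) : Glue n := by
  intro c d c' d' h1 h2 hlen hcnt
  refine ⟨glU c d c' d', ?_, ?_, ?_, ?_⟩
  · intro ι S g h ζ hg hh hζ hS
    apply PolG.of_ent
    · have key := glM_ent (c := c) (d := d) (c' := c') (d' := d')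
        (fun b => (hg b).ent) (fun b => (hh b).ent) hζ.ent
      have e : (fun x : S => (glU c d c' d' (fun b => g b x.1) (fun b => h b x.1) (ζ x.1)).1) =
          (fun x : S => glM c d c' d' (fun b => g b x.1) (fun b => h b x.1) (ζ x.1)) := by
        funext x
        obtain ⟨nn, hG⟩ := hS x.1 x.2
        exact glU_val h1 h2 hlen hcnt hG
      rw [e]
      exact key
    · have key := glM_inv_ent (c := c) (d := d) (c' := c') (d' := d')
        (fun b => (hg b).ent) (fun b => (hh b).ent) hζ.ent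
        (fun b => (hg b).ent') (fun b => (hh b).ent')
      convert key using 2 with x
      obtain ⟨nn, hG⟩ := hS x.1 x.2
      exact glU_inv_val h1 h2 hlen hcnt hG
  · rintro O g h ζ hg hh hζ ⟨nn, hG⟩ i j
    rw [glU_val h1 h2 hlen hcnt hG, glU_inv_val h1 h2 hlen hcnt hG]
    have kg : ∀ b, EntIn (ptS O) (fun _ => (g b).1) := fun b => ent_pt.2 fun i j => (hg b i j).1
    have kg' : ∀ b, EntIn (ptS O) (fun _ => ((g b)⁻¹).1) := fun b => ent_pt.2 fun i j => (hg b i j).2
    have kh : ∀ b, EntIn (ptS O) (fun _ => (h b).1) := fun b => ent_pt.2 fun i j => (hh b i j).1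
    have kh' : ∀ b, EntIn (ptS O) (fun _ => ((h b)⁻¹).1) := fun b => ent_pt.2 fun i j => (hh b i j).2
    have kz : EntIn (ptS O) (fun _ => ζ.1) := ent_pt.2 fun i j => (hζ i j).1
    constructor
    · exact ent_pt.1 (glM_ent (g := fun b _ => g b) (h := fun b _ => h b) (ζ := fun _ => ζ) kg kh kz) i j
    · exact ent_pt.1 (glM_inv_ent (g := fun b _ => g b) (h := fun b _ => h b) (ζ := fun _ => ζ)
        kg kh kz kg' kh') i j
  · intro nn g h ζ hG
    exact ⟨glU_isPar h1 h2 hlen hcnt hG, glU_isPar_fst h1 h2 hlen hcnt hG,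
      glU_isPar_snd h1 h2 hlen hcnt hG⟩
  · intro nn g h L hL hg hh
    have hζ : crnU c d c' d' L.1 ∈ GLk n c.length := crnU_mem h1 L.1
    refine ⟨crnU c d c' d' L.1, hζ, ?_⟩
    obtain ⟨g', h', hg', hh', k1, k2⟩ := extract_holds n c d c' d' h1 h2 nn L hL
    have eg : g = g' := hg.unique hg'
    have eh : h = h' := hh.unique hh'
    subst eg eh
    have hG : GlueData c d c' d' nn g h (crnU c d c' d' L.1) := ⟨k1, k2, hζ⟩
    apply Units.ext
    rw [glU_val h1 h2 hlen hcnt hG]
    exact glM_crn h1 h2 hL hg hh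

end glue

end Crest.Agent.R003
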