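import Crest.Agent.R003.Theta832

/-!
# Row 3 (S0003): NF5 from the existence theorem of helper990 (helper832)
-/

set_option autoImplicit false

namespace Crest.Agent.R003

/-- zero pattern for Boolean labels -/
def ZP {n : ℕ} (c c' : List Bool) (P : G n) : Prop :=
  ∀ (i j : Fin n) (a b : Bool), lab c i.1 = some a → lab c' j.1 = some b → ¬ a ≤ b → P.1 i j = 0

/-- existence part of the normal form (990) -/
def NF5Core (n : ℕ) : Prop :=
  ∀ (k : ℕ), k ≤ n → ∀ (E X X' Y : List Bool) (W : Bool → G n) (P : G n),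
    E.length = k → X.length = k → X'.length = k → Y.length = k → IsPar X X' W P →
    ∃ z : Sz, z.tot = k ∧ ∃ L R : G n, L ∈ GLk n k ∧ R ∈ GLk n k ∧ P = L * z.Th n * R ∧
      ZP E (z.lst labE) L ∧ ZP X (z.lst labXE) L ∧ ZP (z.lst labY) Y R ∧ ZP (z.lst labXY) X' R ∧
      (∀ b, E.count b = (z.lst labE).count b) ∧ (∀ b, Y.count b = (z.lst labY).count b) ∧
      (∀ b, X.count b = (z.lst labXE).count b)

theorem nf5_of_core {n : ℕ} (h : NF5Core n) : NF5 n := by
  intro k hk E X X' Y W P hE hX hX' hY hP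
  obtain ⟨z, hz, L, R, hL, hR, hPe, z1, z2, z3, z4, c1, c2, c3⟩ := h k hk E X X' Y W P hE hX hX' hY hP
  have hzn : z.tot ≤ n := hz ▸ hk
  have hTh := z.Th_isPar hzn
  have hcX' : ∀ b, (z.lst labXY).count b = X'.count b := by
    intro b
    rw [← hP.cnt, c3, hTh.cnt]
  obtain ⟨g1, hg1⟩ := exists_blocks_bool (c := E) (c' := z.lst labE) (P := L) (hE ▸ hk) c1
    (hE.symm ▸ hL) z1
  obtain ⟨g2, hg2⟩ := exists_blocks_bool (c := X) (c' := z.lst labXE) (P := L) (hX ▸ hk) c3
    (hX.symm ▸ hL) z2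
  obtain ⟨g3, hg3⟩ := exists_blocks_bool (c := z.lst labY) (c' := Y) (P := R)
    (by rw [z.lst_length]; exact hzn) (fun b => (c2 b).symm) (by rw [z.lst_length, hz]; exact hR) z3
  obtain ⟨g4, hg4⟩ := exists_blocks_bool (c := z.lst labXY) (c' := X') (P := R)
    (by rw [z.lst_length]; exact hzn) hcX' (by rw [z.lst_length, hz]; exact hR) z4
  obtain ⟨nn, hnn⟩ := twoLab n E X (z.lst labE) (z.lst labXE) g1 g2 L (by rw [hE, hX])
    (by rw [z.lst_length, z.lst_length]) hg1 hg2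
  obtain ⟨mm, hmm⟩ := twoLab n (z.lst labXY) (z.lst labY) X' Y g4 g3 R
    (by rw [z.lst_length, z.lst_length]) (by rw [hX', hY]) hg4 hg3
  refine ⟨z.lst labE, z.lst labY, z.lst labXE, z.lst labXY, nn, mm, L, R, z.N1 n, z.N3 n,
    by rw [z.lst_length, hz], by rw [z.lst_length, hz], by rw [z.lst_length, hz],
    by rw [z.lst_length, hz], ?_, hnn, hmm, z.isPar_N1 hzn, z.isPar_N3 hzn,
    fun O => ⟨nG_mem_GO O n _ _, nGT_mem_GO O n _ _⟩, hTh, hPe⟩
  intro x
  rw [restr_length832 (by rw [z.lst_length, z.lst_length]),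
    restr_length832 (by rw [z.lst_length, z.lst_length])]
  exact hTh.cnt x

end Crest.Agent.R003
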