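import Crest.Agent.R003.Step638
import Crest.Agent.R003.Bas486

/-! R003 (S0003): step S0 (a degenerate P-letter becomes a full letter).  helper537 -/

set_option autoImplicit false

namespace Crest.Agent.R003

namespace H537

theorem eq_replicate_of_count {c : List Bool} {t : Bool} (ht : c.count (!t) = 0) :
    c = List.replicate c.length t := by
  rw [List.eq_replicate_iff]
  refine ⟨rfl, fun b hb => ?_⟩
  rw [List.count_eq_zero] at ht
  by_contra hne
  have : b = !t := by cases b <;> cases t <;> simp_all
  exact ht (this ▸ hb)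

theorem lab_replicate {k i : ℕ} {t a : Bool} :
    lab (List.replicate k t) i = some a ↔ i < k ∧ t = a := by
  simp only [lab, List.getElem?_replicate]
  split_ifs with h
  · simp [h]
  · simp [h]

/-- a degenerate P-letter is its nonempty child -/
theorem isPar_const {n : ℕ} {c c' : List Bool} {g : Bool → G n} {P : G n} {t : Bool}
    (h : IsPar c c' g P) (ht : c.count (!t) = 0) : P = g t := by
  have ht' : c'.count (!t) = 0 := by rw [← h.cnt]; exact ht
  have hlen : c'.length = c.length := by
    rw [← List.count_add_count_not c' t, ← List.count_add_count_not c t, h.cnt, h.cnt]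
  have hc := eq_replicate_of_count ht
  have hc' := eq_replicate_of_count ht'
  rw [hlen] at hc'
  have hkt : c.count t = c.length := by
    have := List.count_add_count_not c t
    omega
  have hg := h.blk t
  rw [hkt] at hg
  have hP := h.mem
  apply Units.ext
  ext i j
  by_cases hi : i.1 < c.length
  · by_cases hj : j.1 < c.length
    · have hli : lab c i.1 = some t := by rw [hc]; exact lab_replicate.2 ⟨by simpa using hi, rfl⟩
      have hlj : lab c' j.1 = some t := by rw [hc']; exact lab_replicate.2 ⟨hj, rfl⟩
      refine h.diag i j i j t hli hlj ?_ ?_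
      · rw [hc, List.take_replicate, List.count_replicate_self]
        omega
      · rw [hc', List.take_replicate, List.count_replicate_self]
        omega
    · rw [hP i j (Or.inr (by omega)), hg i j (Or.inr (by omega))]
  · rw [hP i j (Or.inl (by omega)), hg i j (Or.inl (by omega))]

theorem isPar_const' {n : ℕ} {c c' : List Bool} {g : Bool → G n} {t : Bool}
    (ht : c.count (!t) = 0) (hcnt : ∀ b, c.count b = c'.count b) (hn : c.length ≤ n)
    (hg : g t ∈ GLk n c.length) (hg' : g (!t) ∈ GLk n 0) : IsPar c c' g (g t) := by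
  have ht' : c'.count (!t) = 0 := by rw [← hcnt]; exact ht
  have hlen : c'.length = c.length := by
    rw [← List.count_add_count_not c' t, ← List.count_add_count_not c t, hcnt, hcnt]
  have hc := eq_replicate_of_count ht
  have hc' := eq_replicate_of_count ht'
  rw [hlen] at hc'
  have hkt : c.count t = c.length := by
    have := List.count_add_count_not c t
    omega
  refine ⟨hn, hcnt, hg, ?_, ?_, ?_⟩
  · intro l
    by_cases hl : l = t
    · subst hl; rw [hkt]; exact hg
    · have : l = !t := by revert hl; cases l <;> cases t <;> simp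
      subst this
      rw [ht]; exact hg'
  · intro i j a b ha hb hab
    rw [hc] at ha
    rw [hc'] at hb
    obtain ⟨_, rfl⟩ := lab_replicate.1 ha
    obtain ⟨_, rfl⟩ := lab_replicate.1 hb
    exact absurd le_rfl hab
  · intro i j u v a ha hb hu hv
    rw [hc] at ha hu
    rw [hc'] at hb hv
    obtain ⟨hi, rfl⟩ := lab_replicate.1 ha
    obtain ⟨hj, _⟩ := lab_replicate.1 hb
    rw [List.take_replicate, List.count_replicate_self] at hu hv
    have e1 : u = i := by apply Fin.ext; omega
    have e2 : v = j := by apply Fin.ext; omega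
    rw [e1, e2]

theorem mem_GLk_zero {n : ℕ} {g : G n} (h : g ∈ GLk n 0) : g = 1 := by
  apply Units.ext
  ext i j
  rw [h i j (Or.inl (Nat.zero_le _)), Units.val_one, Matrix.one_apply]

end H537

open H537

/-- S0 -/
theorem s0 (O : Subring ℂ) (n : ℕ) : S0 O n := by
  intro k ξ p e c c' σ g t w rest fr ρ S hct hσ hw0 hww hWF hρ
  classical
  -- data of the root
  have hr0 := hWF.roots ⟨k, ξ, Lt.par p e σ c c' g :: w⟩ List.mem_cons_self
  obtain ⟨hkn, hξ, hrw⟩ := hr0
  simp only [Wd.WF] at hrw
  obtain ⟨hlen, hcnt, hsg, hsc, hw1⟩ := hrw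
  have hkt : c.count t = k := by
    have := List.count_add_count_not c t
    omega
  set A : List Root := [⟨k, ξ, Lt.par p e σ c c' g :: w⟩] with hA
  set B : List Root := [⟨k, ξ, Lt.full (g t) true :: w⟩, ⟨0, 1, [Lt.full (g (!t)) true]⟩] with hB
  have hSA : S = ⟨A ++ rest, fr⟩ := rfl
  -- occurrences and names
  have hoccA : occL A = {(g t, k, true)} + {(g (!t), 0, true)} + Wd.occ w k := by
    have h1 : occL A = Lt.occ k (Lt.par p e σ c c' g) + Wd.occ w k := by
      simp [hA, occL, Root.occ, Wd.occ]
    rw [h1]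
    congr 1
    cases t
    · simp only [Lt.occ, Bool.not_false] at hct hkt ⊢
      rw [hct, hkt]; rfl
    · simp only [Lt.occ, Bool.not_true] at hct hkt ⊢
      rw [hct, hkt, add_comm]; rfl
  have hoccB : occL B = {(g t, k, true)} + {(g (!t), 0, true)} + Wd.occ w k := by
    have h1 : occL B = ({(g t, k, true)} + Wd.occ w k) + {(g (!t), 0, true)} := by
      simp [hB, occL, Root.occ, Wd.occ, Lt.occ]
    rw [h1]; abel
  have hpnA : pnL A = {p} + Wd.pn w := by simp [hA, pnL, Root.pn, Wd.pn, Lt.pn]
  have hpnB : pnL B = Wd.pn w := by simp [hB, pnL, Root.pn, Wd.pn, Lt.pn]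
  have hSocc : S.occ = occL A + occL rest := by rw [Sys.occ_eq, hSA, occL_append]
  have hSpn : S.pn = pnL A + pnL rest := by rw [Sys.pn_eq, hSA, pnL_append]
  have hpS : p ∈ S.pn := by rw [hSpn, hpnA]; simp
  -- p is not a full name
  have hpocc : ∀ x k' ε, (x, k', ε) ∈ occL A → x ≠ p := by
    rintro x k' ε hx rfl
    exact hWF.occ_not_pn (by rw [hSocc]; exact Multiset.mem_add.2 (Or.inl hx)) hpS
  have hgt : g t ≠ p := hpocc (g t) k true (by rw [hoccA]; simp)
  have hgt' : g (!t) ≠ p := hpocc (g (!t)) 0 true (by rw [hoccA]; simp)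
  have hpw : ∀ x, ((∃ k' ε, (x, k', ε) ∈ Wd.occ w k) ∨ x ∈ Wd.pn w) → x ≠ p := by
    rintro x (⟨k', ε, hx⟩ | hx)
    · exact hpocc x k' ε (by rw [hoccA]; exact Multiset.mem_add.2 (Or.inr hx))
    · rintro rfl
      have h1 := hWF.pn_nodup
      rw [hSpn, hpnA, add_assoc, Multiset.singleton_add, Multiset.nodup_cons] at h1
      exact h1.1 (Multiset.mem_add.2 (Or.inl hx))
  have hgb : ∀ b, g b ≠ p := by
    intro b
    by_cases hb : b = t
    · rw [hb]; exact hgt
    · have : b = !t := by cases b <;> cases t <;> simp_all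
      rw [this]; exact hgt'
  -- the word under a change at p
  have hcongr : ∀ σ1 : ℕ → G n, ∀ P : G n, Wd.eval (Function.update σ1 p P) w = Wd.eval σ1 w := by
    intro σ1 P
    exact Wd.eval_congr k (fun x hx => Function.update_of_ne (hpw x hx) _ _)
  have hcongrS : ∀ σ1 : ℕ → G n, ∀ P : G n, Wd.Sat σ1 w k → Wd.Sat (Function.update σ1 p P) w k := by
    intro σ1 P h
    exact Wd.Sat_congr (fun x hx => (Function.update_of_ne (hpw x hx) _ _).symm) h
  -- the point
  have hroot := hρ.1 ⟨k, ξ, Lt.par p e σ c c' g :: w⟩ List.mem_cons_self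
  have hsat := (H486.Sat_cons _ _ _ _).1 hroot.1
  have hpar : IsPar c c' (fun b => ρ (g b)) (ρ p) := hsat.1
  have hρp : ρ p = ρ (g t) := isPar_const hpar hct
  have hdsg : dsg n e c σ = 1 := dsg_one e c hσ
  have hevA : ∀ σ1 : ℕ → G n, Wd.eval σ1 (Lt.par p e σ c c' g :: w) = σ1 p * Wd.eval σ1 w := by
    intro σ1
    rw [H486.eval_cons]
    simp only [Lt.eval, hdsg, one_mul]
  show Red O n ⟨A ++ rest, fr⟩ ρ
  refine local_step A B rest fr [] ρ ρ 0 0 (fun σ1 => Function.update σ1 p (σ1 (g t))) hWF hρ
    ?_ (by simp) (by simp) (by simp) (by simp only [pm_zero, add_zero]; rw [hoccA, hoccB]) ?_ ?_ ?_ ?_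
    ?_ (by simp) (fun _ _ => rfl) ?_ ?_ ?_ ?_ ?_
  · -- WF of the new roots
    intro r hr
    simp only [hB, List.mem_cons, List.not_mem_nil, or_false] at hr
    rcases hr with rfl | rfl
    · exact ⟨hkn, hξ, hww⟩
    · exact ⟨Nat.zero_le _, IsSc.one, trivial⟩
  · -- names nodup
    simp only [Multiset.map_zero, zero_add, List.map_nil, Multiset.coe_nil, add_zero]
    rw [hpnB]
    have h1 := hWF.pn_nodup
    rw [hSpn, hpnA] at h1
    exact (Multiset.nodup_add.1 (Multiset.nodup_add.1 h1).1).2.1
  · intro y hy
    simp only [Multiset.map_zero, zero_add, List.map_nil, Multiset.coe_nil, add_zero] at hy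
    rw [hpnB] at hy
    right; left
    rw [hpnA]
    exact Multiset.mem_add.2 (Or.inr hy)
  · -- weights
    have hdeg : ¬ ∀ b, 0 < c.count b := fun h => by have := h (!t); omega
    have e1 : wtL A = ({3 * k} + Wd.wt w k) + {3 * k + 2} := by
      have : wtL A = (3 * k) ::ₘ (Lt.wt k (Lt.par p e σ c c' g) + Wd.wt w k) := by
        simp [hA, wtL, Root.wt, Wd.wt]
      rw [this]
      have h2 : Lt.wt k (Lt.par p e σ c c' g) = {3 * k + 2} := by
        rw [Lt.wt, if_neg hdeg, if_pos hσ]
      rw [h2, ← Multiset.singleton_add]; abel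
    have e2 : wtL B = ({3 * k} + Wd.wt w k) + ({3 * k + 1} + {0} + {1}) := by
      have : wtL B = (3 * k) ::ₘ ({3 * k + 1} + Wd.wt w k) + (3 * 0) ::ₘ {3 * 0 + 1} := by
        simp [hB, wtL, Root.wt, Wd.wt, Lt.wt]
      rw [this, ← Multiset.singleton_add, ← Multiset.singleton_add]
      simp only [mul_zero, zero_add]
      abel
    refine ⟨{3 * k} + Wd.wt w k, {3 * k + 1} + {0} + {1}, {3 * k + 2}, by simp, e2, e1, ?_⟩
    intro y hy
    refine ⟨3 * k + 2, by simp, ?_⟩
    simp only [Multiset.mem_add, Multiset.mem_singleton] at hy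
    omega
  · -- Adm
    intro k0 h r hr
    have h1 := h ⟨k, ξ, Lt.par p e σ c c' g :: w⟩ (by simp [hA])
    have h2 : k < k0 ∨ (k = k0 ∧ Wd.hasNd w) := by
      rcases h1 with h1 | ⟨h1, l, hl, hlN⟩
      · exact Or.inl h1
      · right
        refine ⟨h1, ?_⟩
        rcases List.mem_cons.1 hl with h' | h'
        · subst h'
          have := hlN (!t)
          omega
        · exact ⟨l, h', hlN⟩
    have hr' : r ∈ B := hr
    simp only [hB, List.mem_cons, List.not_mem_nil, or_false] at hr'
    rcases hr' with rfl | rfl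
    · rcases h2 with h2 | ⟨h2, l, hl, hlN⟩
      · exact Or.inl h2
      · exact Or.inr ⟨h2, l, List.mem_cons_of_mem _ hl, hlN⟩
    · left
      rcases h2 with h2 | ⟨h2, l, hl, hlN⟩
      · exact lt_of_le_of_lt (Nat.zero_le _) h2
      · show 0 < k0
        rw [← h2]
        cases l with
        | full x ε => exact absurd hlN (by simp [Lt.Nd])
        | par p1 e1 σ1 c1 c1' g1 =>
          have h3 := H486.WF_length hww _ hl p1 e1 σ1 c1 c1' g1 rfl
          have h4 : 0 < c1.count true := hlN true
          have h5 : c1.count true ≤ c1.length := List.count_le_length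
          have h6 : c1.length = k := h3
          omega
  · -- the new point satisfies B
    intro r hr
    simp only [hB, List.mem_cons, List.not_mem_nil, or_false] at hr
    rcases hr with rfl | rfl
    · refine ⟨(H486.Sat_cons _ _ _ _).2 ⟨?_, hsat.2⟩, ?_⟩
      · show ρ (g t) ∈ GLk n k
        have := hpar.blk t
        rw [hkt] at this
        exact this
      · have h3 := hroot.2
        simp only at h3
        rw [hevA, hρp] at h3
        show scal n k ξ * Wd.eval ρ (Lt.full (g t) true :: w) = 1
        rw [H486.eval_cons]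
        simpa [Lt.eval] using h3
    · have h4 : ρ (g (!t)) ∈ GLk n 0 := by
        have := hpar.blk (!t)
        rw [hct] at this
        exact this
      refine ⟨(H486.Sat_cons _ _ _ _).2 ⟨h4, H486.Sat_nil _ _⟩, ?_⟩
      show scal n 0 1 * Wd.eval ρ [Lt.full (g (!t)) true] = 1
      rw [scal_one, one_mul, H486.eval_cons, H486.eval_nil, mul_one]
      simpa [Lt.eval] using mem_GLk_zero h4
  · -- polynomial
    intro x
    by_cases hx : x = p
    · subst hx
      simp only [Function.update_self]
      exact H486.polG_apply (g t)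
    · simp only [Function.update_of_ne hx]
      exact H486.polG_apply x
  · intro x hx σ1
    refine Function.update_of_ne ?_ _ _
    rintro rfl
    exact hx (Or.inr (Or.inl (by rw [hpnA]; simp)))
  · -- forward
    intro σ1 h1 _ r hr
    simp only [hA, List.mem_cons, List.not_mem_nil, or_false] at hr
    subst hr
    have hb1 := h1 ⟨k, ξ, Lt.full (g t) true :: w⟩ (by simp [hB])
    have hb2 := h1 ⟨0, 1, [Lt.full (g (!t)) true]⟩ (by simp [hB])
    have hs1 := (H486.Sat_cons _ _ _ _).1 hb1.1
    have hs2 := (H486.Sat_cons _ _ _ _).1 hb2.1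
    refine ⟨(H486.Sat_cons _ _ _ _).2 ⟨?_, hcongrS _ _ hs1.2⟩, ?_⟩
    · show IsPar c c' (fun b => Function.update σ1 p (σ1 (g t)) (g b))
        (Function.update σ1 p (σ1 (g t)) p)
      have e1 : (fun b => Function.update σ1 p (σ1 (g t)) (g b)) = fun b => σ1 (g b) := by
        funext b; exact Function.update_of_ne (hgb b) _ _
      rw [e1, Function.update_self]
      refine isPar_const' (g := fun b => σ1 (g b)) hct hcnt (by rw [hlen]; exact hkn) ?_ hs2.1
      rw [hlen]
      exact hs1.1
    · show scal n k ξ * Wd.eval (Function.update σ1 p (σ1 (g t))) (Lt.par p e σ c c' g :: w) = 1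
      rw [hevA, Function.update_self, hcongr]
      have h3 := hb1.2
      simp only at h3
      rw [H486.eval_cons] at h3
      simpa [Lt.eval] using h3
  · -- integrality
    intro σ1 _ _ hint x hx _
    have hnames : ∀ y, (∃ k' ε, (y, k', ε) ∈ occL A) ∨ y ∈ Wd.pn w →
        y ∈ Sys.names ⟨B ++ rest, [] ++ fr⟩ := by
      intro y hy
      rw [Sys.names_eq]
      left
      rcases hy with ⟨k', ε, hy⟩ | hy
      · left
        refine ⟨k', ε, ?_⟩
        show _ ∈ occL (B ++ rest)
        rw [occL_append, hoccB, ← hoccA]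
        exact Multiset.mem_add.2 (Or.inl hy)
      · right
        show _ ∈ pnL (B ++ rest)
        rw [pnL_append, hpnB]
        exact Multiset.mem_add.2 (Or.inl hy)
    by_cases hxp : x = p
    · subst hxp
      simp only [Function.update_self]
      exact hint _ (hnames _ (Or.inl ⟨k, true, by rw [hoccA]; simp⟩))
    · simp only [Function.update_of_ne hxp]
      refine hint _ (hnames _ ?_)
      rcases hx with hx | hx
      · exact Or.inl hx
      · right
        rw [hpnA] at hx
        rcases Multiset.mem_add.1 hx with h | h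
        · exact absurd (by simpa using h) hxp
        · exact h
  · intro x hx _
    by_cases hxp : x = p
    · subst hxp
      simp only [Function.update_self]
      exact hρp.symm
    · simp only [Function.update_of_ne hxp]

end Crest.Agent.R003
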