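import Crest.Agent.R003.Bas486

/-!
# Row 3 (S0003): step S1 (merge) (helper486)
-/

set_option autoImplicit false

namespace Crest.Agent.R003

open H486

/-- S1: two roots are merged along a full letter -/
theorem s1 (O : Subring ℂ) (n : ℕ) : S1 O n := by
  intro k ξ ξ' u v u' v' x ε rest fr ρ S hWF hρ
  have hr0 := hWF.roots ⟨k, ξ, u ++ Lt.full x ε :: v⟩ List.mem_cons_self
  have hr1 := hWF.roots ⟨k, ξ', u' ++ Lt.full x (!ε) :: v'⟩
    (List.mem_cons_of_mem _ List.mem_cons_self)
  have hlin := hWF.lin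
  set S' : Sys := ⟨⟨k, ξ * ξ', u' ++ (v ++ (u ++ v'))⟩ :: rest, fr⟩ with hS'
  obtain ⟨hk, hξ, h3⟩ := hr0
  obtain ⟨-, hξ', h3'⟩ := hr1
  replace h3 : Wd.WF O (u ++ Lt.full x ε :: v) k (Wd.last (u ++ Lt.full x ε :: v) none) := h3
  replace h3' : Wd.WF O (u' ++ Lt.full x (!ε) :: v') k
    (Wd.last (u' ++ Lt.full x (!ε) :: v') none) := h3'
  rw [WF_app, last_app] at h3 h3'
  have hu : Wd.WF O u k (Wd.last v none) := h3.1
  have hv : Wd.WF O v k none := h3.2
  have hu' : Wd.WF O u' k (Wd.last v' none) := h3'.1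
  have hv' : Wd.WF O v' k none := h3'.2
  have h1 : S.occ = (x, k, ε) ::ₘ (x, k, !ε) ::ₘ
      (Wd.occ (u' ++ (v ++ (u ++ v'))) k + (rest.map Root.occ).sum) := by
    show Wd.occ (u ++ Lt.full x ε :: v) k +
      (Wd.occ (u' ++ Lt.full x (!ε) :: v') k + (rest.map Root.occ).sum) = _
    rw [occ_app, occ_cons, occ_app, occ_cons, occ_app, occ_app, occ_app]
    simp only [Lt.occ, ← Multiset.singleton_add]
    abel
  have h2 : S.pn = Wd.pn (u' ++ (v ++ (u ++ v'))) + (rest.map Root.pn).sum := by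
    show Wd.pn (u ++ Lt.full x ε :: v) +
      (Wd.pn (u' ++ Lt.full x (!ε) :: v') + (rest.map Root.pn).sum) = _
    rw [pn_app, pn_cons, pn_app, pn_cons, pn_app, pn_app, pn_app]
    simp only [Lt.pn]
    abel
  rw [h1, h2] at hlin
  obtain ⟨V', h5, h6⟩ := lin_pair' hlin
  have hnd := (Multiset.nodup_cons.1 h6)
  -- the names of the new system and the name `x`
  have hx' : x ∉ S'.names := by
    rintro (⟨k', ε', h⟩ | h | h)
    · apply hnd.1
      have h' : (x, k', ε') ∈ Wd.occ (u' ++ (v ++ (u ++ v'))) k + (rest.map Root.occ).sum := h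
      rw [h5, Multiset.mem_add, Multiset.mem_map, Multiset.mem_map] at h'
      rw [Multiset.mem_add, Multiset.mem_add, Multiset.mem_map]
      left; left
      rcases h' with ⟨z, hz, hz'⟩ | ⟨z, hz, hz'⟩
      · exact ⟨z, hz, by simp only [Prod.mk.injEq] at hz'; exact hz'.1⟩
      · exact ⟨z, hz, by simp only [Prod.mk.injEq] at hz'; exact hz'.1⟩
    · apply hnd.1
      rw [Multiset.mem_add, Multiset.mem_add]
      exact Or.inl (Or.inr h)
    · apply hnd.1
      rw [Multiset.mem_add, Multiset.mem_coe]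
      exact Or.inr h
  have hmain : ∀ y, (y ∈ wnm u ∨ y ∈ wnm v ∨ y ∈ wnm u' ∨ y ∈ wnm v') → y ∈ S'.names := by
    intro y hy
    rw [mem_names]
    refine Or.inl ⟨_, List.mem_cons_self, ?_⟩
    show y ∈ wnm (u' ++ (v ++ (u ++ v')))
    rw [wnm_app, wnm_app, wnm_app]
    tauto
  have hrest : ∀ r ∈ rest, ∀ y ∈ wnm r.w, y ∈ S'.names := by
    intro r hr y hy
    rw [mem_names]
    exact Or.inl ⟨r, List.mem_cons_of_mem _ hr, hy⟩
  -- the map
  set X : (ℕ → G n) → G n := fun σ =>
    (Wd.eval σ v * (scal n k ξ * Wd.eval σ u))⁻¹ with hX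
  set Φ : (ℕ → G n) → (ℕ → G n) := fun σ =>
    Function.update σ x (if ε = true then X σ else (X σ)⁻¹) with hΦ
  have hΦx : ∀ σ, Φ σ x = if ε = true then X σ else (X σ)⁻¹ := by
    intro σ; simp [hΦ]
  have hΦy : ∀ σ y, y ∈ S'.names → Φ σ y = σ y := by
    intro σ y hy
    have : y ≠ x := by rintro rfl; exact hx' hy
    simp [hΦ, Function.update_of_ne this]
  have hev : ∀ σ w, (∀ y ∈ wnm w, y ∈ S'.names) → Wd.eval (Φ σ) w = Wd.eval σ w := by
    intro σ w hw
    exact eval_congr fun y hy => hΦy σ y (hw y hy)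
  have hsa : ∀ σ w, (∀ y ∈ wnm w, y ∈ S'.names) → (Wd.Sat (Φ σ) w k ↔ Wd.Sat σ w k) := by
    intro σ w hw
    exact Sat_congr fun y hy => hΦy σ y (hw y hy)
  have huN : ∀ y ∈ wnm u, y ∈ S'.names := fun y hy => hmain y (Or.inl hy)
  have hvN : ∀ y ∈ wnm v, y ∈ S'.names := fun y hy => hmain y (Or.inr (Or.inl hy))
  have huN' : ∀ y ∈ wnm u', y ∈ S'.names := fun y hy => hmain y (Or.inr (Or.inr (Or.inl hy)))
  have hvN' : ∀ y ∈ wnm v', y ∈ S'.names := fun y hy => hmain y (Or.inr (Or.inr (Or.inr hy)))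
  -- the old point
  have hρ0 := hρ.1 _ List.mem_cons_self
  have hρ1 := hρ.1 _ (List.mem_cons_of_mem _ List.mem_cons_self)
  have hs0 := (Sat_app _ _ _ _).1 hρ0.1
  have hs0' := (Sat_cons _ _ _ _).1 hs0.2
  have hs1 := (Sat_app _ _ _ _).1 hρ1.1
  have hs1' := (Sat_cons _ _ _ _).1 hs1.2
  have he0 : scal n k ξ * Wd.eval ρ (u ++ Lt.full x ε :: v) = 1 := hρ0.2
  have he1 : scal n k ξ' * Wd.eval ρ (u' ++ Lt.full x (!ε) :: v') = 1 := hρ1.2
  rw [eval_app, eval_cons] at he0 he1
  have hxe : Lt.eval ρ (Lt.full x ε) = X ρ := by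
    have h : scal n k ξ * Wd.eval ρ u * Lt.eval ρ (Lt.full x ε) * Wd.eval ρ v = 1 := by
      rw [← he0]; simp only [mul_assoc]
    have h' : Lt.eval ρ (Lt.full x ε) = (scal n k ξ * Wd.eval ρ u)⁻¹ * (Wd.eval ρ v)⁻¹ := by
      rw [eq_mul_inv_iff_mul_eq]
      exact eq_inv_of_mul_eq_one_right (by rw [← mul_assoc]; exact h)
    rw [h', hX]
    simp only [_root_.mul_inv_rev]
  have hxe' : Lt.eval ρ (Lt.full x (!ε)) = (X ρ)⁻¹ := by
    rw [← hxe]
    cases ε <;> simp [Lt.eval]
  -- general solutions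
  have hpt : ∀ σ ∈ S'.Sol n, Φ σ ∈ S.Sol n := by
    intro σ hσ
    have h0 := hσ.1 _ List.mem_cons_self
    have ht1 := (Sat_app _ _ _ _).1 h0.1
    have ht2 := (Sat_app _ _ _ _).1 ht1.2
    have ht3 := (Sat_app _ _ _ _).1 ht2.2
    have hU := eval_mem_GLk hu ht3.1
    have hV := eval_mem_GLk hv ht2.1
    have hU' := eval_mem_GLk hu' ht1.1
    have hXm : X σ ∈ GLk n k := by
      rw [hX]
      exact (GLk n k).inv_mem ((GLk n k).mul_mem hV ((GLk n k).mul_mem
        (scal_mem_GLk le_rfl _) hU))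
    have hΦm : Φ σ x ∈ GLk n k := by
      rw [hΦx]
      split_ifs
      · exact hXm
      · exact (GLk n k).inv_mem hXm
    have hxev : Lt.eval (Φ σ) (Lt.full x ε) = X σ := by
      cases ε <;> simp [Lt.eval, hΦx]
    have hxev' : Lt.eval (Φ σ) (Lt.full x (!ε)) = (X σ)⁻¹ := by
      cases ε <;> simp [Lt.eval, hΦx]
    refine ⟨?_, fun z hz => ?_⟩
    · intro r hr
      rcases List.mem_cons.1 hr with h' | h'
      · subst h'
        refine ⟨(Sat_app _ _ _ _).2 ⟨(hsa σ u huN).2 ht3.1, (Sat_cons _ _ _ _).2 ⟨hΦm,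
          (hsa σ v hvN).2 ht2.1⟩⟩, ?_⟩
        show scal n k ξ * Wd.eval (Φ σ) (u ++ Lt.full x ε :: v) = 1
        rw [eval_app, eval_cons, hxev, hev σ u huN, hev σ v hvN, hX]
        group
      · rcases List.mem_cons.1 h' with h'' | h''
        · subst h''
          refine ⟨(Sat_app _ _ _ _).2 ⟨(hsa σ u' huN').2 ht1.1, (Sat_cons _ _ _ _).2 ⟨hΦm,
            (hsa σ v' hvN').2 ht3.2⟩⟩, ?_⟩
          show scal n k ξ' * Wd.eval (Φ σ) (u' ++ Lt.full x (!ε) :: v') = 1
          rw [eval_app, eval_cons, hxev', hev σ u' huN', hev σ v' hvN', hX, inv_inv]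
          have h4 : scal n k (ξ * ξ') * Wd.eval σ (u' ++ (v ++ (u ++ v'))) = 1 := h0.2
          rw [eval_app, eval_app, eval_app, mul_comm ξ ξ', scal_mul] at h4
          have hc := scal_comm ξ ((GLk n k).mul_mem hU' hV)
          rw [← h4]
          calc scal n k ξ' * (Wd.eval σ u' * (Wd.eval σ v * (scal n k ξ * Wd.eval σ u) *
                Wd.eval σ v'))
              = scal n k ξ' * ((Wd.eval σ u' * Wd.eval σ v) * scal n k ξ) *
                  (Wd.eval σ u * Wd.eval σ v') := by simp only [mul_assoc]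
            _ = scal n k ξ' * (scal n k ξ * (Wd.eval σ u' * Wd.eval σ v)) *
                  (Wd.eval σ u * Wd.eval σ v') := by rw [hc]
            _ = scal n k ξ' * scal n k ξ *
                  (Wd.eval σ u' * (Wd.eval σ v * (Wd.eval σ u * Wd.eval σ v'))) := by
                simp only [mul_assoc]
        · exact (Sol_congr fun y hy => hΦy σ y (hrest r h'' y hy)).2
            (hσ.1 r (List.mem_cons_of_mem _ h''))
    · have : z.1 ∈ S'.names := mem_names.2 (Or.inr (List.mem_map.2 ⟨z, hz, rfl⟩))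
      rw [hΦy σ _ this]
      exact hσ.2 z hz
  have hρS' : ρ ∈ S'.Sol n := by
    refine ⟨?_, hρ.2⟩
    intro r hr
    rcases List.mem_cons.1 hr with h' | h'
    · subst h'
      refine ⟨(Sat_app _ _ _ _).2 ⟨hs1.1, (Sat_app _ _ _ _).2 ⟨hs0'.2, (Sat_app _ _ _ _).2
        ⟨hs0.1, hs1'.2⟩⟩⟩, ?_⟩
      show scal n k (ξ * ξ') * Wd.eval ρ (u' ++ (v ++ (u ++ v'))) = 1
      rw [eval_app, eval_app, eval_app, mul_comm ξ ξ', scal_mul]
      have hc := scal_comm ξ ((GLk n k).mul_mem (eval_mem_GLk hu' hs1.1) (eval_mem_GLk hv hs0'.2))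
      rw [hxe', hX, inv_inv] at he1
      rw [← he1]
      calc scal n k ξ' * scal n k ξ *
                  (Wd.eval ρ u' * (Wd.eval ρ v * (Wd.eval ρ u * Wd.eval ρ v')))
          = scal n k ξ' * (scal n k ξ * (Wd.eval ρ u' * Wd.eval ρ v)) *
                  (Wd.eval ρ u * Wd.eval ρ v') := by simp only [mul_assoc]
        _ = scal n k ξ' * ((Wd.eval ρ u' * Wd.eval ρ v) * scal n k ξ) *
                  (Wd.eval ρ u * Wd.eval ρ v') := by rw [hc]
        _ = scal n k ξ' * (Wd.eval ρ u' * (Wd.eval ρ v * (scal n k ξ * Wd.eval ρ u) *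
                Wd.eval ρ v')) := by simp only [mul_assoc]
    · exact hρ.1 r (List.mem_cons_of_mem _ (List.mem_cons_of_mem _ h'))
  refine ⟨S', ρ, ?_, ?_, ?_, hρS', ?_⟩
  · refine ⟨?_, hWF.free, ?_⟩
    · intro r hr
      rcases List.mem_cons.1 hr with h' | h'
      · subst h'
        refine ⟨hk, hξ.mul hξ', ?_⟩
        show Wd.WF O (u' ++ (v ++ (u ++ v'))) k (Wd.last (u' ++ (v ++ (u ++ v'))) none)
        rw [WF_app, WF_app, WF_app, last_app u', last_app v, last_app u]
        exact ⟨WF_last O hu' _, WF_of_none O hv _, WF_last O hu _, WF_of_none O hv' _⟩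
      · exact hWF.roots r (List.mem_cons_of_mem _ (List.mem_cons_of_mem _ h'))
    · exact ⟨V', h5.symm ▸ rfl, hnd.2⟩
  · apply dm_of_add (B := {3 * k, 3 * k + 1, 3 * k + 1})
    · show (3 * k) ::ₘ Wd.wt (u ++ Lt.full x ε :: v) k +
          ((3 * k) ::ₘ Wd.wt (u' ++ Lt.full x (!ε) :: v') k + (rest.map Root.wt).sum) =
        ((3 * k) ::ₘ Wd.wt (u' ++ (v ++ (u ++ v'))) k + (rest.map Root.wt).sum) +
          {3 * k, 3 * k + 1, 3 * k + 1}
      rw [wt_app, wt_cons, wt_app, wt_cons, wt_app, wt_app, wt_app]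
      simp only [Lt.wt, Multiset.insert_eq_cons, ← Multiset.singleton_add]
      abel
    · simp
  · intro k0 h r hr
    rcases List.mem_cons.1 hr with h' | h'
    · subst h'
      rcases h _ (List.mem_cons_self) with h1 | ⟨h1, h2⟩
      · exact Or.inl h1
      · refine Or.inr ⟨h1, ?_⟩
        rw [hasNd_app, hasNd_full] at h2
        show Wd.hasNd (u' ++ (v ++ (u ++ v')))
        rw [hasNd_app, hasNd_app, hasNd_app]
        tauto
    · exact h r (List.mem_cons_of_mem _ (List.mem_cons_of_mem _ h'))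
  · intro h
    refine appr_map Φ ?_ hpt ?_ hρS' ?_ h
    · intro y
      by_cases hy : y = x
      · subst hy
        have : (fun σ => Φ σ y) = fun σ => if ε = true then X σ else (X σ)⁻¹ := by
          funext σ; exact hΦx σ
        rw [this]
        have hXp : PolG (S'.Sol n) X :=
          polG_inv (polG_mul (polG_eval v) (polG_mul (polG_const _) (polG_eval u)))
        cases ε with
        | true => simpa using hXp
        | false => simpa using polG_inv hXp
      · have : (fun σ : ℕ → G n => Φ σ y) = fun σ => σ y := by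
          funext σ; simp [hΦ, Function.update_of_ne hy]
        rw [this]
        exact polG_apply y
    · intro σ hσ hint y hy
      by_cases hyx : y = x
      · subst hyx
        rw [hΦx]
        have hXi : X σ ∈ GO O n := by
          rw [hX]
          exact (GO O n).inv_mem ((GO O n).mul_mem (eval_mem_GO hv fun y hy => hint y (hvN y hy))
            ((GO O n).mul_mem (scal_mem_GO hξ) (eval_mem_GO hu fun y hy => hint y (huN y hy))))
        split_ifs
        · exact hXi
        · exact (GO O n).inv_mem hXi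
      · have hy' : y ∈ S'.names := by
          rw [mem_names] at hy
          rcases hy with ⟨r, hr, hy⟩ | hy
          · rcases List.mem_cons.1 hr with h' | h'
            · subst h'
              rw [show wnm (Root.w ⟨k, ξ, u ++ Lt.full x ε :: v⟩) =
                wnm (u ++ ([Lt.full x ε] ++ v)) from rfl, wnm_app, wnm_app] at hy
              rcases hy with hy | hy | hy
              · exact huN y hy
              · obtain ⟨l, hl, hy⟩ := hy
                rw [List.mem_singleton] at hl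
                subst hl
                exact absurd hy hyx
              · exact hvN y hy
            · rcases List.mem_cons.1 h' with h'' | h''
              · subst h''
                rw [show wnm (Root.w ⟨k, ξ', u' ++ Lt.full x (!ε) :: v'⟩) =
                  wnm (u' ++ ([Lt.full x (!ε)] ++ v')) from rfl, wnm_app, wnm_app] at hy
                rcases hy with hy | hy | hy
                · exact huN' y hy
                · obtain ⟨l, hl, hy⟩ := hy
                  rw [List.mem_singleton] at hl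
                  subst hl
                  exact absurd hy hyx
                · exact hvN' y hy
              · exact hrest r h'' y hy
          · exact mem_names.2 (Or.inr hy)
        rw [hΦy σ y hy']
        exact hint y hy'
    · funext y
      by_cases hy : y = x
      · subst hy
        rw [hΦx, ← hxe]
        cases ε <;> simp [Lt.eval]
      · simp [hΦ, Function.update_of_ne hy]

end Crest.Agent.R003
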