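import Crest.Agent.R003.Red412

/-!
# Row 3: the step S2 (one Bruhat decomposition) (helper412)
-/

set_option autoImplicit false

namespace Crest.Agent.R003.W412

open Crest.Agent.R003

theorem occs_cons (r : Root) (L : List Root) : occs (r :: L) = Wd.occ r.w r.k + occs L := by
  simp [occs, Root.occ]
theorem occs_nil : occs [] = 0 := rfl
theorem pns_cons (r : Root) (L : List Root) : pns (r :: L) = Wd.pn r.w + pns L := by
  simp [pns, Root.pn]
theorem pns_nil : pns [] = 0 := rfl

theorem pair_eq {α : Type} (a b : α) : ({a, b} : Multiset α) = {a} + {b} := rfl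

theorem eval_neg {n : ℕ} (τ : ℕ → G n) (x : ℕ) (ε : Bool) :
    Lt.eval τ (Lt.full x (!ε)) = (Lt.eval τ (Lt.full x ε))⁻¹ := by
  cases ε <;> simp [Lt.eval]

/-- value of `x` from the value of `x^ε` -/
def sgn {n : ℕ} (ε : Bool) (W : G n) : G n := if ε then W else W⁻¹

theorem eval_sgn {n : ℕ} {τ : ℕ → G n} {x : ℕ} {ε : Bool} {W : G n} (h : τ x = sgn ε W) :
    Lt.eval τ (Lt.full x ε) = W := by
  cases ε <;> simp [Lt.eval, h, sgn]

theorem sgn_eval {n : ℕ} (τ : ℕ → G n) (x : ℕ) (ε : Bool) :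
    sgn ε (Lt.eval τ (Lt.full x ε)) = τ x := by
  cases ε <;> simp [Lt.eval, sgn]

theorem sgn_mem {n : ℕ} {H : Subgroup (G n)} {ε : Bool} {W : G n} (h : W ∈ H) : sgn ε W ∈ H := by
  cases ε
  · exact H.inv_mem h
  · exact h

theorem polG_sgn {ι : Type} {n m : ℕ} {S : Set (ι → G n)} {Φ : (ι → G n) → G m} (ε : Bool)
    (h : PolG S Φ) : PolG S (fun ρ => sgn ε (Φ ρ)) := by
  cases ε
  · exact polG_inv h
  · exact h

/-- a root with three full letters -/
theorem sol_three {n : ℕ} (τ : ℕ → G n) (k : ℕ) (x y z : ℕ) (ε δ η : Bool) :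
    (⟨k, 1, [Lt.full x ε, Lt.full y δ, Lt.full z η]⟩ : Root).Sol τ ↔
      (τ x ∈ GLk n k ∧ τ y ∈ GLk n k ∧ τ z ∈ GLk n k) ∧
        Lt.eval τ (Lt.full x ε) * (Lt.eval τ (Lt.full y δ) * Lt.eval τ (Lt.full z η)) = 1 := by
  simp only [Root.Sol, sat_cons, Lt.Sat, ev_cons, ev_nil, mul_one, scal_one, one_mul]
  simp [Wd.Sat]

theorem wt_fl (k x : ℕ) (ε : Bool) : Lt.wt k (Lt.full x ε) = {3 * k + 1} := rfl

set_option maxHeartbeats 2000000 in
theorem s2 (O : Subring ℂ) (n : ℕ) (hB : Bruhat n) (hC : Calc n) : S2 O n := by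
  intro k ξ b a c d x ε p p' e e' c1 E F c2 σ σ' g g' rest fr ρ S hb ha hE hF hS hsol
  obtain ⟨cmul, cinv, -, -, -, -⟩ := hC
  -- unpack well-formedness
  obtain ⟨hkn, hξ, hwf⟩ := hS.roots _ List.mem_cons_self
  change k ≤ n at hkn
  simp only [Wd.WF, wf_app, Wd.last, last_app, last_full ha] at hwf
  obtain ⟨hc1k, hc1E, hσe, hσs, hwb, hwa, hFk, hFc, hσ'e, hσ's, hwc, hwd⟩ := hwf
  have hσ' : ∀ x y, σ' x y = 1 := by
    rcases hσ'e with h | h
    · exact h
    · cases h
  have hEk : E.length = k := by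
    have := List.count_true_add_count_false c1
    have h2 := List.count_true_add_count_false E
    rw [hc1E, hc1E] at this
    omega
  -- unpack the solution
  obtain ⟨hsat, heq⟩ := hsol.1 _ List.mem_cons_self
  simp only [sat_cons, sat_app, Lt.Sat] at hsat
  obtain ⟨hp, hsb, hx, hsa, hp', hsc, -, hsd⟩ := hsat
  simp only [ev_cons, ev_app, eval_neg] at heq
  -- Bruhat
  obtain ⟨E', F', q, q', γ, γ', hE'k, hF'k, hq, hq', hX⟩ := hB k hkn
    (Wd.eval ρ b * Lt.eval ρ (Lt.full x ε) * Wd.eval ρ a)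
    ((GLk n k).mul_mem ((GLk n k).mul_mem (eval_mem_full hb hsb)
      (by cases ε <;> simp [Lt.eval, hx])) (eval_mem_full ha hsa)) E F hEk hFk
  have hEE' : ∀ t, E'.count t = c1.count t := fun t => by rw [hc1E, hq.cnt]
  have hFF' : ∀ t, F'.count t = F.count t := fun t => hq'.cnt t
  obtain ⟨N, hN⟩ := exists_bound S
  set y1 := N with hy1
  -- names: y1 = N, y2 = N+1, y3 = N+2, y4 = N+3
  let hh : Bool → ℕ := fun t => N + (4 + t.toNat)
  let hh' : Bool → ℕ := fun t => N + (6 + t.toNat)
  let rr : Bool → ℕ := fun t => N + (8 + t.toNat)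
  let rr' : Bool → ℕ := fun t => N + (10 + t.toNat)
  let R' : Root := ⟨k, ξ, Lt.par N e σ c1 E' hh :: Lt.par (N + 1) [] (fun _ _ => 1) F' c2 hh' ::
    (c ++ (a ++ Lt.par (N + 2) [] (fun _ _ => 1) F F' rr' ::
      Lt.par (N + 3) [] (fun _ _ => 1) E' E rr :: (b ++ d)))⟩
  let C : Bool → Root := fun t =>
    ⟨c1.count t, 1, [Lt.full (g t) true, Lt.full (rr t) false, Lt.full (hh t) false]⟩
  let C' : Bool → Root := fun t =>
    ⟨F.count t, 1, [Lt.full (rr' t) false, Lt.full (g' t) true, Lt.full (hh' t) false]⟩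
  let vals : List (G n) := [ρ p * q, q' * ρ p', q'⁻¹, q⁻¹, ρ (g false) * γ false,
    ρ (g true) * γ true, γ' false * ρ (g' false), γ' true * ρ (g' true), (γ false)⁻¹, (γ true)⁻¹,
    (γ' false)⁻¹, (γ' true)⁻¹]
  let ρ' : ℕ → G n := upd ρ N vals
  let W : (ℕ → G n) → G n := fun τ =>
    (Wd.eval τ b)⁻¹ * (τ (N + 3))⁻¹ * (τ (N + 2))⁻¹ * (Wd.eval τ a)⁻¹
  let φ : ℕ → (ℕ → G n) → G n := fun z τ =>
    if z = p then τ N * τ (N + 3) else if z = p' then τ (N + 2) * τ (N + 1) else sgn ε (W τ)
  let U : Multiset (ℕ × ℕ × Bool) := {(g false, c1.count false, true)} +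
    {(g true, c1.count true, true)} + Wd.occ b k + Wd.occ a k + {(g' false, F.count false, true)} +
    {(g' true, F.count true, true)} + Wd.occ c k + Wd.occ d k
  have hoccR : occs [⟨k, ξ, Lt.par p e σ c1 E g :: (b ++ Lt.full x ε ::
      (a ++ Lt.par p' e' σ' F c2 g' :: (c ++ Lt.full x (!ε) :: d)))⟩] = pm {(x, k)} + U := by
    simp only [occs_cons, occs_nil, occ_cons, occ_app, Lt.occ, pair_eq, pm, Multiset.map_singleton, U]
    cases ε
    · simp only [Bool.not_false]; abel
    · simp only [Bool.not_true]; abel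
  have hpnR : pns [⟨k, ξ, Lt.par p e σ c1 E g :: (b ++ Lt.full x ε ::
      (a ++ Lt.par p' e' σ' F c2 g' :: (c ++ Lt.full x (!ε) :: d)))⟩] =
      ({p} + {p'}) + (Wd.pn c + Wd.pn d) := by
    simp only [pns_cons, pns_nil, pn_cons, pn_app, Lt.pn, pn_full ha, pn_full hb]
    abel
  have hoccN : occs [R', C false, C true, C' false, C' true] =
      pm ({(hh false, c1.count false)} + {(hh true, c1.count true)} +
        {(hh' false, F.count false)} + {(hh' true, F.count true)} +
        {(rr false, c1.count false)} + {(rr true, c1.count true)} +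
        {(rr' false, F.count false)} + {(rr' true, F.count true)}) + U := by
    simp only [occs_cons, occs_nil, occ_cons, occ_nil, occ_app, Lt.occ, pair_eq, pm, Multiset.map_add,
      Multiset.map_singleton, U, R', C, C', hEE', hFF']
    abel
  have hpnN : pns [R', C false, C true, C' false, C' true] =
      ({N} + {N + 1} + {N + 2} + {N + 3}) + (Wd.pn c + Wd.pn d) := by
    simp only [pns_cons, pns_nil, pn_cons, pn_nil, pn_app, Lt.pn, pn_full ha, pn_full hb, R', C, C']
    abel
  obtain ⟨hold1, hold2⟩ := old_nodup (D := {(x, k)}) (olds := [_]) hS hoccR hpnR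
  have hpp' : p' ≠ p ∧ x ≠ p ∧ x ≠ p' := by
    simp only [Multiset.map_singleton, Multiset.nodup_add, Multiset.nodup_singleton,
      Multiset.disjoint_right, Multiset.mem_add, Multiset.mem_singleton,
      true_and, forall_eq] at hold1
    refine ⟨hold1.1, fun h => ?_, fun h => ?_⟩
    · exact hold1.2 (Or.inl rfl) h.symm
    · exact hold1.2 (Or.inr rfl) h.symm
  have hfr : ∀ z, z ∈ (({(hh false, c1.count false)} + {(hh true, c1.count true)} +
        {(hh' false, F.count false)} + {(hh' true, F.count true)} +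
        {(rr false, c1.count false)} + {(rr true, c1.count true)} +
        {(rr' false, F.count false)} + {(rr' true, F.count true)} : Multiset (ℕ × ℕ)).map Prod.fst +
        ({N} + {N + 1} + {N + 2} + {N + 3}) + (([] : List (ℕ × ℕ)).map Prod.fst : List ℕ)) ↔
        (N ≤ z ∧ z < N + 12) := by
    intro z
    simp only [Multiset.map_add, Multiset.map_singleton, Multiset.mem_add, Multiset.mem_singleton,
      List.map_nil, Multiset.coe_nil, Multiset.notMem_zero, or_false, hh, hh', rr, rr',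
      Bool.toNat_false, Bool.toNat_true]
    omega
  have hk0 : ∀ t, c1.count t < k := by
    intro t
    have h1 := List.count_true_add_count_false c1
    have h2 := hE true
    have h3 := hE false
    rw [← hc1E] at h2 h3
    cases t <;> omega
  have hk1 : ∀ t, F.count t < k := by
    intro t
    have h1 := List.count_true_add_count_false F
    have h2 := hF true
    have h3 := hF false
    cases t <;> omega
  -- names of the pieces
  have hmb : ∀ z ∈ nm b k, z ∈ nmU U (Wd.pn c + Wd.pn d) := by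
    rintro z (⟨j, δ, hz⟩ | hz)
    · exact Or.inl ⟨j, δ, by simp [U, hz]⟩
    · rw [pn_full hb] at hz; simp at hz
  have hma : ∀ z ∈ nm a k, z ∈ nmU U (Wd.pn c + Wd.pn d) := by
    rintro z (⟨j, δ, hz⟩ | hz)
    · exact Or.inl ⟨j, δ, by simp [U, hz]⟩
    · rw [pn_full ha] at hz; simp at hz
  have hmc : ∀ z ∈ nm c k, z ∈ nmU U (Wd.pn c + Wd.pn d) := by
    rintro z (⟨j, δ, hz⟩ | hz)
    · exact Or.inl ⟨j, δ, by simp [U, hz]⟩
    · exact Or.inr (Multiset.mem_add.2 (Or.inl hz))
  have hmd : ∀ z ∈ nm d k, z ∈ nmU U (Wd.pn c + Wd.pn d) := by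
    rintro z (⟨j, δ, hz⟩ | hz)
    · exact Or.inl ⟨j, δ, by simp [U, hz]⟩
    · exact Or.inr (Multiset.mem_add.2 (Or.inr hz))
  have hmg : ∀ t, g t ∈ nmU U (Wd.pn c + Wd.pn d) := by
    intro t
    refine Or.inl ⟨c1.count t, true, ?_⟩
    cases t <;> simp [U]
  have hmg' : ∀ t, g' t ∈ nmU U (Wd.pn c + Wd.pn d) := by
    intro t
    refine Or.inl ⟨F.count t, true, ?_⟩
    cases t <;> simp [U]
  have hUN : ∀ z ∈ nmU U (Wd.pn c + Wd.pn d), z < N := by
    intro z hz
    refine hN z (nmU_names (olds := [_]) ?_)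
    rw [hoccR, hpnR]
    exact nmU_mono (Multiset.le_add_left _ _) (Multiset.le_add_left _ _) hz
  have hUρ : ∀ z ∈ nmU U (Wd.pn c + Wd.pn d), ρ' z = ρ z := fun z hz => upd_lt (hUN z hz)
  have v0 : ρ' N = ρ p * q := by simp [ρ', upd, vals]
  have v1 : ρ' (N + 1) = q' * ρ p' := by simp [ρ', upd, vals]
  have v2 : ρ' (N + 2) = q'⁻¹ := by simp [ρ', upd, vals]
  have v3 : ρ' (N + 3) = q⁻¹ := by simp [ρ', upd, vals]
  have v4 : ∀ t, ρ' (hh t) = ρ (g t) * γ t := by intro t; cases t <;> simp [ρ', upd, vals, hh]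
  have v5 : ∀ t, ρ' (hh' t) = γ' t * ρ (g' t) := by intro t; cases t <;> simp [ρ', upd, vals, hh']
  have v6 : ∀ t, ρ' (rr t) = (γ t)⁻¹ := by intro t; cases t <;> simp [ρ', upd, vals, rr]
  have v7 : ∀ t, ρ' (rr' t) = (γ' t)⁻¹ := by intro t; cases t <;> simp [ρ', upd, vals, rr']
  have eb : Wd.eval ρ' b = Wd.eval ρ b := eval_congr b k fun z hz => hUρ z (hmb z hz)
  have ea : Wd.eval ρ' a = Wd.eval ρ a := eval_congr a k fun z hz => hUρ z (hma z hz)
  have ec : Wd.eval ρ' c = Wd.eval ρ c := eval_congr c k fun z hz => hUρ z (hmc z hz)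
  have ed : Wd.eval ρ' d = Wd.eval ρ d := eval_congr d k fun z hz => hUρ z (hmd z hz)
  refine red_gen (olds := [_]) [R', C false, C true, C' false, C' true] [] {(x, k)} _ U _ _ _ hS hsol
    hoccR hpnR hoccN hpnN ?_ ?_ ?_ ?_ ?_ ?_ φ ρ' ?_ ?_ ?_ ?_ ?_ ?_
  · -- nodup
    simp [hh, hh', rr, rr']
  · -- fresh
    intro z hz hz'
    have h1 := (hfr z).1 hz
    have h2 := hN z hz'
    omega
  · simp
  · -- WF
    intro r hr
    simp only [List.mem_cons, List.not_mem_nil, or_false] at hr
    have hck : ∀ t, c1.count t ≤ n := fun t => le_trans List.count_le_length (by omega)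
    have hFn : ∀ t, F.count t ≤ n := fun t => le_trans List.count_le_length (by omega)
    rcases hr with rfl | rfl | rfl | rfl | rfl
    · refine ⟨hkn, hξ, ?_⟩
      simp only [R', Wd.WF, wf_app, Wd.last, last_app]
      refine ⟨hc1k, fun t => (hEE' t).symm, ?_, hσs, hF'k, fun t => by rw [hFF', hFc], Or.inl (by simp),
        fun _ _ => IsSc.one, hwc, wf_full ha, hFk, fun t => (hFF' t).symm, Or.inl (by simp),
        fun _ _ => IsSc.one, hE'k, fun t => by rw [hEE', hc1E], Or.inl (by simp),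
        fun _ _ => IsSc.one, wf_full hb, wf_none hwd⟩
      rcases hσe with h | h
      · exact Or.inl h
      · right
        by_cases hd : d = []
        · subst hd; cases h
        · rw [← h]; exact last_ne_nil hd _ _
    all_goals
      refine ⟨?_, IsSc.one, ?_⟩
      · simp only [C, C']
        first | exact hck _ | exact hFn _
      · simp [C, C', Wd.WF]
  · -- weight
    have w1 : Lt.wt k (Lt.par N e σ c1 E' hh) = Lt.wt k (Lt.par p e σ c1 E g) := rfl
    have w0 : Lt.wt k (Lt.par p' e' σ' F c2 g') = {3 * k} := by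
      simp only [Lt.wt]; rw [if_pos hF, if_pos hσ']
    have w2 : Lt.wt k (Lt.par (N + 1) [] (fun _ _ => 1) F' c2 hh') = {3 * k} := by
      simp only [Lt.wt]; rw [if_pos (fun t => by rw [hFF']; exact hF t), if_pos (by simp)]
    have w3 : Lt.wt k (Lt.par (N + 2) [] (fun _ _ => 1) F F' rr') = {3 * k} := by
      simp only [Lt.wt]; rw [if_pos hF, if_pos (by simp)]
    have w4 : Lt.wt k (Lt.par (N + 3) [] (fun _ _ => 1) E' E rr) = {3 * k} := by
      simp only [Lt.wt]
      rw [if_pos (fun t => by rw [hEE', hc1E]; exact hE t), if_pos (by simp)]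
    refine ⟨{3 * k} + Lt.wt k (Lt.par p e σ c1 E g) + Wd.wt b k + Wd.wt a k + {3 * k} + Wd.wt c k +
      Wd.wt d k, {3 * k} + {3 * k} + ((C false).wt + (C true).wt + (C' false).wt + (C' true).wt),
      {3 * k + 1} + {3 * k + 1}, ?_, ?_, ?_, ?_⟩
    · simp
    · simp only [List.map_cons, List.map_nil, List.sum_cons, List.sum_nil]
      simp only [Root.wt, R', wt_cons, wt_app, w1, w2, w3, w4, ← Multiset.singleton_add]
      abel
    · simp only [List.map_cons, List.map_nil, List.sum_cons, List.sum_nil, Root.wt, wt_cons, wt_app,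
        w0, wt_fl, ← Multiset.singleton_add]
      abel
    · intro y hy
      refine ⟨3 * k + 1, by simp, ?_⟩
      simp only [C, C', Root.wt, wt_cons, wt_nil, wt_fl, Multiset.mem_add, Multiset.mem_cons,
        Multiset.mem_singleton, Multiset.notMem_zero, or_false] at hy
      have h1 := hk0 false
      have h2 := hk0 true
      have h3 := hk1 false
      have h4 := hk1 true
      omega
  · -- Adm
    intro k0 hk r hr
    have hk := hk _ List.mem_cons_self
    change k < k0 ∨ k = k0 ∧ _ at hk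
    simp only [List.mem_cons, List.not_mem_nil, or_false] at hr
    rcases hr with rfl | rfl | rfl | rfl | rfl
    · rcases hk with hk | hk
      · exact Or.inl hk
      · refine Or.inr ⟨hk.1, ?_⟩
        exact ⟨_, List.mem_cons_self, fun t => by rw [hc1E]; exact hE t⟩
    · exact Or.inl (lt_of_lt_of_le (hk0 false) (by omega))
    · exact Or.inl (lt_of_lt_of_le (hk0 true) (by omega))
    · exact Or.inl (lt_of_lt_of_le (hk1 false) (by omega))
    · exact Or.inl (lt_of_lt_of_le (hk1 true) (by omega))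
  · -- ρ' solves the new roots
    refine ⟨?_, by simp⟩
    intro r hr
    simp only [List.mem_cons, List.not_mem_nil, or_false] at hr
    have hC : ∀ t, (C t).Sol ρ' := by
      intro t
      rw [sol_three]
      simp only [Lt.eval, v4, v6, hUρ _ (hmg t)]
      refine ⟨⟨hp.blk t, ?_, ?_⟩, ?_⟩
      · have := hq.blk t
        rw [← hc1E] at this
        exact (GLk n _).inv_mem this
      · have := hq.blk t
        rw [← hc1E] at this
        exact (GLk n _).mul_mem (hp.blk t) this
      · simp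
    have hC' : ∀ t, (C' t).Sol ρ' := by
      intro t
      rw [sol_three]
      simp only [Lt.eval, v5, v7, hUρ _ (hmg' t)]
      have h1 := hq'.blk t
      rw [hFF'] at h1
      refine ⟨⟨(GLk n _).inv_mem h1, hp'.blk t, (GLk n _).mul_mem h1 (hp'.blk t)⟩, ?_⟩
      simp
    rcases hr with rfl | rfl | rfl | rfl | rfl
    · refine ⟨?_, ?_⟩
      · simp only [R', sat_cons, sat_app, Lt.Sat, v0, v1, v2, v3, v4, v5, v6, v7]
        refine ⟨cmul _ _ _ _ _ _ _ hp hq, cmul _ _ _ _ _ _ _ hq' hp', ?_, ?_, cinv _ _ _ _ hq',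
          cinv _ _ _ _ hq, ?_, ?_⟩
        · exact (sat_congr c k fun z hz => hUρ z (hmc z hz)).2 hsc
        · exact (sat_congr a k fun z hz => hUρ z (hma z hz)).2 hsa
        · exact (sat_congr b k fun z hz => hUρ z (hmb z hz)).2 hsb
        · exact (sat_congr d k fun z hz => hUρ z (hmd z hz)).2 hsd
      · rw [← heq]
        simp only [R', ev_cons, ev_app, ea, eb, ec, ed]
        simp only [Lt.eval.eq_2, v0, v1, v2, v3, dsg_one _ _ hσ', dsg_one _ _ (fun _ _ => rfl), one_mul]
        have hXe : Lt.eval ρ (Lt.full x ε) = (Wd.eval ρ b)⁻¹ * (q * q') * (Wd.eval ρ a)⁻¹ := by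
          rw [← hX]; group
        rw [hXe]
        simp [mul_assoc]
    · exact hC false
    · exact hC true
    · exact hC' false
    · exact hC' true
  · -- outside of the fresh names
    intro z hz
    rw [hfr] at hz
    by_cases h : z < N
    · exact upd_lt h
    · exact upd_ge (by simp [vals]; omega)
  · -- φ at ρ'
    intro z hz
    simp only [Multiset.map_singleton, Multiset.mem_add, Multiset.mem_singleton] at hz
    rcases hz with rfl | rfl | rfl
    · simp only [φ, if_neg hpp'.2.1, if_neg hpp'.2.2, W, ea, eb, v3, v2]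
      have hXe : Lt.eval ρ (Lt.full z ε) = (Wd.eval ρ b)⁻¹ * (q * q') * (Wd.eval ρ a)⁻¹ := by
        rw [← hX]; group
      rw [← sgn_eval ρ z ε, hXe]
      congr 1
      group
    · simp only [φ, if_true, v0, v3]; group
    · simp only [φ, if_neg hpp'.1, if_true, v1, v2]; group
  · -- polynomial
    intro z _
    simp only [φ]
    by_cases h : z = p
    · simp only [h, if_true]
      exact polG_mul (polG_name _ _) (polG_name _ _)
    · simp only [h, if_false]
      by_cases h' : z = p'
      · simp only [h', if_true]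
        exact polG_mul (polG_name _ _) (polG_name _ _)
      · simp only [h', if_false, W]
        exact polG_sgn ε (polG_mul (polG_mul (polG_mul (polG_inv (polG_eval _ _))
          (polG_inv (polG_name _ _))) (polG_inv (polG_name _ _))) (polG_inv (polG_eval _ _)))
  · -- integral
    intro τ hτ hint _ z _
    have i1 : ∀ j < 4, τ (N + j) ∈ GO O n := by
      intro j hj
      refine hint _ (Or.inr ?_)
      rw [hpnN]
      simp only [Multiset.mem_add, Multiset.mem_singleton]
      omega
    have iU : ∀ z ∈ nmU U (Wd.pn c + Wd.pn d), τ z ∈ GO O n := by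
      intro z hz
      refine hint z ?_
      rw [hoccN, hpnN]
      exact nmU_mono (Multiset.le_add_left _ _) (Multiset.le_add_left _ _) hz
    have ib : Wd.eval τ b ∈ GO O n := GO_eval_full hb fun z hz => iU z (hmb z hz)
    have ia : Wd.eval τ a ∈ GO O n := GO_eval_full ha fun z hz => iU z (hma z hz)
    have i0 := i1 0 (by norm_num)
    have i2 := i1 2 (by norm_num)
    have i3 := i1 3 (by norm_num)
    have i1 := i1 1 (by norm_num)
    simp only [φ]
    split_ifs
    · exact (GO O n).mul_mem i0 i3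
    · exact (GO O n).mul_mem i2 i1
    · exact sgn_mem ((GO O n).mul_mem ((GO O n).mul_mem ((GO O n).mul_mem ((GO O n).inv_mem ib)
        ((GO O n).inv_mem i3)) ((GO O n).inv_mem i2)) ((GO O n).inv_mem ia))
  · -- back
    intro τ hτ τ' hφ hK r hr
    rw [List.mem_singleton] at hr
    subst hr
    have tb : Wd.eval τ' b = Wd.eval τ b := eval_congr b k fun z hz => hK z (hmb z hz)
    have ta : Wd.eval τ' a = Wd.eval τ a := eval_congr a k fun z hz => hK z (hma z hz)
    have tc : Wd.eval τ' c = Wd.eval τ c := eval_congr c k fun z hz => hK z (hmc z hz)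
    have td : Wd.eval τ' d = Wd.eval τ d := eval_congr d k fun z hz => hK z (hmd z hz)
    have fp : τ' p = τ N * τ (N + 3) := by
      rw [hφ p (by simp)]; simp [φ]
    have fp' : τ' p' = τ (N + 2) * τ (N + 1) := by
      rw [hφ p' (by simp)]; simp [φ, hpp'.1]
    have fx : τ' x = sgn ε (W τ) := by
      rw [hφ x (by simp)]; simp [φ, hpp'.2.1, hpp'.2.2]
    have fX : Lt.eval τ' (Lt.full x ε) = W τ := eval_sgn fx
    obtain ⟨hsR, heR⟩ := hτ.1 R' (by simp)
    simp only [R', sat_cons, sat_app, Lt.Sat] at hsR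
    obtain ⟨s1, s2, s3, s4, s5, s6, s7, s8⟩ := hsR
    simp only [R', ev_cons, ev_app] at heR
    simp only [Lt.eval.eq_2, dsg_one _ _ (fun _ _ => rfl), one_mul] at heR
    have hCs : ∀ t, (C t).Sol τ := by
      intro t; cases t
      · exact hτ.1 _ (by simp)
      · exact hτ.1 _ (by simp)
    have hC's : ∀ t, (C' t).Sol τ := by
      intro t; cases t
      · exact hτ.1 _ (by simp)
      · exact hτ.1 _ (by simp)
    have hCe : ∀ t, τ (hh t) * τ (rr t) = τ' (g t) := by
      intro t
      have := ((sol_three τ _ _ _ _ _ _ _).1 (hCs t)).2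
      simp only [Lt.eval] at this
      rw [hK _ (hmg t)]
      have h2 : τ (g t) = ((τ (rr t))⁻¹ * (τ (hh t))⁻¹)⁻¹ := eq_inv_of_mul_eq_one_left (by simpa using this)
      rw [h2]; group
    have hC'e : ∀ t, τ (rr' t) * τ (hh' t) = τ' (g' t) := by
      intro t
      have := ((sol_three τ _ _ _ _ _ _ _).1 (hC's t)).2
      simp only [Lt.eval] at this
      rw [hK _ (hmg' t)]
      have h2 : τ (rr' t) * ((τ (rr' t))⁻¹ * (τ (g' t) * (τ (hh' t))⁻¹)) * τ (hh' t) =
        τ (rr' t) * 1 * τ (hh' t) := by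
        rw [show (τ (rr' t))⁻¹ * (τ (g' t) * (τ (hh' t))⁻¹) = 1 from by simpa using this]
      rw [mul_one] at h2
      rw [← h2]; group
    refine ⟨?_, ?_⟩
    · simp only [sat_cons, sat_app, Lt.Sat, fp, fp', ← hCe, ← hC'e]
      have hxm : τ' x ∈ GLk n k := by
        rw [fx]
        have e4 : τ (N + 3) ∈ GLk n k := hE'k ▸ s6.mem
        have e3 : τ (N + 2) ∈ GLk n k := hFk ▸ s5.mem
        exact sgn_mem ((GLk n k).mul_mem ((GLk n k).mul_mem ((GLk n k).mul_mem
          ((GLk n k).inv_mem (eval_mem_full hb s7)) ((GLk n k).inv_mem e4))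
          ((GLk n k).inv_mem e3)) ((GLk n k).inv_mem (eval_mem_full ha s4)))
      refine ⟨cmul _ _ _ _ _ _ _ s1 s6, ?_, hxm, ?_, cmul _ _ _ _ _ _ _ s5 s2, ?_, hxm, ?_⟩
      · exact (sat_congr b k fun z hz => hK z (hmb z hz)).2 s7
      · exact (sat_congr a k fun z hz => hK z (hma z hz)).2 s4
      · exact (sat_congr c k fun z hz => hK z (hmc z hz)).2 s3
      · exact (sat_congr d k fun z hz => hK z (hmd z hz)).2 s8
    · rw [← heR]
      simp only [ev_cons, ev_app, eval_neg, fX, ta, tb, tc, td]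
      simp only [Lt.eval.eq_2, fp, fp', dsg_one _ _ hσ', one_mul, W]
      simp [mul_assoc]

end Crest.Agent.R003.W412
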