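import Crest.Agent.R003.S2_412

/-!
# Row 3: the step S4 (handle: double Bruhat decomposition) (helper412)
-/

set_option autoImplicit false

namespace Crest.Agent.R003.W412

open Crest.Agent.R003

/-- a root with six full letters -/
theorem sol_six {n : ℕ} (τ : ℕ → G n) (k : ℕ) (x y z u v w : ℕ) :
    (⟨k, 1, [Lt.full x true, Lt.full y false, Lt.full z false, Lt.full u false, Lt.full v false,
      Lt.full w false]⟩ : Root).Sol τ ↔
      (τ x ∈ GLk n k ∧ τ y ∈ GLk n k ∧ τ z ∈ GLk n k ∧ τ u ∈ GLk n k ∧ τ v ∈ GLk n k ∧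
        τ w ∈ GLk n k) ∧ τ x = τ w * τ v * τ u * τ z * τ y := by
  simp only [Root.Sol, sat_cons, Lt.Sat, ev_cons, ev_nil, mul_one, scal_one, one_mul, Lt.eval]
  have e1 : τ x * ((τ y)⁻¹ * ((τ z)⁻¹ * ((τ u)⁻¹ * ((τ v)⁻¹ * (τ w)⁻¹)))) =
      τ x * (τ w * τ v * τ u * τ z * τ y)⁻¹ := by simp [mul_assoc]
  simp only [if_true, Bool.false_eq_true, if_false, e1, mul_inv_eq_one]
  simp [Wd.Sat]

set_option maxHeartbeats 4000000 in
theorem s4 (O : Subring ℂ) (n : ℕ) (hB : Bruhat n) (hC : Calc n) : S4 O n := by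
  intro k ξ b a1 a2 a3 b' x y ε δ p e c1 E σ g rest fr ρ S hb ha1 ha2 ha3 hE hS hsol
  obtain ⟨cmul, cinv, -, -, -, -⟩ := hC
  -- unpack well-formedness
  obtain ⟨hkn, hξ, hwf⟩ := hS.roots _ List.mem_cons_self
  change k ≤ n at hkn
  simp only [Wd.WF, wf_app, Wd.last, last_app] at hwf
  obtain ⟨hc1k, hc1E, hσe, hσs, hwb, hwa1, hwa2, hwa3, hwb'⟩ := hwf
  have hEk : E.length = k := by
    have := List.count_true_add_count_false c1
    have h2 := List.count_true_add_count_false E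
    rw [hc1E, hc1E] at this
    omega
  -- unpack the solution
  obtain ⟨hsat, heq⟩ := hsol.1 _ List.mem_cons_self
  simp only [sat_cons, sat_app, Lt.Sat] at hsat
  obtain ⟨hp, hsb, hx, hsa1, hy, hsa2, -, hsa3, -, hsb'⟩ := hsat
  simp only [ev_cons, ev_app, eval_neg] at heq
  have mb := eval_mem_full hb hsb
  have ma1 := eval_mem_full ha1 hsa1
  have ma2 := eval_mem_full ha2 hsa2
  have ma3 := eval_mem_full ha3 hsa3
  have md := (GLk n k).mul_mem ((GLk n k).mul_mem mb ma3) ma2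
  have mx : Lt.eval ρ (Lt.full x ε) ∈ GLk n k := by cases ε <;> simp [Lt.eval, hx]
  have my : Lt.eval ρ (Lt.full y δ) ∈ GLk n k := by cases δ <;> simp [Lt.eval, hy]
  -- Bruhat
  obtain ⟨Ea, Fa, q, q', γ, γ', hEak, hFak, hq, hq', hX1⟩ := hB k hkn
    (Wd.eval ρ b * Lt.eval ρ (Lt.full x ε) * (Wd.eval ρ b * Wd.eval ρ a3 * Wd.eval ρ a2)⁻¹)
    ((GLk n k).mul_mem ((GLk n k).mul_mem mb mx) ((GLk n k).inv_mem md)) E E hEk hEk
  obtain ⟨Fb, Gb, s, s', β, β', hFbk, hGbk, hs, hs', hX2⟩ := hB k hkn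
    (q' * ((Wd.eval ρ b * Wd.eval ρ a3 * Wd.eval ρ a2) * Wd.eval ρ a1 * Lt.eval ρ (Lt.full y δ) *
      Wd.eval ρ a2 * (Wd.eval ρ b * Wd.eval ρ a3 * Wd.eval ρ a2)⁻¹))
    ((GLk n k).mul_mem (hFak ▸ hq'.mem) ((GLk n k).mul_mem ((GLk n k).mul_mem
      ((GLk n k).mul_mem ((GLk n k).mul_mem md ma1) my) ma2) ((GLk n k).inv_mem md))) Fa E hFak hEk
  have cEa : ∀ t, Ea.count t = c1.count t := fun t => by rw [hc1E, hq.cnt]
  have cFa : ∀ t, Fa.count t = c1.count t := fun t => by rw [hc1E, hq'.cnt]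
  have cFb : ∀ t, Fb.count t = c1.count t := fun t => by rw [← cFa, hs.cnt]
  have cGb : ∀ t, Gb.count t = c1.count t := fun t => by rw [hc1E, hs'.cnt]
  have cE : ∀ t, E.count t = c1.count t := fun t => by rw [hc1E]
  obtain ⟨N, hN⟩ := exists_bound S
  let hh : Bool → ℕ := fun t => N + (5 + t.toNat)
  let z2 : Bool → ℕ := fun t => N + (7 + t.toNat)
  let z3 : Bool → ℕ := fun t => N + (9 + t.toNat)
  let z4 : Bool → ℕ := fun t => N + (11 + t.toNat)
  let z5 : Bool → ℕ := fun t => N + (13 + t.toNat)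
  let R' : Root := ⟨k, ξ, Lt.par N e σ c1 Ea hh :: Lt.par (N + 1) [] (fun _ _ => 1) Fa Fb z2 ::
    Lt.par (N + 2) [] (fun _ _ => 1) Gb Fa z3 :: Lt.par (N + 3) [] (fun _ _ => 1) Ea Gb z4 ::
    Lt.par (N + 4) [] (fun _ _ => 1) Fb E z5 :: (b ++ (a3 ++ (a2 ++ (a1 ++ b'))))⟩
  let C : Bool → Root := fun t =>
    ⟨c1.count t, 1, [Lt.full (g t) true, Lt.full (z5 t) false, Lt.full (z2 t) false,
      Lt.full (z3 t) false, Lt.full (z4 t) false, Lt.full (hh t) false]⟩
  let vals : List (G n) := [ρ p * q, s, s' * q'⁻¹, q⁻¹ * s'⁻¹, s⁻¹ * q',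
    ρ (g false) * γ false, ρ (g true) * γ true, β false, β true,
    β' false * (γ' false)⁻¹, β' true * (γ' true)⁻¹, (γ false)⁻¹ * (β' false)⁻¹,
    (γ true)⁻¹ * (β' true)⁻¹, (β false)⁻¹ * γ' false, (β true)⁻¹ * γ' true]
  let ρ' : ℕ → G n := upd ρ N vals
  let d0 : (ℕ → G n) → G n := fun τ => Wd.eval τ b * Wd.eval τ a3 * Wd.eval τ a2
  let WA : (ℕ → G n) → G n := fun τ =>
    (Wd.eval τ b)⁻¹ * ((τ (N + 4))⁻¹ * (τ (N + 1))⁻¹ * (τ (N + 2))⁻¹ * (τ (N + 3))⁻¹ *
      τ (N + 1) * τ (N + 4)) * d0 τ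
  let WB : (ℕ → G n) → G n := fun τ =>
    (Wd.eval τ a1)⁻¹ * (d0 τ)⁻¹ * ((τ (N + 4))⁻¹ * τ (N + 2) * τ (N + 1) * τ (N + 4)) * d0 τ *
      (Wd.eval τ a2)⁻¹
  let φ : ℕ → (ℕ → G n) → G n := fun z τ =>
    if z = p then τ N * τ (N + 3) * τ (N + 2) * τ (N + 1) * τ (N + 4) else
      if z = x then sgn ε (WA τ) else sgn δ (WB τ)
  let U : Multiset (ℕ × ℕ × Bool) := {(g false, c1.count false, true)} +
    {(g true, c1.count true, true)} + Wd.occ b k + Wd.occ a1 k + Wd.occ a2 k + Wd.occ a3 k +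
    Wd.occ b' k
  have hoccR : occs [⟨k, ξ, Lt.par p e σ c1 E g :: (b ++ Lt.full x ε :: (a1 ++ Lt.full y δ :: (a2 ++
      Lt.full x (!ε) :: (a3 ++ Lt.full y (!δ) :: b'))))⟩] = pm ({(x, k)} + {(y, k)}) + U := by
    simp only [occs_cons, occs_nil, occ_cons, occ_app, Lt.occ, pair_eq, pm, Multiset.map_singleton,
      Multiset.map_add, U]
    cases ε <;> cases δ <;> simp only [Bool.not_false, Bool.not_true] <;> abel
  have hpnR : pns [⟨k, ξ, Lt.par p e σ c1 E g :: (b ++ Lt.full x ε :: (a1 ++ Lt.full y δ :: (a2 ++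
      Lt.full x (!ε) :: (a3 ++ Lt.full y (!δ) :: b'))))⟩] = {p} + Wd.pn b' := by
    simp only [pns_cons, pns_nil, pn_cons, pn_app, Lt.pn, pn_full ha1, pn_full ha2, pn_full ha3,
      pn_full hb]
    abel
  have hoccN : occs [R', C false, C true] =
      pm ({(hh false, c1.count false)} + {(hh true, c1.count true)} +
        {(z2 false, c1.count false)} + {(z2 true, c1.count true)} +
        {(z3 false, c1.count false)} + {(z3 true, c1.count true)} +
        {(z4 false, c1.count false)} + {(z4 true, c1.count true)} +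
        {(z5 false, c1.count false)} + {(z5 true, c1.count true)}) + U := by
    simp only [occs_cons, occs_nil, occ_cons, occ_nil, occ_app, Lt.occ, pair_eq, pm, Multiset.map_add,
      Multiset.map_singleton, U, R', C, cEa, cFa, cFb, cGb]
    abel
  have hpnN : pns [R', C false, C true] =
      ({N} + {N + 1} + {N + 2} + {N + 3} + {N + 4}) + Wd.pn b' := by
    simp only [pns_cons, pns_nil, pn_cons, pn_nil, pn_app, Lt.pn, pn_full ha1, pn_full ha2,
      pn_full ha3, pn_full hb, R', C]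
    abel
  obtain ⟨hold1, hold2⟩ := old_nodup (D := {(x, k)} + {(y, k)}) (olds := [_]) hS hoccR hpnR
  have hne : y ≠ x ∧ p ≠ x ∧ p ≠ y := by
    simp only [Multiset.map_singleton, Multiset.map_add, Multiset.nodup_add,
      Multiset.nodup_singleton,
      Multiset.disjoint_right, Multiset.mem_add, Multiset.mem_singleton,
      true_and, forall_eq] at hold1
    refine ⟨hold1.1, fun h => ?_, fun h => ?_⟩
    · exact hold1.2 (Or.inl h)
    · exact hold1.2 (Or.inr h)
  have hfr : ∀ z, z ∈ (({(hh false, c1.count false)} + {(hh true, c1.count true)} +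
        {(z2 false, c1.count false)} + {(z2 true, c1.count true)} +
        {(z3 false, c1.count false)} + {(z3 true, c1.count true)} +
        {(z4 false, c1.count false)} + {(z4 true, c1.count true)} +
        {(z5 false, c1.count false)} + {(z5 true, c1.count true)} : Multiset (ℕ × ℕ)).map Prod.fst +
        ({N} + {N + 1} + {N + 2} + {N + 3} + {N + 4}) +
          (([] : List (ℕ × ℕ)).map Prod.fst : List ℕ)) ↔ (N ≤ z ∧ z < N + 15) := by
    intro z
    simp only [Multiset.map_add, Multiset.map_singleton, Multiset.mem_add, Multiset.mem_singleton,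
      List.map_nil, Multiset.coe_nil, Multiset.notMem_zero, or_false, hh, z2, z3, z4, z5,
      Bool.toNat_false, Bool.toNat_true]
    omega
  have hk0 : ∀ t, c1.count t < k := by
    intro t
    have h1 := List.count_true_add_count_false c1
    have h2 := hE true
    have h3 := hE false
    rw [← hc1E] at h2 h3
    cases t <;> omega
  -- names of the pieces
  have hmb : ∀ z ∈ nm b k, z ∈ nmU U (Wd.pn b') := by
    rintro z (⟨j, δ, hz⟩ | hz)
    · exact Or.inl ⟨j, δ, by simp [U, hz]⟩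
    · rw [pn_full hb] at hz; simp at hz
  have hma1 : ∀ z ∈ nm a1 k, z ∈ nmU U (Wd.pn b') := by
    rintro z (⟨j, δ, hz⟩ | hz)
    · exact Or.inl ⟨j, δ, by simp [U, hz]⟩
    · rw [pn_full ha1] at hz; simp at hz
  have hma2 : ∀ z ∈ nm a2 k, z ∈ nmU U (Wd.pn b') := by
    rintro z (⟨j, δ, hz⟩ | hz)
    · exact Or.inl ⟨j, δ, by simp [U, hz]⟩
    · rw [pn_full ha2] at hz; simp at hz
  have hma3 : ∀ z ∈ nm a3 k, z ∈ nmU U (Wd.pn b') := by
    rintro z (⟨j, δ, hz⟩ | hz)
    · exact Or.inl ⟨j, δ, by simp [U, hz]⟩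
    · rw [pn_full ha3] at hz; simp at hz
  have hmb' : ∀ z ∈ nm b' k, z ∈ nmU U (Wd.pn b') := by
    rintro z (⟨j, δ, hz⟩ | hz)
    · exact Or.inl ⟨j, δ, by simp [U, hz]⟩
    · exact Or.inr hz
  have hmg : ∀ t, g t ∈ nmU U (Wd.pn b') := by
    intro t
    refine Or.inl ⟨c1.count t, true, ?_⟩
    cases t <;> simp [U]
  have hUN : ∀ z ∈ nmU U (Wd.pn b'), z < N := by
    intro z hz
    refine hN z (nmU_names (olds := [_]) ?_)
    rw [hoccR, hpnR]
    exact nmU_mono (Multiset.le_add_left _ _) (Multiset.le_add_left _ _) hz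
  have hUρ : ∀ z ∈ nmU U (Wd.pn b'), ρ' z = ρ z := fun z hz => upd_lt (hUN z hz)
  have v0 : ρ' N = ρ p * q := by simp [ρ', upd, vals]
  have v1 : ρ' (N + 1) = s := by simp [ρ', upd, vals]
  have v2 : ρ' (N + 2) = s' * q'⁻¹ := by simp [ρ', upd, vals]
  have v3 : ρ' (N + 3) = q⁻¹ * s'⁻¹ := by simp [ρ', upd, vals]
  have v4 : ρ' (N + 4) = s⁻¹ * q' := by simp [ρ', upd, vals]
  have v5 : ∀ t, ρ' (hh t) = ρ (g t) * γ t := by intro t; cases t <;> simp [ρ', upd, vals, hh]
  have v6 : ∀ t, ρ' (z2 t) = β t := by intro t; cases t <;> simp [ρ', upd, vals, z2]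
  have v7 : ∀ t, ρ' (z3 t) = β' t * (γ' t)⁻¹ := by intro t; cases t <;> simp [ρ', upd, vals, z3]
  have v8 : ∀ t, ρ' (z4 t) = (γ t)⁻¹ * (β' t)⁻¹ := by intro t; cases t <;> simp [ρ', upd, vals, z4]
  have v9 : ∀ t, ρ' (z5 t) = (β t)⁻¹ * γ' t := by intro t; cases t <;> simp [ρ', upd, vals, z5]
  have eb : Wd.eval ρ' b = Wd.eval ρ b := eval_congr b k fun z hz => hUρ z (hmb z hz)
  have ea1 : Wd.eval ρ' a1 = Wd.eval ρ a1 := eval_congr a1 k fun z hz => hUρ z (hma1 z hz)
  have ea2 : Wd.eval ρ' a2 = Wd.eval ρ a2 := eval_congr a2 k fun z hz => hUρ z (hma2 z hz)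
  have ea3 : Wd.eval ρ' a3 = Wd.eval ρ a3 := eval_congr a3 k fun z hz => hUρ z (hma3 z hz)
  have eb' : Wd.eval ρ' b' = Wd.eval ρ b' := eval_congr b' k fun z hz => hUρ z (hmb' z hz)
  have hAe : Lt.eval ρ (Lt.full x ε) = (Wd.eval ρ b)⁻¹ * (q * q') *
      (Wd.eval ρ b * Wd.eval ρ a3 * Wd.eval ρ a2) := by
    rw [← hX1]; group
  have hBe : Lt.eval ρ (Lt.full y δ) = (Wd.eval ρ a1)⁻¹ *
      (Wd.eval ρ b * Wd.eval ρ a3 * Wd.eval ρ a2)⁻¹ * (q'⁻¹ * (s * s')) *
      (Wd.eval ρ b * Wd.eval ρ a3 * Wd.eval ρ a2) * (Wd.eval ρ a2)⁻¹ := by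
    rw [← hX2]; group
  refine red_gen (olds := [_]) [R', C false, C true] [] ({(x, k)} + {(y, k)}) _ U _ _ _ hS hsol
    hoccR hpnR hoccN hpnN ?_ ?_ ?_ ?_ ?_ ?_ φ ρ' ?_ ?_ ?_ ?_ ?_ ?_
  · -- nodup
    simp [hh, z2, z3, z4, z5]
  · -- fresh
    intro z hz hz'
    have h1 := (hfr z).1 hz
    have h2 := hN z hz'
    omega
  · simp
  · -- WF
    intro r hr
    simp only [List.mem_cons, List.not_mem_nil, or_false] at hr
    have hck : ∀ t, c1.count t ≤ n := fun t => le_trans List.count_le_length (by omega)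
    rcases hr with rfl | rfl | rfl
    · refine ⟨hkn, hξ, ?_⟩
      simp only [R', Wd.WF, wf_app, Wd.last, last_app]
      refine ⟨hc1k, fun t => (cEa t).symm, ?_, hσs, hFak, fun t => by rw [cFa, cFb],
        Or.inl (by simp), fun _ _ => IsSc.one, hGbk, fun t => by rw [cFa, cGb], Or.inl (by simp),
        fun _ _ => IsSc.one, hEak, fun t => by rw [cEa, cGb], Or.inl (by simp),
        fun _ _ => IsSc.one, hFbk, fun t => by rw [cFb, cE], Or.inl (by simp),
        fun _ _ => IsSc.one, wf_full hb, wf_full ha3, wf_full ha2, wf_full ha1, wf_none hwb'⟩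
      rcases hσe with h | h
      · exact Or.inl h
      · right
        by_cases hd : b' = []
        · subst hd; cases h
        · rw [← h]; exact last_ne_nil hd _ _
    all_goals
      refine ⟨?_, IsSc.one, ?_⟩
      · simp only [C]
        exact hck _
      · simp [C, Wd.WF]
  · -- weight
    have w1 : Lt.wt k (Lt.par N e σ c1 Ea hh) = Lt.wt k (Lt.par p e σ c1 E g) := rfl
    have wp : ∀ (nn : ℕ) (c c' : List Bool) (gg : Bool → ℕ), (∀ t, c.count t = c1.count t) →
        Lt.wt k (Lt.par nn [] (fun _ _ => 1) c c' gg) = {3 * k} := by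
      intro nn c c' gg hc
      simp only [Lt.wt]
      rw [if_pos (fun t => by rw [hc, hc1E]; exact hE t), if_pos (by simp)]
    have w2 := wp (N + 1) Fa Fb z2 cFa
    have w3 := wp (N + 2) Gb Fa z3 cGb
    have w4 := wp (N + 3) Ea Gb z4 cEa
    have w5 := wp (N + 4) Fb E z5 cFb
    refine ⟨{3 * k} + Lt.wt k (Lt.par p e σ c1 E g) + Wd.wt b k + Wd.wt a1 k + Wd.wt a2 k +
      Wd.wt a3 k + Wd.wt b' k, {3 * k} + {3 * k} + {3 * k} + {3 * k} + ((C false).wt + (C true).wt),
      {3 * k + 1} + {3 * k + 1} + {3 * k + 1} + {3 * k + 1}, ?_, ?_, ?_, ?_⟩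
    · simp
    · simp only [List.map_cons, List.map_nil, List.sum_cons, List.sum_nil]
      simp only [Root.wt, R', wt_cons, wt_app, w1, w2, w3, w4, w5, ← Multiset.singleton_add]
      abel
    · simp only [List.map_cons, List.map_nil, List.sum_cons, List.sum_nil, Root.wt, wt_cons, wt_app,
        wt_fl, ← Multiset.singleton_add]
      abel
    · intro y hy
      refine ⟨3 * k + 1, by simp, ?_⟩
      simp only [C, Root.wt, wt_cons, wt_nil, wt_fl, Multiset.mem_add, Multiset.mem_cons,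
        Multiset.mem_singleton, Multiset.notMem_zero, or_false] at hy
      have h1 := hk0 false
      have h2 := hk0 true
      omega
  · -- Adm
    intro k0 hk r hr
    have hk := hk _ List.mem_cons_self
    change k < k0 ∨ k = k0 ∧ _ at hk
    simp only [List.mem_cons, List.not_mem_nil, or_false] at hr
    rcases hr with rfl | rfl | rfl
    · rcases hk with hk | hk
      · exact Or.inl hk
      · refine Or.inr ⟨hk.1, ?_⟩
        exact ⟨_, List.mem_cons_self, fun t => by rw [hc1E]; exact hE t⟩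
    · exact Or.inl (lt_of_lt_of_le (hk0 false) (by omega))
    · exact Or.inl (lt_of_lt_of_le (hk0 true) (by omega))
  · -- ρ' solves the new roots
    refine ⟨?_, by simp⟩
    intro r hr
    simp only [List.mem_cons, List.not_mem_nil, or_false] at hr
    have hC : ∀ t, (C t).Sol ρ' := by
      intro t
      rw [sol_six]
      simp only [v5, v6, v7, v8, v9, hUρ _ (hmg t)]
      have m1 := hp.blk t
      have m2 := hq.blk t
      have m3 := hq'.blk t
      have m4 := hs.blk t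
      have m5 := hs'.blk t
      rw [cE] at m2
      rw [cFa] at m3 m4
      rw [cGb] at m5
      refine ⟨⟨m1, (GLk n _).mul_mem ((GLk n _).inv_mem m4) m3, m4,
        (GLk n _).mul_mem m5 ((GLk n _).inv_mem m3),
        (GLk n _).mul_mem ((GLk n _).inv_mem m2) ((GLk n _).inv_mem m5),
        (GLk n _).mul_mem m1 m2⟩, ?_⟩
      group
    rcases hr with rfl | rfl | rfl
    · refine ⟨?_, ?_⟩
      · simp only [R', sat_cons, sat_app, Lt.Sat, v0, v1, v2, v3, v4, v5, v6, v7, v8, v9]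
        refine ⟨cmul _ _ _ _ _ _ _ hp hq, hs, cmul _ _ _ _ _ _ _ hs' (cinv _ _ _ _ hq'),
          cmul _ _ _ _ _ _ _ (cinv _ _ _ _ hq) (cinv _ _ _ _ hs'),
          cmul _ _ _ _ _ _ _ (cinv _ _ _ _ hs) hq', ?_, ?_, ?_, ?_, ?_⟩
        · exact (sat_congr b k fun z hz => hUρ z (hmb z hz)).2 hsb
        · exact (sat_congr a3 k fun z hz => hUρ z (hma3 z hz)).2 hsa3
        · exact (sat_congr a2 k fun z hz => hUρ z (hma2 z hz)).2 hsa2
        · exact (sat_congr a1 k fun z hz => hUρ z (hma1 z hz)).2 hsa1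
        · exact (sat_congr b' k fun z hz => hUρ z (hmb' z hz)).2 hsb'
      · rw [← heq]
        simp only [R', ev_cons, ev_app, ea1, ea2, ea3, eb, eb', hAe, hBe]
        simp only [Lt.eval.eq_2, v0, v1, v2, v3, v4, dsg_one _ _ (fun _ _ => rfl), one_mul]
        simp [mul_assoc]
    · exact hC false
    · exact hC true
  · -- outside of the fresh names
    intro z hz
    rw [hfr] at hz
    by_cases h : z < N
    · exact upd_lt h
    · exact upd_ge (by simp [vals]; omega)
  · -- φ at ρ'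
    intro z hz
    simp only [Multiset.map_singleton, Multiset.map_add, Multiset.mem_add,
      Multiset.mem_singleton] at hz
    rcases hz with (rfl | rfl) | rfl
    · simp only [φ, if_neg (Ne.symm hne.2.1), if_true, WA, d0, ea2, ea3, eb, v1, v2, v3, v4]
      rw [← sgn_eval ρ z ε, hAe]
      congr 1
      simp [mul_assoc]
    · simp only [φ, if_neg (Ne.symm hne.2.2), if_neg hne.1, WB, d0, ea1, ea2, ea3, eb, v1, v2, v4]
      rw [← sgn_eval ρ z δ, hBe]
      congr 1
      simp [mul_assoc]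
    · simp only [φ, if_true, v0, v1, v2, v3, v4]; simp [mul_assoc]
  · -- polynomial
    intro z _
    simp only [φ]
    have pd0 : PolG (newSol n [R', C false, C true] []) (fun τ => d0 τ) :=
      polG_mul (polG_mul (polG_eval _ _) (polG_eval _ _)) (polG_eval _ _)
    by_cases h : z = p
    · simp only [h, if_true]
      exact polG_mul (polG_mul (polG_mul (polG_mul (polG_name _ _) (polG_name _ _))
        (polG_name _ _)) (polG_name _ _)) (polG_name _ _)
    · simp only [h, if_false]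
      by_cases h' : z = x
      · simp only [h', if_true, WA]
        exact polG_sgn ε (polG_mul (polG_mul (polG_inv (polG_eval _ _))
          (polG_mul (polG_mul (polG_mul (polG_mul (polG_mul (polG_inv (polG_name _ _))
            (polG_inv (polG_name _ _))) (polG_inv (polG_name _ _))) (polG_inv (polG_name _ _)))
              (polG_name _ _)) (polG_name _ _))) pd0)
      · simp only [h', if_false, WB]
        exact polG_sgn δ (polG_mul (polG_mul (polG_mul (polG_mul (polG_inv (polG_eval _ _))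
          (polG_inv pd0)) (polG_mul (polG_mul (polG_mul (polG_inv (polG_name _ _))
            (polG_name _ _)) (polG_name _ _)) (polG_name _ _))) pd0) (polG_inv (polG_eval _ _)))
  · -- integral
    intro τ hτ hint _ z _
    have i1 : ∀ j < 5, τ (N + j) ∈ GO O n := by
      intro j hj
      refine hint _ (Or.inr ?_)
      rw [hpnN]
      simp only [Multiset.mem_add, Multiset.mem_singleton]
      omega
    have iU : ∀ z ∈ nmU U (Wd.pn b'), τ z ∈ GO O n := by
      intro z hz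
      refine hint z ?_
      rw [hoccN, hpnN]
      exact nmU_mono (Multiset.le_add_left _ _) (Multiset.le_add_left _ _) hz
    have ib : Wd.eval τ b ∈ GO O n := GO_eval_full hb fun z hz => iU z (hmb z hz)
    have ia1 : Wd.eval τ a1 ∈ GO O n := GO_eval_full ha1 fun z hz => iU z (hma1 z hz)
    have ia2 : Wd.eval τ a2 ∈ GO O n := GO_eval_full ha2 fun z hz => iU z (hma2 z hz)
    have ia3 : Wd.eval τ a3 ∈ GO O n := GO_eval_full ha3 fun z hz => iU z (hma3 z hz)
    have id0 : d0 τ ∈ GO O n := (GO O n).mul_mem ((GO O n).mul_mem ib ia3) ia2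
    have i0 := i1 0 (by norm_num)
    have i2 := i1 2 (by norm_num)
    have i3 := i1 3 (by norm_num)
    have i4 := i1 4 (by norm_num)
    have i1 := i1 1 (by norm_num)
    have mm : ∀ {u v : G n}, u ∈ GO O n → v ∈ GO O n → u * v ∈ GO O n := fun hu hv =>
      (GO O n).mul_mem hu hv
    have mi : ∀ {u : G n}, u ∈ GO O n → u⁻¹ ∈ GO O n := fun hu => (GO O n).inv_mem hu
    simp only [φ]
    split_ifs
    · exact mm (mm (mm (mm i0 i3) i2) i1) i4
    · exact sgn_mem (mm (mm (mi ib) (mm (mm (mm (mm (mm (mi i4) (mi i1)) (mi i2)) (mi i3)) i1) i4))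
        id0)
    · exact sgn_mem (mm (mm (mm (mm (mi ia1) (mi id0)) (mm (mm (mm (mi i4) i2) i1) i4)) id0)
        (mi ia2))
  · -- back
    intro τ hτ τ' hφ hK r hr
    rw [List.mem_singleton] at hr
    subst hr
    have tb : Wd.eval τ' b = Wd.eval τ b := eval_congr b k fun z hz => hK z (hmb z hz)
    have ta1 : Wd.eval τ' a1 = Wd.eval τ a1 := eval_congr a1 k fun z hz => hK z (hma1 z hz)
    have ta2 : Wd.eval τ' a2 = Wd.eval τ a2 := eval_congr a2 k fun z hz => hK z (hma2 z hz)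
    have ta3 : Wd.eval τ' a3 = Wd.eval τ a3 := eval_congr a3 k fun z hz => hK z (hma3 z hz)
    have tb' : Wd.eval τ' b' = Wd.eval τ b' := eval_congr b' k fun z hz => hK z (hmb' z hz)
    have fp : τ' p = τ N * τ (N + 3) * τ (N + 2) * τ (N + 1) * τ (N + 4) := by
      rw [hφ p (by simp)]; simp [φ]
    have fx : τ' x = sgn ε (WA τ) := by
      rw [hφ x (by simp)]; simp [φ, Ne.symm hne.2.1]
    have fy : τ' y = sgn δ (WB τ) := by
      rw [hφ y (by simp)]; simp [φ, Ne.symm hne.2.2, hne.1]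
    have fX : Lt.eval τ' (Lt.full x ε) = WA τ := eval_sgn fx
    have fY : Lt.eval τ' (Lt.full y δ) = WB τ := eval_sgn fy
    obtain ⟨hsR, heR⟩ := hτ.1 R' (by simp)
    simp only [R', sat_cons, sat_app, Lt.Sat] at hsR
    obtain ⟨s1, s2, s3, s4, s5, s6, s7, s8, s9, s10⟩ := hsR
    simp only [R', ev_cons, ev_app] at heR
    simp only [Lt.eval.eq_2, dsg_one _ _ (fun _ _ => rfl), one_mul] at heR
    have hCs : ∀ t, (C t).Sol τ := by
      intro t; cases t
      · exact hτ.1 _ (by simp)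
      · exact hτ.1 _ (by simp)
    have hCe : ∀ t, τ (hh t) * τ (z4 t) * τ (z3 t) * τ (z2 t) * τ (z5 t) = τ' (g t) := by
      intro t
      rw [hK _ (hmg t)]
      exact ((sol_six τ _ _ _ _ _ _ _).1 (hCs t)).2.symm
    refine ⟨?_, ?_⟩
    · simp only [sat_cons, sat_app, Lt.Sat, fp, ← hCe]
      have mm : ∀ {u v : G n}, u ∈ GLk n k → v ∈ GLk n k → u * v ∈ GLk n k := fun hu hv =>
        (GLk n k).mul_mem hu hv
      have mi : ∀ {u : G n}, u ∈ GLk n k → u⁻¹ ∈ GLk n k := fun hu => (GLk n k).inv_mem hu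
      have i1 : τ (N + 1) ∈ GLk n k := hFak ▸ s2.mem
      have i2 : τ (N + 2) ∈ GLk n k := hGbk ▸ s3.mem
      have i3 : τ (N + 3) ∈ GLk n k := hEak ▸ s4.mem
      have i4 : τ (N + 4) ∈ GLk n k := hFbk ▸ s5.mem
      have ib := eval_mem_full hb s6
      have ia3 := eval_mem_full ha3 s7
      have ia2 := eval_mem_full ha2 s8
      have ia1 := eval_mem_full ha1 s9
      have id0 : d0 τ ∈ GLk n k := mm (mm ib ia3) ia2
      have hxm : τ' x ∈ GLk n k := by
        rw [fx]
        exact sgn_mem (mm (mm (mi ib) (mm (mm (mm (mm (mm (mi i4) (mi i1)) (mi i2)) (mi i3)) i1) i4))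
          id0)
      have hym : τ' y ∈ GLk n k := by
        rw [fy]
        exact sgn_mem (mm (mm (mm (mm (mi ia1) (mi id0)) (mm (mm (mm (mi i4) i2) i1) i4)) id0)
          (mi ia2))
      refine ⟨?_, ?_, hxm, ?_, hym, ?_, hxm, ?_, hym, ?_⟩
      · exact cmul _ _ _ _ _ _ _ (cmul _ _ _ _ _ _ _ (cmul _ _ _ _ _ _ _
          (cmul _ _ _ _ _ _ _ s1 s4) s3) s2) s5
      · exact (sat_congr b k fun z hz => hK z (hmb z hz)).2 s6
      · exact (sat_congr a1 k fun z hz => hK z (hma1 z hz)).2 s9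
      · exact (sat_congr a2 k fun z hz => hK z (hma2 z hz)).2 s8
      · exact (sat_congr a3 k fun z hz => hK z (hma3 z hz)).2 s7
      · exact (sat_congr b' k fun z hz => hK z (hmb' z hz)).2 s10
    · rw [← heR]
      simp only [ev_cons, ev_app, eval_neg, fX, fY, ta1, ta2, ta3, tb, tb']
      simp only [Lt.eval.eq_2, fp, WA, WB, d0]
      simp [mul_assoc]

end Crest.Agent.R003.W412
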