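import Crest.Agent.R003.Book5_227

/-!
# Row 3: step S5 (helper227)
-/

set_option autoImplicit false

namespace Crest.Agent.R003.S227

open Dt

variable {n : ℕ}

/-- values at the fresh names -/
def tab (h1 h3 : Bool → G n) (uE vY vX uX : Bool → G n) (a n' b m' : Bool → Bool → G n)
    (zL zR : G n) : ℕ → G n
  | 0 => h1 false
  | 1 => h1 true
  | 2 => h3 false
  | 3 => h3 true
  | 4 => uE false
  | 5 => uE true
  | 6 => vY false
  | 7 => vY true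
  | 8 => vX false
  | 9 => vX true
  | 10 => uX false
  | 11 => uX true
  | 12 => a false false
  | 13 => a false true
  | 14 => a true false
  | 15 => a true true
  | 16 => n' false false
  | 17 => n' false true
  | 18 => n' true false
  | 19 => n' true true
  | 20 => b false false
  | 21 => b false true
  | 22 => b true false
  | 23 => b true true
  | 24 => m' false false
  | 25 => m' false true
  | 26 => m' true false
  | 27 => m' true true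
  | 28 => zL
  | 29 => zR
  | _ => 1

/-- the new point -/
def newρ (N p1 p3 : ℕ) (q1 q3 : G n) (t : ℕ → G n) (ρ : ℕ → G n) : ℕ → G n := fun y =>
  if y = p1 then q1 else if y = p3 then q3 else if N ≤ y then t (y - N) else ρ y

section newρ

variable {N p1 p3 : ℕ} {q1 q3 : G n} {t ρ : ℕ → G n}

theorem newρ_p1 : newρ N p1 p3 q1 q3 t ρ p1 = q1 := by simp [newρ]

theorem newρ_p3 (h : p1 ≠ p3) : newρ N p1 p3 q1 q3 t ρ p3 = q3 := by
  simp [newρ, h.symm]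

theorem newρ_fresh (h1 : p1 < N) (h3 : p3 < N) (i : ℕ) :
    newρ N p1 p3 q1 q3 t ρ (N + i) = t i := by
  have e1 : ¬ (N + i = p1) := by omega
  have e2 : ¬ (N + i = p3) := by omega
  simp [newρ, e1, e2]

theorem newρ_old {y : ℕ} (h : y < N) (h1 : y ≠ p1) (h3 : y ≠ p3) :
    newρ N p1 p3 q1 q3 t ρ y = ρ y := by
  simp [newρ, h1, h3, not_le.2 h]

end newρ

/-- the map on points -/
def PL (D : Dt) (ΦL : (Bool → G n) → (Bool → G n) → G n → G n) (τ : ℕ → G n) : G n :=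
  L5 n D.E D.X D.σ2 ΦL (fun e => τ (nE D.N e)) (fun x => τ (nlX D.N x)) (τ (nzL D.N))

def PR (D : Dt) (ΦR : (Bool → G n) → (Bool → G n) → G n → G n) (τ : ℕ → G n) : G n :=
  R5 n D.X' D.Y D.σ3 ΦR (fun x => τ (nrX D.N x)) (fun y => τ (nY D.N y)) (τ (nzR D.N))

def Phi (D : Dt) (N1 N3 : G n) (ΦL ΦR : (Bool → G n) → (Bool → G n) → G n → G n)
    (τ : ℕ → G n) : ℕ → G n := fun y =>
  if y = D.p1 then P1of n D.E D.X D.σ2 N1 (PL D ΦL τ) (τ D.p1)
  else if y = D.p2 then PL D ΦL τ * Th n D.Et D.Yt N1 N3 * PR D ΦR τ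
  else if y = D.p3 then P3of n D.X' D.Y D.σ3 N3 (PR D ΦR τ) (τ D.p3)
  else τ y

section Phi

variable {D : Dt} {N1 N3 : G n} {ΦL ΦR : (Bool → G n) → (Bool → G n) → G n → G n} {τ : ℕ → G n}

theorem Phi_p1 : Phi D N1 N3 ΦL ΦR τ D.p1 = P1of n D.E D.X D.σ2 N1 (PL D ΦL τ) (τ D.p1) := by
  simp [Phi]

theorem Phi_p2 (h : D.p1 ≠ D.p2) :
    Phi D N1 N3 ΦL ΦR τ D.p2 = PL D ΦL τ * Th n D.Et D.Yt N1 N3 * PR D ΦR τ := by
  simp [Phi, h.symm]

theorem Phi_p3 (h : D.p1 ≠ D.p3) (h' : D.p2 ≠ D.p3) :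
    Phi D N1 N3 ΦL ΦR τ D.p3 = P3of n D.X' D.Y D.σ3 N3 (PR D ΦR τ) (τ D.p3) := by
  simp [Phi, h.symm, h'.symm]

theorem Phi_old {y : ℕ} (h1 : y ≠ D.p1) (h2 : y ≠ D.p2) (h3 : y ≠ D.p3) :
    Phi D N1 N3 ΦL ΦR τ y = τ y := by
  simp [Phi, h1, h2, h3]

end Phi

/-- signs: the labels in the sign are the right ones -/
theorem dsg_fix {e E X : List Bool} {σ : Bool → Bool → ℂˣ} (h : (∀ x y, σ x y = 1) ∨ E = e) :
    dsg n e X σ = dsg n E X σ := by
  rcases h with h | h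
  · rw [dsg_one' _ _ h, dsg_one' _ _ h]
  · rw [h]

theorem s5_core {O : Subring ℂ} (hC : Calc n) (D : Dt) (F : Fc n O D) {rest : List Root}
    {fr : List (ℕ × ℕ)} {ρ : ℕ → G n} (hWF : Sys.WF O n ⟨[D.old] ++ rest, fr⟩)
    (hρ : ρ ∈ Sys.Sol n ⟨[D.old] ++ rest, fr⟩)
    (hlt : ∀ x ∈ Sys.names ⟨[D.old] ++ rest, fr⟩, x < D.N)
    {N1 N3 : G n} {ΦL ΦR : (Bool → G n) → (Bool → G n) → G n → G n}
    {h1 h3 : Bool → G n} {a n' b m' : Bool → Bool → G n}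
    {uE uX vY vX : Bool → G n} {q1 q3 zL zR : G n}
    (hcor : Cor5 n D.k D.E D.X D.X' D.Y D.Et D.Yt D.XE D.XY N1 N3)
    (hGL : GlueFun n D.E D.X D.Et D.XE ΦL) (hGR : GlueFun n D.XY D.Yt D.X' D.Y ΦR)
    (hnew : New5 n D.k D.c1 D.E D.X D.X' D.Y D.c3 D.Et D.Yt D.XE D.XY D.σ2 D.σ3
      (fun e => ρ (D.g1 e)) (fun x => ρ (D.g2 x)) (fun y => ρ (D.g3 y))
      h1 h3 a n' b m' uE uX vY vX q1 q3 zL zR)
    (E1 : P1of n D.E D.X D.σ2 N1 (L5 n D.E D.X D.σ2 ΦL uE uX zL) q1 = ρ D.p1)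
    (E2 : L5 n D.E D.X D.σ2 ΦL uE uX zL * Th n D.Et D.Yt N1 N3 *
      R5 n D.X' D.Y D.σ3 ΦR vX vY zR = ρ D.p2)
    (E3 : P3of n D.X' D.Y D.σ3 N3 (R5 n D.X' D.Y D.σ3 ΦR vX vY zR) q3 = ρ D.p3) :
    Red O n ⟨[D.old] ++ rest, fr⟩ ρ := by
  set S : Sys := ⟨[D.old] ++ rest, fr⟩ with hS
  -- names
  have epn : S.pn = pnL [D.old] + pnL rest := by rw [Sys.pn_eq, hS, pnL_append]
  have eocc : S.occ = occL [D.old] + occL rest := by rw [Sys.occ_eq, hS, occL_append]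
  have nd : (pnL [D.old]).Nodup := by
    have := hWF.pn_nodup
    rw [epn] at this
    exact (Multiset.nodup_add.1 this).1
  have nd' : (D.p2 ::ₘ D.p1 ::ₘ D.p3 ::ₘ Wd.pn D.w).Nodup := by
    have e : D.p2 ::ₘ D.p1 ::ₘ D.p3 ::ₘ Wd.pn D.w = {D.p2} + ({D.p1} + {D.p3} + Wd.pn D.w) := by
      simp only [← Multiset.singleton_add]; abel
    rw [e, ← pnL_old]; exact nd
  simp only [Multiset.nodup_cons, Multiset.mem_cons, not_or] at nd'
  obtain ⟨⟨n21, n23, n2w⟩, ⟨n13, n1w⟩, n3w, -⟩ := nd'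
  have lt_pn : ∀ x ∈ pnL [D.old], x < D.N := fun x hx =>
    hlt x (Or.inr (Or.inl (by rw [epn]; exact Multiset.mem_add.2 (Or.inl hx))))
  have lt_occ : ∀ x k ε, (x, k, ε) ∈ occL [D.old] → x < D.N := fun x k ε hx =>
    hlt x (Or.inl ⟨k, ε, by rw [eocc]; exact Multiset.mem_add.2 (Or.inl hx)⟩)
  have m1 : D.p1 ∈ pnL [D.old] := by rw [pnL_old]; simp
  have m2 : D.p2 ∈ pnL [D.old] := by rw [pnL_old]; simp
  have m3 : D.p3 ∈ pnL [D.old] := by rw [pnL_old]; simp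
  have occ_ne : ∀ x k ε, (x, k, ε) ∈ occL [D.old] → ∀ y ∈ pnL [D.old], x ≠ y := by
    rintro x k ε hx y hy rfl
    exact hWF.occ_not_pn (by rw [eocc]; exact Multiset.mem_add.2 (Or.inl hx))
      (by rw [epn]; exact Multiset.mem_add.2 (Or.inl hy))
  -- a set of "kept" names
  have oo : ∀ x k' ε, (x, k', ε) ∈ occL [D.old] →
      x < D.N ∧ x ≠ D.p1 ∧ x ≠ D.p2 ∧ x ≠ D.p3 := fun x k' ε hx =>
    ⟨lt_occ x k' ε hx, occ_ne x k' ε hx _ m1, occ_ne x k' ε hx _ m2, occ_ne x k' ε hx _ m3⟩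
  have ow : ∀ x, ((∃ k' ε, (x, k', ε) ∈ Wd.occ D.w D.k) ∨ x ∈ Wd.pn D.w) →
      x < D.N ∧ x ≠ D.p1 ∧ x ≠ D.p2 ∧ x ≠ D.p3 := by
    rintro x (⟨k', ε, hx⟩ | hx)
    · refine oo x k' ε ?_
      simp only [occL_cons, occL_nil, Root.occ, Dt.old, Wd.occ, List.map_cons, List.sum_cons,
        Multiset.mem_add]
      exact Or.inl (Or.inr (Or.inr (Or.inr hx)))
    · refine ⟨lt_pn x ?_, ?_, ?_, ?_⟩
      · rw [pnL_old]; exact Multiset.mem_add.2 (Or.inr (Multiset.mem_add.2 (Or.inr hx)))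
      · rintro rfl; exact n1w hx
      · rintro rfl; exact n2w hx
      · rintro rfl; exact n3w hx
  have g1o : ∀ e, D.g1 e < D.N ∧ D.g1 e ≠ D.p1 ∧ D.g1 e ≠ D.p2 ∧ D.g1 e ≠ D.p3 := by
    intro e
    refine oo _ (D.c1.count e) true ?_
    simp only [occL_cons, occL_nil, Root.occ, Dt.old, Wd.occ, List.map_cons, List.sum_cons,
      Multiset.mem_add, Lt.occ]
    left; left
    cases e <;> simp
  have g2o : ∀ e, D.g2 e < D.N ∧ D.g2 e ≠ D.p1 ∧ D.g2 e ≠ D.p2 ∧ D.g2 e ≠ D.p3 := by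
    intro e
    refine oo _ (D.X.count e) true ?_
    simp only [occL_cons, occL_nil, Root.occ, Dt.old, Wd.occ, List.map_cons, List.sum_cons,
      Multiset.mem_add, Lt.occ]
    left; right; left
    cases e <;> simp
  have g3o : ∀ e, D.g3 e < D.N ∧ D.g3 e ≠ D.p1 ∧ D.g3 e ≠ D.p2 ∧ D.g3 e ≠ D.p3 := by
    intro e
    refine oo _ (D.Y.count e) true ?_
    simp only [occL_cons, occL_nil, Root.occ, Dt.old, Wd.occ, List.map_cons, List.sum_cons,
      Multiset.mem_add, Lt.occ]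
    left; right; right; left
    cases e <;> simp
  have l1 := lt_pn _ m1
  have l3 := lt_pn _ m3
  -- the new point
  obtain ⟨ρ', hρ'⟩ : ∃ ρ' : ℕ → G n, ρ' = newρ D.N D.p1 D.p3 q1 q3
    (tab h1 h3 uE vY vX uX a n' b m' zL zR) ρ := ⟨_, rfl⟩
  have r1 : ρ' D.p1 = q1 := by rw [hρ']; exact newρ_p1
  have r3 : ρ' D.p3 = q3 := by rw [hρ']; exact newρ_p3 n13
  have rf : ∀ i, ρ' (D.N + i) = tab h1 h3 uE vY vX uX a n' b m' zL zR i := fun i => by
    rw [hρ']; exact newρ_fresh l1 l3 i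
  have ro : ∀ {y}, (y < D.N ∧ y ≠ D.p1 ∧ y ≠ D.p2 ∧ y ≠ D.p3) → ρ' y = ρ y := by
    rintro y ⟨hy, hy1, hy2, hy3⟩
    rw [hρ']; exact newρ_old hy hy1 hy3
  have f1 : ∀ e, ρ' (nh1 D.N e) = h1 e := by
    intro e; cases e
    · exact rf 0
    · exact rf 1
  have f2 : ∀ e, ρ' (nh3 D.N e) = h3 e := by
    intro e; cases e
    · exact rf 2
    · exact rf 3
  have f3 : ∀ e, ρ' (nE D.N e) = uE e := by
    intro e; cases e
    · exact rf 4
    · exact rf 5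
  have f4 : ∀ e, ρ' (nY D.N e) = vY e := by
    intro e; cases e
    · exact rf 6
    · exact rf 7
  have f5 : ∀ e, ρ' (nrX D.N e) = vX e := by
    intro e; cases e
    · exact rf 8
    · exact rf 9
  have f6 : ∀ e, ρ' (nlX D.N e) = uX e := by
    intro e; cases e
    · exact rf 10
    · exact rf 11
  have f7 : ∀ e x, ρ' (na D.N e x) = a e x := by
    intro e x; cases e <;> cases x
    · exact rf 12
    · exact rf 13
    · exact rf 14
    · exact rf 15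
  have f8 : ∀ e x, ρ' (nn' D.N e x) = n' e x := by
    intro e x; cases e <;> cases x
    · exact rf 16
    · exact rf 17
    · exact rf 18
    · exact rf 19
  have f9 : ∀ e x, ρ' (nb D.N e x) = b e x := by
    intro e x; cases e <;> cases x
    · exact rf 20
    · exact rf 21
    · exact rf 22
    · exact rf 23
  have f10 : ∀ e x, ρ' (nm' D.N e x) = m' e x := by
    intro e x; cases e <;> cases x
    · exact rf 24
    · exact rf 25
    · exact rf 26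
    · exact rf 27
  have f11 : ρ' (nzL D.N) = zL := rf 28
  have f12 : ρ' (nzR D.N) = zR := rf 29
  have hPEq : D.PEq ρ' := by
    unfold Dt.PEq
    simp only [f1, f2, f3, f4, f5, f6, f7, f8, f9, f10, f11, f12, r1, r3, ro (g1o _), ro (g2o _),
      ro (g3o _)]
    exact hnew
  -- the old equations
  have hold : D.old.Sol ρ := hρ.1 _ (List.mem_append.2 (Or.inl (List.mem_singleton.2 rfl)))
  obtain ⟨hSat, hEq⟩ := hold
  have A1 : IsPar D.c1 D.E (fun b => ρ (D.g1 b)) (ρ D.p1) :=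
    hSat (Lt.par D.p1 D.e1 D.σ1 D.c1 D.E D.g1) (by simp [Dt.old])
  have A2 : IsPar D.X D.X' (fun b => ρ (D.g2 b)) (ρ D.p2) :=
    hSat (Lt.par D.p2 D.e2 D.σ2 D.X D.X' D.g2) (by simp [Dt.old])
  have A3 : IsPar D.Y D.c3 (fun b => ρ (D.g3 b)) (ρ D.p3) :=
    hSat (Lt.par D.p3 D.e3 D.σ3 D.Y D.c3 D.g3) (by simp [Dt.old])
  have A4 : Wd.Sat ρ D.w D.k := fun l hl => hSat l (by simp [Dt.old, hl])
  have wSat : ∀ τ τ' : ℕ → G n, (∀ y, (y < D.N ∧ y ≠ D.p1 ∧ y ≠ D.p2 ∧ y ≠ D.p3) → τ y = τ' y) →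
      Wd.Sat τ D.w D.k → Wd.Sat τ' D.w D.k := fun τ τ' h h' =>
    Wd.Sat_congr (fun x hx => h x (ow x hx)) h'
  have wEval : ∀ τ τ' : ℕ → G n, (∀ y, (y < D.N ∧ y ≠ D.p1 ∧ y ≠ D.p2 ∧ y ≠ D.p3) → τ y = τ' y) →
      Wd.eval τ D.w = Wd.eval τ' D.w := fun τ τ' h =>
    Wd.eval_congr D.k (fun x hx => h x (ow x hx))
  have d2 : dsg n D.e2 D.X D.σ2 = dsg n D.E D.X D.σ2 := dsg_fix F.s2
  have d3 : dsg n D.e3 D.Y D.σ3 = dsg n D.X' D.Y D.σ3 := dsg_fix F.s3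
  have hbw := New5.bwd hC F.lE F.lX F.lX' F.lY F.hk hcor hGL hGR hnew
  simp only [E1, E2, E3] at hbw
  obtain ⟨-, -, -, hbw4⟩ := hbw
  have hEq' : scal n D.k D.ξ * (dsg n D.e1 D.c1 D.σ1 * ρ D.p1 * (dsg n D.E D.X D.σ2 * ρ D.p2 *
      (dsg n D.X' D.Y D.σ3 * ρ D.p3 * Wd.eval ρ D.w))) = 1 := by
    have h := hEq
    simp only [Dt.old, Wd.eval, List.map_cons, List.prod_cons, Lt.eval, d2, d3] at h
    exact h
  have hVEq : D.VEq ρ' := by
    unfold Dt.VEq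
    rw [r1, r3, wEval ρ' ρ (fun y hy => ro hy)]
    rw [← hEq']
    calc scal n D.k D.ξ * (dsg n D.e1 D.c1 D.σ1 * q1 * (dsg n D.Et D.Yt sg * q3 * Wd.eval ρ D.w))
        = scal n D.k D.ξ * (dsg n D.e1 D.c1 D.σ1 * (q1 * (dsg n D.Et D.Yt sg * q3)) *
            Wd.eval ρ D.w) := by group
      _ = _ := by rw [← hbw4]; group
  have hSol' := sol_bwd (D := D) F.toCn (τ := ρ')
    (fun e => by rw [ro (g1o e), ← F.c1E]; exact A1.blk e)
    (fun e => by rw [ro (g2o e)]; exact A2.blk e)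
    (fun e => by rw [ro (g3o e)]; exact A3.blk e)
    (wSat ρ ρ' (fun y hy => (ro hy).symm) A4) hVEq hPEq
  -- properties of points of the new system
  have kL : ∀ τ : ℕ → G n, D.PEq τ → ∃ nn, GlueData D.E D.X D.Et D.XE nn
      (fun e => (DE n D.E D.X D.σ2 e)⁻¹ * τ (nE D.N e)) (fun x => (τ (nlX D.N x))⁻¹) (τ (nzL D.N)) :=
    fun τ h => ⟨_, New5.glueL hC F.lE F.lX F.hk h⟩
  have kR : ∀ τ : ℕ → G n, D.PEq τ → ∃ nn, GlueData D.XY D.Yt D.X' D.Y nn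
      (fun x => (τ (nrX D.N x))⁻¹) (fun y => τ (nY D.N y) * (DY n D.X' D.Y D.σ3 y)⁻¹)
      (τ (nzR D.N)) :=
    fun τ h => ⟨_, New5.glueR hC F.lX' F.lY F.lXY F.hk h⟩
  have notLoc : ∀ x, x ∉ Loc S [D.old] → x < D.N ∧ x ≠ D.p1 ∧ x ≠ D.p2 ∧ x ≠ D.p3 := by
    intro x hx
    have hx1 : x ∈ S.names := by
      by_contra h; exact hx (Or.inl h)
    have hx2 : x ∉ pnL [D.old] := fun h => hx (Or.inr (Or.inl h))
    exact ⟨hlt x hx1, fun h => hx2 (h ▸ m1), fun h => hx2 (h ▸ m2), fun h => hx2 (h ▸ m3)⟩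
  have nmL : ∀ x ∈ namesL [D.old], x = D.p1 ∨ x = D.p2 ∨ x = D.p3 ∨
      (x < D.N ∧ x ≠ D.p1 ∧ x ≠ D.p2 ∧ x ≠ D.p3) := by
    rintro x (⟨k', ε, hx⟩ | hx)
    · exact Or.inr (Or.inr (Or.inr (oo x k' ε hx)))
    · by_cases q1 : x = D.p1
      · exact Or.inl q1
      by_cases q2 : x = D.p2
      · exact Or.inr (Or.inl q2)
      by_cases q3 : x = D.p3
      · exact Or.inr (Or.inr (Or.inl q3))
      exact Or.inr (Or.inr (Or.inr ⟨lt_pn x hx, q1, q2, q3⟩))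
  refine local_step [D.old] D.B rest fr D.fr' ρ ρ' 0 D.Vn (Phi D N1 N3 ΦL ΦR) hWF hρ (WF_B F)
    ?_ (by simp) (by simp) (occ_bal F.toCn) (nodup_new nd lt_pn) (fun y hy => fresh_new hlt hy)
    (wt_B F) (adm_B F) hSol'.1 hSol'.2 ?_ ?_ ?_ ?_ ?_ ?_
  · intro z hz
    simp only [Dt.fr', List.mem_cons, List.not_mem_nil, or_false] at hz
    rcases hz with rfl | rfl
    · exact F.hk
    · exact F.hk
  · intro x hx
    exact ro (notLoc x hx)
  · -- polynomiality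
    intro x
    have pL : PolG {σ : ℕ → G n | (∀ r ∈ D.B, r.Sol σ) ∧ ∀ z ∈ D.fr', σ z.1 ∈ GLk n z.2}
        (fun σ => PL D ΦL σ) :=
      polL5 hGL (fun e => PolG.coord _) (fun x => PolG.coord _) (PolG.coord _)
        (fun σ hσ => kL σ (sol_fwd hσ.1 hσ.2).2.2.2.2.2)
    have pR : PolG {σ : ℕ → G n | (∀ r ∈ D.B, r.Sol σ) ∧ ∀ z ∈ D.fr', σ z.1 ∈ GLk n z.2}
        (fun σ => PR D ΦR σ) :=
      polR5 hGR (fun e => PolG.coord _) (fun x => PolG.coord _) (PolG.coord _)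
        (fun σ hσ => kR σ (sol_fwd hσ.1 hσ.2).2.2.2.2.2)
    unfold Phi
    exact PolG.ite _ (polP1 pL (PolG.coord _)) (PolG.ite _ (polP2 pL pR)
      (PolG.ite _ (polP3 pR (PolG.coord _)) (PolG.coord _)))
  · intro x hx σ
    obtain ⟨-, hx1, hx2, hx3⟩ := notLoc x hx
    exact Phi_old hx1 hx2 hx3
  · -- the old equations hold
    intro σ h h' r hr
    rw [List.mem_singleton] at hr
    subst hr
    obtain ⟨-, -, -, hw4, hV, hP⟩ := sol_fwd h h'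
    obtain ⟨b1, b2, b3, b4⟩ := New5.bwd hC F.lE F.lX F.lX' F.lY F.hk hcor hGL hGR hP
    have q1 : Phi D N1 N3 ΦL ΦR σ D.p1 = P1of n D.E D.X D.σ2 N1 (PL D ΦL σ) (σ D.p1) := Phi_p1
    have q2 : Phi D N1 N3 ΦL ΦR σ D.p2 = PL D ΦL σ * Th n D.Et D.Yt N1 N3 * PR D ΦR σ :=
      Phi_p2 (Ne.symm n21)
    have q3 : Phi D N1 N3 ΦL ΦR σ D.p3 = P3of n D.X' D.Y D.σ3 N3 (PR D ΦR σ) (σ D.p3) :=
      Phi_p3 n13 n23
    have qo : ∀ {y}, (y < D.N ∧ y ≠ D.p1 ∧ y ≠ D.p2 ∧ y ≠ D.p3) →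
        Phi D N1 N3 ΦL ΦR σ y = σ y := fun hy => Phi_old hy.2.1 hy.2.2.1 hy.2.2.2
    constructor
    · intro l hl
      simp only [Dt.old, List.mem_cons] at hl
      rcases hl with rfl | rfl | rfl | hl
      · show IsPar D.c1 D.E (fun b => Phi D N1 N3 ΦL ΦR σ (D.g1 b)) (Phi D N1 N3 ΦL ΦR σ D.p1)
        simp only [qo (g1o _), q1]
        exact b1
      · show IsPar D.X D.X' (fun b => Phi D N1 N3 ΦL ΦR σ (D.g2 b)) (Phi D N1 N3 ΦL ΦR σ D.p2)
        simp only [qo (g2o _), q2]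
        exact b2
      · show IsPar D.Y D.c3 (fun b => Phi D N1 N3 ΦL ΦR σ (D.g3 b)) (Phi D N1 N3 ΦL ΦR σ D.p3)
        simp only [qo (g3o _), q3]
        exact b3
      · exact wSat σ _ (fun y hy => (qo hy).symm) hw4 l hl
    · simp only [Dt.old, Wd.eval, List.map_cons, List.prod_cons, Lt.eval, d2, d3, q1, q2, q3]
      have e5 : (List.map (Lt.eval (Phi D N1 N3 ΦL ΦR σ)) D.w).prod = Wd.eval σ D.w :=
        wEval _ _ (fun y hy => qo hy)
      rw [e5]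
      unfold Dt.VEq at hV
      rw [← hV]
      have b4' : P1of n D.E D.X D.σ2 N1 (PL D ΦL σ) (σ D.p1) *
          (dsg n D.E D.X D.σ2 * (PL D ΦL σ * Th n D.Et D.Yt N1 N3 * PR D ΦR σ)) *
          (dsg n D.X' D.Y D.σ3 * P3of n D.X' D.Y D.σ3 N3 (PR D ΦR σ) (σ D.p3)) =
          σ D.p1 * (dsg n D.Et D.Yt sg * σ D.p3) := b4
      calc _ = scal n D.k D.ξ * (dsg n D.e1 D.c1 D.σ1 *
            (P1of n D.E D.X D.σ2 N1 (PL D ΦL σ) (σ D.p1) *
          (dsg n D.E D.X D.σ2 * (PL D ΦL σ * Th n D.Et D.Yt N1 N3 * PR D ΦR σ)) *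
          (dsg n D.X' D.Y D.σ3 * P3of n D.X' D.Y D.σ3 N3 (PR D ΦR σ) (σ D.p3))) *
            Wd.eval σ D.w) := by simp only [mul_assoc]
        _ = _ := by rw [b4']; simp only [mul_assoc]
  · -- integrality
    intro σ h h' hint x hx hxL
    obtain ⟨-, -, -, hw4, hV, hP⟩ := sol_fwd h h'
    have memocc : ∀ r ∈ D.B, ∀ x k ε, (x, k, ε) ∈ r.occ → σ x ∈ GO O n := fun r hr x k ε hx =>
      hint x (Or.inl ⟨k, ε, by
        rw [Sys.occ_eq, occL_append]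
        exact Multiset.mem_add.2 (Or.inl (mem_occL.2 ⟨r, hr, hx⟩))⟩)
    have mempn : ∀ x ∈ pnL D.B, σ x ∈ GO O n := fun x hx =>
      hint x (Or.inr (Or.inl (by
        rw [Sys.pn_eq, pnL_append]
        exact Multiset.mem_add.2 (Or.inl hx))))
    have memfr : ∀ z ∈ D.fr', σ z.1 ∈ GO O n := fun z hz =>
      hint z.1 (Or.inr (Or.inr (by
        simp only [List.map_append, List.mem_append]
        exact Or.inl (List.mem_map.2 ⟨z, hz, rfl⟩))))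
    have iL : PL D ΦL σ ∈ GO O n := by
      obtain ⟨nn, hd⟩ := kL σ hP
      refine intL5 hGL F.t2 (fun e => mempn _ ?_) (fun x => mempn _ ?_) (memfr (nzL D.N, D.k) ?_)
        nn hd
      · rw [pnL_B]; cases e <;> simp [q2]
      · rw [pnL_B]; cases x <;> simp [q2]
      · simp [Dt.fr']
    have iR : PR D ΦR σ ∈ GO O n := by
      obtain ⟨nn, hd⟩ := kR σ hP
      refine intR5 hGR F.t3 (fun e => mempn _ ?_) (fun x => mempn _ ?_) (memfr (nzR D.N, D.k) ?_)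
        nn hd
      · rw [pnL_B]; cases e <;> simp [q2]
      · rw [pnL_B]; cases x <;> simp [q2]
      · simp [Dt.fr']
    have i1 : σ D.p1 ∈ GO O n := mempn _ (by rw [pnL_B]; simp)
    have i3 : σ D.p3 ∈ GO O n := mempn _ (by rw [pnL_B]; simp)
    unfold Phi
    split_ifs with c1 c2 c3
    · exact intP1 hcor F.t2 iL i1
    · exact (GO O n).mul_mem ((GO O n).mul_mem iL (intTh hcor)) iR
    · exact intP3 hcor F.t3 iR i3
    · rcases hx with ⟨k', ε, hx⟩ | hx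
      · have h9 : (x, k', ε) ∈ occL D.B + pm 0 := by
          rw [← occ_bal F.toCn]
          exact Multiset.mem_add.2 (Or.inl hx)
        rw [pm_zero, add_zero] at h9
        obtain ⟨r, hr, h10⟩ := mem_occL.1 h9
        exact memocc r hr x k' ε h10
      · refine mempn x ?_
        rw [pnL_B]
        rw [pnL_old] at hx
        rcases Multiset.mem_add.1 hx with hx | hx
        · exact absurd (Multiset.mem_singleton.1 hx) c2
        · exact Multiset.mem_add.2 (Or.inl hx)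
  · intro x hx hxL
    rcases nmL x hx with rfl | rfl | rfl | hx
    · rw [Phi_p1, ← E1]
      unfold PL
      simp only [f3, f6, f11, r1]
    · rw [Phi_p2 (Ne.symm n21), ← E2]
      unfold PL PR
      simp only [f3, f4, f5, f6, f11, f12]
    · rw [Phi_p3 n13 n23, ← E3]
      unfold PR
      simp only [f4, f5, f12, r3]
    · rw [Phi_old hx.2.1 hx.2.2.1 hx.2.2.2, ro hx]

/-- **Step S5** -/
theorem s5 {O : Subring ℂ} (hC : Calc n) (hX : Extract n) (hG : Glue n) (hN : NF5 n) : S5 O n := by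
  intro k ξ w p1 p2 p3 e1 e2 e3 c1 E X X' Y c3 σ1 σ2 σ3 g1 g2 g3 rest fr ρ S pE pX pY hWF hρ
  have hr0 := hWF.roots _ List.mem_cons_self
  obtain ⟨hk, hξ, lc1, n1, s1, t1, lX, n2, s2, t2, lY, n3, s3, t3, hw⟩ := hr0
  change k ≤ n at hk
  change c1.length = k at lc1
  change X.length = k at lX
  change Y.length = k at lY
  change Wd.WF O w k (some c3) at hw
  obtain ⟨hSat, hEq⟩ := hρ.1 _ List.mem_cons_self
  have A1 : IsPar c1 E (fun b => ρ (g1 b)) (ρ p1) := hSat (Lt.par p1 e1 σ1 c1 E g1) (by simp)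
  have A2 : IsPar X X' (fun b => ρ (g2 b)) (ρ p2) := hSat (Lt.par p2 e2 σ2 X X' g2) (by simp)
  have A3 : IsPar Y c3 (fun b => ρ (g3 b)) (ρ p3) := hSat (Lt.par p3 e3 σ3 Y c3 g3) (by simp)
  have lE : E.length = k := (len_eq_of_count n1).symm.trans lc1
  have lX' : X'.length = k := (len_eq_of_count n2).symm.trans lX
  obtain ⟨Et, Yt, XE, XY, N1, N3, ΦL, ΦR, h1, h3, a, n', b, m', uE, uX, vY, vX, q1, q3, zL, zR,
    hcor, hGL, hGR, hnew, E1, E2, E3⟩ := fwd5 hC hX hG hN hk σ2 σ3 lE lX lX' lY A1 A2 A3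
  obtain ⟨N, hlt⟩ := Sys.exists_fresh S
  have F : Fc n O ⟨N, k, ξ, p1, p2, p3, e1, e2, e3, c1, E, X, X', Y, c3, σ1, σ2, σ3, g1, g2,
      g3, w, Et, Yt, XE, XY⟩ :=
    { c1E := n1
      YtY := fun b => (hnew.pq3.cnt b).trans (n3 b).symm
      cL := hcor.cL
      cR := hcor.cR
      hk := hk
      hξ := hξ
      lc1 := lc1
      lE := lE
      lX := lX
      lX' := lX'
      lY := lY
      lEt := hcor.lEt
      lYt := hcor.lYt
      lXE := hcor.lXE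
      lXY := hcor.lXY
      c1Et := hnew.pq1.cnt
      XX' := n2
      Yc3 := n3
      s1 := s1
      s2 := s2.imp id (fun h => Option.some.inj h)
      s3 := s3.imp id (fun h => Option.some.inj h)
      t1 := t1
      t2 := t2
      t3 := t3
      hw := hw
      pE := pE
      pX := pX
      pY := pY }
  exact s5_core hC ⟨N, k, ξ, p1, p2, p3, e1, e2, e3, c1, E, X, X', Y, c3, σ1, σ2, σ3, g1, g2,
      g3, w, Et, Yt, XE, XY⟩ F hWF hρ hlt hcor hGL hGR hnew E1 E2 E3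

end Crest.Agent.R003.S227
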