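import Crest.Agent.R003.S7_419
import Crest.Agent.R003.Core5_227

/-!
# Row 3 (S0003): step S6 (a root with two P-letters) (helper419)
-/

set_option autoImplicit false

namespace Crest.Agent.R003.S419

open Crest.Agent.R003
open Crest.Agent.R003.S227 (count_restr length_restr count_jl_swap)

/-! ### diagonal sign matrices with one constant label -/

theorem dsg_repl_left {n m : ℕ} {d : List Bool} (x : Bool) (σ : Bool → Bool → ℂˣ)
    (h : d.length ≤ m) : dsg n (List.replicate m x) d σ = dsg n d d fun _ y => σ x y := by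
  rw [dsg, dsg]
  congr 1
  funext i
  rw [lab_replicate]
  by_cases hi : i.1 < d.length
  · obtain ⟨a, ha⟩ := lab_lt hi
    have : i.1 < m := by omega
    rw [ha, if_pos this]
  · have : lab d i.1 = none := by
      simp only [lab, List.getElem?_eq_none_iff]; omega
    rw [this]
    split_ifs <;> rfl

theorem dsg_repl_right {n m : ℕ} {d : List Bool} (x : Bool) (σ : Bool → Bool → ℂˣ)
    (h : d.length ≤ m) : dsg n d (List.replicate m x) σ = dsg n d d fun e _ => σ e x := by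
  rw [dsg, dsg]
  congr 1
  funext i
  rw [lab_replicate]
  by_cases hi : i.1 < d.length
  · obtain ⟨a, ha⟩ := lab_lt hi
    have : i.1 < m := by omega
    rw [ha, if_pos this]
  · have : lab d i.1 = none := by
      simp only [lab, List.getElem?_eq_none_iff]; omega
    rw [this]

/-! ### the point level -/

/-- the equations of the new points of step S6 -/
structure New6 (n k : ℕ) (c1 E X X' : List Bool) (ξ : ℂˣ) (σ1 σ2 : Bool → Bool → ℂˣ)
    (G1 G2 : Bool → G n) (a b : Bool → Bool → G n) (y z : Bool → G n) (ζ : G n) : Prop where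
  py : ∀ e, IsPar (restr E X e) (restr c1 X' e) (a e) (y e)
  pz : ∀ x, IsPar (restr X' c1 x) (restr X E x) (b x) (z x)
  ry : ∀ e, G1 e * y e = 1
  rz : ∀ x, scal n (X.count x) ξ * (G2 x * z x) = 1
  rs : ∀ e x, scal n ((jl c1 X').count (e, x)) (σ1 x e * σ2 e x) * ((a e x)⁻¹ * (b x e)⁻¹) = 1
  pζ : ζ ∈ GLk n k

section point

variable {n : ℕ} {c1 E X X' : List Bool} {ξ : ℂˣ} {σ1 σ2 : Bool → Bool → ℂˣ}

/-- the blocks of `dsg n X' c1 σ1` -/
def D1x (n : ℕ) (c1 X' : List Bool) (σ1 : Bool → Bool → ℂˣ) (x : Bool) : G n :=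
  dsg n (List.replicate (X'.count x) x) (restr X' c1 x) σ1

/-- the blocks of `dsg n E X σ2` -/
def D2x (n : ℕ) (E X : List Bool) (σ2 : Bool → Bool → ℂˣ) (x : Bool) : G n :=
  dsg n (restr X E x) (List.replicate (X.count x) x) σ2

theorem isPar_D1x (hC : Calc n) (h1 : c1.length = X'.length) (hn : X'.length ≤ n) (x : Bool) :
    IsPar (restr X' c1 x) (restr X' c1 x)
      (fun e => scal n ((jl c1 X').count (e, x)) (σ1 x e)) (D1x n c1 X' σ1 x) := by
  have hl : (restr X' c1 x).length = X'.count x := length_restr _ _ _ h1.symm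
  have h2 := isPar_dsg_self (n := n) hC (c := restr X' c1 x)
    (hl.le.trans (List.count_le_length.trans hn)) (fun _ e => σ1 x e)
  rw [D1x, dsg_repl_left _ _ hl.le]
  have : (fun e => scal n ((jl c1 X').count (e, x)) (σ1 x e)) =
      fun b => scal n (List.count b (restr X' c1 x)) (σ1 x b) := by
    funext e
    rw [count_restr, count_jl_swap]
  rw [this]
  exact h2

theorem isPar_D2x (hC : Calc n) (h1 : E.length = X.length) (hn : X.length ≤ n)
    (hcnt : ∀ l, (jl c1 X').count l = (jl E X).count l) (x : Bool) :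
    IsPar (restr X E x) (restr X E x)
      (fun e => scal n ((jl c1 X').count (e, x)) (σ2 e x)) (D2x n E X σ2 x) := by
  have hl : (restr X E x).length = X.count x := length_restr _ _ _ h1.symm
  have h2 := isPar_dsg_self (n := n) hC (c := restr X E x)
    (hl.le.trans (List.count_le_length.trans hn)) (fun e _ => σ2 e x)
  rw [D2x, dsg_repl_right _ _ hl.le]
  have : (fun e => scal n ((jl c1 X').count (e, x)) (σ2 e x)) =
      fun b => scal n (List.count b (restr X E x)) (σ2 b x) := by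
    funext e
    rw [count_restr, count_jl_swap X E, hcnt]
  rw [this]
  exact h2

/-- new points give the data to be glued -/
theorem New6.glue (hC : Calc n) {k : ℕ} {G1 G2 : Bool → G n} {a b : Bool → Bool → G n}
    {y z : Bool → G n} {ζ : G n} (h : New6 n k c1 E X X' ξ σ1 σ2 G1 G2 a b y z ζ)
    (hc1 : c1.length = k) (hE : E.length = k) (hX : X.length = k) (hX' : X'.length = k)
    (hkn : k ≤ n) (hcnt : ∀ l, (jl c1 X').count l = (jl E X).count l) :
    GlueData c1 X' E X (fun l => (a l.1 l.2)⁻¹) G1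
      (fun x => (D1x n c1 X' σ1 x)⁻¹ * z x * (D2x n E X σ2 x)⁻¹) ζ := by
  refine ⟨fun e => ?_, fun x => ?_, hc1 ▸ h.pζ⟩
  · have h1 : G1 e = (y e)⁻¹ := by
      rw [eq_inv_iff_mul_eq_one]; exact h.ry e
    rw [h1]
    exact hC.2.1 _ _ _ _ (h.py e)
  · have h1 := hC.2.1 _ _ _ _ (isPar_D1x (σ1 := σ1) hC (hc1.trans hX'.symm) (hX'.le.trans hkn) x)
    have h2 := hC.2.1 _ _ _ _ (isPar_D2x (σ2 := σ2) hC (hE.trans hX.symm) (hX.le.trans hkn) hcnt x)
    have h3 := hC.1 _ _ _ _ _ _ _ (hC.1 _ _ _ _ _ _ _ h1 (h.pz x)) h2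
    have h4 : (fun e => (a e x)⁻¹) = fun e =>
        (scal n ((jl c1 X').count (e, x)) (σ1 x e))⁻¹ * b x e *
          (scal n ((jl c1 X').count (e, x)) (σ2 e x))⁻¹ := by
      funext e
      have h5 := h.rs e x
      rw [scal_mul] at h5
      have hmem : (a e x)⁻¹ ∈ GLk n ((jl c1 X').count (e, x)) := by
        have h6 := (h.py e).blk x
        rw [count_restr, ← hcnt] at h6
        exact (GLk n _).inv_mem h6
      have h7 := scal_mul_comm (σ2 e x) hmem
      have h8 : b x e = scal n ((jl c1 X').count (e, x)) (σ1 x e) *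
          scal n ((jl c1 X').count (e, x)) (σ2 e x) * (a e x)⁻¹ := by
        rw [← mul_assoc] at h5
        exact (mul_inv_eq_one.1 h5).symm
      rw [h8, mul_assoc (scal n _ (σ1 x e)), h7]
      group
    show IsPar _ _ (fun e => (a e x)⁻¹) _
    rw [h4]
    exact h3


/-- the two P-letters, from the glued matrix -/
theorem back6 (hC : Calc n) {k : ℕ} {G1 G2 : Bool → G n} {a b : Bool → Bool → G n}
    {y z : Bool → G n} {ζ P : G n} (h : New6 n k c1 E X X' ξ σ1 σ2 G1 G2 a b y z ζ)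
    (hc1 : c1.length = k) (hX : X.length = k) (hX' : X'.length = k)
    (hkn : k ≤ n) (hcX : ∀ b, X.count b = X'.count b)
    (hP : IsPar X' X (fun x => (D1x n c1 X' σ1 x)⁻¹ * z x * (D2x n E X σ2 x)⁻¹) P)
    (hE : E.length = k) :
    IsPar X X' G2 (scal n k ξ * (dsg n X' c1 σ1 * P * dsg n E X σ2))⁻¹ := by
  have h1 := hC.2.2.2.2.2 X' c1 σ1 (hX'.trans hc1.symm) (hc1.le.trans hkn)
  have h2 := hC.2.2.2.2.1 E X σ2 (hE.trans hX.symm) (hX.le.trans hkn)
  have h3 := hC.1 _ _ _ _ _ _ _ (hC.1 _ _ _ _ _ _ _ h1 hP) h2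
  have h4 : IsPar X' X' (fun b => scal n (X'.count b) ξ) (scal n k ξ) := by
    have := isPar_dsg_self (n := n) hC (c := X') (hX'.le.trans hkn) (fun _ _ => ξ)
    have e1 : dsg n X' X' (fun _ _ => ξ) = scal n k ξ := by
      have := scal_mul_dsg_self (n := n) (c := X') ξ fun _ _ => 1
      rw [dsg_one _ _ (fun _ _ => rfl), mul_one, hX'] at this
      rw [this]
      simp
    rwa [e1] at this
  have h5 := hC.2.1 _ _ _ _ (hC.1 _ _ _ _ _ _ _ h4 h3)
  have h6 : G2 = fun b => (scal n (X'.count b) ξ *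
      (dsg n (List.replicate (X'.count b) b) (restr X' c1 b) σ1 *
        ((D1x n c1 X' σ1 b)⁻¹ * z b * (D2x n E X σ2 b)⁻¹) *
          dsg n (restr X E b) (List.replicate (X.count b) b) σ2))⁻¹ := by
    funext x
    have h7 := h.rz x
    have e1 : dsg n (List.replicate (X'.count x) x) (restr X' c1 x) σ1 = D1x n c1 X' σ1 x := rfl
    have e2 : dsg n (restr X E x) (List.replicate (X.count x) x) σ2 = D2x n E X σ2 x := rfl
    rw [e1, e2]
    have e3 : D1x n c1 X' σ1 x * ((D1x n c1 X' σ1 x)⁻¹ * z x * (D2x n E X σ2 x)⁻¹) *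
        D2x n E X σ2 x = z x := by group
    rw [e3, ← hcX x]
    have h8 : z x ∈ GLk n (X.count x) := by
      have := (h.pz x).mem
      rw [length_restr _ _ _ (hX'.trans hc1.symm), ← hcX] at this
      exact this
    have h9 := scal_mul_comm ξ h8
    have h10 : scal n (X.count x) ξ = (G2 x * z x)⁻¹ := by
      rw [eq_inv_iff_mul_eq_one]; exact h7
    rw [h9, h10]
    group
  rw [h6]
  exact h5

/-- the new points, from the two P-letters -/
theorem fwd6 (hC : Calc n) (hT : TwoLab n) (hEx : Extract n) {k : ℕ} {G1 G2 : Bool → G n}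
    {P1 P2 : G n}
    (hc1 : c1.length = k) (hE : E.length = k) (hX : X.length = k) (hX' : X'.length = k)
    (hkn : k ≤ n) (hcX : ∀ b, X.count b = X'.count b)
    (hP1 : IsPar c1 E G1 P1) (hP2 : IsPar X X' G2 P2)
    (heq : scal n k ξ * (dsg n X' c1 σ1 * P1 * (dsg n E X σ2 * P2)) = 1) :
    (∀ l, (jl c1 X').count l = (jl E X).count l) ∧
    ∃ (a b : Bool → Bool → G n) (y z : Bool → G n) (nn : Bool × Bool → G n),
      (∀ ζ ∈ GLk n k, New6 n k c1 E X X' ξ σ1 σ2 G1 G2 a b y z ζ) ∧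
      IsPar (jl c1 X') (jl E X) nn P1 ∧
      IsPar X' X (fun x => (D1x n c1 X' σ1 x)⁻¹ * z x * (D2x n E X σ2 x)⁻¹) P1 := by
  have h1 := hC.2.2.2.2.2 X' c1 σ1 (hX'.trans hc1.symm) (hc1.le.trans hkn)
  have h2 := hC.2.2.2.2.1 E X σ2 (hE.trans hX.symm) (hX.le.trans hkn)
  have h4 : IsPar X' X' (fun b => scal n (X'.count b) ξ) (scal n k ξ) := by
    have := isPar_dsg_self (n := n) hC (c := X') (hX'.le.trans hkn) (fun _ _ => ξ)
    have e1 : dsg n X' X' (fun _ _ => ξ) = scal n k ξ := by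
      have := scal_mul_dsg_self (n := n) (c := X') ξ fun _ _ => 1
      rw [dsg_one _ _ (fun _ _ => rfl), mul_one, hX'] at this
      rw [this]
      simp
    rwa [e1] at this
  -- the second label structure of `P1`
  have h5 := hC.2.1 _ _ _ _ hP2
  have h6 := hC.1 _ _ _ _ _ _ _ (hC.1 _ _ _ _ _ _ _ (hC.2.1 _ _ _ _ (hC.1 _ _ _ _ _ _ _ h4 h1)) h5)
    (hC.2.1 _ _ _ _ h2)
  have e1 : (scal n k ξ * dsg n X' c1 σ1)⁻¹ * P2⁻¹ * (dsg n E X σ2)⁻¹ = P1 := by
    have e0 : scal n k ξ * dsg n X' c1 σ1 * P1 * (dsg n E X σ2 * P2) = 1 := by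
      rw [← heq]; group
    have e2 := eq_inv_mul_of_mul_eq (mul_eq_one_iff_eq_inv.1 e0)
    rw [e2]
    group
  rw [e1] at h6
  set hh : Bool → G n := fun x => (scal n (X'.count x) ξ *
    dsg n (List.replicate (X'.count x) x) (restr X' c1 x) σ1)⁻¹ * (G2 x)⁻¹ *
      (dsg n (restr X E x) (List.replicate (X.count x) x) σ2)⁻¹ with hhd
  have h6' : IsPar X' X hh P1 := h6
  obtain ⟨nn, hnn⟩ := hT c1 X' E X G1 hh P1 (hc1.trans hX'.symm) (hE.trans hX.symm) hP1 h6'
  have hcnt : ∀ l, (jl c1 X').count l = (jl E X).count l := fun l => hnn.cnt227 l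
  refine ⟨hcnt, ?_⟩
  obtain ⟨g', h', hg', hh', hge, hhx⟩ := hEx c1 X' E X (hc1.trans hX'.symm) (hE.trans hX.symm) nn P1 hnn
  have eg : g' = G1 := hC.2.2.2.1 _ _ _ _ _ hg' hP1
  have eh : h' = hh := hC.2.2.2.1 _ _ _ _ _ hh' h6'
  rw [eg] at hge
  rw [eh] at hhx
  have hz : (fun x => (D1x n c1 X' σ1 x)⁻¹ * (D1x n c1 X' σ1 x * hh x * D2x n E X σ2 x) *
      (D2x n E X σ2 x)⁻¹) = hh := by
    funext x; group
  refine ⟨fun e x => (nn (e, x))⁻¹, fun x e => scal n ((jl c1 X').count (e, x)) (σ1 x e) *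
    nn (e, x) * scal n ((jl c1 X').count (e, x)) (σ2 e x), fun e => (G1 e)⁻¹,
    fun x => D1x n c1 X' σ1 x * hh x * D2x n E X σ2 x, nn, ?_, hnn, ?_⟩
  · intro ζ hζ
    refine ⟨fun e => ?_, fun x => ?_, fun e => ?_, fun x => ?_, fun e x => ?_, hζ⟩
    · exact hC.2.1 _ _ _ _ (hge e)
    · exact hC.1 _ _ _ _ _ _ _ (hC.1 _ _ _ _ _ _ _
        (isPar_D1x (σ1 := σ1) hC (hc1.trans hX'.symm) (hX'.le.trans hkn) x) (hhx x))
        (isPar_D2x (σ2 := σ2) hC (hE.trans hX.symm) (hX.le.trans hkn) hcnt x)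
    · exact mul_inv_cancel _
    · have h8 : G2 x ∈ GLk n (X.count x) := hP2.blk x
      have h9 := scal_mul_comm ξ h8
      have e2 : hh x = (scal n (X.count x) ξ * D1x n c1 X' σ1 x)⁻¹ * (G2 x)⁻¹ *
          (D2x n E X σ2 x)⁻¹ := by
        rw [hhd, hcX]; rfl
      show scal n (X.count x) ξ * (G2 x * (D1x n c1 X' σ1 x * hh x * D2x n E X σ2 x)) = 1
      rw [e2]
      calc scal n (X.count x) ξ * (G2 x * (D1x n c1 X' σ1 x * ((scal n (X.count x) ξ *
            D1x n c1 X' σ1 x)⁻¹ * (G2 x)⁻¹ * (D2x n E X σ2 x)⁻¹) * D2x n E X σ2 x))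
          = (scal n (X.count x) ξ * G2 x) * (scal n (X.count x) ξ)⁻¹ * (G2 x)⁻¹ := by group
        _ = 1 := by rw [h9]; group
    · have h8 : nn (e, x) ∈ GLk n ((jl c1 X').count (e, x)) := by
        have := (hge e).blk x
        rw [count_restr] at this
        exact this
      have h9 := scal_mul_comm (σ2 e x) h8
      rw [scal_mul]
      show scal n ((jl c1 X').count (e, x)) (σ1 x e) * scal n ((jl c1 X').count (e, x)) (σ2 e x) *
        ((nn (e, x))⁻¹⁻¹ * (scal n ((jl c1 X').count (e, x)) (σ1 x e) * nn (e, x) *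
          scal n ((jl c1 X').count (e, x)) (σ2 e x))⁻¹) = 1
      calc scal n ((jl c1 X').count (e, x)) (σ1 x e) * scal n ((jl c1 X').count (e, x)) (σ2 e x) *
        ((nn (e, x))⁻¹⁻¹ * (scal n ((jl c1 X').count (e, x)) (σ1 x e) * nn (e, x) *
          scal n ((jl c1 X').count (e, x)) (σ2 e x))⁻¹)
          = scal n ((jl c1 X').count (e, x)) (σ1 x e) *
            (scal n ((jl c1 X').count (e, x)) (σ2 e x) * nn (e, x)) *
            (scal n ((jl c1 X').count (e, x)) (σ2 e x))⁻¹ * (nn (e, x))⁻¹ *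
            (scal n ((jl c1 X').count (e, x)) (σ1 x e))⁻¹ := by group
        _ = 1 := by rw [h9]; group
  · show IsPar X' X (fun x => (D1x n c1 X' σ1 x)⁻¹ * (D1x n c1 X' σ1 x * hh x * D2x n E X σ2 x) *
      (D2x n E X σ2 x)⁻¹) P1
    rw [hz]
    exact h6'

end point

/-! ### names and roots -/

/-- name of `y_e` -/
def ny (N : ℕ) (e : Bool) : ℕ := N + e.toNat
/-- name of `z_x` -/
def nz (N : ℕ) (x : Bool) : ℕ := N + (2 + x.toNat)
/-- children of `y_e` -/
def na (N : ℕ) (e x : Bool) : ℕ := N + (4 + 2 * e.toNat + x.toNat)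
/-- children of `z_x` -/
def nb (N : ℕ) (x e : Bool) : ℕ := N + (8 + 2 * x.toNat + e.toNat)
/-- the corner -/
def nc (N : ℕ) : ℕ := N + 12

/-- values at the new names -/
def val6 {n : ℕ} (y z : Bool → G n) (a b : Bool → Bool → G n) (ζ : G n) : ℕ → G n
  | 0 => y false
  | 1 => y true
  | 2 => z false
  | 3 => z true
  | 4 => a false false
  | 5 => a false true
  | 6 => a true false
  | 7 => a true true
  | 8 => b false false
  | 9 => b false true
  | 10 => b true false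
  | 11 => b true true
  | 12 => ζ
  | _ => 1

section roots

variable (N : ℕ) (c1 E X X' : List Bool) (ξ : ℂˣ) (σ1 σ2 : Bool → Bool → ℂˣ) (g1 g2 : Bool → ℕ)

def ry (e : Bool) : Root := ⟨c1.count e, 1, [Lt.full (g1 e) true,
  Lt.par (ny N e) [] (fun _ _ => 1) (restr E X e) (restr c1 X' e) (na N e)]⟩

def rz (x : Bool) : Root := ⟨X.count x, ξ, [Lt.full (g2 x) true,
  Lt.par (nz N x) [] (fun _ _ => 1) (restr X' c1 x) (restr X E x) (nb N x)]⟩

def rs (e x : Bool) : Root := ⟨(jl c1 X').count (e, x), σ1 x e * σ2 e x,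
  [Lt.full (na N e x) false, Lt.full (nb N x e) false]⟩

/-- the new roots -/
def B6 : List Root :=
  [ry N c1 E X X' g1 false, ry N c1 E X X' g1 true, rz N c1 E X X' ξ g2 false,
    rz N c1 E X X' ξ g2 true, rs N c1 X' σ1 σ2 false false, rs N c1 X' σ1 σ2 false true,
    rs N c1 X' σ1 σ2 true false, rs N c1 X' σ1 σ2 true true]

variable {N c1 E X X' ξ σ1 σ2 g1 g2}

theorem ry_mem (e : Bool) : ry N c1 E X X' g1 e ∈ B6 N c1 E X X' ξ σ1 σ2 g1 g2 := by
  cases e <;> simp [B6]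
theorem rz_mem (x : Bool) : rz N c1 E X X' ξ g2 x ∈ B6 N c1 E X X' ξ σ1 σ2 g1 g2 := by
  cases x <;> simp [B6]
theorem rs_mem (e x : Bool) : rs N c1 X' σ1 σ2 e x ∈ B6 N c1 E X X' ξ σ1 σ2 g1 g2 := by
  cases e <;> cases x <;> simp [B6]

theorem B6_cases {r : Root} (h : r ∈ B6 N c1 E X X' ξ σ1 σ2 g1 g2) :
    (∃ e, r = ry N c1 E X X' g1 e) ∨ (∃ x, r = rz N c1 E X X' ξ g2 x) ∨
      ∃ e x, r = rs N c1 X' σ1 σ2 e x := by
  simp only [B6, List.mem_cons, List.not_mem_nil, or_false] at h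
  rcases h with h | h | h | h | h | h | h | h
  · exact Or.inl ⟨_, h⟩
  · exact Or.inl ⟨_, h⟩
  · exact Or.inr (Or.inl ⟨_, h⟩)
  · exact Or.inr (Or.inl ⟨_, h⟩)
  · exact Or.inr (Or.inr ⟨_, _, h⟩)
  · exact Or.inr (Or.inr ⟨_, _, h⟩)
  · exact Or.inr (Or.inr ⟨_, _, h⟩)
  · exact Or.inr (Or.inr ⟨_, _, h⟩)

theorem eval_two {n : ℕ} (ρ : ℕ → G n) (l l' : Lt) : Wd.eval ρ [l, l'] = l.eval ρ * l'.eval ρ := by
  simp [Wd.eval]

theorem Sat_two {n k : ℕ} (ρ : ℕ → G n) (l l' : Lt) :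
    Wd.Sat ρ [l, l'] k ↔ l.Sat ρ k ∧ l'.Sat ρ k := by
  simp [Wd.Sat]

theorem eval_par_triv {n : ℕ} (ρ : ℕ → G n) (p : ℕ) (e c c' : List Bool) (g : Bool → ℕ) :
    Lt.eval ρ (Lt.par p e (fun _ _ => 1) c c' g) = ρ p := by
  show dsg n e c (fun _ _ => 1) * ρ p = ρ p
  rw [dsg_one _ _ (fun _ _ => rfl), one_mul]

theorem ry_sol {n : ℕ} {σ : ℕ → G n} {e : Bool} : (ry N c1 E X X' g1 e).Sol σ ↔
    σ (g1 e) ∈ GLk n (c1.count e) ∧
    IsPar (restr E X e) (restr c1 X' e) (fun x => σ (na N e x)) (σ (ny N e)) ∧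
    σ (g1 e) * σ (ny N e) = 1 := by
  rw [Root.Sol]
  simp only [ry, eval_two, Sat_two, eval_par_triv, scal_one, one_mul]
  constructor
  · rintro ⟨⟨h1, h2⟩, h3⟩; exact ⟨h1, h2, h3⟩
  · rintro ⟨h1, h2, h3⟩; exact ⟨⟨h1, h2⟩, h3⟩

theorem rz_sol {n : ℕ} {σ : ℕ → G n} {x : Bool} : (rz N c1 E X X' ξ g2 x).Sol σ ↔
    σ (g2 x) ∈ GLk n (X.count x) ∧
    IsPar (restr X' c1 x) (restr X E x) (fun e => σ (nb N x e)) (σ (nz N x)) ∧
    scal n (X.count x) ξ * (σ (g2 x) * σ (nz N x)) = 1 := by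
  rw [Root.Sol]
  simp only [rz, eval_two, Sat_two, eval_par_triv]
  constructor
  · rintro ⟨⟨h1, h2⟩, h3⟩; exact ⟨h1, h2, h3⟩
  · rintro ⟨h1, h2, h3⟩; exact ⟨⟨h1, h2⟩, h3⟩

theorem rs_sol {n : ℕ} {σ : ℕ → G n} {e x : Bool} : (rs N c1 X' σ1 σ2 e x).Sol σ ↔
    σ (na N e x) ∈ GLk n ((jl c1 X').count (e, x)) ∧
    σ (nb N x e) ∈ GLk n ((jl c1 X').count (e, x)) ∧
    scal n ((jl c1 X').count (e, x)) (σ1 x e * σ2 e x) *
      ((σ (na N e x))⁻¹ * (σ (nb N x e))⁻¹) = 1 := by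
  rw [Root.Sol]
  simp only [rs, eval_two, Sat_two]
  constructor
  · rintro ⟨⟨h1, h2⟩, h3⟩; exact ⟨h1, h2, h3⟩
  · rintro ⟨h1, h2, h3⟩; exact ⟨⟨h1, h2⟩, h3⟩

theorem new6_of_sol {n k : ℕ} {σ : ℕ → G n}
    (h : ∀ r ∈ B6 N c1 E X X' ξ σ1 σ2 g1 g2, r.Sol σ) (hc : σ (nc N) ∈ GLk n k) :
    New6 n k c1 E X X' ξ σ1 σ2 (fun e => σ (g1 e)) (fun x => σ (g2 x)) (fun e x => σ (na N e x))
      (fun x e => σ (nb N x e)) (fun e => σ (ny N e)) (fun x => σ (nz N x)) (σ (nc N)) :=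
  ⟨fun e => (ry_sol.1 (h _ (ry_mem e))).2.1, fun x => (rz_sol.1 (h _ (rz_mem x))).2.1,
    fun e => (ry_sol.1 (h _ (ry_mem e))).2.2, fun x => (rz_sol.1 (h _ (rz_mem x))).2.2,
    fun e x => (rs_sol.1 (h _ (rs_mem e x))).2.2, hc⟩

theorem sol_of_new6 {n k : ℕ} {σ : ℕ → G n}
    (hcnt : ∀ l, (jl c1 X').count l = (jl E X).count l)
    (hg1 : ∀ e, σ (g1 e) ∈ GLk n (c1.count e)) (hg2 : ∀ x, σ (g2 x) ∈ GLk n (X.count x))
    (h : New6 n k c1 E X X' ξ σ1 σ2 (fun e => σ (g1 e)) (fun x => σ (g2 x))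
      (fun e x => σ (na N e x)) (fun x e => σ (nb N x e)) (fun e => σ (ny N e))
      (fun x => σ (nz N x)) (σ (nc N))) :
    ∀ r ∈ B6 N c1 E X X' ξ σ1 σ2 g1 g2, r.Sol σ := by
  intro r hr
  rcases B6_cases hr with ⟨e, rfl⟩ | ⟨x, rfl⟩ | ⟨e, x, rfl⟩
  · exact ry_sol.2 ⟨hg1 e, h.py e, h.ry e⟩
  · exact rz_sol.2 ⟨hg2 x, h.pz x, h.rz x⟩
  · refine rs_sol.2 ⟨?_, ?_, h.rs e x⟩
    · have := (h.py e).blk x
      rw [count_restr, ← hcnt] at this
      exact this
    · have := (h.pz x).blk e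
      rw [count_restr, count_jl_swap] at this
      exact this

end roots

theorem wt_le {r : Root} (h : ∀ l ∈ r.w, l.Untw) {y : ℕ} (hy : y ∈ r.wt) : y ≤ 3 * r.k + 2 := by
  rw [Root.wt, Multiset.mem_cons] at hy
  rcases hy with rfl | hy
  · omega
  · obtain ⟨l, hl, hy⟩ := (mem_listSum _ _ _).1 hy
    have hu := h l hl
    cases l with
    | full x ε =>
      rw [Lt.wt, Multiset.mem_singleton] at hy
      omega
    | par p e σ c c' g =>
      have hu' : ∀ x y, σ x y = 1 := hu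
      rw [Lt.wt, if_pos hu', if_pos hu'] at hy
      split_ifs at hy
      · rw [Multiset.mem_singleton] at hy
        omega
      · rw [Multiset.mem_singleton] at hy
        omega

/-! ### the step -/

theorem s6 (O : Subring ℂ) (n : ℕ) (hC : Calc n) (hT : TwoLab n) (hEx : Extract n)
    (hG : Glue n) : S6 O n := by
  classical
  intro k ξ p1 p2 e1 e2 c1 E X X' σ1 σ2 g1 g2 rest fr ρ S hE0 hX0 hWF hρ
  set r0 : Root := ⟨k, ξ, [Lt.par p1 e1 σ1 c1 E g1, Lt.par p2 e2 σ2 X X' g2]⟩ with hr0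
  have hS : S = ⟨[r0] ++ rest, fr⟩ := rfl
  -- unpack
  obtain ⟨hk, hξ, hw⟩ := hWF.roots r0 List.mem_cons_self
  obtain ⟨hlen, hcnt1, htw1, hsc1, hlenX, hcntX, htw2, hsc2, -⟩ := hw
  have hkn : k ≤ n := hk
  have hc1 : c1.length = k := hlen
  have hX : X.length = k := hlenX
  have hlc : ∀ c d : List Bool, (∀ b, c.count b = d.count b) → d.length = c.length := by
    intro c d h
    exact (List.perm_iff_count.mpr h).length_eq.symm
  have hE : E.length = k := (hlc c1 E hcnt1).trans hc1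
  have hX' : X'.length = k := (hlc X X' hcntX).trans hX
  have htw1' : (∀ x y, σ1 x y = 1) ∨ e1 = X' := by
    rcases htw1 with h | h
    · exact Or.inl h
    · right
      have h' : some X' = some e1 := h
      exact (Option.some.inj h').symm
  have htw2' : (∀ x y, σ2 x y = 1) ∨ e2 = E := by
    rcases htw2 with h | h
    · exact Or.inl h
    · right
      have h' : some E = some e2 := h
      exact (Option.some.inj h').symm
  have hD1 : dsg n e1 c1 σ1 = dsg n X' c1 σ1 := by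
    rcases htw1' with h | h
    · rw [dsg_one _ _ h, dsg_one _ _ h]
    · rw [h]
  have hD2 : dsg n e2 X σ2 = dsg n E X σ2 := by
    rcases htw2' with h | h
    · rw [dsg_one _ _ h, dsg_one _ _ h]
    · rw [h]
  have hr0sol : ∀ σ : ℕ → G n, r0.Sol σ ↔ (IsPar c1 E (fun b => σ (g1 b)) (σ p1) ∧
      IsPar X X' (fun b => σ (g2 b)) (σ p2)) ∧
      scal n k ξ * (dsg n X' c1 σ1 * σ p1 * (dsg n E X σ2 * σ p2)) = 1 := by
    intro σ
    rw [Root.Sol, hr0]
    simp only [eval_two, Sat_two]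
    rw [← hD1, ← hD2]
    rfl
  obtain ⟨⟨hP1, hP2⟩, heq⟩ := (hr0sol ρ).1 (hρ.1 r0 List.mem_cons_self)
  obtain ⟨hcnt, a, b, y, z, nn, hnew, hnn, hPX⟩ :=
    fwd6 hC hT hEx hc1 hE hX hX' hkn hcntX hP1 hP2 heq
  -- gluing
  obtain ⟨Ψ, hΨ1, hΨ2, hΨ3, hΨ4⟩ := hG c1 X' E X (hc1.trans hX'.symm) (hE.trans hX.symm)
    (hc1.le.trans hkn) hcnt
  obtain ⟨ζ, hζ, hζP⟩ := hΨ4 nn _ _ _ hnn hP1 hPX
  rw [hc1] at hζ
  -- fresh names
  obtain ⟨N, hN⟩ := Sys.exists_fresh S
  have hoccA : occL [r0] = {(g1 false, c1.count false, true), (g1 true, c1.count true, true)} +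
      {(g2 false, X.count false, true), (g2 true, X.count true, true)} := by
    rw [hr0]
    simp [occL, Root.occ, Wd.occ, Lt.occ]
  have hpnA : pnL [r0] = {p1} + {p2} := by
    rw [hr0]
    simp [pnL, Root.pn, Wd.pn, Lt.pn]
  have hoS : ∀ w ∈ occL [r0], w ∈ S.occ := by
    intro w hw
    rw [Sys.occ_eq, hS, occL_append, Multiset.mem_add]
    exact Or.inl hw
  have hpS : S.pn = {p1} + {p2} + pnL rest := by
    rw [Sys.pn_eq, hS, pnL_append, hpnA]
  have hog1 : ∀ e, (g1 e, c1.count e, true) ∈ occL [r0] := by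
    intro e; rw [hoccA]; cases e <;> simp
  have hog2 : ∀ x, (g2 x, X.count x, true) ∈ occL [r0] := by
    intro e; rw [hoccA]; cases e <;> simp
  have hp1S : p1 ∈ S.pn := by rw [hpS]; simp
  have hp2S : p2 ∈ S.pn := by rw [hpS]; simp
  have hg1N : ∀ e, g1 e < N := fun e => hN _ (Or.inl ⟨_, _, hoS _ (hog1 e)⟩)
  have hg2N : ∀ e, g2 e < N := fun e => hN _ (Or.inl ⟨_, _, hoS _ (hog2 e)⟩)
  have hp1N : p1 < N := hN _ (Or.inr (Or.inl hp1S))
  have hp2N : p2 < N := hN _ (Or.inr (Or.inl hp2S))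
  have hg1p : ∀ e, g1 e ≠ p1 ∧ g1 e ≠ p2 := fun e =>
    ⟨fun h => hWF.occ_not_pn (hoS _ (hog1 e)) (h ▸ hp1S),
      fun h => hWF.occ_not_pn (hoS _ (hog1 e)) (h ▸ hp2S)⟩
  have hg2p : ∀ e, g2 e ≠ p1 ∧ g2 e ≠ p2 := fun e =>
    ⟨fun h => hWF.occ_not_pn (hoS _ (hog2 e)) (h ▸ hp1S),
      fun h => hWF.occ_not_pn (hoS _ (hog2 e)) (h ▸ hp2S)⟩
  have hp12 : p1 ≠ p2 := by
    intro h
    have := hWF.pn_nodup
    rw [hpS, h] at this
    have h2 := (Multiset.nodup_add.1 this).1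
    simp at h2
  -- the new point
  set ρ' : ℕ → G n := fun m => if m < N then ρ m else val6 y z a b ζ (m - N) with hρ'
  have hρ'lt : ∀ m, m < N → ρ' m = ρ m := fun m hm => by simp [hρ', hm]
  have hρ'y : ∀ e, ρ' (ny N e) = y e := by
    intro e; cases e <;> simp [hρ', ny, val6]
  have hρ'z : ∀ e, ρ' (nz N e) = z e := by
    intro e; cases e <;> simp [hρ', nz, val6]
  have hρ'a : ∀ e x, ρ' (na N e x) = a e x := by
    intro e x; cases e <;> cases x <;> simp [hρ', na, val6]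
  have hρ'b : ∀ e x, ρ' (nb N e x) = b e x := by
    intro e x; cases e <;> cases x <;> simp [hρ', nb, val6]
  have hρ'c : ρ' (nc N) = ζ := by simp [hρ', nc, val6]
  have hρ'1 : (fun e => ρ' (g1 e)) = fun e => ρ (g1 e) := funext fun e => hρ'lt _ (hg1N e)
  have hρ'2 : (fun e => ρ' (g2 e)) = fun e => ρ (g2 e) := funext fun e => hρ'lt _ (hg2N e)
  have hnew' : New6 n k c1 E X X' ξ σ1 σ2 (fun e => ρ' (g1 e)) (fun x => ρ' (g2 x))
      (fun e x => ρ' (na N e x)) (fun x e => ρ' (nb N x e)) (fun e => ρ' (ny N e))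
      (fun x => ρ' (nz N x)) (ρ' (nc N)) := by
    simp only [hρ'y, hρ'z, hρ'a, hρ'b, hρ'c]
    rw [hρ'1, hρ'2]
    exact hnew ζ hζ
  have hsol' : ∀ r ∈ B6 N c1 E X X' ξ σ1 σ2 g1 g2, r.Sol ρ' := by
    refine sol_of_new6 hcnt (fun e => ?_) (fun x => ?_) hnew'
    · rw [hρ'lt _ (hg1N e)]; exact hP1.blk e
    · rw [hρ'lt _ (hg2N x)]; exact hP2.blk x
  -- the map
  set Q : (ℕ → G n) → G n := fun σ => Ψ (fun e => σ (g1 e))
    (fun x => (D1x n c1 X' σ1 x)⁻¹ * σ (nz N x) * (D2x n E X σ2 x)⁻¹) (σ (nc N)) with hQ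
  set Φ : (ℕ → G n) → (ℕ → G n) := fun σ x =>
    if x = p1 then Q σ else if x = p2 then
      (scal n k ξ * (dsg n X' c1 σ1 * Q σ * dsg n E X σ2))⁻¹ else σ x with hΦ
  have hΦ1 : ∀ σ, Φ σ p1 = Q σ := fun σ => by simp [hΦ]
  have hΦ2 : ∀ σ, Φ σ p2 = (scal n k ξ * (dsg n X' c1 σ1 * Q σ * dsg n E X σ2))⁻¹ := fun σ => by
    simp [hΦ, hp12.symm]
  have hΦ3 : ∀ σ x, x ≠ p1 → x ≠ p2 → Φ σ x = σ x := fun σ x h1 h2 => by simp [hΦ, h1, h2]
  have hD1GO : dsg n X' c1 σ1 ∈ GO O n := dsg_mem_GO _ _ hsc1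
  have hD2GO : dsg n E X σ2 ∈ GO O n := dsg_mem_GO _ _ hsc2
  have hscGO : scal n k ξ ∈ GO O n := scal_mem_GO hξ
  have hD1xGO : ∀ x, D1x n c1 X' σ1 x ∈ GO O n := fun x => dsg_mem_GO _ _ hsc1
  have hD2xGO : ∀ x, D2x n E X σ2 x ∈ GO O n := fun x => dsg_mem_GO _ _ hsc2
  have hgd : ∀ σ : ℕ → G n, (∀ r ∈ B6 N c1 E X X' ξ σ1 σ2 g1 g2, r.Sol σ) →
      (∀ w ∈ [(nc N, k)], σ w.1 ∈ GLk n w.2) →
      GlueData c1 X' E X (fun l => (σ (na N l.1 l.2))⁻¹) (fun e => σ (g1 e))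
        (fun x => (D1x n c1 X' σ1 x)⁻¹ * σ (nz N x) * (D2x n E X σ2 x)⁻¹) (σ (nc N)) := by
    intro σ h1 h2
    exact (new6_of_sol h1 (h2 (nc N, k) (by simp))).glue hC hc1 hE hX hX' hkn hcnt
  have hcE := fun e => (hcnt1 e).symm
  have hlt : ∀ c : List Bool, (∀ t, 0 < c.count t) → ∀ t, c.count t < c.length := by
    intro c hc t
    have h1 : c.count false + c.count true = c.length := by
      rw [List.count_false_add_count_true]
    have h2 := hc false
    have h3 := hc true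
    cases t <;> omega
  have hc1k : ∀ e, c1.count e < k := fun e => by
    rw [← hcE e, ← hE]; exact hlt E hE0 e
  have hXk : ∀ x, X.count x < k := fun x => by
    rw [← hX]; exact hlt X hX0 x
  have hB6k : ∀ r ∈ B6 N c1 E X X' ξ σ1 σ2 g1 g2, r.k < k := by
    intro r hr
    rcases B6_cases hr with ⟨e, rfl⟩ | ⟨x, rfl⟩ | ⟨e, x, rfl⟩
    · exact hc1k e
    · exact hXk x
    · refine lt_of_le_of_lt ?_ (hXk x)
      show (jl c1 X').count (e, x) ≤ X.count x
      rw [← count_jl_swap, ← count_restr, hcntX,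
        ← length_restr X' c1 x (hX'.trans hc1.symm)]
      exact List.count_le_length
  have hB6u : ∀ r ∈ B6 N c1 E X X' ξ σ1 σ2 g1 g2, ∀ l ∈ r.w, l.Untw := by
    intro r hr l hl
    rcases B6_cases hr with ⟨e, rfl⟩ | ⟨x, rfl⟩ | ⟨e, x, rfl⟩
    all_goals
      simp only [ry, rz, rs, List.mem_cons, List.not_mem_nil, or_false] at hl
      rcases hl with rfl | rfl <;> simp [Lt.Untw]
  show Red O n ⟨[r0] ++ rest, fr⟩ ρ
  refine local_step [r0] (B6 N c1 E X X' ξ σ1 σ2 g1 g2) rest fr [(nc N, k)] ρ ρ' 0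
    {(na N false false, (jl c1 X').count (false, false)),
      (na N false true, (jl c1 X').count (false, true)),
      (na N true false, (jl c1 X').count (true, false)),
      (na N true true, (jl c1 X').count (true, true)),
      (nb N false false, (jl c1 X').count (false, false)),
      (nb N true false, (jl c1 X').count (false, true)),
      (nb N false true, (jl c1 X').count (true, false)),
      (nb N true true, (jl c1 X').count (true, true))} Φ hWF hρ
    ?_ ?_ ?_ ?_ ?_ ?_ ?_ ?_ ?_ ?_ ?_ ?_ ?_ ?_ ?_ ?_ ?_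
  · -- WF of the roots
    intro r hr
    rcases B6_cases hr with ⟨e, rfl⟩ | ⟨x, rfl⟩ | ⟨e, x, rfl⟩
    · refine ⟨List.count_le_length.trans (hc1.le.trans hkn), IsSc.one, ?_, ?_, Or.inl fun _ _ => rfl,
        fun _ _ => IsSc.one, trivial⟩
      · show (restr E X e).length = c1.count e
        rw [length_restr _ _ _ (hE.trans hX.symm), hcE]
      · intro x
        rw [count_restr, count_restr, hcnt]
    · refine ⟨List.count_le_length.trans (hX.le.trans hkn), hξ, ?_, ?_, Or.inl fun _ _ => rfl,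
        fun _ _ => IsSc.one, trivial⟩
      · show (restr X' c1 x).length = X.count x
        rw [length_restr _ _ _ (hX'.trans hc1.symm), hcntX]
      · intro e
        rw [count_restr, count_restr, count_jl_swap, count_jl_swap X E, hcnt]
    · refine ⟨?_, (hsc1 x e).mul (hsc2 e x), trivial⟩
      show (jl c1 X').count (e, x) ≤ n
      refine List.count_le_length.trans ?_
      rw [List.length_zip]
      omega
  · intro w hw
    simp only [List.mem_cons, List.not_mem_nil, or_false] at hw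
    subst hw
    exact hkn
  · intro v hv; simp at hv
  · simp
  · -- occurrences
    have e1 : ∀ e x, (restr E X e).count x = (jl c1 X').count (e, x) := fun e x => by
      rw [count_restr, hcnt]
    have e2 : ∀ e x, (restr X' c1 x).count e = (jl c1 X').count (e, x) := fun e x => by
      rw [count_restr, count_jl_swap]
    rw [hoccA]
    simp only [B6, occL_cons, occL_nil, Root.occ, ry, rz, rs, Wd.occ, List.map_cons, List.map_nil,
      List.sum_cons, List.sum_nil, add_zero, Lt.occ, e1, e2, pm, Multiset.insert_eq_cons,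
      ← Multiset.singleton_add, Multiset.map_add, Multiset.map_singleton, Multiset.map_zero]
    abel
  · -- nodup
    simp only [B6, pnL_cons, pnL_nil, Root.pn, ry, rz, rs, Wd.pn, List.map_cons, List.map_nil,
      List.sum_cons, List.sum_nil, add_zero, zero_add, Lt.pn, Multiset.insert_eq_cons,
      ← Multiset.singleton_add, Multiset.map_add, Multiset.map_singleton]
    simp [na, nb, ny, nz, nc]
  · -- fresh
    intro m hm
    right; right
    intro hm'
    have h1 := hN m hm'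
    simp only [B6, pnL_cons, pnL_nil, Root.pn, ry, rz, rs, Wd.pn, List.map_cons, List.map_nil,
      List.sum_cons, List.sum_nil, add_zero, zero_add, Lt.pn, Multiset.insert_eq_cons,
      ← Multiset.singleton_add, Multiset.map_add, Multiset.map_singleton] at hm
    simp [na, nb, ny, nz, nc] at hm
    omega
  · -- weights
    refine ⟨0, wtL (B6 N c1 E X X' ξ σ1 σ2 g1 g2), wtL [r0], ?_, by simp, by simp, ?_⟩
    · rw [hr0]; simp [wtL, Root.wt]
    · intro w hw
      refine ⟨3 * k, ?_, ?_⟩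
      · rw [hr0]; simp [wtL, Root.wt]
      · obtain ⟨r, hr, hw'⟩ := (mem_listSum _ _ _).1 hw
        have h1 := hB6k r hr
        have h2 := wt_le (hB6u r hr) hw'
        omega
  · -- Adm
    intro k0 hk0 r hr
    left
    have h1 := hB6k r hr
    rcases hk0 r0 List.mem_cons_self with h | ⟨h, -⟩
    · have : k < k0 := h
      omega
    · have : k = k0 := h
      omega
  · exact hsol'
  · intro w hw
    simp only [List.mem_cons, List.not_mem_nil, or_false] at hw
    subst hw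
    show ρ' (nc N) ∈ GLk n k
    rw [hρ'c]; exact hζ
  · intro x hx
    have : x ∈ S.names := by
      by_contra h
      exact hx (Or.inl h)
    exact hρ'lt x (hN x this)
  · -- PolG
    have hQpol : PolG {σ : ℕ → G n | (∀ r ∈ B6 N c1 E X X' ξ σ1 σ2 g1 g2, r.Sol σ) ∧
        ∀ w ∈ [(nc N, k)], σ w.1 ∈ GLk n w.2} Q := by
      refine hΨ1 ℕ _ (fun b σ => σ (g1 b))
        (fun x σ => (D1x n c1 X' σ1 x)⁻¹ * σ (nz N x) * (D2x n E X σ2 x)⁻¹)
        (fun σ => σ (nc N)) (fun b => PolG.coord _)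
        (fun x => ((PolG.const _).mul (PolG.coord _)).mul (PolG.const _)) (PolG.coord _) ?_
      intro σ hσ
      exact ⟨_, hgd σ hσ.1 hσ.2⟩
    intro x
    refine PolG.ite (x = p1) hQpol (PolG.ite (x = p2) ?_ (PolG.coord x))
    exact ((PolG.const _).mul (((PolG.const _).mul hQpol).mul (PolG.const _))).inv
  · intro x hx σ
    apply hΦ3
    · rintro rfl
      exact hx (Or.inr (Or.inl (by rw [hpnA]; simp)))
    · rintro rfl
      exact hx (Or.inr (Or.inl (by rw [hpnA]; simp)))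
  · -- solutions
    intro σ h1 h2 r hr
    simp only [List.mem_cons, List.not_mem_nil, or_false] at hr
    subst hr
    have h3 := hgd σ h1 h2
    obtain ⟨-, h4, h5⟩ := hΨ3 _ _ _ _ h3
    have h6 := back6 hC (new6_of_sol h1 (h2 (nc N, k) (by simp))) hc1 hX hX' hkn hcntX h5 hE
    rw [hr0sol]
    have e1' : (fun b => Φ σ (g1 b)) = fun b => σ (g1 b) :=
      funext fun b => hΦ3 σ _ (hg1p b).1 (hg1p b).2
    have e2' : (fun b => Φ σ (g2 b)) = fun b => σ (g2 b) :=
      funext fun b => hΦ3 σ _ (hg2p b).1 (hg2p b).2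
    rw [e1', e2', hΦ1, hΦ2]
    refine ⟨⟨h4, h6⟩, ?_⟩
    group
  · -- integrality
    intro σ h1 h2 h3 x hx _
    have hmem : ∀ r ∈ B6 N c1 E X X' ξ σ1 σ2 g1 g2, ∀ w ∈ r.occ, σ w.1 ∈ GO O n := by
      intro r hr w hw
      apply h3
      refine Or.inl ⟨w.2.1, w.2.2, ?_⟩
      show _ ∈ occL (B6 N c1 E X X' ξ σ1 σ2 g1 g2 ++ rest)
      rw [occL_append, Multiset.mem_add]
      exact Or.inl (mem_occL.2 ⟨r, hr, hw⟩)
    have hmem1 : ∀ e, σ (g1 e) ∈ GO O n := fun e =>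
      hmem _ (ry_mem e) (g1 e, c1.count e, true) (by simp [ry, Root.occ, Wd.occ, Lt.occ])
    have hmem2 : ∀ e, σ (g2 e) ∈ GO O n := fun e =>
      hmem _ (rz_mem e) (g2 e, X.count e, true) (by simp [rz, Root.occ, Wd.occ, Lt.occ])
    have hmemz : ∀ e, σ (nz N e) ∈ GO O n := by
      intro e
      apply h3
      refine Or.inr (Or.inl ?_)
      show _ ∈ pnL (B6 N c1 E X X' ξ σ1 σ2 g1 g2 ++ rest)
      rw [pnL_append, Multiset.mem_add]
      refine Or.inl (mem_pnL.2 ⟨_, rz_mem e, ?_⟩)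
      simp [rz, Root.pn, Wd.pn, Lt.pn]
    have hmemc : σ (nc N) ∈ GO O n := by
      apply h3
      exact Or.inr (Or.inr (by simp))
    have hQGO : Q σ ∈ GO O n := by
      refine hΨ2 O _ _ _ hmem1 (fun x => ?_) hmemc ⟨_, hgd σ h1 h2⟩
      exact (GO O n).mul_mem ((GO O n).mul_mem ((GO O n).inv_mem (hD1xGO x)) (hmemz x))
        ((GO O n).inv_mem (hD2xGO x))
    by_cases hxp : x = p1
    · rw [hxp, hΦ1]; exact hQGO
    by_cases hxp2 : x = p2
    · rw [hxp2, hΦ2]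
      exact (GO O n).inv_mem ((GO O n).mul_mem hscGO ((GO O n).mul_mem
        ((GO O n).mul_mem hD1GO hQGO) hD2GO))
    rw [hΦ3 σ x hxp hxp2]
    rcases hx with ⟨k', ε, hx⟩ | hx
    · rw [hoccA] at hx
      simp only [Multiset.insert_eq_cons, Multiset.mem_add, Multiset.mem_cons,
        Multiset.mem_singleton, Prod.mk.injEq] at hx
      rcases hx with (⟨rfl, -⟩ | ⟨rfl, -⟩) | (⟨rfl, -⟩ | ⟨rfl, -⟩)
      · exact hmem1 _
      · exact hmem1 _
      · exact hmem2 _
      · exact hmem2 _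
    · exfalso
      rw [hpnA] at hx
      simp only [Multiset.mem_add, Multiset.mem_singleton] at hx
      rcases hx with h | h
      · exact hxp h
      · exact hxp2 h
  · -- the point
    intro x hx _
    have hQρ : Q ρ' = ρ p1 := by
      simp only [hQ, hρ'z, hρ'c]
      rw [hρ'1]
      exact hζP
    by_cases hxp : x = p1
    · rw [hxp, hΦ1, hQρ]
    by_cases hxp2 : x = p2
    · rw [hxp2, hΦ2, hQρ]
      rw [inv_eq_iff_mul_eq_one]
      rw [← heq]
      group
    rw [hΦ3 _ x hxp hxp2]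
    apply hρ'lt
    rcases hx with ⟨k', ε, hx⟩ | hx
    · exact hN x (Or.inl ⟨k', ε, hoS _ hx⟩)
    · exfalso
      rw [hpnA] at hx
      simp only [Multiset.mem_add, Multiset.mem_singleton] at hx
      rcases hx with h | h
      · exact hxp h
      · exact hxp2 h

end Crest.Agent.R003.S419
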