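import Crest.Agent.R003.Step638

/-!
# Row 3 (S0003): step S7 (a root consisting of one P-letter) (helper419)
-/

set_option autoImplicit false

namespace Crest.Agent.R003.S419

open Crest.Agent.R003

/-! ### diagonal matrices -/

theorem dg_val {n : ℕ} (d : Fin n → ℂˣ) : (dg d).1 = Matrix.diagonal fun i => (d i : ℂ) := rfl

theorem dg_mul {n : ℕ} (d d' : Fin n → ℂˣ) : dg d * dg d' = dg fun i => d i * d' i := by
  apply Units.ext
  rw [Units.val_mul, dg_val, dg_val, dg_val, Matrix.diagonal_mul_diagonal]
  simp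

theorem dg_one {n : ℕ} : dg (fun _ : Fin n => (1 : ℂˣ)) = 1 := by
  apply Units.ext
  rw [dg_val]
  simp

theorem dg_inv {n : ℕ} (d : Fin n → ℂˣ) : (dg d)⁻¹ = dg fun i => (d i)⁻¹ := by
  rw [inv_eq_iff_mul_eq_one, dg_mul]
  simp [dg_one]

theorem dg_apply {n : ℕ} (d : Fin n → ℂˣ) (i j : Fin n) :
    (dg d).1 i j = if i = j then (d i : ℂ) else 0 := by
  rw [dg_val, Matrix.diagonal_apply]

theorem dsg_one {n : ℕ} (e c : List Bool) {σ : Bool → Bool → ℂˣ} (h : ∀ x y, σ x y = 1) :
    dsg n e c σ = 1 := by
  rw [dsg, ← dg_one]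
  congr 1
  funext i
  split <;> simp [h]

theorem dsg_mem_GO {O : Subring ℂ} {n : ℕ} (e c : List Bool) {σ : Bool → Bool → ℂˣ}
    (h : ∀ x y, IsSc O (σ x y)) : dsg n e c σ ∈ GO O n := by
  unfold dsg
  refine dg_mem_GO (fun i => ?_) (fun i => ?_)
  · split
    · exact (h _ _).1
    · simp [O.one_mem]
  · split
    · exact (h _ _).inv_mem
    · simp [O.one_mem]

theorem dsg_mem_GLk {n k : ℕ} (e c : List Bool) (σ : Bool → Bool → ℂˣ) (h : c.length ≤ k) :
    dsg n e c σ ∈ GLk n k := by
  intro i j hij
  rw [dsg, dg_apply]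
  by_cases hh : i = j
  · subst hh
    have hi : k ≤ i.1 := by rcases hij with h | h <;> exact h
    have : lab c i.1 = none := by
      simp only [lab, List.getElem?_eq_none_iff]; omega
    rw [this]
    cases lab e i.1 <;> simp
  · simp [hh]

/-! ### lists -/

theorem count_le_of_le : ∀ (c E : List Bool), c.length = E.length →
    (∀ i a b, lab c i = some a → lab E i = some b → a ≤ b) → c.count true ≤ E.count true
  | [], [], _, _ => le_rfl
  | [], b :: E, h, _ => by simp at h
  | a :: c, [], h, _ => by simp at h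
  | a :: c, b :: E, h, h' => by
    have h1 := count_le_of_le c E (by simpa using h) fun i x y hx hy =>
      h' (i + 1) x y (by simpa [lab] using hx) (by simpa [lab] using hy)
    have h2 := h' 0 a b rfl rfl
    rw [List.count_cons, List.count_cons]
    revert h2
    cases a <;> cases b <;> simp <;> omega

theorem eq_of_le_of_count : ∀ (c E : List Bool), (∀ l, c.count l = E.count l) →
    (∀ i a b, lab c i = some a → lab E i = some b → a ≤ b) → c = E := by
  intro c E h h'
  have hlen : ∀ c E : List Bool, (∀ l, c.count l = E.count l) → c.length = E.length := by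
    intro c E h
    exact (List.perm_iff_count.mpr h).length_eq
  induction c generalizing E with
  | nil =>
    have := hlen _ _ h
    cases E with
    | nil => rfl
    | cons b E => simp at this
  | cons a c ih =>
    have hl := hlen _ _ h
    cases E with
    | nil => simp at hl
    | cons b E =>
      have h3 : ∀ i x y, lab c i = some x → lab E i = some y → x ≤ y := fun i x y hx hy =>
        h' (i + 1) x y (by simpa [lab] using hx) (by simpa [lab] using hy)
      have h2 := h' 0 a b rfl rfl
      have hab : a = b := by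
        have h4 := count_le_of_le c E (by simpa using hl) h3
        have h5 := h true
        rw [List.count_cons, List.count_cons] at h5
        revert h2 h5
        cases a <;> cases b <;> simp
        omega
      subst hab
      rw [ih E _ h3]
      intro l
      have := h l
      rw [List.count_cons, List.count_cons] at this
      omega

theorem restr_self (c : List Bool) (b : Bool) : restr c c b = List.replicate (c.count b) b := by
  unfold restr
  induction c with
  | nil => rfl
  | cons a c ih =>
    rw [List.zip_cons_cons, List.filter_cons, List.count_cons]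
    by_cases hab : a = b
    · subst hab
      simp [ih, List.replicate_succ]
    · simp [hab, ih]

theorem lab_replicate (m : ℕ) (b : Bool) (i : ℕ) :
    lab (List.replicate m b) i = if i < m then some b else none := by
  simp [lab, List.getElem?_replicate]

theorem lab_lt {c : List Bool} {i : ℕ} (h : i < c.length) : ∃ a, lab c i = some a :=
  ⟨_, List.getElem?_eq_getElem h⟩

/-! ### diagonal block triangular matrices -/

/-- a diagonal matrix can only be `IsPar c E` for `c = E` -/
theorem eq_of_isPar_dg {n : ℕ} {c E : List Bool} {g : Bool → G n} {d : Fin n → ℂˣ}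
    (h : IsPar c E g (dg d)) : c = E := by
  apply eq_of_le_of_count c E h.cnt
  intro i a b ha hb
  by_contra hab
  have hi : i < c.length := by
    by_contra hh
    rw [lab, List.getElem?_eq_none (by omega)] at ha
    cases ha
  have h0 := h.zero ⟨i, lt_of_lt_of_le hi h.len⟩ ⟨i, lt_of_lt_of_le hi h.len⟩ a b ha hb hab
  rw [dg_apply, if_pos rfl] at h0
  exact (d _).ne_zero h0

/-- the blocks of a diagonal matrix depending on the label -/
theorem isPar_dsg_self {n : ℕ} (hC : Calc n) {c : List Bool} (hc : c.length ≤ n)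
    (τ : Bool → Bool → ℂˣ) :
    IsPar c c (fun b => scal n (c.count b) (τ b b)) (dsg n c c τ) := by
  have h := hC.2.2.2.2.1 c c τ rfl hc
  have : (fun b => dsg n (restr c c b) (List.replicate (c.count b) b) τ) =
      fun b => scal n (c.count b) (τ b b) := by
    funext b
    rw [restr_self, dsg, scal]
    congr 1
    funext i
    rw [lab_replicate]
    by_cases hi : i.1 < c.count b
    · simp [hi]
    · simp [hi]
  rwa [this] at h

theorem scal_mul_dsg_self {n : ℕ} {c : List Bool} (ξ : ℂˣ) (σ : Bool → Bool → ℂˣ) :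
    scal n c.length ξ * dsg n c c σ = dsg n c c fun x y => ξ * σ x y := by
  rw [scal, dsg, dsg, dg_mul]
  congr 1
  funext i
  by_cases hi : i.1 < c.length
  · obtain ⟨a, ha⟩ := lab_lt hi
    rw [ha]
    simp [hi]
  · have : lab c i.1 = none := by
      simp only [lab, List.getElem?_eq_none_iff]; omega
    rw [this]
    simp [hi]

/-! ### words consisting of one letter -/

theorem eval_one {n : ℕ} (ρ : ℕ → G n) (l : Lt) : Wd.eval ρ [l] = l.eval ρ := by
  simp [Wd.eval]

theorem Sat_one {n k : ℕ} (ρ : ℕ → G n) (l : Lt) : Wd.Sat ρ [l] k ↔ l.Sat ρ k := by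
  simp [Wd.Sat]


/-! ### the step -/

theorem s7 (O : Subring ℂ) (n : ℕ) (hC : Calc n) : S7 O n := by
  classical
  intro k ξ p1 e1 c1 E σ1 g1 rest fr ρ S hWF hρ
  set r0 : Root := ⟨k, ξ, [Lt.par p1 e1 σ1 c1 E g1]⟩ with hr0
  have hS : S = ⟨[r0] ++ rest, fr⟩ := rfl
  -- unpack
  obtain ⟨hk, hξ, hw⟩ := hWF.roots r0 List.mem_cons_self
  obtain ⟨hlen, hcnt, htw, hsc, -⟩ := hw
  have htw' : (∀ x y, σ1 x y = 1) ∨ e1 = E := by
    rcases htw with h | h
    · exact Or.inl h
    · right
      have h' : some E = some e1 := h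
      exact (Option.some.inj h').symm
  obtain ⟨hsat, heq⟩ := hρ.1 r0 List.mem_cons_self
  have hsat' : IsPar c1 E (fun b => ρ (g1 b)) (ρ p1) := hsat _ List.mem_cons_self
  have heq' : scal n k ξ * (dsg n e1 c1 σ1 * ρ p1) = 1 := by
    have := heq
    rw [hr0] at this
    rwa [eval_one] at this
  have hp1 : ρ p1 = (scal n k ξ * dsg n e1 c1 σ1)⁻¹ := by
    rw [← mul_assoc] at heq'
    exact (inv_eq_of_mul_eq_one_right heq').symm
  have hcE : c1 = E := by
    have h1 : ρ p1 = dg fun i => ((fun i : Fin n => (if i.1 < k then ξ else 1) *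
        (match lab e1 i.1, lab c1 i.1 with
          | some x, some y => σ1 x y
          | _, _ => 1)) i)⁻¹ := by
      rw [hp1, scal, dsg, dg_mul, dg_inv]
      rfl
    rw [h1] at hsat'
    exact eq_of_isPar_dg hsat'
  subst hcE
  have hD : dsg n e1 c1 σ1 = dsg n c1 c1 σ1 := by
    rcases htw' with h | h
    · rw [dsg_one _ _ h, dsg_one _ _ h]
    · rw [h]
  subst hlen
  -- the P-letter as a diagonal matrix
  have hP : IsPar c1 c1 (fun b => (scal n (c1.count b) (ξ * σ1 b b))⁻¹)
      (scal n c1.length ξ * dsg n e1 c1 σ1)⁻¹ := by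
    rw [hD, scal_mul_dsg_self]
    exact hC.2.1 _ _ _ _ (isPar_dsg_self hC hk fun x y => ξ * σ1 x y)
  have hblk : ∀ b, ρ (g1 b) = (scal n (c1.count b) (ξ * σ1 b b))⁻¹ := by
    intro b
    rw [← hp1] at hP
    exact congrFun (hC.2.2.2.1 _ _ _ _ _ hsat' hP) b
  have hne : ∀ b, g1 b ≠ p1 := by
    intro b hb
    have h1 : (g1 b, c1.count b, true) ∈ S.occ := by
      rw [Sys.occ_eq, hS, occL_append, Multiset.mem_add]
      left
      rw [hr0]
      cases b <;> simp [occL, Root.occ, Wd.occ, Lt.occ]
    apply hWF.occ_not_pn h1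
    rw [Sys.pn_eq, hS, pnL_append, Multiset.mem_add]
    left
    rw [hb, hr0]
    simp [pnL, Root.pn, Wd.pn, Lt.pn]
  set B : List Root := [⟨c1.count false, ξ * σ1 false false, [Lt.full (g1 false) true]⟩,
    ⟨c1.count true, ξ * σ1 true true, [Lt.full (g1 true) true]⟩] with hB
  have hBmem : ∀ b, (⟨c1.count b, ξ * σ1 b b, [Lt.full (g1 b) true]⟩ : Root) ∈ B := by
    intro b; rw [hB]; cases b <;> simp
  have hBcases : ∀ r ∈ B, ∃ b, r = ⟨c1.count b, ξ * σ1 b b, [Lt.full (g1 b) true]⟩ := by
    intro r hr
    rw [hB] at hr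
    simp only [List.mem_cons, List.not_mem_nil, or_false] at hr
    rcases hr with rfl | rfl
    · exact ⟨false, rfl⟩
    · exact ⟨true, rfl⟩
  have hcle : ∀ b, c1.count b ≤ c1.length := fun b => List.count_le_length
  have hoccB : occL B = occL [r0] := by
    rw [hB, hr0]
    simp [occL, Root.occ, Wd.occ, Lt.occ, Multiset.insert_eq_cons]
  set Φ : (ℕ → G n) → (ℕ → G n) := fun σ x =>
    if x = p1 then (scal n c1.length ξ * dsg n e1 c1 σ1)⁻¹ else σ x with hΦ
  have hsol : ∀ σ : ℕ → G n, (∀ r ∈ B, r.Sol σ) → ∀ b,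
      σ (g1 b) = (scal n (c1.count b) (ξ * σ1 b b))⁻¹ := by
    intro σ hσ b
    have h1 := (hσ _ (hBmem b)).2
    simp only [eval_one] at h1
    have h2 : scal n (c1.count b) (ξ * σ1 b b) * σ (g1 b) = 1 := h1
    exact (inv_eq_of_mul_eq_one_right h2).symm
  show Red O n ⟨[r0] ++ rest, fr⟩ ρ
  refine local_step [r0] B rest fr [] ρ ρ 0 0 Φ hWF hρ ?_ ?_ ?_ ?_ ?_ ?_ ?_ ?_ ?_ ?_ ?_ ?_ ?_ ?_ ?_ ?_ ?_
  · intro r hr
    obtain ⟨b, rfl⟩ := hBcases r hr
    exact ⟨(hcle b).trans hk, hξ.mul (hsc b b), trivial⟩
  · intro z hz; cases hz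
  · intro v hv; simp at hv
  · simp
  · rw [hoccB]
  · simp [hB, pnL, Root.pn, Wd.pn, Lt.pn]
  · intro y hy; simp [hB, pnL, Root.pn, Wd.pn, Lt.pn] at hy
  · refine ⟨0, wtL B, wtL [r0], ?_, by simp, by simp, ?_⟩
    · rw [hr0]; simp [wtL, Root.wt]
    · intro y hy
      have hy' : ∃ b, y ≤ 3 * c1.count b + 1 := by
        rw [hB] at hy
        simp [wtL, Root.wt, Wd.wt, Lt.wt] at hy
        rcases hy with rfl | rfl | rfl | rfl <;>
          first | exact ⟨false, by omega⟩ | exact ⟨true, by omega⟩
      obtain ⟨b, hb⟩ := hy'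
      by_cases hnd : ∀ b, 0 < c1.count b
      · refine ⟨3 * c1.length, ?_, ?_⟩
        · rw [hr0]; simp [wtL, Root.wt]
        · have h1 := hnd false
          have h2 := hnd true
          have h3 : c1.count false + c1.count true = c1.length := by
            rw [List.count_false_add_count_true]
          cases b <;> omega
      · refine ⟨3 * c1.length + 2, ?_, ?_⟩
        · rw [hr0]
          have : Wd.wt [Lt.par p1 e1 σ1 c1 c1 g1] c1.length =
              if ∀ x y, σ1 x y = 1 then {3 * c1.length + 2}
              else {3 * c1.length + 2, 3 * c1.length + 2} := by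
            simp only [Wd.wt, List.map_cons, List.map_nil, List.sum_cons, List.sum_nil, add_zero,
              Lt.wt, if_neg hnd]
          simp only [wtL_cons, wtL_nil, add_zero, Root.wt, this]
          split <;> simp
        · have := hcle b
          omega
  · intro k0 hk0 r hr
    obtain ⟨b, rfl⟩ := hBcases r hr
    left
    show c1.count b < k0
    rcases hk0 r0 List.mem_cons_self with h | ⟨h, h'⟩
    · have : c1.length < k0 := h
      exact lt_of_le_of_lt (hcle b) this
    · have h1 : c1.length = k0 := h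
      obtain ⟨l, hl, hl'⟩ := h'
      rw [hr0] at hl
      simp only [List.mem_cons, List.not_mem_nil, or_false] at hl
      subst hl
      have h2 : ∀ b, 0 < c1.count b := hl'
      have h3 : c1.count false + c1.count true = c1.length := by
        rw [List.count_false_add_count_true]
      have h4 := h2 false
      have h5 := h2 true
      cases b <;> omega
  · intro r hr
    obtain ⟨b, rfl⟩ := hBcases r hr
    refine ⟨?_, ?_⟩
    · rw [Sat_one]
      exact hsat'.blk b
    · rw [eval_one]
      show scal n _ _ * ρ (g1 b) = 1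
      rw [hblk b, mul_inv_cancel]
  · intro z hz; cases hz
  · intro x _; rfl
  · intro x
    exact PolG.ite (x = p1) (PolG.const _) (PolG.coord x)
  · intro x hx σ
    have : x ≠ p1 := by
      rintro rfl
      apply hx
      exact Or.inr (Or.inl (by rw [hr0]; simp [pnL, Root.pn, Wd.pn, Lt.pn]))
    simp [hΦ, this]
  · intro σ hσ _ r hr
    simp only [List.mem_cons, List.not_mem_nil, or_false] at hr
    subst hr
    have e1' : Φ σ p1 = (scal n c1.length ξ * dsg n e1 c1 σ1)⁻¹ := by simp [hΦ]
    refine ⟨?_, ?_⟩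
    · rw [Sat_one]
      show IsPar c1 c1 (fun b => Φ σ (g1 b)) (Φ σ p1)
      have h2 : (fun b => Φ σ (g1 b)) = fun b => (scal n (c1.count b) (ξ * σ1 b b))⁻¹ := by
        funext b
        have : Φ σ (g1 b) = σ (g1 b) := by simp [hΦ, hne b]
        rw [this, hsol σ hσ b]
      rw [h2, e1']
      exact hP
    · rw [eval_one]
      show scal n c1.length ξ * (dsg n e1 c1 σ1 * Φ σ p1) = 1
      rw [e1', ← mul_assoc, mul_inv_cancel]
  · intro σ _ _ hσ x hx _
    by_cases hxp : x = p1
    · simp only [hΦ, hxp, if_true]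
      exact (GO O n).inv_mem ((GO O n).mul_mem (scal_mem_GO hξ) (dsg_mem_GO _ _ hsc))
    · simp only [hΦ, hxp, if_false]
      apply hσ
      rcases hx with ⟨k', ε, hx⟩ | hx
      · left
        refine ⟨k', ε, ?_⟩
        show _ ∈ occL (B ++ rest)
        rw [occL_append, Multiset.mem_add, hoccB]
        exact Or.inl hx
      · exfalso
        apply hxp
        rw [hr0] at hx
        simpa [pnL, Root.pn, Wd.pn, Lt.pn] using hx
  · intro x _ _
    by_cases hxp : x = p1
    · simp [hΦ, hxp, hp1]
    · simp [hΦ, hxp]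

end Crest.Agent.R003.S419
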