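import Crest.Agent.R003.Defs

/-!
# R3: the embedding `GL_k → GL_n`, closure properties of polynomial maps (helper402)
-/

set_option autoImplicit false

namespace Crest.Agent.R003.CR

open Crest.Agent.R003

/-- the block decomposition of `Fin n` -/
def eqv (n k : ℕ) (hk : k ≤ n) : Fin k ⊕ Fin (n - k) ≃ Fin n :=
  finSumFinEquiv.trans (finCongr (by omega))

theorem eqv_inl (n k : ℕ) (hk : k ≤ n) (i : Fin k) : eqv n k hk (Sum.inl i) = Fin.castLE hk i := by
  ext; simp [eqv]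

theorem eqv_inr (n k : ℕ) (hk : k ≤ n) (i : Fin (n - k)) :
    (eqv n k hk (Sum.inr i)).1 = k + i.1 := by
  simp [eqv]

/-- matrices of size `k` as matrices of size `n` (identity outside) -/
def embM (n k : ℕ) (hk : k ≤ n) : Matrix (Fin k) (Fin k) ℂ →* Matrix (Fin n) (Fin n) ℂ where
  toFun A := (Matrix.fromBlocks A 0 0 1).submatrix (eqv n k hk).symm (eqv n k hk).symm
  map_one' := by
    rw [Matrix.fromBlocks_one, Matrix.submatrix_one_equiv]
  map_mul' A B := by
    rw [Matrix.submatrix_mul_equiv, Matrix.fromBlocks_multiply]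
    simp

theorem embM_apply (n k : ℕ) (hk : k ≤ n) (A : Matrix (Fin k) (Fin k) ℂ) (i j : Fin n) :
    embM n k hk A i j = if h : i.1 < k ∧ j.1 < k then A ⟨i.1, h.1⟩ ⟨j.1, h.2⟩ else
      if i = j then 1 else 0 := by
  obtain ⟨i', rfl⟩ := (eqv n k hk).surjective i
  obtain ⟨j', rfl⟩ := (eqv n k hk).surjective j
  simp only [embM, MonoidHom.coe_mk, OneHom.coe_mk, Matrix.submatrix_apply,
    Equiv.symm_apply_apply, EmbeddingLike.apply_eq_iff_eq]
  rcases i' with i' | i' <;> rcases j' with j' | j'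
  · simp only [Matrix.fromBlocks_apply₁₁, eqv_inl]
    rw [dif_pos ⟨by simp, by simp⟩]
    rfl
  · have := eqv_inr n k hk j'
    rw [dif_neg (by omega)]
    simp
  · have := eqv_inr n k hk i'
    rw [dif_neg (by omega)]
    simp
  · have := eqv_inr n k hk i'
    rw [dif_neg (by omega)]
    simp only [Matrix.fromBlocks_apply₂₂, Matrix.one_apply, Sum.inr.injEq]

/-- `GL_k → GL_n` -/
def emb (n k : ℕ) (hk : k ≤ n) : G k →* G n := Units.map (embM n k hk)

theorem emb_val (n k : ℕ) (hk : k ≤ n) (g : G k) : (emb n k hk g).1 = embM n k hk g.1 := rfl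

theorem emb_inv_val (n k : ℕ) (hk : k ≤ n) (g : G k) :
    ((emb n k hk g)⁻¹).1 = embM n k hk (g⁻¹).1 := by
  rw [← map_inv, emb_val]

theorem emb_mem (n k : ℕ) (hk : k ≤ n) (g : G k) : emb n k hk g ∈ GLk n k := by
  intro i j hij
  rw [emb_val, embM_apply, dif_neg (by omega)]

theorem embM_inj (n k : ℕ) (hk : k ≤ n) : Function.Injective (embM n k hk) := by
  intro A B h
  ext i j
  have := congrFun (congrFun h (Fin.castLE hk i)) (Fin.castLE hk j)
  rw [embM_apply, embM_apply, dif_pos ⟨by simp, by simp⟩, dif_pos ⟨by simp, by simp⟩] at this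
  exact this

theorem emb_inj (n k : ℕ) (hk : k ≤ n) : Function.Injective (emb n k hk) := by
  intro a b h
  apply Units.ext
  exact embM_inj n k hk (congrArg Units.val h)

theorem exists_emb {n k : ℕ} (hk : k ≤ n) {g : G n} (hg : g ∈ GLk n k) : ∃ a, emb n k hk a = g := by
  have key : ∀ x : G n, x ∈ GLk n k →
      embM n k hk (x.1.submatrix (Fin.castLE hk) (Fin.castLE hk)) = x.1 := by
    intro x hx
    ext i j
    rw [embM_apply]
    split_ifs with h1 h2
    · rfl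
    · rw [hx i j (by omega), if_pos h2]
    · rw [hx i j (by omega), if_neg h2]
  have h1 := key g hg
  have h2 := key g⁻¹ ((GLk n k).inv_mem hg)
  refine ⟨⟨g.1.submatrix (Fin.castLE hk) (Fin.castLE hk),
    (g⁻¹).1.submatrix (Fin.castLE hk) (Fin.castLE hk), ?_, ?_⟩, ?_⟩
  · apply embM_inj n k hk
    rw [map_mul, h1, h2, map_one, ← Units.val_mul, mul_inv_cancel, Units.val_one]
  · apply embM_inj n k hk
    rw [map_mul, h1, h2, map_one, ← Units.val_mul, inv_mul_cancel, Units.val_one]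
  · exact Units.ext h1

theorem emb_GO {n k : ℕ} (hk : k ≤ n) {O : Subring ℂ} {g : G k} (hg : g ∈ GO O k) :
    emb n k hk g ∈ GO O n := by
  intro i j
  rw [emb_val, emb_inv_val, embM_apply, embM_apply]
  split_ifs with h1 h2
  · exact hg _ _
  · exact ⟨O.one_mem, O.one_mem⟩
  · exact ⟨O.zero_mem, O.zero_mem⟩

theorem emb_scal {n k : ℕ} (hk : k ≤ n) (a : ℂˣ) : emb n k hk (scal k k a) = scal n k a := by
  apply Units.ext
  ext i j
  rw [emb_val, embM_apply]
  simp only [scal, dg, Matrix.diagonal_apply, Fin.mk.injEq]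
  by_cases hij : i = j
  · subst hij
    by_cases hi : i.1 < k
    · simp [hi]
    · simp [hi]
  · have : ¬ (i.1 = j.1) := fun h => hij (Fin.ext h)
    simp [hij, this]

/-! ### polynomial maps -/

section pol

variable {ι κ : Type} {n m l : ℕ}

theorem Pol_const (a : ℂ) : (fun _ : ι → G n => a) ∈ Pol ι n :=
  (Pol ι n).algebraMap_mem a

theorem Pol_add {F F' : (ι → G n) → ℂ} (h : F ∈ Pol ι n) (h' : F' ∈ Pol ι n) :
    (fun ρ => F ρ + F' ρ) ∈ Pol ι n := (Pol ι n).add_mem h h'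

theorem Pol_mul {F F' : (ι → G n) → ℂ} (h : F ∈ Pol ι n) (h' : F' ∈ Pol ι n) :
    (fun ρ => F ρ * F' ρ) ∈ Pol ι n := (Pol ι n).mul_mem h h'

theorem Pol_sum {α : Type*} (s : Finset α) {F : α → (ι → G n) → ℂ} (h : ∀ a ∈ s, F a ∈ Pol ι n) :
    (fun ρ => ∑ a ∈ s, F a ρ) ∈ Pol ι n := by
  have : (fun ρ => ∑ a ∈ s, F a ρ) = ∑ a ∈ s, F a := by
    funext ρ
    simp
  rw [this]
  exact (Pol ι n).sum_mem h

theorem PolG_mul {S : Set (ι → G n)} {Φ Ψ : (ι → G n) → G m} (h : PolG S Φ) (h' : PolG S Ψ) :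
    PolG S (fun ρ => Φ ρ * Ψ ρ) := by
  intro i j
  constructor
  · choose F hF hF' using fun k => (h i k).1
    choose F₂ hF₂ hF₂' using fun k => (h' k j).1
    refine ⟨fun ρ => ∑ k, F k ρ * F₂ k ρ, Pol_sum _ fun k _ => Pol_mul (hF k) (hF₂ k), ?_⟩
    intro ρ hρ
    rw [Units.val_mul, Matrix.mul_apply]
    exact Finset.sum_congr rfl fun k _ => by rw [hF' k ρ hρ, hF₂' k ρ hρ]
  · choose F hF hF' using fun k => (h' i k).2
    choose F₂ hF₂ hF₂' using fun k => (h k j).2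
    refine ⟨fun ρ => ∑ k, F k ρ * F₂ k ρ, Pol_sum _ fun k _ => Pol_mul (hF k) (hF₂ k), ?_⟩
    intro ρ hρ
    rw [mul_inv_rev, Units.val_mul, Matrix.mul_apply]
    exact Finset.sum_congr rfl fun k _ => by rw [hF' k ρ hρ, hF₂' k ρ hρ]

theorem PolG_inv {S : Set (ι → G n)} {Φ : (ι → G n) → G m} (h : PolG S Φ) :
    PolG S (fun ρ => (Φ ρ)⁻¹) := by
  intro i j
  obtain ⟨h1, h2⟩ := h i j
  refine ⟨h2, ?_⟩
  simpa using h1

theorem PolG_const (S : Set (ι → G n)) (g : G m) : PolG S (fun _ => g) := fun i j =>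
  ⟨⟨_, Pol_const (g.1 i j), fun _ _ => rfl⟩, ⟨_, Pol_const ((g⁻¹).1 i j), fun _ _ => rfl⟩⟩

theorem PolG_coord (S : Set (ι → G n)) (x : ι) : PolG S (fun ρ => ρ x) := fun i j =>
  ⟨⟨_, Algebra.subset_adjoin (Or.inl ⟨x, i, j, rfl⟩), fun _ _ => rfl⟩,
    ⟨_, Algebra.subset_adjoin (Or.inr ⟨x, i, j, rfl⟩), fun _ _ => rfl⟩⟩

theorem PolG_lift {S : Set (ι → G n)} {α : Type*} (Φ : α → (ι → G n) → G m)
    (h : ∀ a, PolG S (Φ a)) (g : FreeGroup α) :
    PolG S (fun ρ => FreeGroup.lift (fun a => Φ a ρ) g) := by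
  induction g using FreeGroup.induction_on with
  | C1 => simpa using PolG_const S (1 : G m)
  | of a => simpa using h a
  | inv_of a _ => simpa using PolG_inv (h a)
  | mul x y hx hy => simpa using PolG_mul hx hy

theorem PolG_emb {S : Set (ι → G n)} {l m : ℕ} (hl : m ≤ l) {Φ : (ι → G n) → G m} (h : PolG S Φ) :
    PolG S (fun ρ => CR.emb l m hl (Φ ρ)) := by
  intro i j
  simp only [emb_val, emb_inv_val, embM_apply]
  by_cases h1 : i.1 < m ∧ j.1 < m
  · obtain ⟨⟨F, hF, hF'⟩, ⟨F2, hF2, hF2'⟩⟩ := h ⟨i.1, h1.1⟩ ⟨j.1, h1.2⟩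
    exact ⟨⟨F, hF, fun ρ hρ => by rw [dif_pos h1]; exact hF' ρ hρ⟩,
      ⟨F2, hF2, fun ρ hρ => by rw [dif_pos h1]; exact hF2' ρ hρ⟩⟩
  · exact ⟨⟨_, Pol_const (if i = j then 1 else 0), fun ρ _ => by rw [dif_neg h1]⟩,
      ⟨_, Pol_const (if i = j then 1 else 0), fun ρ _ => by rw [dif_neg h1]⟩⟩

/-- substitution of polynomial maps into a polynomial function -/
theorem Pol_comp {F : (ι → G n) → ℂ} (hF : F ∈ Pol ι n) (Φ : ι → (κ → G m) → G n)
    (h : ∀ x, PolG Set.univ (Φ x)) : (fun τ => F (fun x => Φ x τ)) ∈ Pol κ m := by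
  unfold Pol at hF
  induction hF using Algebra.adjoin_induction with
  | mem F hF =>
    rcases hF with ⟨x, i, j, rfl⟩ | ⟨x, i, j, rfl⟩
    · obtain ⟨F', hF', he⟩ := (h x i j).1
      convert hF' using 1
      funext τ
      exact he τ trivial
    · obtain ⟨F', hF', he⟩ := (h x i j).2
      convert hF' using 1
      funext τ
      exact he τ trivial
  | algebraMap r => exact Pol_const r
  | add x y _ _ hx hy => exact Pol_add hx hy
  | mul x y _ _ hx hy => exact Pol_mul hx hy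

end pol

/-- integrality of word values -/
theorem lift_GO {O : Subring ℂ} {n : ℕ} {α : Type*} {ρ : α → G n} (h : ∀ a, ρ a ∈ GO O n)
    (g : FreeGroup α) : FreeGroup.lift ρ g ∈ GO O n := by
  induction g using FreeGroup.induction_on with
  | C1 => simp [(GO O n).one_mem]
  | of a => simpa using h a
  | inv_of a _ => simpa using (GO O n).inv_mem (h a)
  | mul x y hx hy => simpa using (GO O n).mul_mem hx hy

theorem IsSc_inv {O : Subring ℂ} {a : ℂˣ} (h : IsSc O a) : IsSc O a⁻¹ := by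
  obtain ⟨h1, m, hm, h2⟩ := h
  refine ⟨?_, m, hm, by rw [inv_pow, h2, inv_one]⟩
  have : a⁻¹ = a ^ (m - 1) := by
    rw [inv_eq_iff_mul_eq_one, ← pow_succ', Nat.sub_add_cancel hm, h2]
  rw [this]
  push_cast
  exact O.pow_mem h1 _

end Crest.Agent.R003.CR
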