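import Crest.Agent.R003.Iface
import Crest.Agent.R003.Emb402
import Crest.Agent.R003.Closed402

/-!
# R3: step S9, a closed root is split off (helper402)
-/

set_option autoImplicit false

namespace Crest.Agent.R003.CR

open Crest.Agent.R003

/-! ### full words as lists of letters -/

theorem exists_letters {w : Wd} (hw : Wd.isFull w) :
    ∃ L : List (ℕ × Bool), w = L.map (fun l => Lt.full l.1 l.2) := by
  induction w with
  | nil => exact ⟨[], rfl⟩
  | cons l w ih =>
    obtain ⟨L, rfl⟩ := ih (fun l hl => hw l (List.mem_cons_of_mem _ hl))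
    have h := hw l (by simp)
    cases l with
    | full x ε => exact ⟨(x, ε) :: L, rfl⟩
    | par => exact absurd h (by simp [Lt.IsFull])

theorem eval_letters {n : ℕ} (ρ : ℕ → G n) (L : List (ℕ × Bool)) :
    Wd.eval ρ (L.map (fun l => Lt.full l.1 l.2)) = FreeGroup.lift ρ (FreeGroup.mk L) := by
  rw [FreeGroup.lift_mk, Wd.eval, List.map_map]
  congr 1
  apply List.map_congr_left
  rintro ⟨x, ε⟩ _
  cases ε <;> simp [Lt.eval]

theorem sat_letters {n : ℕ} (ρ : ℕ → G n) (k : ℕ) (L : List (ℕ × Bool)) :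
    Wd.Sat ρ (L.map (fun l => Lt.full l.1 l.2)) k ↔ ∀ l ∈ L, ρ l.1 ∈ GLk n k := by
  simp only [Wd.Sat, List.mem_map, forall_exists_index, and_imp]
  constructor
  · intro h l hl
    exact h _ l hl rfl
  · rintro h _ l hl rfl
    exact h l hl

theorem occ_letters (k : ℕ) (L : List (ℕ × Bool)) :
    Wd.occ (L.map (fun l => Lt.full l.1 l.2)) k =
      ((L.map (fun l => ((l.1, k, l.2) : ℕ × ℕ × Bool)) : List (ℕ × ℕ × Bool)) :
        Multiset (ℕ × ℕ × Bool)) := by
  induction L with
  | nil => rfl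
  | cons l L ih =>
    simp only [Wd.occ, List.map_cons, List.sum_cons] at ih ⊢
    rw [ih]
    simp only [Lt.occ]
    rfl

theorem pn_letters (L : List (ℕ × Bool)) :
    Wd.pn (L.map (fun l => Lt.full l.1 l.2)) = 0 := by
  induction L with
  | nil => rfl
  | cons l L ih =>
    simp only [Wd.pn, List.map_cons, List.sum_cons] at ih ⊢
    rw [ih]
    simp [Lt.pn]

/-! ### the solution property depends on the names only -/

theorem mem_sum_list {α β : Type*} {l : List β} {f : β → Multiset α} {b : β} (hb : b ∈ l) {a : α}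
    (ha : a ∈ f b) : a ∈ (l.map f).sum := by
  induction l with
  | nil => simp at hb
  | cons c l ih =>
    rw [List.map_cons, List.sum_cons, Multiset.mem_add]
    rcases List.mem_cons.1 hb with rfl | hb
    · exact Or.inl ha
    · exact Or.inr (ih hb)

theorem letter_congr {n k : ℕ} {ρ ρ' : ℕ → G n} {l : Lt}
    (h : ∀ x, ((∃ k' ε, (x, k', ε) ∈ Lt.occ k l) ∨ x ∈ Lt.pn l) → ρ x = ρ' x) :
    Lt.eval ρ l = Lt.eval ρ' l ∧ (Lt.Sat ρ k l ↔ Lt.Sat ρ' k l) := by
  cases l with
  | full x ε =>
    have := h x (Or.inl ⟨k, ε, by simp [Lt.occ]⟩)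
    simp [Lt.eval, Lt.Sat, this]
  | par p e σ c c' g =>
    have h0 := h p (Or.inr (by simp [Lt.pn]))
    have h1 : (fun b => ρ (g b)) = fun b => ρ' (g b) := by
      funext b
      apply h
      left
      cases b
      · exact ⟨_, _, by simp only [Lt.occ, Multiset.insert_eq_cons]; exact Multiset.mem_cons_self _ _⟩
      · exact ⟨_, _, by
          simp only [Lt.occ, Multiset.insert_eq_cons]
          exact Multiset.mem_cons_of_mem (Multiset.mem_singleton_self _)⟩
    simp only [Lt.eval, Lt.Sat, h0, h1, and_self]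

theorem root_congr {n : ℕ} {ρ ρ' : ℕ → G n} {r : Root}
    (h : ∀ x, ((∃ k' ε, (x, k', ε) ∈ r.occ) ∨ x ∈ r.pn) → ρ x = ρ' x) :
    r.Sol ρ → r.Sol ρ' := by
  have key : ∀ l ∈ r.w, Lt.eval ρ l = Lt.eval ρ' l ∧ (Lt.Sat ρ r.k l ↔ Lt.Sat ρ' r.k l) := by
    intro l hl
    apply letter_congr
    rintro x (⟨k', ε, hx⟩ | hx)
    · exact h x (Or.inl ⟨k', ε, mem_sum_list hl hx⟩)
    · exact h x (Or.inr (mem_sum_list hl hx))
  rintro ⟨h1, h2⟩
  refine ⟨fun l hl => (key l hl).2.1 (h1 l hl), ?_⟩
  rw [← h2]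
  congr 1
  unfold Wd.eval
  congr 1
  exact (List.map_congr_left fun l hl => (key l hl).1).symm

/-! ### splitting the list of names -/

theorem lin_split {k : ℕ} {L : List (ℕ × Bool)} {R : Multiset (ℕ × ℕ × Bool)}
    {V : Multiset (ℕ × ℕ)}
    (hV : ((L.map (fun l => ((l.1, k, l.2) : ℕ × ℕ × Bool)) : List (ℕ × ℕ × Bool)) :
        Multiset (ℕ × ℕ × Bool)) + R =
      V.map (fun v => (v.1, v.2, true)) + V.map (fun v => (v.1, v.2, false)))
    (hnd : (V.map Prod.fst).Nodup) (hpair : ∀ l ∈ L, (l.1, !l.2) ∈ L) :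
    L.Nodup ∧ (∀ x k' ε', (x, k', ε') ∈ R → ∀ ε, (x, ε) ∉ L) ∧
    ∃ V' Vw : Multiset (ℕ × ℕ), V = Vw + V' ∧
      R = V'.map (fun v => (v.1, v.2, true)) + V'.map (fun v => (v.1, v.2, false)) ∧
      ∀ x ε, (x, ε) ∈ L → x ∈ Vw.map Prod.fst := by
  classical
  have h1 : ∀ b : Bool, (V.map (fun v => ((v.1, v.2, b) : ℕ × ℕ × Bool))).Nodup := by
    intro b
    apply Multiset.Nodup.of_map Prod.fst
    rw [Multiset.map_map]
    exact hnd
  have htot : (V.map (fun v => ((v.1, v.2, true) : ℕ × ℕ × Bool)) +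
      V.map (fun v => ((v.1, v.2, false) : ℕ × ℕ × Bool))).Nodup := by
    rw [Multiset.nodup_add]
    refine ⟨h1 true, h1 false, ?_⟩
    rw [Multiset.disjoint_left]
    intro t ht ht'
    rw [Multiset.mem_map] at ht ht'
    obtain ⟨v, _, rfl⟩ := ht
    obtain ⟨v', _, hv'⟩ := ht'
    simp at hv'
  rw [← hV, Multiset.nodup_add] at htot
  obtain ⟨h2, _, h3⟩ := htot
  have hmemV : ∀ x k' ε, (x, k', ε) ∈ V.map (fun v => ((v.1, v.2, true) : ℕ × ℕ × Bool)) +
      V.map (fun v => ((v.1, v.2, false) : ℕ × ℕ × Bool)) → (x, k') ∈ V := by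
    intro x k' ε h
    rw [Multiset.mem_add, Multiset.mem_map, Multiset.mem_map] at h
    rcases h with ⟨v, hv, he⟩ | ⟨v, hv, he⟩
    · obtain ⟨a, b⟩ := v
      simp only [Prod.mk.injEq] at he
      obtain ⟨rfl, rfl, _⟩ := he
      exact hv
    · obtain ⟨a, b⟩ := v
      simp only [Prod.mk.injEq] at he
      obtain ⟨rfl, rfl, _⟩ := he
      exact hv
  have hmemL : ∀ x ε, (x, ε) ∈ L → (x, k, ε) ∈
      ((L.map (fun l => ((l.1, k, l.2) : ℕ × ℕ × Bool)) : List (ℕ × ℕ × Bool)) :
        Multiset (ℕ × ℕ × Bool)) := by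
    intro x ε h
    rw [Multiset.mem_coe, List.mem_map]
    exact ⟨(x, ε), h, rfl⟩
  have hR : ∀ x k' ε', (x, k', ε') ∈ R → ∀ ε, (x, ε) ∉ L := by
    intro x k' ε' hR ε hL
    have hL' : (x, ε') ∈ L := by
      by_cases he : ε' = ε
      · rw [he]; exact hL
      · have := hpair _ hL
        have he2 : ε' = !ε := by cases ε <;> cases ε' <;> simp_all
        rw [he2]; exact this
    have e1 := hmemV x k' ε' (by rw [← hV]; exact Multiset.mem_add.2 (Or.inr hR))
    have e2 := hmemV x k ε' (by rw [← hV]; exact Multiset.mem_add.2 (Or.inl (hmemL _ _ hL')))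
    have e3 := Multiset.inj_on_of_nodup_map hnd _ e1 _ e2 rfl
    have e4 : k' = k := congrArg Prod.snd e3
    subst e4
    exact (Multiset.disjoint_left.1 h3) (hmemL _ _ hL') hR
  refine ⟨(List.Nodup.of_map _ (Multiset.coe_nodup.1 h2)), hR, ?_⟩
  refine ⟨V.filter (fun v => ¬ ∃ ε, (v.1, ε) ∈ L), V.filter (fun v => ∃ ε, (v.1, ε) ∈ L), ?_, ?_, ?_⟩
  · exact (Multiset.filter_add_not _ _).symm
  · have h4 := congrArg (Multiset.filter (fun t : ℕ × ℕ × Bool => ¬ ∃ ε, (t.1, ε) ∈ L)) hV
    rw [Multiset.filter_add, Multiset.filter_add, Multiset.filter_map, Multiset.filter_map] at h4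
    have h5 : Multiset.filter (fun t : ℕ × ℕ × Bool => ¬ ∃ ε, (t.1, ε) ∈ L)
        ((L.map (fun l => ((l.1, k, l.2) : ℕ × ℕ × Bool)) : List (ℕ × ℕ × Bool)) :
        Multiset (ℕ × ℕ × Bool)) = 0 := by
      rw [Multiset.filter_eq_nil]
      intro t ht
      rw [Multiset.mem_coe, List.mem_map] at ht
      obtain ⟨l, hl, rfl⟩ := ht
      simp only [not_not]
      exact ⟨l.2, hl⟩
    have h6 : Multiset.filter (fun t : ℕ × ℕ × Bool => ¬ ∃ ε, (t.1, ε) ∈ L) R = R := by
      rw [Multiset.filter_eq_self]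
      rintro ⟨x, k', ε'⟩ ht ⟨ε, h⟩
      exact hR _ _ _ ht _ h
    rw [h5, h6, zero_add] at h4
    exact h4
  · intro x ε h
    have := hmemV x k ε (by rw [← hV]; exact Multiset.mem_add.2 (Or.inl (hmemL _ _ h)))
    rw [Multiset.mem_map]
    exact ⟨(x, k), Multiset.mem_filter.2 ⟨this, ε, h⟩, rfl⟩

/-! ### the step -/

theorem lift_mem_of_closure {G : Type*} [Group G] {N : Type*} (H : Subgroup G) (ρ : N → G)
    {S : Set N} (h : ∀ x ∈ S, ρ x ∈ H) {g : FreeGroup N}
    (hg : g ∈ Subgroup.closure (FreeGroup.of '' S)) : FreeGroup.lift ρ g ∈ H := by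
  have : Subgroup.closure (FreeGroup.of '' S) ≤ H.comap (FreeGroup.lift ρ) := by
    rw [Subgroup.closure_le]
    rintro _ ⟨x, hx, rfl⟩
    simpa using h x hx
  exact this hg

theorem dm_of_cons {a : ℕ} {s t : Multiset ℕ} : Multiset.IsDershowitzMannaLT s (a ::ₘ t + s) := by
  refine ⟨s, 0, a ::ₘ t, by simp, by simp, by rw [add_comm], by simp⟩

theorem mem_names_root {S : Sys} {r : Root} (hr : r ∈ S.roots) {x : ℕ}
    (h : (∃ k ε, (x, k, ε) ∈ r.occ) ∨ x ∈ r.pn) : x ∈ S.names := by
  rcases h with ⟨k, ε, h⟩ | h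
  · exact Or.inl ⟨k, ε, mem_sum_list hr h⟩
  · exact Or.inr (Or.inl (mem_sum_list hr h))

theorem s9 (O : Subring ℂ) (n : ℕ) : S9 O n := by
  classical
  intro k ξ w rest fr ρ S hC hfull hpair hWF hρ
  obtain ⟨L, rfl⟩ := exists_letters hfull
  obtain ⟨hk, hξ, -⟩ := hWF.roots _ (List.mem_cons_self (l := rest))
  change k ≤ n at hk
  change IsSc O ξ at hξ
  obtain ⟨V, hV, hnd⟩ := hWF.lin
  have hpL : ∀ l ∈ L, (l.1, !l.2) ∈ L := by
    intro l hl
    have h1 := hpair l.1 l.2 (by
      rw [occ_letters, Multiset.mem_coe, List.mem_map]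
      exact ⟨l, hl, rfl⟩)
    rw [occ_letters, Multiset.mem_coe, List.mem_map] at h1
    obtain ⟨l', hl', he⟩ := h1
    simp only [Prod.mk.injEq, true_and] at he
    rw [← he.1, ← he.2]
    exact hl'
  have hoccS : S.occ = ((L.map (fun l => ((l.1, k, l.2) : ℕ × ℕ × Bool)) :
      List (ℕ × ℕ × Bool)) : Multiset (ℕ × ℕ × Bool)) + (rest.map Root.occ).sum := by
    change ((_ :: rest).map Root.occ).sum = _
    rw [List.map_cons, List.sum_cons, ← occ_letters]
    rfl
  have hpnS : S.pn = (rest.map Root.pn).sum := by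
    change ((_ :: rest).map Root.pn).sum = _
    rw [List.map_cons, List.sum_cons]
    have : Root.pn ⟨k, ξ, L.map (fun l => Lt.full l.1 l.2)⟩ = 0 := pn_letters L
    rw [this, zero_add]
  have hndV : (V.map Prod.fst).Nodup := by
    refine Multiset.nodup_of_le ?_ hnd
    exact (Multiset.le_add_right _ _).trans (Multiset.le_add_right _ _)
  obtain ⟨hLnd, hLR, V', Vw, hVV, hR, hVw⟩ := lin_split (hoccS ▸ hV) hndV hpL
  have hcl : IsClosed L := ⟨hLnd, hpL⟩
  obtain ⟨R⟩ := exists_red L.length L le_rfl hcl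
  -- names of the closed root
  set NW : Set ℕ := {x | (x, true) ∈ L} with hNW
  have hNWmem : ∀ l ∈ L, l.1 ∈ NW := fun l hl => hcl.mem_nms hl
  -- disjointness
  have hnd2 : (Vw.map Prod.fst + (V'.map Prod.fst + (rest.map Root.pn).sum +
      ((fr.map Prod.fst : List ℕ) : Multiset ℕ))).Nodup := by
    have h1 : V.map Prod.fst + S.pn + ((S.free.map Prod.fst : List ℕ) : Multiset ℕ) =
        (Vw.map Prod.fst + (V'.map Prod.fst + (rest.map Root.pn).sum +
        ((fr.map Prod.fst : List ℕ) : Multiset ℕ))) := by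
      rw [hpnS, hVV, Multiset.map_add]
      simp only [add_assoc]
      rfl
    rw [← h1]
    exact hnd
  have hdisj := (Multiset.nodup_add.1 hnd2).2.2
  have hNWpn : ∀ x ∈ NW, x ∉ (rest.map Root.pn).sum := by
    intro x hx h
    refine Multiset.disjoint_left.1 hdisj (hVw x true hx) ?_
    rw [Multiset.mem_add, Multiset.mem_add]
    exact Or.inl (Or.inr h)
  have hNWfr : ∀ x ∈ NW, x ∉ fr.map Prod.fst := by
    intro x hx h
    refine Multiset.disjoint_left.1 hdisj (hVw x true hx) ?_
    rw [Multiset.mem_add]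
    exact Or.inr h
  have hNWocc : ∀ x ∈ NW, ∀ k' ε, (x, k', ε) ∉ (rest.map Root.occ).sum :=
    fun x hx k' ε h => hLR x k' ε h true hx
  have hrestNW : ∀ r ∈ rest, ∀ x, ((∃ k' ε, (x, k', ε) ∈ r.occ) ∨ x ∈ r.pn) → x ∉ NW := by
    rintro r hr x (⟨k', ε, h⟩ | h) hx
    · exact hNWocc x hx k' ε (mem_sum_list hr h)
    · exact hNWpn x hx (mem_sum_list hr h)
  -- the solution
  obtain ⟨hroots, hfree⟩ := hρ
  obtain ⟨hsat, hev⟩ := hroots _ (List.mem_cons_self (l := rest))
  change Wd.Sat ρ _ k at hsat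
  change scal n k ξ * Wd.eval ρ _ = 1 at hev
  rw [sat_letters] at hsat
  rw [eval_letters] at hev
  have hsatNW : ∀ x ∈ NW, ρ x ∈ GLk n k := fun x hx => hsat (x, true) hx
  have hTh : ∀ y, FreeGroup.lift ρ (R.Theta y) ∈ GLk n k := fun y =>
    lift_mem_of_closure _ ρ hsatNW (R.mem y)
  choose T hT using fun p : Fin R.h × Bool => exists_emb hk (hTh (Sum.inl p))
  have hback : FreeGroup.lift ρ (FreeGroup.lift R.Theta (FreeGroup.lift R.Psi (FreeGroup.mk L))) =
      FreeGroup.lift ρ (FreeGroup.mk L) := by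
    rw [lift_lift (FreeGroup.lift R.Theta) R.Psi, R.back hcl (fun l hl => hl)]
  have hsc : scal n k ξ⁻¹ = (scal n k ξ)⁻¹ := by
    rw [← emb_scal hk, ← emb_scal hk, ← map_inv]
    congr 1
    apply Units.ext
    simp [scal, dg]
  have hTsol : cprod R.h T = scal k k ξ⁻¹ := by
    apply emb_inj n k hk
    rw [map_cprod, emb_scal]
    have h1 : (fun p => emb n k hk (T p)) = fun p => FreeGroup.lift ρ (R.Theta (Sum.inl p)) := by
      funext p; exact hT p
    rw [h1]
    have h2 : cprod R.h (fun p => FreeGroup.lift ρ (R.Theta (Sum.inl p))) =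
        FreeGroup.lift ρ (FreeGroup.lift R.Theta (cprod R.h fun p => FreeGroup.of (Sum.inl p))) := by
      rw [map_cprod, map_cprod]
      simp
    rw [h2, ← R.word, hback, hsc]
    exact eq_inv_of_mul_eq_one_right hev
  -- the substitution
  set U : (Fin R.h × Bool → G k) → (ℕ → G n) → ℕ → G n := fun T' τ x =>
    if x ∈ NW then FreeGroup.lift (Sum.elim (fun p => emb n k hk (T' p)) (fun j => τ (R.y j)))
      (R.Psi x) else τ x with hU
  set ρ' : ℕ → G n := fun x => if h : ∃ j, R.y j = x then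
    FreeGroup.lift ρ (R.Theta (Sum.inr h.choose)) else ρ x with hρ'
  have hρ'y : ∀ j, ρ' (R.y j) = FreeGroup.lift ρ (R.Theta (Sum.inr j)) := by
    intro j
    have h : ∃ j', R.y j' = R.y j := ⟨j, rfl⟩
    simp only [hρ']
    rw [dif_pos h]
    have := R.y_inj h.choose_spec
    rw [this]
  have hρ'n : ∀ x, x ∉ NW → ρ' x = ρ x := by
    intro x hx
    simp only [hρ']
    rw [dif_neg]
    rintro ⟨j, rfl⟩
    exact hx (R.y_mem j)
  have hUρ : U T ρ' = ρ := by
    funext x
    simp only [hU]
    split_ifs with hx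
    · have h1 : (Sum.elim (fun p => emb n k hk (T p)) (fun j => ρ' (R.y j)) : Gen R.h R.m → G n) =
          fun y => FreeGroup.lift ρ (R.Theta y) := by
        funext y
        rcases y with y | y
        · exact hT y
        · exact hρ'y y
      rw [h1, ← lift_lift (FreeGroup.lift ρ) R.Theta, R.inv x hx]
      simp
    · exact hρ'n x hx
  -- the new system
  set S' : Sys := ⟨rest, (List.ofFn fun j => (R.y j, k)) ++ fr⟩ with hS'
  have hys : (List.ofFn fun j => (R.y j, k)).map Prod.fst = List.ofFn R.y := by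
    rw [List.map_ofFn]; rfl
  have hS'free : S'.free.map Prod.fst = List.ofFn R.y ++ fr.map Prod.fst := by
    simp only [hS', List.map_append, hys]
  have hnames : ∀ x, x ∉ NW → (x ∈ S.names → x ∈ S'.names) := by
    rintro x hx (⟨k', ε, h⟩ | h | h)
    · rw [hoccS, Multiset.mem_add] at h
      rcases h with h | h
      · rw [Multiset.mem_coe, List.mem_map] at h
        obtain ⟨l, hl, he⟩ := h
        simp only [Prod.mk.injEq] at he
        exact absurd (he.1 ▸ hNWmem l hl) hx
      · exact Or.inl ⟨k', ε, h⟩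
    · rw [hpnS] at h
      exact Or.inr (Or.inl h)
    · refine Or.inr (Or.inr ?_)
      rw [hS'free]
      exact List.mem_append_right _ h
  have hyn : ∀ j, R.y j ∈ S'.names := by
    intro j
    refine Or.inr (Or.inr ?_)
    rw [hS'free]
    exact List.mem_append_left _ (by rw [List.mem_ofFn]; exact ⟨j, rfl⟩)
  refine ⟨S', ρ', ⟨fun r hr => hWF.roots r (List.mem_cons_of_mem _ hr), ?_, ?_⟩, ?_, ?_, ?_, ?_⟩
  · intro z hz
    rw [hS'] at hz
    rcases List.mem_append.1 hz with hz | hz
    · rw [List.mem_ofFn] at hz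
      obtain ⟨j, rfl⟩ := hz
      exact hk
    · exact hWF.free z hz
  · refine ⟨V', hR, ?_⟩
    refine Multiset.nodup_of_le ?_ hnd2
    have h1 : ((List.ofFn R.y : List ℕ) : Multiset ℕ) ≤ Vw.map Prod.fst := by
      rw [Multiset.le_iff_subset (Multiset.coe_nodup.2 (List.nodup_ofFn.2 R.y_inj))]
      intro x hx
      rw [Multiset.mem_coe, List.mem_ofFn] at hx
      obtain ⟨j, rfl⟩ := hx
      exact hVw _ _ (R.y_mem j)
    have h2 : V'.map Prod.fst + S'.pn + ((S'.free.map Prod.fst : List ℕ) : Multiset ℕ) =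
        ((List.ofFn R.y : List ℕ) : Multiset ℕ) + (V'.map Prod.fst + (rest.map Root.pn).sum +
        ((fr.map Prod.fst : List ℕ) : Multiset ℕ)) := by
      rw [hS'free, ← Multiset.coe_add]
      have : S'.pn = (rest.map Root.pn).sum := rfl
      rw [this]
      simp only [add_assoc, add_left_comm]
    rw [h2]
    exact add_le_add h1 le_rfl
  · have h1 : S.wt = (3 * k) ::ₘ Wd.wt (L.map (fun l => Lt.full l.1 l.2)) k + S'.wt := by
      change ((_ :: rest).map Root.wt).sum = _
      rw [List.map_cons, List.sum_cons]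
      rfl
    rw [h1]
    exact dm_of_cons
  · intro k0 hA r hr
    exact hA r (List.mem_cons_of_mem _ hr)
  · refine ⟨fun r hr => ?_, fun z hz => ?_⟩
    · refine root_congr (fun x hx => (hρ'n x (hrestNW r hr x hx)).symm)
        (hroots r (List.mem_cons_of_mem _ hr))
    · rcases List.mem_append.1 hz with hz | hz
      · rw [List.mem_ofFn] at hz
        obtain ⟨j, rfl⟩ := hz
        change ρ' (R.y j) ∈ GLk n k
        rw [hρ'y]
        exact hTh _
      · have hz' : z.1 ∉ NW := fun h => hNWfr _ h (List.mem_map_of_mem hz)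
        rw [hρ'n _ hz']
        exact hfree z hz
  · intro hA F hF hvan
    -- solutions are mapped to solutions
    have hUsol : ∀ T' : Fin R.h × Bool → G k, cprod R.h T' = scal k k ξ⁻¹ →
        ∀ τ ∈ S'.Sol n, U T' τ ∈ S.Sol n := by
      intro T' hT' τ hτ
      have hyk : ∀ j, τ (R.y j) ∈ GLk n k := by
        intro j
        exact hτ.2 (R.y j, k) (List.mem_append_left _ (by rw [List.mem_ofFn]; exact ⟨j, rfl⟩))
      have hval : ∀ x, FreeGroup.lift (Sum.elim (fun p => emb n k hk (T' p))
          (fun j => τ (R.y j))) (R.Psi x) ∈ GLk n k := by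
        intro x
        refine lift_mem_of_closure (S := Set.univ) _ _ (fun y _ => ?_) ?_
        · rcases y with y | y
          · exact emb_mem n k hk _
          · exact hyk y
        · rw [Set.image_univ, FreeGroup.closure_range_of]
          trivial
      refine ⟨fun r hr => ?_, fun z hz => ?_⟩
      · rcases List.mem_cons.1 hr with rfl | hr
        · refine ⟨?_, ?_⟩
          · change Wd.Sat _ _ k
            rw [sat_letters]
            intro l hl
            have hx := hNWmem l hl
            simp only [hU]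
            rw [if_pos hx]
            exact hval _
          · change scal n k ξ * Wd.eval _ _ = 1
            rw [eval_letters]
            have h1 : FreeGroup.lift (U T' τ) (FreeGroup.mk L) = FreeGroup.lift
                (fun x => FreeGroup.lift (Sum.elim (fun p => emb n k hk (T' p))
                  (fun j => τ (R.y j))) (R.Psi x)) (FreeGroup.mk L) := by
              apply lift_mk_congr
              intro l hl
              have hx := hNWmem l hl
              simp only [hU]
              rw [if_pos hx]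
            rw [h1, ← lift_lift (FreeGroup.lift (Sum.elim (fun p => emb n k hk (T' p))
                  (fun j => τ (R.y j)))) R.Psi, R.word, map_cprod]
            simp only [FreeGroup.lift_apply_of, Sum.elim_inl]
            rw [← map_cprod, hT', emb_scal, hsc, mul_inv_cancel]
        · refine root_congr (fun x hx => ?_) (hτ.1 r hr)
          have := hrestNW r hr x hx
          simp only [hU]
          rw [if_neg this]
      · have hz' : z.1 ∉ NW := fun h => hNWfr _ h (List.mem_map_of_mem hz)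
        simp only [hU]
        rw [if_neg hz']
        exact hτ.2 z (List.mem_append_right _ hz)
    -- step 1
    have hstep1 : ∀ T' : Fin R.h × Bool → G k, cprod R.h T' = scal k k ξ⁻¹ →
        (∀ p, T' p ∈ GO O k) → F (U T' ρ') = 0 := by
      intro T' hT' hT'O
      refine hA (fun τ => F (U T' τ)) ?_ ?_
      · refine Pol_comp hF (fun x τ => U T' τ x) ?_
        intro x
        simp only [hU]
        split_ifs with hx
        · refine PolG_lift (fun y τ => (Sum.elim (fun p => emb n k hk (T' p))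
            (fun j => τ (R.y j)) : Gen R.h R.m → G n) y) ?_ (R.Psi x)
          intro y
          rcases y with y | y
          · exact PolG_const _ _
          · exact PolG_coord _ _
        · exact PolG_coord _ x
      · intro τ hτ hτO
        refine hvan _ (hUsol T' hT' τ hτ) ?_
        intro x hx
        simp only [hU]
        split_ifs with hxN
        · apply lift_GO
          intro y
          rcases y with y | y
          · exact emb_GO hk (hT'O y)
          · exact hτO _ (hyn y)
        · exact hτO _ (hnames x hxN hx)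
    -- step 2
    have hstep2 : F (U T ρ') = 0 := by
      have hCl := hC R.h ξ⁻¹ (IsSc_inv hξ) T hTsol
      refine hCl (fun T' => F (U T' ρ')) ?_ ?_
      · refine Pol_comp hF (fun x T' => U T' ρ' x) ?_
        intro x
        simp only [hU]
        split_ifs with hx
        · refine PolG_lift (fun y T' => (Sum.elim (fun p => emb n k hk (T' p))
            (fun j => ρ' (R.y j)) : Gen R.h R.m → G n) y) ?_ (R.Psi x)
          intro y
          rcases y with y | y
          · exact PolG_emb hk (PolG_coord _ _)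
          · exact PolG_const _ _
        · exact PolG_const _ _
      · intro T' hT' hT'O
        exact hstep1 T' hT' (fun p => hT'O p trivial)
    rw [hUρ] at hstep2
    exact hstep2

end Crest.Agent.R003.CR
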