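import Crest.Agent.R003.Bas486

/-!
# Row 3 (S0003): steps S8 (empty root), S3 (cancel), S1 (merge) (helper486)
-/

set_option autoImplicit false

namespace Crest.Agent.R003

open H486

/-- S8: an empty root is dropped -/
theorem s8 (O : Subring ℂ) (n : ℕ) : S8 O n := by
  intro k ξ rest fr ρ S hWF hρ
  refine ⟨⟨rest, fr⟩, ρ, ?_, ?_, ?_, ?_, ?_⟩
  · refine ⟨fun r hr => hWF.roots r (List.mem_cons_of_mem _ hr), hWF.free, ?_⟩
    obtain ⟨V, h1, h2⟩ := hWF.lin
    refine ⟨V, ?_, ?_⟩
    · rw [← h1]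
      simp [S, Sys.occ, Root.occ, Wd.occ]
    · simpa [S, Sys.pn, Root.pn, Wd.pn] using h2
  · apply dm_of_add (B := {3 * k})
    · show (List.map Root.wt (⟨k, ξ, []⟩ :: rest)).sum = (List.map Root.wt rest).sum + {3 * k}
      rw [List.map_cons, List.sum_cons, add_comm]
      congr 1
    · simp
  · intro k0 h r hr
    exact h r (List.mem_cons_of_mem _ hr)
  · exact ⟨fun r hr => hρ.1 r (List.mem_cons_of_mem _ hr), hρ.2⟩
  · intro h
    have hrho := hρ.1 ⟨k, ξ, []⟩ (List.mem_cons_self)
    refine appr_map (fun σ => σ) (fun x => polG_apply x) ?_ ?_ (ρ' := ρ) ?_ rfl h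
    · intro σ hσ
      refine ⟨?_, hσ.2⟩
      intro r hr
      rcases List.mem_cons.1 hr with h' | h'
      · subst h'
        exact ⟨Sat_nil _ _, hrho.2⟩
      · exact hσ.1 r h'
    · intro σ _ h' x hx
      apply h'
      rw [mem_names] at hx ⊢
      rcases hx with ⟨r, hr, hx⟩ | hx
      · left
        rcases List.mem_cons.1 hr with h'' | h''
        · subst h''; simp [wnm] at hx
        · exact ⟨r, h'', hx⟩
      · exact Or.inr hx
    · exact ⟨fun r hr => hρ.1 r (List.mem_cons_of_mem _ hr), hρ.2⟩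

/-- S3: `x x⁻¹` is cancelled, `x` becomes free -/
theorem s3 (O : Subring ℂ) (n : ℕ) : S3 O n := by
  intro k ξ u v x ε rest fr ρ S hWF hρ
  have hr0 := hWF.roots ⟨k, ξ, u ++ Lt.full x ε :: Lt.full x (!ε) :: v⟩ List.mem_cons_self
  have hlin := hWF.lin
  -- solutions
  have key : ∀ σ : ℕ → G n, σ ∈ S.Sol n ↔ σ ∈ Sys.Sol n ⟨⟨k, ξ, u ++ v⟩ :: rest, (x, k) :: fr⟩ := by
    intro σ
    have hev : Wd.eval σ (u ++ Lt.full x ε :: Lt.full x (!ε) :: v) = Wd.eval σ (u ++ v) := by
      rw [eval_app, eval_cons, eval_cons, eval_app]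
      cases ε <;> simp [Lt.eval]
    constructor
    · intro h
      have h0 := h.1 _ List.mem_cons_self
      have h1 := (Sat_app _ _ _ _).1 h0.1
      have h2 := (Sat_cons _ _ _ _).1 h1.2
      have h3 := (Sat_cons _ _ _ _).1 h2.2
      refine ⟨?_, ?_⟩
      · intro r hr
        rcases List.mem_cons.1 hr with h' | h'
        · subst h'
          refine ⟨(Sat_app _ _ _ _).2 ⟨h1.1, h3.2⟩, ?_⟩
          have h4 := h0.2
          simp only at h4
          rw [hev] at h4
          exact h4
        · exact h.1 r (List.mem_cons_of_mem _ h')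
      · intro z hz
        rcases List.mem_cons.1 hz with h' | h'
        · subst h'; exact h2.1
        · exact h.2 z h'
    · intro h
      have h0 := h.1 _ List.mem_cons_self
      have h1 := (Sat_app _ _ _ _).1 h0.1
      have h2 := h.2 (x, k) List.mem_cons_self
      refine ⟨?_, ?_⟩
      · intro r hr
        rcases List.mem_cons.1 hr with h' | h'
        · subst h'
          refine ⟨(Sat_app _ _ _ _).2 ⟨h1.1, (Sat_cons _ _ _ _).2 ⟨h2, (Sat_cons _ _ _ _).2
            ⟨h2, h1.2⟩⟩⟩, ?_⟩
          show _ * Wd.eval σ (u ++ Lt.full x ε :: Lt.full x (!ε) :: v) = 1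
          rw [hev]
          exact h0.2
        · exact h.1 r (List.mem_cons_of_mem _ h')
      · intro z hz
        exact h.2 z (List.mem_cons_of_mem _ hz)
  refine ⟨⟨⟨k, ξ, u ++ v⟩ :: rest, (x, k) :: fr⟩, ρ, ?_, ?_, ?_, (key ρ).1 hρ, ?_⟩
  · refine ⟨?_, ?_, ?_⟩
    · intro r hr
      rcases List.mem_cons.1 hr with h' | h'
      · subst h'
        obtain ⟨h1, h2, h3⟩ := hr0
        refine ⟨h1, h2, ?_⟩
        have h4 : Wd.WF O (u ++ Lt.full x ε :: Lt.full x (!ε) :: v) k
          (Wd.last (u ++ Lt.full x ε :: Lt.full x (!ε) :: v) none) := h3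
        rw [WF_app, last_app] at h4
        have h5 : Wd.WF O u k (Wd.last v none) := h4.1
        have h6 : Wd.WF O v k none := h4.2
        show Wd.WF O (u ++ v) k (Wd.last (u ++ v) none)
        rw [WF_app, last_app]
        exact ⟨WF_last O h5 _, WF_of_none O h6 _⟩
      · exact hWF.roots r (List.mem_cons_of_mem _ h')
    · intro z hz
      rcases List.mem_cons.1 hz with h' | h'
      · subst h'; exact hr0.1
      · exact hWF.free z h'
    · have h1 : S.occ = (x, k, ε) ::ₘ (x, k, !ε) ::ₘ
          (Wd.occ (u ++ v) k + (rest.map Root.occ).sum) := by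
        show Wd.occ (u ++ Lt.full x ε :: Lt.full x (!ε) :: v) k + (rest.map Root.occ).sum = _
        rw [occ_app, occ_cons, occ_cons, occ_app]
        simp only [Lt.occ, ← Multiset.singleton_add]
        abel
      have h2 : S.pn = Wd.pn (u ++ v) + (rest.map Root.pn).sum := by
        show Wd.pn (u ++ Lt.full x ε :: Lt.full x (!ε) :: v) + (rest.map Root.pn).sum = _
        rw [pn_app, pn_cons, pn_cons, pn_app]
        simp [Lt.pn]
      rw [h1, h2] at hlin
      obtain ⟨V', h3, h4⟩ := lin_pair' hlin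
      refine ⟨V', ?_, ?_⟩
      · rw [← h3]; rfl
      · have h5 : V'.map Prod.fst + Sys.pn ⟨⟨k, ξ, u ++ v⟩ :: rest, (x, k) :: fr⟩ +
            (((((x, k) :: fr).map Prod.fst : List ℕ)) : Multiset ℕ) =
            x ::ₘ (V'.map Prod.fst + (Wd.pn (u ++ v) + (rest.map Root.pn).sum) +
              ((fr.map Prod.fst : List ℕ) : Multiset ℕ)) := by
          have h6 : ((((x, k) :: fr).map Prod.fst : List ℕ) : Multiset ℕ) =
            x ::ₘ ((fr.map Prod.fst : List ℕ) : Multiset ℕ) := rfl
          rw [h6, Multiset.add_cons]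
          rfl
        show (V'.map Prod.fst + Sys.pn ⟨⟨k, ξ, u ++ v⟩ :: rest, (x, k) :: fr⟩ +
            (((((x, k) :: fr).map Prod.fst : List ℕ)) : Multiset ℕ)).Nodup
        rw [h5]
        exact h4
  · apply dm_of_add (B := {3 * k + 1, 3 * k + 1})
    · show (3 * k) ::ₘ Wd.wt (u ++ Lt.full x ε :: Lt.full x (!ε) :: v) k + (rest.map Root.wt).sum =
        ((3 * k) ::ₘ Wd.wt (u ++ v) k + (rest.map Root.wt).sum) + {3 * k + 1, 3 * k + 1}
      rw [wt_app, wt_cons, wt_cons, wt_app]
      simp only [Lt.wt, Multiset.insert_eq_cons, ← Multiset.singleton_add]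
      abel
    · simp
  · intro k0 h r hr
    rcases List.mem_cons.1 hr with h' | h'
    · subst h'
      rcases h _ (List.mem_cons_self) with h1 | ⟨h1, h2⟩
      · exact Or.inl h1
      · refine Or.inr ⟨h1, ?_⟩
        rw [hasNd_app, hasNd_full, hasNd_full] at h2
        exact (hasNd_app _ _).2 h2
    · exact h r (List.mem_cons_of_mem _ h')
  · intro h
    refine appr_map (fun σ => σ) (fun x => polG_apply x) (fun σ hσ => (key σ).2 hσ) ?_
      ((key ρ).1 hρ) rfl h
    intro σ _ h' y hy
    apply h'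
    rw [mem_names] at hy ⊢
    rcases hy with ⟨r, hr, hy⟩ | hy
    · rcases List.mem_cons.1 hr with h'' | h''
      · subst h''
        rw [show wnm (Root.w ⟨k, ξ, u ++ Lt.full x ε :: Lt.full x (!ε) :: v⟩) =
          wnm (u ++ ([Lt.full x ε, Lt.full x (!ε)] ++ v)) from rfl, wnm_app, wnm_app] at hy
        rcases hy with hy | hy | hy
        · exact Or.inl ⟨_, List.mem_cons_self, (wnm_app _ _ _).2 (Or.inl hy)⟩
        · right
          obtain ⟨l, hl, hy⟩ := hy
          have : y = x := by
            simp only [List.mem_cons, List.not_mem_nil, or_false] at hl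
            rcases hl with rfl | rfl
            · exact hy
            · exact hy
          subst this
          exact List.mem_cons_self
        · exact Or.inl ⟨_, List.mem_cons_self, (wnm_app _ _ _).2 (Or.inr hy)⟩
      · exact Or.inl ⟨r, List.mem_cons_of_mem _ h'', hy⟩
    · exact Or.inr (List.mem_cons_of_mem _ hy)

end Crest.Agent.R003
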