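import Crest.Agent.R003.Iface
import Crest.Agent.R003.Corner832

/-!
# Row 3 (S0003): the two-label lemma (helper832)

If `P ∈ GL_k` is block triangular for the labels `(c|c')` and for the labels `(d|d')`, then it is block
triangular for the joint labels.
-/

set_option autoImplicit false

namespace Crest.Agent.R003

open Finset

theorem lab_lt832 {Λ : Type} {c : List Λ} {i : ℕ} {a : Λ} (h : lab c i = some a) : i < c.length := by
  by_contra hh
  rw [lab, List.getElem?_eq_none (by omega)] at h
  cases h

theorem exists_lab {Λ : Type} {c : List Λ} {i : ℕ} (h : i < c.length) : ∃ a, lab c i = some a :=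
  ⟨_, List.getElem?_eq_getElem h⟩

theorem sum_lab_range {Λ : Type} [BEq Λ] [LawfulBEq Λ] [DecidableEq Λ] (c : List Λ) (b : Λ) (m : ℕ) :
    ∑ i ∈ range m, (if lab c i = some b then 1 else 0) = (c.take m).count b := by
  induction m with
  | zero => simp
  | succ m ih =>
    rw [sum_range_succ, ih, List.take_add_one, List.count_append]
    congr 1
    unfold lab
    cases h : (c)[m]? with
    | none => simp
    | some x =>
      by_cases hx : x = b
      · subst hx; simp
      · simp [hx]

theorem sum_lab {Λ : Type} [BEq Λ] [LawfulBEq Λ] [DecidableEq Λ] {n : ℕ} (c : List Λ) (b : Λ) (h : c.length ≤ n) :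
    ∑ i : Fin n, (if lab c i.1 = some b then 1 else 0) = c.count b := by
  rw [Fin.sum_univ_eq_sum_range (fun i => if lab c i = some b then 1 else 0) n, sum_lab_range,
    List.take_of_length_le h]

theorem exists_perm_ne_zero {n : ℕ} (P : G n) : ∃ σ : Equiv.Perm (Fin n), ∀ j, P.1 (σ j) j ≠ 0 := by
  by_contra hcon
  push Not at hcon
  have hdet : P.1.det = 0 := by
    rw [Matrix.det_apply]
    apply sum_eq_zero
    intro σ _
    obtain ⟨j, hj⟩ := hcon σ
    have h0 : ∏ i, P.1 (σ i) i = 0 := prod_eq_zero (mem_univ j) hj
    exact (congrArg (fun z => Equiv.Perm.sign σ • z) h0).trans (smul_zero _)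
  have hu : IsUnit P.1.det := by
    rw [← Matrix.isUnit_iff_isUnit_det]
    exact P.isUnit
  rw [hdet] at hu
  exact not_isUnit_zero hu

/-- along a permutation in the support of a block triangular matrix the labels agree -/
theorem lab_perm' {n : ℕ} {c c' : List Bool} {P : G n} (hn : c.length ≤ n)
    (hcnt : ∀ l, c.count l = c'.count l) (hmem : P ∈ GLk n c.length)
    (hz : ∀ (i j : Fin n) (a b : Bool), lab c i.1 = some a → lab c' j.1 = some b → ¬ a ≤ b →
      P.1 i j = 0)
    (σ : Equiv.Perm (Fin n)) (hσ : ∀ j, P.1 (σ j) j ≠ 0) (j : Fin n) :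
    lab c (σ j).1 = lab c' j.1 := by
  have hlen : c.length = c'.length := by
    exact (List.perm_iff_count.mpr hcnt).length_eq
  have hout : ∀ j : Fin n, c.length ≤ j.1 → σ j = j := by
    intro j hj
    by_contra hne
    apply hσ j
    rw [hmem (σ j) j (Or.inr hj), if_neg hne]
  have hin : ∀ j : Fin n, j.1 < c.length → (σ j).1 < c.length := by
    intro j hj
    by_contra hne
    apply hσ j
    rw [hmem (σ j) j (Or.inl (by omega)), if_neg]
    intro hh
    rw [hh] at hne
    omega
  have hle : ∀ j : Fin n, (if lab c (σ j).1 = some true then 1 else 0) ≤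
      (if lab c' j.1 = some true then 1 else 0) := by
    intro j
    by_cases hj : j.1 < c.length
    · obtain ⟨a, ha⟩ := exists_lab (hin j hj)
      obtain ⟨b, hb⟩ := exists_lab (c := c') (i := j.1) (by omega)
      rw [ha, hb]
      by_cases hab : a ≤ b
      · cases a
        · simp
        · have : b = true := by
            cases b
            · exact absurd hab (by decide)
            · rfl
          rw [this]
      · exact absurd (hz _ _ _ _ ha hb hab) (hσ j)
    · have h1 : lab c (σ j).1 = none := by
        rw [hout j (by omega)]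
        exact List.getElem?_eq_none (by omega)
      rw [h1]
      simp
  have hsum : ∑ j : Fin n, (if lab c (σ j).1 = some true then 1 else 0) =
      ∑ j : Fin n, (if lab c' j.1 = some true then 1 else 0) := by
    rw [Equiv.sum_comp σ (fun j => if lab c j.1 = some true then 1 else 0), sum_lab _ _ hn,
      sum_lab _ _ (by rw [← hlen]; exact hn), hcnt]
  have heq := (sum_eq_sum_iff_of_le (fun j _ => hle j)).mp hsum j (mem_univ j)
  by_cases hj : j.1 < c.length
  · obtain ⟨a, ha⟩ := exists_lab (hin j hj)
    obtain ⟨b, hb⟩ := exists_lab (c := c') (i := j.1) (by omega)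
    rw [ha, hb] at heq ⊢
    cases a <;> cases b <;> simp at heq ⊢
  · rw [hout j (by omega)]
    unfold lab
    rw [List.getElem?_eq_none (by omega), List.getElem?_eq_none (by omega)]

theorem lab_perm {n : ℕ} {c c' : List Bool} {g : Bool → G n} {P : G n} (h : IsPar c c' g P)
    (σ : Equiv.Perm (Fin n)) (hσ : ∀ j, P.1 (σ j) j ≠ 0) (j : Fin n) :
    lab c (σ j).1 = lab c' j.1 :=
  lab_perm' h.len h.cnt h.mem h.zero σ hσ j

/-- the inverse of an invertible block triangular matrix is block triangular -/
theorem inv_zero {n : ℕ} {c c' : List Bool} {P : G n} (hn : c.length ≤ n)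
    (hcnt : ∀ l, c.count l = c'.count l) (hmem : P ∈ GLk n c.length)
    (hz : ∀ (i j : Fin n) (a b : Bool), lab c i.1 = some a → lab c' j.1 = some b → ¬ a ≤ b →
      P.1 i j = 0) (i j : Fin n) (a b : Bool) (hi : lab c' i.1 = some a) (hj : lab c j.1 = some b)
    (hab : ¬ a ≤ b) : (P⁻¹).1 i j = 0 := by
  classical
  have hlen : c.length = c'.length := (List.perm_iff_count.mpr hcnt).length_eq
  obtain ⟨σ, hσ⟩ := exists_perm_ne_zero P
  have hlab := lab_perm' hn hcnt hmem hz σ hσ
  have ha : a = true := by
    cases a
    · exact absurd (Bool.false_le b) hab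
    · rfl
  have hb : b = false := by
    cases b
    · rfl
    · exact absurd (Bool.le_true a) hab
  subst ha hb
  let bf : Fin n → Bool := fun i => decide (lab c' i.1 = some true)
  let M : Matrix (Fin n) (Fin n) ℂ := P.1.submatrix σ id
  have hM : M.BlockTriangular bf := by
    intro i j hij
    have h1 : bf i = true ∧ bf j = false := by
      revert hij
      generalize bf i = x
      generalize bf j = y
      cases x <;> cases y <;> simp
    have h2 : lab c' i.1 = some true := by simpa [bf] using h1.1
    have h3 : lab c' j.1 ≠ some true := by simpa [bf] using h1.2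
    have h4 : lab c (σ i).1 = some true := by rw [hlab, h2]
    change P.1 (σ i) j = 0
    by_cases hj : j.1 < c'.length
    · obtain ⟨x, hx⟩ := exists_lab hj
      have : x = false := by
        cases x
        · rfl
        · exact absurd hx h3
      subst this
      exact hz _ _ _ _ h4 hx (by decide)
    · rw [hmem _ _ (Or.inr (by omega)), if_neg]
      intro hh
      have := lab_lt832 h4
      rw [hh] at this
      omega
  have hPP : P.1 * (P⁻¹).1 = 1 := by rw [← Units.val_mul, mul_inv_cancel]; rfl
  have hMM : M * ((P⁻¹).1.submatrix id σ) = 1 := by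
    have e := Matrix.submatrix_mul_equiv P.1 (P⁻¹).1 σ (Equiv.refl _) σ
    rw [hPP, Matrix.submatrix_one_equiv] at e
    exact e
  let _ : Invertible M := ⟨_, mul_eq_one_comm.mp hMM, hMM⟩
  have hMi : M⁻¹ = (P⁻¹).1.submatrix id σ := Matrix.inv_eq_right_inv hMM
  have hT := Matrix.blockTriangular_inv_of_blockTriangular hM
  have hj' : lab c' (σ.symm j).1 = some false := by
    rw [← hlab, Equiv.apply_symm_apply, hj]
  have h5 := @hT i (σ.symm j) (by
    have e1 : bf i = true := by simp [bf, hi]
    have e2 : bf (σ.symm j) = false := by simp [bf, hj']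
    rw [e1, e2]
    decide)
  rw [hMi] at h5
  change (P⁻¹).1 i (σ (σ.symm j)) = 0 at h5
  rwa [Equiv.apply_symm_apply] at h5

theorem lab_jl {c d : List Bool} {i : ℕ} {a b : Bool} :
    lab (jl c d) i = some (a, b) ↔ lab c i = some a ∧ lab d i = some b := by
  unfold lab jl
  rw [List.getElem?_zip_eq_some]

/-- joint classes have equal sizes -/
theorem count_jl {n : ℕ} {c d c' d' : List Bool} {g h : Bool → G n} {P : G n}
    (h1 : IsPar c c' g P) (h2 : IsPar d d' h P) [BEq (Bool × Bool)] [LawfulBEq (Bool × Bool)]
    (l : Bool × Bool) :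
    (jl c d).count l = (jl c' d').count l := by
  obtain ⟨σ, hσ⟩ := exists_perm_ne_zero P
  have hl1 : (jl c d).length ≤ n := by
    rw [List.length_zip]; exact (min_le_left _ _).trans h1.len
  have hlen : c.length = c'.length := (List.perm_iff_count.mpr h1.cnt).length_eq
  have hl2 : (jl c' d').length ≤ n := by
    rw [List.length_zip]; exact (min_le_left _ _).trans (hlen ▸ h1.len)
  rw [← sum_lab _ _ hl1, ← sum_lab _ _ hl2,
    ← Equiv.sum_comp σ (fun j => if lab (jl c d) j.1 = some l then 1 else 0)]
  apply sum_congr rfl
  intro j _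
  have e1 := lab_perm h1 σ hσ j
  have e2 := lab_perm h2 σ hσ j
  obtain ⟨a, b⟩ := l
  simp only [lab_jl, e1, e2]

/-- every standardised position is attained -/
theorem exists_pos {Λ : Type} [DecidableEq Λ] (c : List Λ) (a : Λ) {t : ℕ} (ht : t < c.count a) :
    ∃ i, lab c i = some a ∧ (c.take i).count a = t := by
  induction c generalizing t with
  | nil => simp at ht
  | cons x c ih =>
    by_cases hx : x = a
    · subst hx
      cases t with
      | zero => exact ⟨0, by simp [lab], by simp⟩
      | succ t =>
        rw [List.count_cons_self] at ht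
        obtain ⟨i, h1, h2⟩ := ih (t := t) (by omega)
        exact ⟨i + 1, by simpa [lab] using h1, by rw [List.take_succ_cons, List.count_cons_self, h2]⟩
    · rw [List.count_cons_of_ne (by simpa using hx)] at ht
      obtain ⟨i, h1, h2⟩ := ih ht
      exact ⟨i + 1, by simpa [lab] using h1, by
        rw [List.take_succ_cons, List.count_cons_of_ne (by simpa using hx), h2]⟩

/-- Existence of the diagonal blocks: an invertible matrix which is block triangular together with its
inverse has invertible diagonal blocks. -/
theorem exists_blocks {n : ℕ} {Λ : Type} [PartialOrder Λ] [DecidableEq Λ] {c c' : List Λ} {P : G n}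
    (hn : c.length ≤ n) (hcnt : ∀ l, c.count l = c'.count l) (hmem : P ∈ GLk n c.length)
    (hz : ∀ (i j : Fin n) (a b : Λ), lab c i.1 = some a → lab c' j.1 = some b → ¬ a ≤ b →
      P.1 i j = 0)
    (hz' : ∀ (i j : Fin n) (a b : Λ), lab c' i.1 = some a → lab c j.1 = some b → ¬ a ≤ b →
      (P⁻¹).1 i j = 0) :
    ∃ g : Λ → G n, IsPar c c' g P := by
  classical
  have hlen : c.length = c'.length := (List.perm_iff_count.mpr hcnt).length_eq
  -- position maps
  have hpos : ∀ (a : Λ) (t : Fin n), ∃ i : Fin n, t.1 < c.count a →
      lab c i.1 = some a ∧ (c.take i.1).count a = t.1 := by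
    intro a t
    by_cases ht : t.1 < c.count a
    · obtain ⟨i, h1, h2⟩ := exists_pos c a ht
      exact ⟨⟨i, (lab_lt832 h1).trans_le hn⟩, fun _ => ⟨h1, h2⟩⟩
    · exact ⟨t, fun h => absurd h ht⟩
  have hpos' : ∀ (a : Λ) (t : Fin n), ∃ i : Fin n, t.1 < c.count a →
      lab c' i.1 = some a ∧ (c'.take i.1).count a = t.1 := by
    intro a t
    by_cases ht : t.1 < c.count a
    · obtain ⟨i, h1, h2⟩ := exists_pos c' a (t := t.1) (by rw [← hcnt]; exact ht)
      exact ⟨⟨i, (lab_lt832 h1).trans_le (hlen ▸ hn)⟩, fun _ => ⟨h1, h2⟩⟩
    · exact ⟨t, fun h => absurd h ht⟩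
  choose p hp using hpos
  choose p' hp' using hpos'
  -- the blocks
  let B : Λ → Matrix (Fin n) (Fin n) ℂ := fun a u v =>
    if u.1 < c.count a ∧ v.1 < c.count a then P.1 (p a u) (p' a v) else if u = v then 1 else 0
  let B' : Λ → Matrix (Fin n) (Fin n) ℂ := fun a u v =>
    if u.1 < c.count a ∧ v.1 < c.count a then (P⁻¹).1 (p' a u) (p a v) else if u = v then 1 else 0
  have hinj : ∀ a (u v : Fin n), u.1 < c.count a → v.1 < c.count a → p a u = p a v → u = v := by
    intro a u v hu hv h
    apply Fin.ext
    rw [← (hp a u hu).2, ← (hp a v hv).2, h]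
  have hinj' : ∀ a (u v : Fin n), u.1 < c.count a → v.1 < c.count a → p' a u = p' a v → u = v := by
    intro a u v hu hv h
    apply Fin.ext
    rw [← (hp' a u hu).2, ← (hp' a v hv).2, h]
  have hPP : P.1 * (P⁻¹).1 = 1 := by rw [← Units.val_mul, mul_inv_cancel]; rfl
  have hBB : ∀ a, B a * B' a = 1 := by
    intro a
    ext u v
    rw [Matrix.mul_apply, Matrix.one_apply]
    by_cases hu : u.1 < c.count a
    · have e1 : ∀ w : Fin n, B a u w * B' a w v = if w.1 < c.count a ∧ v.1 < c.count a then
          P.1 (p a u) (p' a w) * (P⁻¹).1 (p' a w) (p a v) else 0 := by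
        intro w
        by_cases hw : w.1 < c.count a
        · by_cases hv : v.1 < c.count a
          · simp only [B, B', hu, hw, hv, and_self, if_true]
          · have hwv : w ≠ v := by rintro rfl; exact hv hw
            simp only [B', hv, and_false, if_false, hwv, mul_zero]
        · have huw : u ≠ w := by rintro rfl; exact hw hu
          simp only [B, hw, and_false, if_false, huw, zero_mul, false_and]
      rw [sum_congr rfl fun w _ => e1 w]
      by_cases hv : v.1 < c.count a
      · have e2 : ∑ w : Fin n, (if w.1 < c.count a ∧ v.1 < c.count a then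
            P.1 (p a u) (p' a w) * (P⁻¹).1 (p' a w) (p a v) else 0) =
            ∑ w ∈ univ.filter (fun w : Fin n => w.1 < c.count a),
              P.1 (p a u) (p' a w) * (P⁻¹).1 (p' a w) (p a v) := by
          rw [sum_filter]
          apply sum_congr rfl
          intro w _
          simp only [hv, and_true]
        have e3 : ∑ w ∈ univ.filter (fun w : Fin n => w.1 < c.count a),
              P.1 (p a u) (p' a w) * (P⁻¹).1 (p' a w) (p a v) =
            ∑ j : Fin n, P.1 (p a u) j * (P⁻¹).1 j (p a v) := by
          rw [← sum_image (s := univ.filter (fun w : Fin n => w.1 < c.count a)) (g := p' a)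
            (f := fun j => P.1 (p a u) j * (P⁻¹).1 j (p a v))]
          · apply sum_subset (subset_univ _)
            intro j _ hj
            have hpu := (hp a u hu).1
            have hpv := (hp a v hv).1
            have hjne : lab c' j.1 ≠ some a := by
              intro hh
              apply hj
              rw [mem_image]
              have ht : (c'.take j.1).count a < c.count a := by
                rw [hcnt]; exact take_count_lt hh
              refine ⟨⟨(c'.take j.1).count a, ht.trans_le ((List.count_le_length).trans hn)⟩, ?_, ?_⟩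
              · simpa using ht
              · apply Fin.ext
                have h3 := hp' a ⟨(c'.take j.1).count a,
                  ht.trans_le ((List.count_le_length).trans hn)⟩ ht
                exact take_count_inj h3.1 hh h3.2
            by_cases hjl : j.1 < c'.length
            · obtain ⟨b, hb⟩ := exists_lab hjl
              have hab : b ≠ a := by
                rintro rfl; exact hjne hb
              by_cases h1 : a ≤ b
              · rw [hz' j (p a v) b a hb hpv (fun h2 => hab (le_antisymm h2 h1)), mul_zero]
              · rw [hz (p a u) j a b hpu hb h1, zero_mul]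
            · rw [hmem (p a u) j (Or.inr (by omega)), if_neg, zero_mul]
              intro hh
              have := lab_lt832 hpu
              rw [hh] at this
              omega
          · intro x hx y hy hxy
            simp only [coe_filter, mem_univ, true_and, Set.mem_ofPred_eq] at hx hy
            exact hinj' a x y hx hy hxy
        rw [e2, e3, ← Matrix.mul_apply, hPP, Matrix.one_apply]
        by_cases huv : u = v
        · subst huv; simp
        · rw [if_neg huv, if_neg]
          intro hh
          exact huv (hinj a u v hu hv hh)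
      · have huv : u ≠ v := by rintro rfl; exact hv hu
        simp [hv, huv]
    · rw [sum_eq_single u]
      · simp only [B, B', hu, false_and, if_false, if_true, one_mul]
      · intro w _ hw
        simp only [B, hu, false_and, if_false, Ne.symm hw, zero_mul]
      · simp
  have hBB' : ∀ a, B' a * B a = 1 := fun a => mul_eq_one_comm.mp (hBB a)
  let g : Λ → G n := fun a => ⟨B a, B' a, hBB a, hBB' a⟩
  refine ⟨g, hn, hcnt, hmem, ?_, hz, ?_⟩
  · intro l i j hij
    change B l i j = _
    have : ¬ (i.1 < c.count l ∧ j.1 < c.count l) := by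
      rcases hij with h | h <;> omega
    simp only [B, this, if_false]
  · intro i j u v a hi hj hu hv
    change P.1 i j = B a u v
    have hu' : u.1 < c.count a := by rw [hu]; exact take_count_lt hi
    have hv' : v.1 < c.count a := by rw [hv, hcnt]; exact take_count_lt hj
    simp only [B, hu', hv', and_self, if_true]
    have e1 : p a u = i := Fin.ext (take_count_inj (hp a u hu').1 hi (by rw [(hp a u hu').2, hu]))
    have e2 : p' a v = j := Fin.ext (take_count_inj (hp' a v hv').1 hj (by rw [(hp' a v hv').2, hv]))
    rw [e1, e2]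

/-- Block extraction for Boolean labels: an invertible matrix with the zero pattern has blocks. -/
theorem exists_blocks_bool {n : ℕ} {c c' : List Bool} {P : G n} (hn : c.length ≤ n)
    (hcnt : ∀ l, c.count l = c'.count l) (hmem : P ∈ GLk n c.length)
    (hz : ∀ (i j : Fin n) (a b : Bool), lab c i.1 = some a → lab c' j.1 = some b → ¬ a ≤ b →
      P.1 i j = 0) :
    ∃ g : Bool → G n, IsPar c c' g P :=
  exists_blocks hn hcnt hmem hz (inv_zero hn hcnt hmem hz)

/-- **S6 matrix lemma.** -/
theorem twoLab (n : ℕ) : TwoLab n := by
  intro c d c' d' g h P hcd hcd' h1 h2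
  have h1' := inv_zero h1.len h1.cnt h1.mem h1.zero
  have h2' := inv_zero h2.len h2.cnt h2.mem h2.zero
  have hl : (jl c d).length = c.length := by
    rw [List.length_zip, ← hcd, min_self]
  apply exists_blocks (hl.trans_le h1.len) ?_ (hl ▸ h1.mem)
  · rintro i j ⟨a, b⟩ ⟨a', b'⟩ hi hj hab
    rw [lab_jl] at hi hj
    by_cases h3 : a ≤ a'
    · exact h2.zero i j b b' hi.2 hj.2 (fun h4 => hab ⟨h3, h4⟩)
    · exact h1.zero i j a a' hi.1 hj.1 h3
  · rintro i j ⟨a, b⟩ ⟨a', b'⟩ hi hj hab
    rw [lab_jl] at hi hj
    by_cases h3 : a ≤ a'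
    · exact h2' i j b b' hi.2 hj.2 (fun h4 => hab ⟨h3, h4⟩)
    · exact h1' i j a a' hi.1 hj.1 h3
  · intro l
    exact @count_jl n c d c' d' g h P h1 h2 instBEqOfDecidableEq inferInstance l

end Crest.Agent.R003
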