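import Crest.Agent.R003.Bas486
import Crest.Agent.R003.Step638
import Crest.Agent.R003.Calc961

/-!
# Row 3 (S0003): steps U1, U2 (helper402): the sign of a letter next to constant labels is absorbed.
-/

set_option autoImplicit false

namespace Crest.Agent.R003.CRU

open Crest.Agent.R003
open H486

theorem count_add (c : List Bool) : c.count false + c.count true = c.length := by
  induction c with
  | nil => rfl
  | cons a l ih =>
    cases a
    · rw [List.count_cons_self, List.count_cons_of_ne (by decide), List.length_cons]; omega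
    · rw [List.count_cons_self, List.count_cons_of_ne (by decide), List.length_cons]; omega

/-- a child relation `s g = g'` -/
def chRoot (k : ℕ) (s : ℂˣ) (x y : ℕ) : Root := ⟨k, s, [Lt.full x true, Lt.full y false]⟩

theorem chRoot_sol {n k : ℕ} {s : ℂˣ} {x y : ℕ} {ρ : ℕ → G n} :
    (chRoot k s x y).Sol ρ ↔ ρ x ∈ GLk n k ∧ ρ y ∈ GLk n k ∧ ρ y = scal n k s * ρ x := by
  have h1 : (chRoot k s x y).Sol ρ ↔ (Wd.Sat ρ [Lt.full x true, Lt.full y false] k ∧
    scal n k s * Wd.eval ρ [Lt.full x true, Lt.full y false] = 1) := Iff.rfl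
  rw [h1, Sat_cons, Sat_cons, eval_cons, eval_cons, eval_nil]
  simp only [Lt.Sat, Lt.eval, if_true, mul_one, Bool.false_eq_true, if_false]
  constructor
  · rintro ⟨⟨h2, h3, _⟩, h4⟩
    refine ⟨h2, h3, ?_⟩
    rw [← mul_assoc] at h4
    exact (mul_inv_eq_one.1 h4).symm
  · rintro ⟨h2, h3, h4⟩
    refine ⟨⟨h2, h3, Sat_nil _ _⟩, ?_⟩
    rw [← mul_assoc, h4, mul_inv_cancel]

/-- **Absorption of a sign** into the letter `q`: the general form. -/
theorem absorb {O : Subring ℂ} {n : ℕ} (k : ℕ) (ξ : ℂˣ) (u v vn : Wd) (q : ℕ) (e : List Bool)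
    (σ σn : Bool → Bool → ℂˣ) (c c' : List Bool) (g : Bool → ℕ) (rest : List Root)
    (fr : List (ℕ × ℕ)) (ρ : ℕ → G n)
    (hWF : Sys.WF O n ⟨⟨k, ξ, u ++ Lt.par q e σ c c' g :: v⟩ :: rest, fr⟩)
    (hρ : ρ ∈ Sys.Sol n ⟨⟨k, ξ, u ++ Lt.par q e σ c c' g :: v⟩ :: rest, fr⟩)
    (s : Bool → ℂˣ) (hs : ∀ b, IsSc O (s b)) (A B : G n) (al be : Bool → G n)
    (hA : IsPar c c al A) (hB : IsPar c' c' be B) (hAO : A ∈ GO O n) (hBO : B ∈ GO O n)
    (hab : ∀ b, ∀ X ∈ GLk n (c.count b), al b * X * be b = scal n (c.count b) (s b) * X)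
    (hcl : c.length = k) (hnd : ∀ b, 0 < c.count b)
    (hWn : ∀ gn, Wd.WF O (u ++ Lt.par q e σn c c' gn :: vn) k
      (Wd.last (u ++ Lt.par q e σn c c' gn :: vn) none))
    (hocc : Wd.occ vn k = Wd.occ v k) (hpn : Wd.pn vn = Wd.pn v)
    (hsat : ∀ ρ : ℕ → G n, Wd.Sat ρ vn k ↔ Wd.Sat ρ v k)
    (hev : ∀ (ρ : ℕ → G n) (X : G n), dsg n e c σn * (A * X * B) * Wd.eval ρ vn =
      dsg n e c σ * X * Wd.eval ρ v)
    (m : ℕ) (hm : ∀ b, 3 * c.count b + 1 < m)
    (hwt : ∀ gn, Lt.wt k (Lt.par q e σ c c' g) + Wd.wt v k =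
      Lt.wt k (Lt.par q e σn c c' gn) + Wd.wt vn k + {m}) :
    Red O n ⟨⟨k, ξ, u ++ Lt.par q e σ c c' g :: v⟩ :: rest, fr⟩ ρ := by
  classical
  set S : Sys := ⟨⟨k, ξ, u ++ Lt.par q e σ c c' g :: v⟩ :: rest, fr⟩ with hS
  obtain ⟨N, hN⟩ := Sys.exists_fresh S
  set gn : Bool → ℕ := fun b => if b then N + 1 else N with hgn
  have hgnf : gn false = N := by simp [hgn]
  have hgnt : gn true = N + 1 := by simp [hgn]
  have hgn_ge : ∀ b, N ≤ gn b := by intro b; cases b <;> simp [hgn]
  have hgn_fresh : ∀ b, gn b ∉ S.names := fun b hb => absurd (hN _ hb) (by have := hgn_ge b; omega)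
  set r0 : Root := ⟨k, ξ, u ++ Lt.par q e σ c c' g :: v⟩ with hr0
  set r1 : Root := ⟨k, ξ, u ++ Lt.par q e σn c c' gn :: vn⟩ with hr1
  set Rf : Root := chRoot (c.count false) (s false) (g false) (gn false) with hRf
  set Rt : Root := chRoot (c.count true) (s true) (g true) (gn true) with hRt
  have hr0WF : r0.WF O n := hWF.roots r0 List.mem_cons_self
  have hkn : k ≤ n := hr0WF.1
  have hcnt_lt : ∀ b, c.count b < k := by
    intro b
    have h1 : c.count false + c.count true = c.length := count_add c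
    have h2 := hnd false
    have h3 := hnd true
    cases b <;> omega
  -- names
  have hqpn : q ∈ r0.pn := by
    show q ∈ Wd.pn (u ++ Lt.par q e σ c c' g :: v)
    rw [pn_app, pn_cons]
    simp [Lt.pn]
  have hqS : q ∈ S.pn := by
    show q ∈ (List.map Root.pn (r0 :: rest)).sum
    rw [List.map_cons, List.sum_cons]
    exact Multiset.mem_add.2 (Or.inl hqpn)
  have hSpn : S.pn = q ::ₘ (Wd.pn u + Wd.pn v + pnL rest) := by
    show (List.map Root.pn (r0 :: rest)).sum = _
    rw [List.map_cons, List.sum_cons]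
    show Wd.pn (u ++ Lt.par q e σ c c' g :: v) + pnL rest = _
    rw [pn_app, pn_cons, ← Multiset.singleton_add]
    simp only [Lt.pn]
    abel
  have hSocc : S.occ = Wd.occ u k + ((Lt.par q e σ c c' g).occ k + Wd.occ v k) + occL rest := by
    show (List.map Root.occ (r0 :: rest)).sum = _
    rw [List.map_cons, List.sum_cons]
    show Wd.occ (u ++ Lt.par q e σ c c' g :: v) k + occL rest = _
    rw [occ_app, occ_cons]
  have hqnot : q ∉ Wd.pn u ∧ q ∉ Wd.pn v := by
    have h1 := hWF.pn_nodup
    rw [hSpn, Multiset.nodup_cons] at h1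
    constructor
    · intro h; exact h1.1 (by simp [h])
    · intro h; exact h1.1 (by simp [h])
  have hqocc : ∀ j ε, (q, j, ε) ∉ S.occ := fun j ε h => hWF.occ_not_pn h hqS
  have hgmem : ∀ b, (g b, c.count b, true) ∈ S.occ := by
    intro b
    rw [hSocc]
    refine Multiset.mem_add.2 (Or.inl (Multiset.mem_add.2 (Or.inr (Multiset.mem_add.2 (Or.inl ?_)))))
    show _ ∈ ({(g false, c.count false, true), (g true, c.count true, true)} :
      Multiset (ℕ × ℕ × Bool))
    cases b
    · exact Multiset.mem_cons_self _ _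
    · exact Multiset.mem_cons_of_mem (Multiset.mem_singleton_self _)
  have hgq : ∀ b, g b ≠ q := fun b h => hqocc _ _ (h ▸ hgmem b)
  have hgnames : ∀ b, g b ∈ S.names := fun b => Or.inl ⟨_, _, hgmem b⟩
  have hqnames : q ∈ S.names := Or.inr (Or.inl hqS)
  have hgngn : ∀ b b', g b ≠ gn b' := fun b b' h => hgn_fresh b' (h ▸ hgnames b)
  have hqgn : ∀ b, q ≠ gn b := fun b h => hgn_fresh b (h ▸ hqnames)
  -- names of u, v
  have hu_names : ∀ x, ((∃ k' ε, (x, k', ε) ∈ Wd.occ u k) ∨ x ∈ Wd.pn u) → x ≠ q ∧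
      ∀ b, x ≠ gn b := by
    intro x hx
    have hxS : x ∈ S.names := by
      rcases hx with ⟨k', ε, hx⟩ | hx
      · exact Or.inl ⟨k', ε, by rw [hSocc]; simp [hx]⟩
      · exact Or.inr (Or.inl (by rw [hSpn]; simp [hx]))
    refine ⟨?_, fun b h => hgn_fresh b (h ▸ hxS)⟩
    rintro rfl
    rcases hx with ⟨k', ε, hx⟩ | hx
    · exact hqocc k' ε (by rw [hSocc]; simp [hx])
    · exact hqnot.1 hx
  have hv_names : ∀ x, ((∃ k' ε, (x, k', ε) ∈ Wd.occ v k) ∨ x ∈ Wd.pn v) → x ≠ q ∧
      ∀ b, x ≠ gn b := by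
    intro x hx
    have hxS : x ∈ S.names := by
      rcases hx with ⟨k', ε, hx⟩ | hx
      · exact Or.inl ⟨k', ε, by rw [hSocc]; simp [hx]⟩
      · exact Or.inr (Or.inl (by rw [hSpn]; simp [hx]))
    refine ⟨?_, fun b h => hgn_fresh b (h ▸ hxS)⟩
    rintro rfl
    rcases hx with ⟨k', ε, hx⟩ | hx
    · exact hqocc k' ε (by rw [hSocc]; simp [hx])
    · exact hqnot.2 hx
  -- the maps
  set Φ : (ℕ → G n) → (ℕ → G n) := fun τ x =>
    if x = q then A⁻¹ * τ q * B⁻¹ else if x = gn false ∨ x = gn true then 1 else τ x with hΦ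
  have hΦq : ∀ τ, Φ τ q = A⁻¹ * τ q * B⁻¹ := fun τ => by simp [hΦ]
  have hΦo : ∀ τ x, x ≠ q → (∀ b, x ≠ gn b) → Φ τ x = τ x := by
    intro τ x h1 h2
    simp only [hΦ]
    rw [if_neg h1, if_neg (by rintro (h | h); exacts [h2 _ h, h2 _ h])]
  set ρ' : ℕ → G n := fun x => if x = q then A * ρ q * B
    else if x = gn false then scal n (c.count false) (s false) * ρ (g false)
    else if x = gn true then scal n (c.count true) (s true) * ρ (g true) else ρ x with hρ'
  have hρ'q : ρ' q = A * ρ q * B := by simp [hρ']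
  have hρ'g : ∀ b, ρ' (gn b) = scal n (c.count b) (s b) * ρ (g b) := by
    intro b
    simp only [hρ']
    rw [if_neg (hqgn b).symm]
    cases b
    · rw [if_pos rfl]
    · rw [if_neg (by rw [hgnf, hgnt]; omega), if_pos rfl]
  have hρ'o : ∀ x, x ≠ q → (∀ b, x ≠ gn b) → ρ' x = ρ x := by
    intro x h1 h2
    simp only [hρ']
    rw [if_neg h1, if_neg (h2 _), if_neg (h2 _)]
  -- the given solution
  have hsol0 := hρ.1 r0 List.mem_cons_self
  have hsat0 := (Sat_app _ _ _ _).1 hsol0.1
  have hsat1 := (Sat_cons _ _ _ _).1 hsat0.2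
  have hpar0 : IsPar c c' (fun b => ρ (g b)) (ρ q) := hsat1.1
  have key : ∀ b, ∀ X ∈ GLk n (c.count b),
      (al b)⁻¹ * (scal n (c.count b) (s b) * X) * (be b)⁻¹ = X := by
    intro b X hX
    rw [← hab b X hX]
    group
  have hred : Red O n ⟨[r0] ++ rest, fr⟩ ρ := by
    refine local_step [r0] [r1, Rf, Rt] rest fr [] ρ ρ' 0
      {(gn false, c.count false), (gn true, c.count true)} Φ hWF hρ ?_ ?_ ?_ ?_ ?_ ?_ ?_ ?_ ?_
      ?_ ?_ ?_ ?_ ?_ ?_ ?_ ?_
    · -- WF of the new roots
      intro r hr
      simp only [List.mem_cons, List.not_mem_nil, or_false] at hr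
      rcases hr with rfl | rfl | rfl
      · exact ⟨hkn, hr0WF.2.1, hWn gn⟩
      · exact ⟨(hcnt_lt false).le.trans hkn, hs false, trivial⟩
      · exact ⟨(hcnt_lt true).le.trans hkn, hs true, trivial⟩
    · intro z hz; simp at hz
    · intro w hw; simp at hw
    · exact Multiset.nodup_zero
    · -- occurrences
      have h0 : occL [r0] = Wd.occ u k + ((Lt.par q e σ c c' g).occ k + Wd.occ v k) := by
        rw [occL_cons, occL_nil, add_zero]
        show Wd.occ (u ++ Lt.par q e σ c c' g :: v) k = _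
        rw [occ_app, occ_cons]
      have h1 : occL [r1, Rf, Rt] = Wd.occ u k + ((Lt.par q e σn c c' gn).occ k + Wd.occ v k) +
          (({(g false, c.count false, true)} + {(gn false, c.count false, false)}) +
          ({(g true, c.count true, true)} + {(gn true, c.count true, false)})) := by
        rw [occL_cons, occL_cons, occL_cons, occL_nil, add_zero]
        have h2 : r1.occ = Wd.occ u k + ((Lt.par q e σn c c' gn).occ k + Wd.occ v k) := by
          show Wd.occ (u ++ Lt.par q e σn c c' gn :: vn) k = _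
          rw [occ_app, occ_cons, hocc]
        have h3 : ∀ (j : ℕ) (a : ℂˣ) (x y : ℕ), (chRoot j a x y).occ =
            ({(x, j, true)} + {(y, j, false)} : Multiset (ℕ × ℕ × Bool)) := by
          intro j a x y
          show Wd.occ [Lt.full x true, Lt.full y false] j = _
          rw [occ_cons, occ_cons]
          simp [Lt.occ, Wd.occ]
        rw [h2, hRf, hRt, h3, h3]
      rw [h0, h1, pm_zero, add_zero]
      simp only [Lt.occ, pm, Multiset.insert_eq_cons, Multiset.map_cons, Multiset.map_singleton,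
        ← Multiset.singleton_add]
      abel
    · -- nodup
      have h1 : pnL [r1, Rf, Rt] = pnL [r0] := by
        rw [pnL_cons, pnL_cons, pnL_cons, pnL_cons, pnL_nil]
        have h2 : r1.pn = r0.pn := by
          show Wd.pn (u ++ Lt.par q e σn c c' gn :: vn) = Wd.pn (u ++ Lt.par q e σ c c' g :: v)
          rw [pn_app, pn_cons, pn_app, pn_cons, hpn]; rfl
        have h3 : ∀ (j : ℕ) (a : ℂˣ) (x y : ℕ), (chRoot j a x y).pn = 0 := by
          intro j a x y
          show Wd.pn [Lt.full x true, Lt.full y false] = _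
          rw [pn_cons, pn_cons]
          simp [Lt.pn, Wd.pn]
        rw [h2, hRf, hRt, h3, h3]
        simp
      rw [h1]
      have h2 : S.pn = pnL [r0] + pnL rest := by
        rw [Sys.pn_eq, ← pnL_append]; rfl
      have h3 := hWF.pn_nodup
      rw [h2] at h3
      have h4 := (Multiset.nodup_add.1 h3).1
      have h5 : ∀ b, gn b ∉ pnL [r0] := by
        intro b hb
        exact hgn_fresh b (Or.inr (Or.inl (by rw [h2]; exact Multiset.mem_add.2 (Or.inl hb))))
      have h6 : (((([] : List (ℕ × ℕ)).map Prod.fst : List ℕ)) : Multiset ℕ) = 0 := rfl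
      rw [h6, add_zero]
      simp only [Multiset.insert_eq_cons, Multiset.map_cons, Multiset.map_singleton,
        Multiset.cons_add, Multiset.singleton_add]
      rw [Multiset.nodup_cons, Multiset.nodup_cons]
      refine ⟨?_, h5 _, h4⟩
      rw [Multiset.mem_cons]
      rintro (h | h)
      · rw [hgnf, hgnt] at h; omega
      · exact h5 _ h
    · -- fresh
      intro y hy
      have h6 : (((([] : List (ℕ × ℕ)).map Prod.fst : List ℕ)) : Multiset ℕ) = 0 := rfl
      rw [h6, add_zero] at hy
      have h1 : pnL [r1, Rf, Rt] = pnL [r0] := by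
        rw [pnL_cons, pnL_cons, pnL_cons, pnL_cons, pnL_nil]
        have h2 : r1.pn = r0.pn := by
          show Wd.pn (u ++ Lt.par q e σn c c' gn :: vn) = Wd.pn (u ++ Lt.par q e σ c c' g :: v)
          rw [pn_app, pn_cons, pn_app, pn_cons, hpn]; rfl
        have h3 : ∀ (j : ℕ) (a : ℂˣ) (x y : ℕ), (chRoot j a x y).pn = 0 := by
          intro j a x y
          show Wd.pn [Lt.full x true, Lt.full y false] = _
          rw [pn_cons, pn_cons]
          simp [Lt.pn, Wd.pn]
        rw [h2, hRf, hRt, h3, h3]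
        simp
      rw [h1] at hy
      rcases Multiset.mem_add.1 hy with hy | hy
      · right; right
        simp only [Multiset.insert_eq_cons, Multiset.map_cons, Multiset.map_singleton,
          Multiset.mem_cons, Multiset.mem_singleton] at hy
        rcases hy with rfl | rfl
        · exact hgn_fresh false
        · exact hgn_fresh true
      · exact Or.inr (Or.inl hy)
    · -- weights
      have h0 : wtL [r0] = (3 * k) ::ₘ (Wd.wt u k + (Lt.wt k (Lt.par q e σ c c' g) + Wd.wt v k)) := by
        rw [wtL_cons, wtL_nil, add_zero]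
        show (3 * k) ::ₘ Wd.wt (u ++ Lt.par q e σ c c' g :: v) k = _
        rw [wt_app, wt_cons]
      have h1 : wtL [r1, Rf, Rt] =
          ((3 * k) ::ₘ (Wd.wt u k + (Lt.wt k (Lt.par q e σn c c' gn) + Wd.wt vn k))) +
          (Rf.wt + Rt.wt) := by
        rw [wtL_cons, wtL_cons, wtL_cons, wtL_nil, add_zero]
        show (3 * k) ::ₘ Wd.wt (u ++ Lt.par q e σn c c' gn :: vn) k + _ = _
        rw [wt_app, wt_cons]
      rw [h0, h1, hwt gn]
      refine ⟨(3 * k) ::ₘ (Wd.wt u k + (Lt.wt k (Lt.par q e σn c c' gn) + Wd.wt vn k)),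
        Rf.wt + Rt.wt, {m}, by simp, rfl, ?_, ?_⟩
      · simp only [← Multiset.singleton_add]
        abel
      · have h3 : ∀ (j : ℕ) (a : ℂˣ) (x y : ℕ), ∀ z ∈ (chRoot j a x y).wt, z ≤ 3 * j + 1 := by
          intro j a x y z hz
          have h4 : (chRoot j a x y).wt = (3 * j) ::ₘ Wd.wt [Lt.full x true, Lt.full y false] j := rfl
          rw [h4, wt_cons, wt_cons] at hz
          simp only [Lt.wt, Wd.wt, List.map_nil, List.sum_nil, add_zero, Multiset.mem_cons,
            Multiset.mem_add, Multiset.mem_singleton] at hz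
          rcases hz with rfl | rfl | rfl <;> omega
        intro y hy
        refine ⟨m, Multiset.mem_singleton_self _, ?_⟩
        rcases Multiset.mem_add.1 hy with hy | hy
        · exact lt_of_le_of_lt (h3 _ _ _ _ y hy) (hm false)
        · exact lt_of_le_of_lt (h3 _ _ _ _ y hy) (hm true)
    · -- admissibility
      intro k0 h r hr
      have h0 := h r0 (by simp)
      have hk0 : k ≤ k0 := by
        rcases h0 with h | ⟨h, _⟩
        · exact h.le
        · exact h.le
      simp only [List.mem_cons, List.not_mem_nil, or_false] at hr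
      rcases hr with rfl | rfl | rfl
      · rcases h0 with h | ⟨h, _⟩
        · exact Or.inl h
        · refine Or.inr ⟨h, Lt.par q e σn c c' gn, ?_, hnd⟩
          simp [hr1]
      · exact Or.inl (lt_of_lt_of_le (hcnt_lt false) hk0)
      · exact Or.inl (lt_of_lt_of_le (hcnt_lt true) hk0)
    · -- the new point is a solution
      intro r hr
      simp only [List.mem_cons, List.not_mem_nil, or_false] at hr
      have hch : ∀ b, (chRoot (c.count b) (s b) (g b) (gn b)).Sol ρ' := by
        intro b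
        rw [chRoot_sol, hρ'o (g b) (hgq b) (hgngn b), hρ'g b]
        exact ⟨hpar0.blk b, (GLk n _).mul_mem (scal_mem_GLk le_rfl _) (hpar0.blk b), rfl⟩
      rcases hr with rfl | rfl | rfl
      · refine ⟨(Sat_app _ _ _ _).2 ⟨?_, (Sat_cons _ _ _ _).2 ⟨?_, ?_⟩⟩, ?_⟩
        · refine Wd.Sat_congr (fun x hx => ?_) hsat0.1
          exact (hρ'o x (hu_names x hx).1 (hu_names x hx).2).symm
        · show IsPar c c' (fun b => ρ' (gn b)) (ρ' q)
          rw [hρ'q]
          have h2 := (hA.mul hpar0).mul hB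
          have h3 : (fun b => al b * ρ (g b) * be b) = fun b => ρ' (gn b) := by
            funext b
            rw [hρ'g b]
            exact hab b _ (hpar0.blk b)
          rw [← h3]
          exact h2
        · rw [hsat]
          refine Wd.Sat_congr (fun x hx => ?_) hsat1.2
          exact (hρ'o x (hv_names x hx).1 (hv_names x hx).2).symm
        · show scal n k ξ * Wd.eval ρ' (u ++ Lt.par q e σn c c' gn :: vn) = 1
          rw [eval_app, eval_cons]
          show scal n k ξ * (Wd.eval ρ' u * (dsg n e c σn * ρ' q * Wd.eval ρ' vn)) = 1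
          rw [hρ'q, hev, ← Wd.eval_congr (w := u) k (fun x hx =>
            (hρ'o x (hu_names x hx).1 (hu_names x hx).2).symm), ← Wd.eval_congr (w := v) k (fun x hx =>
            (hρ'o x (hv_names x hx).1 (hv_names x hx).2).symm)]
          have h2 := hsol0.2
          have h3 : Wd.eval ρ (u ++ Lt.par q e σ c c' g :: v) =
            Wd.eval ρ u * (dsg n e c σ * ρ q * Wd.eval ρ v) := by
            rw [eval_app, eval_cons]; rfl
          rw [← h3]
          exact h2
      · exact hch false
      · exact hch true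
    · intro z hz; simp at hz
    · -- agreement off Loc
      intro x hx
      refine hρ'o x ?_ ?_
      · rintro rfl
        exact hx (Or.inr (Or.inl (by rw [pnL_cons]; exact Multiset.mem_add.2 (Or.inl hqpn))))
      · rintro b rfl
        exact hx (Or.inl (hgn_fresh b))
    · -- polynomiality
      intro x
      simp only [hΦ]
      refine PolG.ite _ ?_ (PolG.ite _ ?_ ?_)
      · exact PolG.mul (PolG.mul (PolG.const _) (PolG.coord q)) (PolG.const _)
      · exact PolG.one
      · exact PolG.coord x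
    · intro x hx τ
      refine hΦo τ x ?_ ?_
      · rintro rfl
        exact hx (Or.inr (Or.inl (by rw [pnL_cons]; exact Multiset.mem_add.2 (Or.inl hqpn))))
      · rintro b rfl
        exact hx (Or.inl (hgn_fresh b))
    · -- Φ maps solutions to solutions
      intro τ hτ _ r hr
      have hr' : r = r0 := by simpa using hr
      subst hr'
      have h1 := hτ r1 (by simp)
      have hcf : ∀ b, τ (g b) ∈ GLk n (c.count b) ∧ τ (gn b) ∈ GLk n (c.count b) ∧
          τ (gn b) = scal n (c.count b) (s b) * τ (g b) := by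
        intro b
        cases b
        · exact chRoot_sol.1 (hτ Rf (by simp))
        · exact chRoot_sol.1 (hτ Rt (by simp))
      have h2 := (Sat_app _ _ _ _).1 h1.1
      have h3 := (Sat_cons _ _ _ _).1 h2.2
      have h4 : IsPar c c' (fun b => τ (gn b)) (τ q) := h3.1
      refine ⟨(Sat_app _ _ _ _).2 ⟨?_, (Sat_cons _ _ _ _).2 ⟨?_, ?_⟩⟩, ?_⟩
      · refine Wd.Sat_congr (fun x hx => ?_) h2.1
        exact (hΦo τ x (hu_names x hx).1 (hu_names x hx).2).symm
      · show IsPar c c' (fun b => Φ τ (g b)) (Φ τ q)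
        rw [hΦq]
        have h5 := (hA.inv.mul h4).mul hB.inv
        have h6 : (fun b => (al b)⁻¹ * τ (gn b) * (be b)⁻¹) = fun b => Φ τ (g b) := by
          funext b
          rw [hΦo τ (g b) (hgq b) (hgngn b), (hcf b).2.2]
          exact key b _ (hcf b).1
        rw [← h6]
        exact h5
      · refine Wd.Sat_congr (fun x hx => ?_) ((hsat τ).1 h3.2)
        exact (hΦo τ x (hv_names x hx).1 (hv_names x hx).2).symm
      · show scal n k ξ * Wd.eval (Φ τ) (u ++ Lt.par q e σ c c' g :: v) = 1
        rw [eval_app, eval_cons]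
        show scal n k ξ * (Wd.eval (Φ τ) u * (dsg n e c σ * Φ τ q * Wd.eval (Φ τ) v)) = 1
        rw [hΦq, ← Wd.eval_congr (w := u) k (fun x hx =>
            (hΦo τ x (hu_names x hx).1 (hu_names x hx).2).symm), ← Wd.eval_congr (w := v) k (fun x hx =>
            (hΦo τ x (hv_names x hx).1 (hv_names x hx).2).symm), ← hev]
        have h5 : A * (A⁻¹ * τ q * B⁻¹) * B = τ q := by group
        rw [h5]
        have h6 := h1.2
        have h7 : Wd.eval τ (u ++ Lt.par q e σn c c' gn :: vn) =
            Wd.eval τ u * (dsg n e c σn * τ q * Wd.eval τ vn) := by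
          rw [eval_app, eval_cons]; rfl
        rw [← h7]
        exact h6
    · -- integrality
      intro τ _ _ hint x hx _
      by_cases hxq : x = q
      · subst hxq
        rw [hΦq]
        refine (GO O n).mul_mem ((GO O n).mul_mem ((GO O n).inv_mem hAO) (hint _ ?_))
          ((GO O n).inv_mem hBO)
        refine Or.inr (Or.inl ?_)
        rw [Sys.pn_eq]
        show x ∈ pnL ([r1, Rf, Rt] ++ rest)
        rw [pnL_append, pnL_cons]
        refine Multiset.mem_add.2 (Or.inl (Multiset.mem_add.2 (Or.inl ?_)))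
        show x ∈ Wd.pn (u ++ Lt.par x e σn c c' gn :: vn)
        rw [pn_app, pn_cons]
        simp [Lt.pn]
      · have hxS : x ∈ S.names := by
          rw [Sys.names_eq]
          left
          rcases hx with ⟨k', ε, hx⟩ | hx
          · exact Or.inl ⟨k', ε, by
              show _ ∈ occL ([r0] ++ rest)
              rw [occL_append]; exact Multiset.mem_add.2 (Or.inl hx)⟩
          · exact Or.inr (by
              show _ ∈ pnL ([r0] ++ rest)
              rw [pnL_append]; exact Multiset.mem_add.2 (Or.inl hx))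
        rw [hΦo τ x hxq (fun b h => hgn_fresh b (h ▸ hxS))]
        apply hint
        rcases hx with ⟨k', ε, hx⟩ | hx
        · -- a full name
          have h1 : (x, k', ε) ∈ Wd.occ (u ++ Lt.par q e σ c c' g :: v) k := by
            rw [occL_cons, occL_nil, add_zero] at hx
            exact hx
          rw [occ_app, occ_cons] at h1
          left
          rcases Multiset.mem_add.1 h1 with h1 | h1
          · refine ⟨k', ε, ?_⟩
            show _ ∈ occL ([r1, Rf, Rt] ++ rest)
            rw [occL_append, occL_cons]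
            refine Multiset.mem_add.2 (Or.inl (Multiset.mem_add.2 (Or.inl ?_)))
            show _ ∈ Wd.occ (u ++ Lt.par q e σn c c' gn :: vn) k
            rw [occ_app]
            exact Multiset.mem_add.2 (Or.inl h1)
          · rcases Multiset.mem_add.1 h1 with h1 | h1
            · have h2 : (x, k', ε) ∈ ({(g false, c.count false, true), (g true, c.count true, true)} :
                Multiset (ℕ × ℕ × Bool)) := h1
              have h3 : ∃ b, x = g b := by
                simp only [Multiset.insert_eq_cons, Multiset.mem_cons, Multiset.mem_singleton,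
                  Prod.mk.injEq] at h2
                rcases h2 with h2 | h2
                · exact ⟨_, h2.1⟩
                · exact ⟨_, h2.1⟩
              obtain ⟨b, rfl⟩ := h3
              refine ⟨c.count b, true, ?_⟩
              show _ ∈ occL ([r1, Rf, Rt] ++ rest)
              rw [occL_append, occL_cons, occL_cons, occL_cons]
              have h4 : ∀ (j : ℕ) (a : ℂˣ) (x y : ℕ), (x, j, true) ∈ (chRoot j a x y).occ := by
                intro j a x y
                show _ ∈ Wd.occ [Lt.full x true, Lt.full y false] j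
                rw [occ_cons]
                simp [Lt.occ]
              cases b
              · have := h4 (c.count false) (s false) (g false) (gn false)
                simp only [Multiset.mem_add]
                exact Or.inl (Or.inr (Or.inl this))
              · have := h4 (c.count true) (s true) (g true) (gn true)
                simp only [Multiset.mem_add]
                exact Or.inl (Or.inr (Or.inr (Or.inl this)))
            · refine ⟨k', ε, ?_⟩
              show _ ∈ occL ([r1, Rf, Rt] ++ rest)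
              rw [occL_append, occL_cons]
              refine Multiset.mem_add.2 (Or.inl (Multiset.mem_add.2 (Or.inl ?_)))
              show _ ∈ Wd.occ (u ++ Lt.par q e σn c c' gn :: vn) k
              rw [occ_app, occ_cons, hocc]
              exact Multiset.mem_add.2 (Or.inr (Multiset.mem_add.2 (Or.inr h1)))
        · right; left
          show _ ∈ pnL ([r1, Rf, Rt] ++ rest)
          rw [pnL_append, pnL_cons]
          refine Multiset.mem_add.2 (Or.inl (Multiset.mem_add.2 (Or.inl ?_)))
          have h1 : x ∈ Wd.pn (u ++ Lt.par q e σ c c' g :: v) := by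
            rw [pnL_cons, pnL_nil, add_zero] at hx
            exact hx
          show x ∈ Wd.pn (u ++ Lt.par q e σn c c' gn :: vn)
          rw [pn_app, pn_cons] at h1 ⊢
          rw [hpn]
          exact h1
    · -- Φ ρ' = ρ
      intro x hx _
      by_cases hxq : x = q
      · subst hxq
        rw [hΦq, hρ'q]
        group
      · have hxS : x ∈ S.names := by
          rw [Sys.names_eq]
          left
          rcases hx with ⟨k', ε, hx⟩ | hx
          · exact Or.inl ⟨k', ε, by
              show _ ∈ occL ([r0] ++ rest)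
              rw [occL_append]; exact Multiset.mem_add.2 (Or.inl hx)⟩
          · exact Or.inr (by
              show _ ∈ pnL ([r0] ++ rest)
              rw [pnL_append]; exact Multiset.mem_add.2 (Or.inl hx))
        have h1 : ∀ b, x ≠ gn b := fun b h => hgn_fresh b (h ▸ hxS)
        rw [hΦo _ x hxq h1, hρ'o x hxq h1]
  exact hred


/-- absorption of a scalar sign into the scalar of the root -/
theorem absorb_scal {O : Subring ℂ} {n : ℕ} (k : ℕ) (ξ s : ℂˣ) (w wn : Wd) (rest : List Root)
    (fr : List (ℕ × ℕ)) (ρ : ℕ → G n)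
    (hWF : Sys.WF O n ⟨⟨k, ξ, w⟩ :: rest, fr⟩)
    (hρ : ρ ∈ Sys.Sol n ⟨⟨k, ξ, w⟩ :: rest, fr⟩) (hs : IsSc O s)
    (hWn : Wd.WF O wn k (Wd.last wn none))
    (hocc : Wd.occ wn k = Wd.occ w k) (hpn : Wd.pn wn = Wd.pn w)
    (hsat : ∀ ρ : ℕ → G n, Wd.Sat ρ wn k ↔ Wd.Sat ρ w k)
    (hev : ∀ ρ : ℕ → G n, Wd.Sat ρ w k → Wd.eval ρ w = scal n k s * Wd.eval ρ wn)
    (hnd : Wd.hasNd w → Wd.hasNd wn)
    (B : Multiset ℕ) (hB : B ≠ 0) (hwt : Wd.wt w k = Wd.wt wn k + B) :
    Red O n ⟨⟨k, ξ, w⟩ :: rest, fr⟩ ρ := by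
  have hr0 := hWF.roots _ List.mem_cons_self
  refine ⟨⟨⟨k, ξ * s, wn⟩ :: rest, fr⟩, ρ, ?_, ?_, ?_, ?_, ?_⟩
  · refine ⟨?_, hWF.free, ?_⟩
    · intro r hr
      rcases List.mem_cons.1 hr with rfl | h
      · exact ⟨hr0.1, hr0.2.1.mul hs, hWn⟩
      · exact hWF.roots r (List.mem_cons_of_mem _ h)
    · obtain ⟨V, h1, h2⟩ := hWF.lin
      refine ⟨V, ?_, ?_⟩
      · rw [← h1]
        show (List.map Root.occ (⟨k, ξ * s, wn⟩ :: rest)).sum =
          (List.map Root.occ (⟨k, ξ, w⟩ :: rest)).sum
        rw [List.map_cons, List.map_cons, List.sum_cons, List.sum_cons]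
        show Wd.occ wn k + _ = Wd.occ w k + _
        rw [hocc]
      · have h3 : Sys.pn ⟨⟨k, ξ * s, wn⟩ :: rest, fr⟩ = Sys.pn ⟨⟨k, ξ, w⟩ :: rest, fr⟩ := by
          show (List.map Root.pn (⟨k, ξ * s, wn⟩ :: rest)).sum =
            (List.map Root.pn (⟨k, ξ, w⟩ :: rest)).sum
          rw [List.map_cons, List.map_cons, List.sum_cons, List.sum_cons]
          show Wd.pn wn + _ = Wd.pn w + _
          rw [hpn]
        rw [h3]
        exact h2
  · apply dm_of_add (B := B)
    · show (List.map Root.wt (⟨k, ξ, w⟩ :: rest)).sum =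
        (List.map Root.wt (⟨k, ξ * s, wn⟩ :: rest)).sum + B
      rw [List.map_cons, List.map_cons, List.sum_cons, List.sum_cons]
      show (3 * k) ::ₘ Wd.wt w k + _ = (3 * k) ::ₘ Wd.wt wn k + _ + B
      rw [hwt]
      simp only [← Multiset.singleton_add]
      abel
    · exact hB
  · intro k0 h r hr
    rcases List.mem_cons.1 hr with rfl | h'
    · rcases h _ List.mem_cons_self with h1 | ⟨h1, h2⟩
      · exact Or.inl h1
      · exact Or.inr ⟨h1, hnd h2⟩
    · exact h r (List.mem_cons_of_mem _ h')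
  · refine ⟨?_, hρ.2⟩
    intro r hr
    rcases List.mem_cons.1 hr with rfl | h'
    · have h1 := hρ.1 _ List.mem_cons_self
      refine ⟨(hsat ρ).2 h1.1, ?_⟩
      have h2 := h1.2
      simp only at h2 ⊢
      rw [hev ρ h1.1, ← mul_assoc, ← scal_mul] at h2
      exact h2
    · exact hρ.1 r (List.mem_cons_of_mem _ h')
  · intro h
    have e1 : Sys.occ ⟨⟨k, ξ * s, wn⟩ :: rest, fr⟩ = Sys.occ ⟨⟨k, ξ, w⟩ :: rest, fr⟩ := by
      show (List.map Root.occ (⟨k, ξ * s, wn⟩ :: rest)).sum =
        (List.map Root.occ (⟨k, ξ, w⟩ :: rest)).sum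
      rw [List.map_cons, List.map_cons, List.sum_cons, List.sum_cons]
      show Wd.occ wn k + _ = Wd.occ w k + _
      rw [hocc]
    have e2 : Sys.pn ⟨⟨k, ξ * s, wn⟩ :: rest, fr⟩ = Sys.pn ⟨⟨k, ξ, w⟩ :: rest, fr⟩ := by
      show (List.map Root.pn (⟨k, ξ * s, wn⟩ :: rest)).sum =
        (List.map Root.pn (⟨k, ξ, w⟩ :: rest)).sum
      rw [List.map_cons, List.map_cons, List.sum_cons, List.sum_cons]
      show Wd.pn wn + _ = Wd.pn w + _
      rw [hpn]
    refine Appr.mono' h ?_
    intro τ hτ hi
    refine ⟨⟨?_, hτ.2⟩, ?_⟩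
    · intro r hr
      rcases List.mem_cons.1 hr with rfl | h'
      · have h1 := hτ.1 _ List.mem_cons_self
        have h3 := (hsat τ).1 h1.1
        refine ⟨h3, ?_⟩
        have h2 := h1.2
        simp only at h2 ⊢
        rw [hev τ h3, ← mul_assoc, ← scal_mul]
        exact h2
      · exact hτ.1 r (List.mem_cons_of_mem _ h')
    · intro x hx
      apply hi
      rcases hx with hx | hx | hx
      · exact Or.inl (by rw [e1]; exact hx)
      · exact Or.inr (Or.inl (by rw [e2]; exact hx))
      · exact Or.inr (Or.inr hx)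

theorem mem_restr {e c : List Bool} {b x : Bool} (h : x ∈ restr c e b) : x ∈ e := by
  unfold restr at h
  obtain ⟨z, hz, rfl⟩ := List.mem_map.1 h
  exact (List.of_mem_zip (List.mem_filter.1 hz).1).2

theorem eq_of_count {e : List Bool} {t x : Bool} (ht : e.count (!t) = 0) (h : x ∈ e) : x = t := by
  rw [List.count_eq_zero] at ht
  by_contra hne
  apply ht
  have : (!t) = x := by cases t <;> cases x <;> simp_all
  rw [this]; exact h

theorem lab_const {e : List Bool} {t : Bool} (ht : e.count (!t) = 0) {i : ℕ} (hi : i < e.length) :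
    lab e i = some t := by
  show e[i]? = some t
  rw [List.getElem?_eq_getElem hi]
  congr 1
  exact eq_of_count ht (List.getElem_mem hi)

theorem restr_const {e c : List Bool} {t : Bool} (ht : e.count (!t) = 0) (b : Bool) :
    (restr c e b).count (!t) = 0 := by
  rw [List.count_eq_zero] at ht ⊢
  exact fun h => ht (mem_restr h)

/-- a block of a sign matrix when the row labels are constant -/
theorem dsg_const_left {n : ℕ} {e c : List Bool} (σ : Bool → Bool → ℂˣ) {t : Bool}
    (hec : e.length = c.length) (ht : e.count (!t) = 0) (b : Bool) :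
    dsg n (restr c e b) (List.replicate (c.count b) b) σ = scal n (c.count b) (σ t b) := by
  unfold dsg scal
  congr 1
  funext i
  have h1 : (restr c e b).length = c.count b := restr_length hec.symm b
  by_cases hi : i.1 < c.count b
  · rw [lab_const (restr_const ht b) (h1 ▸ hi), lab_replicate hi, if_pos hi]
  · rw [lab_none (by rw [h1]; omega), if_neg hi]

/-- a block of a sign matrix when the column labels are constant -/
theorem dsg_const_right {n : ℕ} {e c : List Bool} (σ : Bool → Bool → ℂˣ) {t : Bool}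
    (hec : e.length = c.length) (ht : c.count (!t) = 0) (b : Bool) :
    dsg n (List.replicate (e.count b) b) (restr e c b) σ = scal n (e.count b) (σ b t) := by
  unfold dsg scal
  congr 1
  funext i
  have h1 : (restr e c b).length = e.count b := restr_length hec b
  by_cases hi : i.1 < e.count b
  · rw [lab_const (restr_const ht b) (h1 ▸ hi), lab_replicate hi, if_pos hi]
  · rw [lab_none (l := restr e c b) (by rw [h1]; omega), lab_replicate_none (by omega), if_neg hi]

/-- a sign matrix with constant labels is a scalar -/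
theorem dsg_const {n : ℕ} {e c : List Bool} (σ : Bool → Bool → ℂˣ) {s t : Bool}
    (hec : e.length = c.length) (hs : e.count (!s) = 0) (ht : c.count (!t) = 0) :
    dsg n e c σ = scal n c.length (σ s t) := by
  unfold dsg scal
  congr 1
  funext i
  by_cases hi : i.1 < c.length
  · rw [lab_const hs (hec ▸ hi), lab_const ht hi, if_pos hi]
  · rw [lab_none (l := e) (by omega), if_neg hi]

/-- degenerate label lists are constant -/
theorem exists_const {c : List Bool} (h : ¬ ∀ b, 0 < c.count b) : ∃ t, c.count (!t) = 0 := by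
  push Not at h
  obtain ⟨b, hb⟩ := h
  exact ⟨!b, by rw [Bool.not_not]; omega⟩

/-- **U1** -/
theorem u1 (O : Subring ℂ) (n : ℕ) : U1 O n := by
  intro k ξ p0 p e0 c0 c0' e c c' σ0 σ g0 g t w rest fr ρ S ht hσ hWF hρ
  have hr := hWF.roots _ List.mem_cons_self
  obtain ⟨hkn, hξ, hc0, hcnt0, hs0, hsc0, hc, hcnt, hs, hsc, hw⟩ := hr
  change k ≤ n at hkn
  change c0.length = k at hc0
  change c.length = k at hc
  change Wd.WF O w k (some c') at hw
  have he : e = c0' := by
    rcases hs with h | h
    · exact absurd h hσ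
    · exact (Option.some_injective _ h).symm
  subst he
  have hlen0 : e.length = k := by
    rw [← hc0, ← count_add e, ← count_add c0, hcnt0, hcnt0]
  have hdeg : ¬ ∀ b, 0 < c.count b := fun h => absurd (h (!t)) (by omega)
  by_cases hnd : ∀ b, 0 < c0.count b
  · refine absorb k ξ [] (Lt.par p e σ c c' g :: w) (Lt.par p e (fun _ _ => 1) c c' g :: w) p0 e0
      σ0 σ0 c0 e g0 rest fr ρ hWF hρ (fun b => σ b t) (fun b => hsc b t) 1 (dsg n e c σ)
      (fun _ => 1) (fun b => scal n (c0.count b) (σ b t)) ?_ ?_ ?_ ?_ ?_ hc0 hnd ?_ ?_ ?_ ?_ ?_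
      (3 * k + 2) ?_ ?_
    · exact IsPar.one (hc0.le.trans hkn)
    · have h1 := dsg_isPar_left n e c σ (hlen0.trans hc.symm) (hc.le.trans hkn)
      have h2 : (fun b => dsg n (List.replicate (e.count b) b) (restr e c b) σ) =
          fun b => scal n (c0.count b) (σ b t) := by
        funext b
        rw [dsg_const_right σ (hlen0.trans hc.symm) ht b, hcnt0 b]
      rw [h2] at h1
      exact h1
    · exact (GO O n).one_mem
    · exact dsg_mem_GO _ _ hsc
    · intro b X hX
      rw [one_mul, scal_mul_comm _ hX]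
    · intro gn
      exact ⟨hc0, hcnt0, hs0, hsc0, hc, hcnt, Or.inl fun _ _ => rfl, fun _ _ => IsSc.one, hw⟩
    · rw [occ_cons, occ_cons]; rfl
    · rw [pn_cons, pn_cons]; rfl
    · intro ρ; rw [Sat_cons, Sat_cons]; exact Iff.rfl
    · intro ρ X
      rw [eval_cons, eval_cons]
      show dsg n e0 c0 σ0 * (1 * X * dsg n e c σ) * (dsg n e c (fun _ _ => 1) * ρ p * Wd.eval ρ w) =
        dsg n e0 c0 σ0 * X * (dsg n e c σ * ρ p * Wd.eval ρ w)
      rw [dsg_one _ _ (fun _ _ => rfl)]
      group
    · intro b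
      have : c0.count b ≤ c0.length := List.count_le_length
      omega
    · intro gn
      rw [wt_cons, wt_cons]
      have h1 : Lt.wt k (Lt.par p e σ c c' g) = {3 * k + 2, 3 * k + 2} := by
        rw [Lt.wt, if_neg hdeg, if_neg hσ]
      have h2 : Lt.wt k (Lt.par p e (fun _ _ => 1) c c' g) = {3 * k + 2} := by
        rw [Lt.wt, if_neg hdeg, if_pos fun _ _ => rfl]
      have h3 : Lt.wt k (Lt.par p0 e0 σ0 c0 e g0) = Lt.wt k (Lt.par p0 e0 σ0 c0 e gn) := rfl
      rw [h1, h2, h3]
      simp only [Multiset.insert_eq_cons, ← Multiset.singleton_add]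
      abel
  · obtain ⟨s0, hs0'⟩ := exists_const hnd
    have hs1 : e.count (!s0) = 0 := by rw [← hcnt0]; exact hs0'
    have hD : dsg n e c σ = scal n k (σ s0 t) := by
      rw [dsg_const σ (hlen0.trans hc.symm) hs1 ht, hc]
    refine absorb_scal k ξ (σ s0 t) _
      (Lt.par p0 e0 σ0 c0 e g0 :: Lt.par p e (fun _ _ => 1) c c' g :: w) rest fr ρ hWF hρ
      (hsc s0 t) ?_ ?_ ?_ ?_ ?_ ?_ {3 * k + 2} (by simp) ?_
    · exact ⟨hc0, hcnt0, hs0, hsc0, hc, hcnt, Or.inl fun _ _ => rfl, fun _ _ => IsSc.one, hw⟩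
    · rw [occ_cons, occ_cons, occ_cons, occ_cons]; rfl
    · rw [pn_cons, pn_cons, pn_cons, pn_cons]; rfl
    · intro ρ; rw [Sat_cons, Sat_cons, Sat_cons, Sat_cons]; exact Iff.rfl
    · intro ρ hsat
      have h1 := ((Sat_cons _ _ _ _).1 hsat).1
      have h2 : IsPar c0 e (fun b => ρ (g0 b)) (ρ p0) := h1
      rw [eval_cons, eval_cons, eval_cons, eval_cons]
      show dsg n e0 c0 σ0 * ρ p0 * (dsg n e c σ * ρ p * Wd.eval ρ w) = scal n k (σ s0 t) *
        (dsg n e0 c0 σ0 * ρ p0 * (dsg n e c (fun _ _ => 1) * ρ p * Wd.eval ρ w))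
      rw [dsg_one _ _ (fun _ _ => rfl), hD]
      have h3 : dsg n e0 c0 σ0 * ρ p0 ∈ GLk n k :=
        (GLk n k).mul_mem (dsg_mem_GLk_of_le _ _ _ hc0.le) (hc0 ▸ h2.mem)
      have h4 := scal_mul_comm (n := n) (k := k) (σ s0 t) h3
      calc dsg n e0 c0 σ0 * ρ p0 * (scal n k (σ s0 t) * ρ p * Wd.eval ρ w)
          = dsg n e0 c0 σ0 * ρ p0 * scal n k (σ s0 t) * (ρ p * Wd.eval ρ w) := by group
        _ = scal n k (σ s0 t) * (dsg n e0 c0 σ0 * ρ p0) * (ρ p * Wd.eval ρ w) := by rw [h4]
        _ = _ := by group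
    · rintro ⟨l, hl, hn⟩
      simp only [List.mem_cons] at hl
      rcases hl with rfl | rfl | hl
      · exact ⟨_, List.mem_cons_self, hn⟩
      · exact absurd hn hdeg
      · exact ⟨l, by simp [hl], hn⟩
    · rw [wt_cons, wt_cons, wt_cons, wt_cons]
      have h1 : Lt.wt k (Lt.par p e σ c c' g) = {3 * k + 2, 3 * k + 2} := by
        rw [Lt.wt, if_neg hdeg, if_neg hσ]
      have h2 : Lt.wt k (Lt.par p e (fun _ _ => 1) c c' g) = {3 * k + 2} := by
        rw [Lt.wt, if_neg hdeg, if_pos fun _ _ => rfl]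
      rw [h1, h2]
      simp only [Multiset.insert_eq_cons, ← Multiset.singleton_add]
      abel

/-- **U2** -/
theorem u2 (O : Subring ℂ) (n : ℕ) : U2 O n := by
  intro k ξ p0 p e0 c0 c0' e c c' σ0 σ g0 g t w rest fr ρ S ht hσ hWF hρ
  have hr := hWF.roots _ List.mem_cons_self
  obtain ⟨hkn, hξ, hc0, hcnt0, hs0, hsc0, hc, hcnt, hs, hsc, hw⟩ := hr
  change k ≤ n at hkn
  change c0.length = k at hc0
  change c.length = k at hc
  change Wd.WF O w k (some c') at hw
  have he : e = c0' := by
    rcases hs with h | h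
    · exact absurd h hσ
    · exact (Option.some_injective _ h).symm
  subst he
  have hlen0 : e.length = k := by
    rw [← hc0, ← count_add e, ← count_add c0, hcnt0, hcnt0]
  by_cases hnd : ∀ b, 0 < c.count b
  · refine absorb k ξ [Lt.par p0 e0 σ0 c0 e g0] w w p e
      σ (fun _ _ => 1) c c' g rest fr ρ hWF hρ (fun b => σ t b) (fun b => hsc t b) (dsg n e c σ) 1
      (fun b => scal n (c.count b) (σ t b)) (fun _ => 1) ?_ ?_ ?_ ?_ ?_ hc hnd ?_ rfl rfl
      (fun _ => Iff.rfl) ?_ (3 * k - 1) ?_ ?_
    · have h1 := dsg_isPar_right n e c σ (hlen0.trans hc.symm) (hc.le.trans hkn)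
      have h2 : (fun b => dsg n (restr c e b) (List.replicate (c.count b) b) σ) =
          fun b => scal n (c.count b) (σ t b) := by
        funext b
        rw [dsg_const_left σ (hlen0.trans hc.symm) ht b]
      rw [h2] at h1
      exact h1
    · refine IsPar.one ?_
      rw [← count_add c', ← hcnt, ← hcnt, count_add c]
      exact hc.le.trans hkn
    · exact dsg_mem_GO _ _ hsc
    · exact (GO O n).one_mem
    · intro b X hX
      rw [mul_one]
    · intro gn
      exact ⟨hc0, hcnt0, hs0, hsc0, hc, hcnt, Or.inl fun _ _ => rfl, fun _ _ => IsSc.one, hw⟩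
    · intro ρ X
      rw [dsg_one e c (σ := fun _ _ => 1) (fun _ _ => rfl)]
      group
    · intro b
      have h1 := count_add c
      have h2 := hnd false
      have h3 := hnd true
      cases b <;> omega
    · intro gn
      have h1 : Lt.wt k (Lt.par p e σ c c' g) = {3 * k, 3 * k - 1} := by
        rw [Lt.wt, if_pos hnd, if_neg hσ]
      have h2 : Lt.wt k (Lt.par p e (fun _ _ => 1) c c' gn) = {3 * k} := by
        rw [Lt.wt, if_pos hnd, if_pos fun _ _ => rfl]
      rw [h1, h2]
      simp only [Multiset.insert_eq_cons, ← Multiset.singleton_add]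
      abel
  · obtain ⟨s0, hs1⟩ := exists_const hnd
    have hD : dsg n e c σ = scal n k (σ t s0) := by
      rw [dsg_const σ (hlen0.trans hc.symm) ht hs1, hc]
    refine absorb_scal k ξ (σ t s0) _
      (Lt.par p0 e0 σ0 c0 e g0 :: Lt.par p e (fun _ _ => 1) c c' g :: w) rest fr ρ hWF hρ
      (hsc t s0) ?_ ?_ ?_ ?_ ?_ ?_ {3 * k + 2} (by simp) ?_
    · exact ⟨hc0, hcnt0, hs0, hsc0, hc, hcnt, Or.inl fun _ _ => rfl, fun _ _ => IsSc.one, hw⟩
    · rw [occ_cons, occ_cons, occ_cons, occ_cons]; rfl
    · rw [pn_cons, pn_cons, pn_cons, pn_cons]; rfl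
    · intro ρ; rw [Sat_cons, Sat_cons, Sat_cons, Sat_cons]; exact Iff.rfl
    · intro ρ hsat
      have h1 := ((Sat_cons _ _ _ _).1 hsat).1
      have h2 : IsPar c0 e (fun b => ρ (g0 b)) (ρ p0) := h1
      rw [eval_cons, eval_cons, eval_cons, eval_cons]
      show dsg n e0 c0 σ0 * ρ p0 * (dsg n e c σ * ρ p * Wd.eval ρ w) = scal n k (σ t s0) *
        (dsg n e0 c0 σ0 * ρ p0 * (dsg n e c (fun _ _ => 1) * ρ p * Wd.eval ρ w))
      rw [dsg_one _ _ (fun _ _ => rfl), hD]
      have h3 : dsg n e0 c0 σ0 * ρ p0 ∈ GLk n k :=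
        (GLk n k).mul_mem (dsg_mem_GLk_of_le _ _ _ hc0.le) (hc0 ▸ h2.mem)
      have h4 := scal_mul_comm (n := n) (k := k) (σ t s0) h3
      calc dsg n e0 c0 σ0 * ρ p0 * (scal n k (σ t s0) * ρ p * Wd.eval ρ w)
          = dsg n e0 c0 σ0 * ρ p0 * scal n k (σ t s0) * (ρ p * Wd.eval ρ w) := by group
        _ = scal n k (σ t s0) * (dsg n e0 c0 σ0 * ρ p0) * (ρ p * Wd.eval ρ w) := by rw [h4]
        _ = _ := by group
    · rintro ⟨l, hl, hn⟩
      simp only [List.mem_cons] at hl
      rcases hl with rfl | rfl | hl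
      · exact ⟨_, List.mem_cons_self, hn⟩
      · exact absurd hn hnd
      · exact ⟨l, by simp [hl], hn⟩
    · rw [wt_cons, wt_cons, wt_cons, wt_cons]
      have h1 : Lt.wt k (Lt.par p e σ c c' g) = {3 * k + 2, 3 * k + 2} := by
        rw [Lt.wt, if_neg hnd, if_neg hσ]
      have h2 : Lt.wt k (Lt.par p e (fun _ _ => 1) c c' g) = {3 * k + 2} := by
        rw [Lt.wt, if_neg hnd, if_pos fun _ _ => rfl]
      rw [h1, h2]
      simp only [Multiset.insert_eq_cons, ← Multiset.singleton_add]
      abel

end Crest.Agent.R003.CRU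

namespace Crest.Agent.R003

/-- U1 -/
theorem u1_402 (O : Subring ℂ) (n : ℕ) : U1 O n := CRU.u1 O n
/-- U2 -/
theorem u2_402 (O : Subring ℂ) (n : ℕ) : U2 O n := CRU.u2 O n

end Crest.Agent.R003
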