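import Crest.Agent.R003.Rot278
import Crest.Agent.R003.Base537
import Crest.Agent.R003.S0_537
import Crest.Agent.R003.S1_486
import Crest.Agent.R003.Step486
import Crest.Agent.R003.S7_419
import Crest.Agent.R003.S9_402
import Crest.Agent.R003.Calc961
import Crest.Agent.R003.TwoLab832
import Crest.Agent.R003.BruhatPar686
import Crest.Agent.R003.Glue961
import Crest.Agent.R003.S2_412
import Crest.Agent.R003.NF5a832
import Crest.Agent.R003.U_402
import Crest.Agent.R003.S5_227
import Crest.Agent.R003.S4_412
import Crest.Agent.R003.S6_419

/-!
# Row 3: wiring of part 2 (helper278): the elimination theorem from the steps which are not yet landed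
-/

set_option autoImplicit false

namespace Crest.Agent.R003

/-- the elimination theorem, from the core of the normal form -/
theorem elim_of_core {O : Subring ℂ} {n : ℕ} (hN : NF5Core n)
    (k0 : ℕ) : ElimStatement O n k0 :=
  elim_of_steps
    { s0 := s0 O n
      s1 := s1 O n
      s2 := W412.s2 O n (bruhat n) (calc_holds n)
      s3 := s3 O n
      s4 := W412.s4 O n (bruhat n) (calc_holds n)
      s5 := S227.s5 (calc_holds n) (extract_holds n) (glue_holds n) (nf5_of_core hN)
      s6 := S419.s6 O n (calc_holds n) (twoLab n) (extract_holds n) (glue_holds n)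
      s7 := S419.s7 O n (calc_holds n)
      s8 := s8 O n
      s9 := CR.s9 O n
      u1 := u1_402 O n
      u2 := u2_402 O n }
    (rotInv O n) (permInv O n) (baseCase O n) k0

end Crest.Agent.R003
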