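import Mathlib
import Crest.Prelude.Def_CharVarRel
import Crest.Agent.R003.NF452
import Crest.Agent.R003.Det452
import Crest.Agent.R003.Defs

set_option autoImplicit false

open Crest.NumberTheoryR.CharVarRel MvPolynomial

noncomputable section

namespace Crest.Agent.R003.Nrm

variable {g s r : ℕ}

/-- the surface relation in an arbitrary group -/
def RelG {G : Type*} [Group G] (g s : ℕ) (T : RelGen g s → G) : Prop :=
  ((List.finRange g).map fun i =>
      T (Sum.inl (i, false)) * T (Sum.inl (i, true)) *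
        (T (Sum.inl (i, false)))⁻¹ * (T (Sum.inl (i, true)))⁻¹).prod *
    ((List.finRange s).map fun j => T (Sum.inr j)).prod = 1

/-- complete reducibility of a family of matrices -/
def SSM {ι : Type*} {r : ℕ} (T : ι → Matrix (Fin r) (Fin r) ℂ) : Prop :=
  ∀ W : Submodule ℂ (Fin r → ℂ), (∀ i, ∀ v ∈ W, (T i).mulVec v ∈ W) →
    ∃ W' : Submodule ℂ (Fin r → ℂ), (∀ i, ∀ v ∈ W', (T i).mulVec v ∈ W') ∧ IsCompl W W'

/-- `O`-integral points of the relative representation variety with values in `GL_r`: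
semisimple, with the boundary matrices in the `GL_r(ℂ)`-classes of the `c j`. -/
structure GLPt (c : Fin s → Matrix.SpecialLinearGroup (Fin r) ℂ) (O : Subring ℂ)
    (T : RelGen g s → GL (Fin r) ℂ) : Prop where
  rel : RelG g s T
  ss : SSM (fun v => (T v).1)
  cls : ∀ j, ∃ h : GL (Fin r) ℂ,
    T (Sum.inr j) = h * Matrix.SpecialLinearGroup.toGL (c j) * h⁻¹
  int : ∀ v, T v ∈ GO O r

theorem isRelSurfaceRep_iff (T : RelGen g s → Matrix.SpecialLinearGroup (Fin r) ℂ) :
    IsRelSurfaceRep g s r T ↔ RelG g s fun v => Matrix.SpecialLinearGroup.toGL (T v) := by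
  unfold IsRelSurfaceRep RelG
  rw [← Matrix.SpecialLinearGroup.toGL_injective.eq_iff (b := 1), map_one, map_mul,
    map_list_prod, map_list_prod, List.map_map, List.map_map]
  simp only [Function.comp_def, map_mul, map_inv]

theorem RelG_conj {G : Type*} [Group G] (P : G) (T : RelGen g s → G) (h : RelG g s T) :
    RelG g s fun v => P * T v * P⁻¹ := by
  unfold RelG at h ⊢
  have h1 := congrArg (MulAut.conj P) h
  rw [map_one, map_mul, map_list_prod, map_list_prod, List.map_map, List.map_map] at h1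
  simp only [Function.comp_def, map_mul, map_inv, MulAut.conj_apply] at h1
  exact h1

theorem comm_central {G : Type*} [Group G] (a b z w : G) (hz : ∀ x, z * x = x * z)
    (hw : ∀ x, w * x = x * w) :
    z * a * (w * b) * (z * a)⁻¹ * (w * b)⁻¹ = a * b * a⁻¹ * b⁻¹ := by
  have h1 : z * a * (w * b) = a * b * (z * w) := by
    rw [hz a, hw b, mul_assoc a z, ← mul_assoc z b w, hz b]; simp only [mul_assoc]
  have h2 : a * b * a⁻¹ * b⁻¹ * (w * b) * (z * a) = a * b * (w * z) := by
    rw [hw b, hz a, mul_assoc, ← mul_assoc (b * w) a z, mul_assoc b w a, hw a]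
    group
  rw [mul_inv_eq_iff_eq_mul, mul_inv_eq_iff_eq_mul, h1, h2, hz w]

/-- twisting the handle generators by central elements preserves the relation -/
theorem RelG_twist {G : Type*} [Group G] (z : Fin g × Bool → G) (hz : ∀ k x, z k * x = x * z k)
    (T T' : RelGen g s → G) (h : RelG g s T) (hl : ∀ k, T' (Sum.inl k) = z k * T (Sum.inl k))
    (hrr : ∀ j, T' (Sum.inr j) = T (Sum.inr j)) : RelG g s T' := by
  unfold RelG at h ⊢
  simp only [hl, hrr, comm_central _ _ _ _ (hz _) (hz _)]
  exact h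

/-- scalar matrices as elements of `GL` -/
def scG (d : ℂˣ) : GL (Fin r) ℂ := Matrix.GeneralLinearGroup.scalar (Fin r) d

theorem scG_val (d : ℂˣ) : (scG d : GL (Fin r) ℂ).1 = Matrix.scalar (Fin r) (d : ℂ) := rfl

theorem scG_comm (d : ℂˣ) (X : GL (Fin r) ℂ) : scG d * X = X * scG d := by
  apply Units.ext
  rw [Units.val_mul, Units.val_mul, scG_val]
  exact Matrix.scalar_comm _ (Commute.all _) _

theorem exists_scale (hr : 1 ≤ r) (P : GL (Fin r) ℂ) :
    ∃ (d : ℂˣ) (Q : Matrix.SpecialLinearGroup (Fin r) ℂ),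
      Matrix.SpecialLinearGroup.toGL Q = scG d * P := by
  have hdet : (P.1 : Matrix (Fin r) (Fin r) ℂ).det ≠ 0 := by
    have := (Matrix.isUnit_iff_isUnit_det _).1 P.isUnit
    exact this.ne_zero
  obtain ⟨y, hy⟩ := IsAlgClosed.exists_pow_nat_eq ((P.1 : Matrix (Fin r) (Fin r) ℂ).det)⁻¹
    (show 0 < r by omega)
  have hy0 : y ≠ 0 := by
    intro h0
    rw [h0, zero_pow (by omega)] at hy
    exact inv_ne_zero hdet hy.symm
  refine ⟨Units.mk0 y hy0, ⟨y • P.1, ?_⟩, ?_⟩
  · rw [Matrix.det_smul, Fintype.card_fin, hy, inv_mul_cancel₀ hdet]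
  · apply Units.ext
    rw [Units.val_mul, scG_val]
    ext i j
    simp [Matrix.SpecialLinearGroup.toGL, Matrix.scalar_apply, Matrix.diagonal_mul]

/-- conjugation by `GL_r(ℂ)` is conjugation by `SL_r(ℂ)` -/
theorem exists_SL_conj (hr : 1 ≤ r) (P : GL (Fin r) ℂ) :
    ∃ Q : Matrix.SpecialLinearGroup (Fin r) ℂ, ∀ X : GL (Fin r) ℂ,
      P * X * P⁻¹ = Matrix.SpecialLinearGroup.toGL Q * X *
        (Matrix.SpecialLinearGroup.toGL Q)⁻¹ := by
  obtain ⟨d, Q, hQ⟩ := exists_scale hr P
  refine ⟨Q, fun X => ?_⟩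
  rw [hQ, scG_comm d P, mul_assoc P (scG d) X, scG_comm d X]
  group

theorem ent_twist_toGL (x : Fin g × Bool → ℂˣ) (T' : RelGen g s → GL (Fin r) ℂ)
    (T : RelGen g s → Matrix.SpecialLinearGroup (Fin r) ℂ)
    (hl : ∀ k, Matrix.SpecialLinearGroup.toGL (T (Sum.inl k)) = scG (x k) * T' (Sum.inl k))
    (hrr : ∀ j, Matrix.SpecialLinearGroup.toGL (T (Sum.inr j)) = T' (Sum.inr j)) :
    (fun v : RelVar g s r => (T v.1).1 v.2.1 v.2.2) =
      ent (twist (fun k => (x k : ℂ)) fun v => (T' v).1) := by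
  funext v
  obtain ⟨v, i, j⟩ := v
  cases v with
  | inl k =>
    have := congrArg (fun M : GL (Fin r) ℂ => M.1 i j) (hl k)
    simp only [Units.val_mul, scG_val, Matrix.scalar_apply, Matrix.diagonal_mul] at this
    simpa [ent, twist] using this
  | inr k =>
    have := congrArg (fun M : GL (Fin r) ℂ => M.1 i j) (hrr k)
    simpa [ent, twist] using this

theorem evalRep_eq (f : MvPolynomial (RelVar g s r) ℂ)
    (T : RelGen g s → Matrix.SpecialLinearGroup (Fin r) ℂ) :
    evalRep f T = eval (ent fun v => (T v).1) f := by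
  unfold evalRep
  rw [MvPolynomial.aeval_eq_eval]
  rfl

/-- integer polynomials evaluated at elements of a subring stay in the subring -/
theorem aeval_mem_subring (O : Subring ℂ) {σ : Type*} (x : σ → ℂ) (hx : ∀ v, x v ∈ O)
    (p : MvPolynomial σ ℤ) : MvPolynomial.aeval x p ∈ O := by
  induction p using MvPolynomial.induction_on with
  | C a =>
    rw [MvPolynomial.algHom_C]
    simp
  | add p q hp hq => rw [map_add]; exact O.add_mem hp hq
  | mul_X p v hp => rw [map_mul, MvPolynomial.aeval_X]; exact O.mul_mem hp (hx v)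

theorem integrallyValued_of_ent {L : Subfield ℂ}
    (T : RelGen g s → Matrix.SpecialLinearGroup (Fin r) ℂ)
    (h : ∀ v i j, (T v).1 i j ∈ OO L) : IsIntegrallyValuedIn L T := by
  intro p _
  have h1 := mem_OO.1 (aeval_mem_subring (OO L)
    (fun v : RelVar g s r => (T v.1).1 v.2.1 v.2.2) (fun v => h v.1 v.2.1 v.2.2) p)
  have h2 : evalRep p T =
    MvPolynomial.aeval (fun v : RelVar g s r => (T v.1).1 v.2.1 v.2.2) p := rfl
  rw [h2]
  exact h1

/-- the scalars needed in the determinant normalisation -/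
theorem scal_mem {F : Subfield ℂ} {x u : ℂ} (hr : 1 ≤ r) (hx : x ^ r * u = 1) (hu : u ∈ OO F)
    (hu' : u⁻¹ ∈ OO F) : x ∈ OO (unitRootField F r) := by
  have hu0 : u ≠ 0 := by rintro rfl; simp at hx
  have hxr : x ^ r = u⁻¹ := eq_inv_of_mul_eq_one_left hx
  rw [mem_OO]
  refine ⟨Subfield.subset_closure (Or.inr ⟨?_, ?_, ?_, ?_⟩), ?_⟩
  · rw [hxr]; exact (mem_OO.1 hu').1
  · rw [hxr]; exact inv_ne_zero hu0
  · rw [hxr]; exact (mem_OO.1 hu').2
  · rw [hxr, inv_inv]; exact (mem_OO.1 hu).2
  · refine IsIntegral.of_pow (n := r) (by omega) ?_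
    rw [hxr]; exact (mem_OO.1 hu').2

theorem det_mem (O : Subring ℂ) (M : Matrix (Fin r) (Fin r) ℂ) (h : ∀ i j, M i j ∈ O) :
    M.det ∈ O := by
  rw [Matrix.det_apply]
  refine O.sum_mem fun σ _ => ?_
  rw [Units.smul_def]
  exact O.zsmul_mem (O.prod_mem fun i _ => h _ _) _

/-- **Normalisation step.**  If polynomials vanishing on the integral `GL_r`-points vanish at a
conjugate of `T`, then the invariant polynomial `f` of the statement vanishes at `T`. -/
theorem finish (hr : 1 ≤ r) (c : Fin s → Matrix.SpecialLinearGroup (Fin r) ℂ) (L0 : Subfield ℂ)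
    (f : MvPolynomial (RelVar g s r) ℂ) (hf : IsConjInvariantRel f)
    (hvan : ∀ T : RelGen g s → Matrix.SpecialLinearGroup (Fin r) ℂ, IsRelSurfaceRep g s r T →
      IsSemisimpleRep T → HasBoundaryClasses c T →
      IsIntegrallyValuedIn (unitRootField L0 r) T → evalRep f T = 0)
    (T : RelGen g s → Matrix.SpecialLinearGroup (Fin r) ℂ) (P : GL (Fin r) ℂ)
    (hd : ∀ F : MvPolynomial (RelVar g s r) ℂ,
      (∀ T' : RelGen g s → GL (Fin r) ℂ, GLPt c (OO L0) T' → eval (ent fun v => (T' v).1) F = 0) →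
      eval (ent fun v => (P * Matrix.SpecialLinearGroup.toGL (T v) * P⁻¹).1) F = 0) :
    evalRep f T = 0 := by
  have key : ∀ T' : RelGen g s → GL (Fin r) ℂ, GLPt c (OO L0) T' → ∀ x : Fin g × Bool → ℂ,
      (∀ k, x k ^ r * ((T' (Sum.inl k)).1 : Matrix (Fin r) (Fin r) ℂ).det = 1) →
      eval (ent (twist x fun v => (T' v).1)) f = 0 := by
    intro T' hT' x hx
    have hx0 : ∀ k, x k ≠ 0 := by
      intro k h0
      have := hx k
      rw [h0, zero_pow (by omega), zero_mul] at this
      exact zero_ne_one this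
    have hcl : ∀ j, ∃ h : Matrix.SpecialLinearGroup (Fin r) ℂ,
        T' (Sum.inr j) = Matrix.SpecialLinearGroup.toGL (h * c j * h⁻¹) := by
      intro j
      obtain ⟨h, hh⟩ := hT'.cls j
      obtain ⟨Q, hQ⟩ := exists_SL_conj hr h
      exact ⟨Q, by rw [hh, hQ, map_mul, map_mul, map_inv]⟩
    choose h hh using hcl
    let T'' : RelGen g s → Matrix.SpecialLinearGroup (Fin r) ℂ
      | Sum.inl k => ⟨x k • (T' (Sum.inl k)).1, by
          rw [Matrix.det_smul, Fintype.card_fin]; exact hx k⟩
      | Sum.inr j => h j * c j * (h j)⁻¹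
    have hl : ∀ k, Matrix.SpecialLinearGroup.toGL (T'' (Sum.inl k)) =
        scG (Units.mk0 (x k) (hx0 k)) * T' (Sum.inl k) := by
      intro k
      apply Units.ext
      rw [Units.val_mul, scG_val]
      ext i j
      simp [T'', Matrix.SpecialLinearGroup.toGL, Matrix.scalar_apply, Matrix.diagonal_mul]
    have hrr : ∀ j, Matrix.SpecialLinearGroup.toGL (T'' (Sum.inr j)) = T' (Sum.inr j) :=
      fun j => (hh j).symm
    have hent := ent_twist_toGL _ T' T'' hl hrr
    have h1 : IsRelSurfaceRep g s r T'' := by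
      rw [isRelSurfaceRep_iff]
      exact RelG_twist _ (fun k X => scG_comm _ X) _ _ hT'.rel hl hrr
    have h2 : IsSemisimpleRep T'' := by
      have hinv : ∀ W : Submodule ℂ (Fin r → ℂ),
          (∀ i, ∀ v ∈ W, (T'' i).1.mulVec v ∈ W) ↔ (∀ i, ∀ v ∈ W, (T' i).1.mulVec v ∈ W) := by
        intro W
        have hl' : ∀ k, (T'' (Sum.inl k)).1 = x k • (T' (Sum.inl k)).1 := fun k => rfl
        have hr' : ∀ j, (T'' (Sum.inr j)).1 = (T' (Sum.inr j)).1 := fun j =>
          congrArg Units.val (hrr j)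
        constructor
        · rintro H (k | j) v hv
          · have := H (Sum.inl k) v hv
            rw [hl', Matrix.smul_mulVec] at this
            exact (W.smul_mem_iff (hx0 k)).1 this
          · have := H (Sum.inr j) v hv
            rwa [hr'] at this
        · rintro H (k | j) v hv
          · rw [hl', Matrix.smul_mulVec]
            exact W.smul_mem _ (H (Sum.inl k) v hv)
          · rw [hr']; exact H (Sum.inr j) v hv
      intro W hW
      obtain ⟨W', hW', hc⟩ := hT'.ss W ((hinv W).1 hW)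
      exact ⟨W', (hinv W').2 hW', hc⟩
    have h3 : HasBoundaryClasses c T'' := fun j => ⟨h j, rfl⟩
    have h4 : IsIntegrallyValuedIn (unitRootField L0 r) T'' := by
      apply integrallyValued_of_ent
      have hmono : OO L0 ≤ OO (unitRootField L0 r) := OO_mono (F_le_unitRootField _ _)
      rintro (k | j) a b
      · have hxk : x k ∈ OO (unitRootField L0 r) := by
          refine scal_mem hr (hx k) (det_mem _ _ fun i j => (hT'.int _ i j).1) ?_
          have : ((T' (Sum.inl k)).1 : Matrix (Fin r) (Fin r) ℂ).det⁻¹ =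
              ((T' (Sum.inl k))⁻¹.1 : Matrix (Fin r) (Fin r) ℂ).det := by
            rw [eq_comm]
            refine eq_inv_of_mul_eq_one_left ?_
            rw [← Matrix.det_mul, ← Units.val_mul, inv_mul_cancel, Units.val_one, Matrix.det_one]
          rw [this]
          exact det_mem _ _ fun i j => (hT'.int _ i j).2
        exact Subring.mul_mem _ hxk (hmono (hT'.int _ a b).1)
      · have : (T'' (Sum.inr j)).1 a b = (T' (Sum.inr j)).1 a b :=
          congrArg (fun M : GL (Fin r) ℂ => M.1 a b) (hrr j)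
        rw [this]
        exact hmono (hT'.int _ a b).1
    have h5 := hvan T'' h1 h2 h3 h4
    rw [evalRep_eq] at h5
    have h6 : (ent (twist x fun v => (T' v).1) : RelVar g s r → ℂ) = ent fun v => (T'' v).1 :=
      hent.symm
    rw [h6]
    exact h5
  have key2 : ∀ α, eval (ent fun v => (P * Matrix.SpecialLinearGroup.toGL (T v) * P⁻¹).1)
      (coeff α (Phat f)) = 0 := by
    intro α
    refine hd _ fun T' hT' => ?_
    refine coeff_Phat_eq_zero hr f _ (fun k => ?_) (key T' hT') α
    exact ((Matrix.isUnit_iff_isUnit_det _).1 (T' (Sum.inl k)).isUnit).ne_zero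
  have key3 : map (eval (ent fun v => (P * Matrix.SpecialLinearGroup.toGL (T v) * P⁻¹).1))
      (Phat f) = 0 := by
    ext α
    rw [coeff_map, key2, coeff_zero]
  have hdet : ∀ k, ((P * Matrix.SpecialLinearGroup.toGL (T k) * P⁻¹).1 :
      Matrix (Fin r) (Fin r) ℂ).det = 1 := by
    intro k
    rw [Units.val_mul, Units.val_mul, Matrix.det_mul, Matrix.det_mul, mul_right_comm,
      ← Matrix.det_mul, ← Units.val_mul, mul_inv_cancel, Units.val_one, Matrix.det_one, one_mul]
    exact (T k).2
  have key4 := eval_Phat f (fun v => (P * Matrix.SpecialLinearGroup.toGL (T v) * P⁻¹).1)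
    (fun _ => 1) (fun k => by rw [hdet]; simp)
  rw [key3, map_zero] at key4
  simp only [hdet, one_pow, Finset.prod_const_one, one_mul] at key4
  have htw : twist (fun _ => (1 : ℂ)) (fun v => (P * Matrix.SpecialLinearGroup.toGL (T v) * P⁻¹).1) =
      fun v => (P * Matrix.SpecialLinearGroup.toGL (T v) * P⁻¹).1 := by
    funext v
    cases v with
    | inl k => simp [twist]
    | inr j => rfl
  rw [htw] at key4
  obtain ⟨Q, hQ⟩ := exists_SL_conj hr P
  have h7 : (fun v => (Q * T v * Q⁻¹).1 : RelGen g s → Matrix (Fin r) (Fin r) ℂ) =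
      fun v => (P * Matrix.SpecialLinearGroup.toGL (T v) * P⁻¹).1 := by
    funext v
    rw [hQ, ← map_inv, ← map_mul, ← map_mul]
    rfl
  rw [← hf Q T, evalRep_eq, h7]
  exact key4.symm

end Crest.Agent.R003.Nrm
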