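import Crest.Agent.R003.WireB638
import Crest.Agent.R003.NF452
import Crest.Agent.R003.Fin452

/-!
# The final assembly (row 3, helper638): S0003 from the elimination theorem, the closed surface
statements and the system of Part 4.
-/

set_option autoImplicit false

open Crest.NumberTheoryR.CharVarRel MvPolynomial

noncomputable section

namespace Crest.Agent.R003.Wire

open Nrm Semi Matrix

variable {g s r : ℕ}

theorem good_OO (K : Subfield ℂ) (n : ℕ) : Good (OO (rootField K n)) :=
  ⟨u0, u0_mem K n, u0_inv_mem K n, fun _ hm => u0_pow_ne_one hm⟩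

/-- **S0003** from `BlockAppr`. -/
theorem result_of_blockAppr (hr : 1 ≤ r)
    (c : Fin s → Matrix.SpecialLinearGroup (Fin r) ℂ) (hc : ∀ j, IsQuasiUnipotent (c j))
    (K : Subfield ℂ)
    (hcK : ∀ j, ∀ μ : ℂ, (c j).1.charpoly.IsRoot μ → μ ∈ K) (n : ℕ)
    (hBA : BlockAppr (OO (rootField K n)) g s r)
    (f : MvPolynomial (RelVar g s r) ℂ) (hf : IsConjInvariantRel f)
    (hvan : ∀ T : RelGen g s → Matrix.SpecialLinearGroup (Fin r) ℂ, IsRelSurfaceRep g s r T →
      IsSemisimpleRep T → HasBoundaryClasses c T →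
      IsIntegrallyValuedIn (unitRootField (rootField K n) r) T → evalRep f T = 0)
    (T : RelGen g s → Matrix.SpecialLinearGroup (Fin r) ℂ) (hT : IsRelSurfaceRep g s r T)
    (hss : IsSemisimpleRep T) (hcl : HasBoundaryClasses c T) :
    evalRep f T = 0 := by
  obtain ⟨P, hP⟩ := hd_of_blockAppr (OO (rootField K n)) hBA c (fun j μ hμ => by
    obtain ⟨m, hm, h1⟩ := hc j μ hμ
    exact ⟨(rootOfUnity_mem (K_le_rootField K n (hcK j μ hμ)) hm h1).1, m, hm, h1⟩)
    T ((isRelSurfaceRep_iff T).1 hT) hss hcl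
  exact finish hr c (rootField K n) f hf hvan T P hP

/-- **S0003** from the three remaining inputs. -/
theorem result_of_three (hr : 1 ≤ r)
    (c : Fin s → Matrix.SpecialLinearGroup (Fin r) ℂ) (hc : ∀ j, IsQuasiUnipotent (c j))
    (K : Subfield ℂ)
    (hcK : ∀ j, ∀ μ : ℂ, (c j).1.charpoly.IsRoot μ → μ ∈ K) (n : ℕ)
    (hE : ElimStatement (OO (rootField K n)) r (r + 1))
    (hC : ∀ k, k ≤ r → Closed (OO (rootField K n)) k)
    (hS4 : ∀ O : Subring ℂ, ElimStatement O r (r + 1) → Good O → (∀ k < r + 1, Closed O k) →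
      Sys4Stmt O g s r)
    (f : MvPolynomial (RelVar g s r) ℂ) (hf : IsConjInvariantRel f)
    (hvan : ∀ T : RelGen g s → Matrix.SpecialLinearGroup (Fin r) ℂ, IsRelSurfaceRep g s r T →
      IsSemisimpleRep T → HasBoundaryClasses c T →
      IsIntegrallyValuedIn (unitRootField (rootField K n) r) T → evalRep f T = 0)
    (T : RelGen g s → Matrix.SpecialLinearGroup (Fin r) ℂ) (hT : IsRelSurfaceRep g s r T)
    (hss : IsSemisimpleRep T) (hcl : HasBoundaryClasses c T) :
    evalRep f T = 0 :=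
  result_of_blockAppr hr c hc K hcK n
    (blockAppr_of_sys4 (hS4 _ hE (good_OO K n) fun k hk => hC k (by omega))) f hf hvan T hT hss hcl

end Crest.Agent.R003.Wire
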