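import Mathlib

/-!
# Row 3, part 4: flags adapted to a matrix and the rank inequality (helper382)
-/

set_option autoImplicit false
set_option linter.unusedSectionVars false

namespace Crest.Agent.R003.Flag

open Matrix Module

/-! ### rank lemmas for endomorphisms -/

section endo

variable {V : Type*} [AddCommGroup V] [Module ℂ V]

/-- the eigenspace -/
def K (f : End ℂ V) (μ : ℂ) : Submodule ℂ V := LinearMap.ker (f - algebraMap ℂ (End ℂ V) μ)

theorem mem_K {f : End ℂ V} {μ : ℂ} {v : V} : v ∈ K f μ ↔ f v = μ • v := by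
  simp only [K, LinearMap.mem_ker, LinearMap.sub_apply, Module.algebraMap_end_apply, sub_eq_zero]

theorem K_le (f : End ℂ V) (μ : ℂ) : K f μ ≤ (K f μ).comap f := by
  intro v hv
  rw [Submodule.mem_comap, mem_K]
  rw [mem_K] at hv
  rw [hv, map_smul, hv]

/-- the induced endomorphism of `V / K` -/
noncomputable def quo (f : End ℂ V) (μ : ℂ) : End ℂ (V ⧸ K f μ) :=
  (K f μ).mapQ (K f μ) f (K_le f μ)

theorem quo_mk (f : End ℂ V) (μ : ℂ) (v : V) :
    quo f μ ((K f μ).mkQ v) = (K f μ).mkQ (f v) := rfl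

theorem quo_pow (f : End ℂ V) (μ ν : ℂ) (j : ℕ) (v : V) :
    ((quo f μ - algebraMap ℂ _ ν) ^ j) ((K f μ).mkQ v) =
      (K f μ).mkQ (((f - algebraMap ℂ _ ν) ^ j) v) := by
  induction j with
  | zero => simp
  | succ j ih =>
    rw [pow_succ', pow_succ', Module.End.mul_apply, Module.End.mul_apply, ih]
    simp only [LinearMap.sub_apply, Module.algebraMap_end_apply, quo_mk, map_sub, map_smul]

theorem range_quo_pow (f : End ℂ V) (μ ν : ℂ) (j : ℕ) :
    LinearMap.range ((quo f μ - algebraMap ℂ _ ν) ^ j) =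
      (LinearMap.range ((f - algebraMap ℂ _ ν) ^ j)).map (K f μ).mkQ := by
  ext x
  constructor
  · rintro ⟨y, rfl⟩
    obtain ⟨v, rfl⟩ := (K f μ).mkQ_surjective y
    exact ⟨_, ⟨v, rfl⟩, (quo_pow f μ ν j v).symm⟩
  · rintro ⟨_, ⟨v, rfl⟩, rfl⟩
    exact ⟨(K f μ).mkQ v, quo_pow f μ ν j v⟩

variable [FiniteDimensional ℂ V]

theorem finrank_map_mkQ (K R : Submodule ℂ V) (h : K ≤ R) :
    finrank ℂ (R.map K.mkQ) + finrank ℂ K = finrank ℂ R := by
  have h1 := LinearMap.finrank_range_add_finrank_ker (K.mkQ.domRestrict R)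
  rw [LinearMap.range_domRestrict] at h1
  have h2 : LinearMap.ker (K.mkQ.domRestrict R) = K.comap R.subtype := by
    ext x
    simp
  rw [h2, LinearEquiv.finrank_eq (Submodule.comapSubtypeEquivOfLe h)] at h1
  exact h1

theorem finrank_map_mkQ_ker {W : Type*} [AddCommGroup W] [Module ℂ W] (φ : V →ₗ[ℂ] W)
    (R : Submodule ℂ V) :
    finrank ℂ (R.map (LinearMap.ker φ).mkQ) = finrank ℂ (R.map φ) := by
  have hinj : Function.Injective ((LinearMap.ker φ).liftQ φ le_rfl) := by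
    rw [← LinearMap.ker_eq_bot, Submodule.ker_liftQ_eq_bot _ _ _ le_rfl]
  have h1 : R.map φ = (R.map (LinearMap.ker φ).mkQ).map ((LinearMap.ker φ).liftQ φ le_rfl) := by
    rw [← Submodule.map_comp, Submodule.liftQ_mkQ]
  rw [h1]
  exact (LinearEquiv.finrank_eq (Submodule.equivMapOfInjective _ hinj _))

/-- `ν ≠ μ` -/
theorem R1 (f : End ℂ V) {μ ν : ℂ} (h : ν ≠ μ) (j : ℕ) :
    finrank ℂ (LinearMap.range ((quo f μ - algebraMap ℂ _ ν) ^ j)) + finrank ℂ (K f μ) ≤
      finrank ℂ (LinearMap.range ((f - algebraMap ℂ _ ν) ^ j)) := by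
  rw [range_quo_pow]
  refine (finrank_map_mkQ _ _ ?_).le
  intro x hx
  have h1 : ∀ j : ℕ, ((f - algebraMap ℂ (End ℂ V) ν) ^ j) x = (μ - ν) ^ j • x := by
    intro j
    induction j with
    | zero => simp
    | succ j ih =>
      rw [pow_succ', Module.End.mul_apply, ih, map_smul, LinearMap.sub_apply,
        Module.algebraMap_end_apply, mem_K.1 hx, ← sub_smul, smul_smul, pow_succ]
  refine ⟨((μ - ν) ^ j)⁻¹ • x, ?_⟩
  rw [map_smul, h1, smul_smul, inv_mul_cancel₀, one_smul]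
  exact pow_ne_zero _ (sub_ne_zero.2 h.symm)

/-- `ν = μ` -/
theorem R2 (f : End ℂ V) (μ : ℂ) (j : ℕ) :
    finrank ℂ (LinearMap.range ((quo f μ - algebraMap ℂ _ μ) ^ j)) ≤
      finrank ℂ (LinearMap.range ((f - algebraMap ℂ _ μ) ^ (j + 1))) := by
  rw [range_quo_pow]
  have h1 := finrank_map_mkQ_ker (f - algebraMap ℂ (End ℂ V) μ)
    (LinearMap.range ((f - algebraMap ℂ (End ℂ V) μ) ^ j))
  have h2 : (LinearMap.range ((f - algebraMap ℂ (End ℂ V) μ) ^ j)).map
      (f - algebraMap ℂ (End ℂ V) μ) =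
      LinearMap.range ((f - algebraMap ℂ (End ℂ V) μ) ^ (j + 1)) := by
    rw [pow_succ', Module.End.mul_eq_comp, LinearMap.range_comp]
  rw [h2] at h1
  exact h1.le

end endo

/-! ### rank lemmas for block matrices -/

section blk

variable {m n : Type*} [Fintype m] [DecidableEq m] [Fintype n] [DecidableEq n]

theorem rank_add_le' (A B : Matrix m n ℂ) : (A + B).rank ≤ A.rank + B.rank := by
  have h1 : LinearMap.range (A + B).mulVecLin ≤
      LinearMap.range A.mulVecLin ⊔ LinearMap.range B.mulVecLin := by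
    rintro _ ⟨x, rfl⟩
    rw [Matrix.mulVecLin_add, LinearMap.add_apply]
    exact Submodule.add_mem_sup ⟨x, rfl⟩ ⟨x, rfl⟩
  exact (Submodule.finrank_mono h1).trans (Submodule.finrank_add_le_finrank_add_finrank _ _)

theorem rank_fromBlocks_le (A : Matrix m m ℂ) (C : Matrix m n ℂ) (Z : Matrix n n ℂ) :
    (fromBlocks A C (0 : Matrix n m ℂ) Z).rank ≤ Fintype.card m + Z.rank := by
  have h1 : fromBlocks A C (0 : Matrix n m ℂ) Z =
      fromRows (1 : Matrix m m ℂ) (0 : Matrix n m ℂ) * fromCols A C +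
      fromRows (0 : Matrix m n ℂ) (1 : Matrix n n ℂ) *
        (Z * fromCols (0 : Matrix n m ℂ) (1 : Matrix n n ℂ)) := by
    simp only [fromRows_mul, Matrix.mul_fromCols, Matrix.mul_zero, Matrix.mul_one,
      Matrix.one_mul, Matrix.zero_mul]
    ext i j
    rcases i with i | i <;> rcases j with j | j <;> simp
  rw [h1]
  refine (rank_add_le' _ _).trans (add_le_add ?_ ?_)
  · refine (rank_mul_le_left _ _).trans (rank_le_card_width _)
  · exact (rank_mul_le_right _ _).trans (rank_mul_le_left _ _)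

theorem fromBlocks_pow (A : Matrix m m ℂ) (C : Matrix m n ℂ) (Z : Matrix n n ℂ) (j : ℕ) :
    ∃ (A' : Matrix m m ℂ) (C' : Matrix m n ℂ),
      (fromBlocks A C (0 : Matrix n m ℂ) Z) ^ j = fromBlocks A' C' (0 : Matrix n m ℂ) (Z ^ j) := by
  induction j with
  | zero => exact ⟨1, 0, by simp⟩
  | succ j ih =>
    obtain ⟨A', C', h⟩ := ih
    refine ⟨A' * A, A' * C + C' * Z, ?_⟩
    rw [pow_succ, h, fromBlocks_multiply, pow_succ]
    simp

theorem fromBlocks_zero_pow (C : Matrix m n ℂ) (Z : Matrix n n ℂ) (j : ℕ) :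
    (fromBlocks (0 : Matrix m m ℂ) C (0 : Matrix n m ℂ) Z) ^ (j + 1) =
      fromBlocks (0 : Matrix m m ℂ) (C * Z ^ j) (0 : Matrix n m ℂ) (Z ^ (j + 1)) := by
  induction j with
  | zero => simp
  | succ j ih =>
    rw [pow_succ, ih, fromBlocks_multiply]
    simp [Matrix.mul_assoc, ← pow_succ]

theorem rank_pow_zero_le (C : Matrix m n ℂ) (Z : Matrix n n ℂ) (j : ℕ) :
    ((fromBlocks (0 : Matrix m m ℂ) C (0 : Matrix n m ℂ) Z) ^ (j + 1)).rank ≤ (Z ^ j).rank := by
  have h1 : (fromBlocks (0 : Matrix m m ℂ) C (0 : Matrix n m ℂ) Z) ^ (j + 1) =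
      fromRows C Z * (Z ^ j * fromCols (0 : Matrix n m ℂ) (1 : Matrix n n ℂ)) := by
    rw [fromBlocks_zero_pow, Matrix.mul_fromCols, Matrix.mul_zero, Matrix.mul_one, fromRows_mul,
      Matrix.mul_fromCols, Matrix.mul_fromCols, Matrix.mul_zero, Matrix.mul_zero]
    ext i j
    rcases i with i | i <;> rcases j with j | j <;> simp [pow_succ']
  rw [h1]
  exact (rank_mul_le_right _ _).trans (rank_mul_le_left _ _)

theorem sub_fromBlocks (μ ν : ℂ) (C : Matrix m n ℂ) (Z : Matrix n n ℂ) :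
    fromBlocks (μ • (1 : Matrix m m ℂ)) C (0 : Matrix n m ℂ) Z - algebraMap ℂ _ ν =
      fromBlocks ((μ - ν) • (1 : Matrix m m ℂ)) C (0 : Matrix n m ℂ) (Z - algebraMap ℂ _ ν) := by
  rw [Algebra.algebraMap_eq_smul_one, Algebra.algebraMap_eq_smul_one, sub_smul]
  ext i j
  rcases i with i | i <;> rcases j with j | j <;> simp [Matrix.one_apply]

theorem rank_pow_submatrix (M : Matrix m m ℂ) (e : n ≃ m) (ν : ℂ) (j : ℕ) :
    ((M.submatrix e e - algebraMap ℂ _ ν) ^ j).rank = ((M - algebraMap ℂ _ ν) ^ j).rank := by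
  have h2 : M.submatrix e e - algebraMap ℂ _ ν = (M - algebraMap ℂ _ ν).submatrix e e := by
    rw [Algebra.algebraMap_eq_smul_one, Algebra.algebraMap_eq_smul_one]
    ext i j
    simp [Matrix.one_apply]
  have h1 : (M.submatrix e e - algebraMap ℂ _ ν) ^ j =
      ((M - algebraMap ℂ _ ν) ^ j).submatrix e e := by
    rw [h2]
    induction j with
    | zero =>
      ext i j
      simp [Matrix.one_apply]
    | succ j ih =>
      rw [pow_succ, pow_succ, ih, Matrix.submatrix_mul_equiv]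
  rw [h1, rank_submatrix]

end blk

/-! ### flags -/

/-- total size of a flag type -/
def size : List (ℂˣ × ℕ) → ℕ
  | [] => 0
  | x :: l => x.2 + size l

/-- `Y` is block upper triangular with scalar diagonal blocks `μ_i · 1` of size `m_i`. -/
def IsFlagMat : (l : List (ℂˣ × ℕ)) → Matrix (Fin (size l)) (Fin (size l)) ℂ → Prop
  | [], _ => True
  | x :: l, Y => ∃ (B : Matrix (Fin x.2) (Fin (size l)) ℂ)
      (Y' : Matrix (Fin (size l)) (Fin (size l)) ℂ),
      Y = (fromBlocks ((x.1 : ℂ) • (1 : Matrix (Fin x.2) (Fin x.2) ℂ)) B 0 Y').submatrix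
        finSumFinEquiv.symm finSumFinEquiv.symm ∧ IsFlagMat l Y'

/-- `f` dominates the flag type `l`: all rank of `(Y-ν)^j`, `Y` of flag type `l`, are at most
those of `f`. -/
def Dom {V : Type*} [AddCommGroup V] [Module ℂ V] (l : List (ℂˣ × ℕ)) (f : End ℂ V) : Prop :=
  ∀ Y, IsFlagMat l Y → ∀ (ν : ℂ) (j : ℕ), ((Y - algebraMap ℂ _ ν) ^ j).rank ≤
    finrank ℂ (LinearMap.range ((f - algebraMap ℂ _ ν) ^ j))

theorem Dom_cons {V : Type*} [AddCommGroup V] [Module ℂ V] [FiniteDimensional ℂ V]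
    (l : List (ℂˣ × ℕ)) (f : End ℂ V) (μ : ℂˣ) (h : Dom l (quo f μ))
    (hl : size l + finrank ℂ (K f μ) = finrank ℂ V) :
    Dom ((μ, finrank ℂ (K f μ)) :: l) f := by
  rintro Y ⟨B, Y', rfl, hY'⟩ ν j
  refine (le_of_eq (rank_pow_submatrix _ finSumFinEquiv.symm ν j)).trans ?_
  rw [sub_fromBlocks]
  by_cases hν : ν = μ
  · subst hν
    rcases j with _ | j
    · rw [pow_zero, pow_zero, rank_one, Module.End.one_eq_id, LinearMap.range_id, finrank_top]
      simp only [Fintype.card_sum, Fintype.card_fin]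
      omega
    · rw [sub_self, zero_smul]
      exact (rank_pow_zero_le _ _ _).trans ((h Y' hY' μ j).trans (R2 f μ j))
  · obtain ⟨A', C', hAC⟩ := fromBlocks_pow (((μ : ℂ) - ν) • (1 : Matrix (Fin (finrank ℂ (K f μ))) (Fin (finrank ℂ (K f μ))) ℂ)) B
      (Y' - algebraMap ℂ _ ν) j
    rw [hAC]
    refine (rank_fromBlocks_le _ _ _).trans ?_
    rw [Fintype.card_fin, add_comm]
    exact (Nat.add_le_add_right (h Y' hY' ν j) _).trans (R1 f hν j)

theorem quo_surjective {V : Type*} [AddCommGroup V] [Module ℂ V] {f : End ℂ V} (μ : ℂ)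
    (hf : Function.Surjective f) : Function.Surjective (quo f μ) := by
  intro y
  obtain ⟨v, rfl⟩ := (K f μ).mkQ_surjective y
  obtain ⟨w, rfl⟩ := hf v
  exact ⟨(K f μ).mkQ w, rfl⟩

theorem quo_eigenvalue {V : Type*} [AddCommGroup V] [Module ℂ V] [FiniteDimensional ℂ V]
    {f : End ℂ V} {μ ν : ℂ} (h : (quo f μ).HasEigenvalue ν) : f.HasEigenvalue ν := by
  by_contra hcon
  -- `f - ν` is injective, hence surjective, hence `quo f μ - ν` is surjective, hence injective
  have h1 : LinearMap.ker (f - algebraMap ℂ (End ℂ V) ν) = ⊥ := by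
    rw [Module.End.hasEigenvalue_iff, Module.End.eigenspace_def, not_not] at hcon
    exact hcon
  have h2 : Function.Surjective (f - algebraMap ℂ (End ℂ V) ν) :=
    LinearMap.injective_iff_surjective.1 (LinearMap.ker_eq_bot.1 h1)
  have h3 : Function.Surjective (quo f μ - algebraMap ℂ (End ℂ (V ⧸ K f μ)) ν) := by
    intro y
    obtain ⟨v, rfl⟩ := (K f μ).mkQ_surjective y
    obtain ⟨w, rfl⟩ := h2 v
    refine ⟨(K f μ).mkQ w, ?_⟩
    simpa using quo_pow f μ ν 1 w
  have h4 := LinearMap.ker_eq_bot.2 (LinearMap.injective_iff_surjective.2 h3)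
  rw [Module.End.hasEigenvalue_iff, Module.End.eigenspace_def] at h
  exact h h4

/-- **Existence of adapted flags.** -/
theorem exists_flag : ∀ (k : ℕ) (V : Type) [AddCommGroup V] [Module ℂ V] [FiniteDimensional ℂ V]
    (_ : finrank ℂ V = k) (f : End ℂ V) (_ : Function.Surjective f),
    ∃ (l : List (ℂˣ × ℕ)) (Y : Matrix (Fin (size l)) (Fin (size l)) ℂ)
      (ψ : V ≃ₗ[ℂ] (Fin (size l) → ℂ)), (∀ x ∈ l, 0 < x.2) ∧
      (∀ x ∈ l, f.HasEigenvalue (x.1 : ℂ)) ∧ IsFlagMat l Y ∧ (∀ v, ψ (f v) = Y *ᵥ ψ v) ∧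
      Dom l f := by
  intro k
  induction k using Nat.strong_induction_on with
  | _ k ih =>
  intro V _ _ _ hk f hf
  rcases Nat.eq_zero_or_pos k with rfl | hpos
  · have hV : Subsingleton V := finrank_zero_iff.1 hk
    let ψ : V ≃ₗ[ℂ] (Fin (size []) → ℂ) :=
      { toFun := fun _ => 0
        map_add' := fun _ _ => by simp
        map_smul' := fun _ _ => by simp
        invFun := fun _ => 0
        left_inv := fun _ => Subsingleton.elim _ _
        right_inv := fun _ => by funext i; exact i.elim0 }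
    refine ⟨[], 0, ψ, by simp, by simp, trivial, fun v => ?_, ?_⟩
    · funext i; exact i.elim0
    · intro Y _ ν j
      refine (rank_le_card_width _).trans ?_
      exact (Fintype.card_fin 0).le.trans (Nat.zero_le _)
  · have hfp : 0 < finrank ℂ V := by omega
    have : Nontrivial V := finrank_pos_iff.1 hfp
    obtain ⟨μ0, hμ0⟩ := Module.End.exists_eigenvalue f
    have hinj : Function.Injective f := LinearMap.injective_iff_surjective.2 hf
    have hμ0' : μ0 ≠ 0 := by
      rintro rfl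
      obtain ⟨v, hv, hv0⟩ := hμ0.exists_hasEigenvector
      rw [Module.End.mem_eigenspace_iff, zero_smul] at hv
      exact hv0 (hinj (by rw [hv, map_zero]))
    obtain ⟨μ, rfl⟩ : ∃ μ : ℂˣ, (μ : ℂ) = μ0 := ⟨Units.mk0 μ0 hμ0', rfl⟩
    have hKpos : 0 < finrank ℂ (K f μ) := by
      rw [finrank_pos_iff, Submodule.nontrivial_iff_ne_bot]
      rw [Module.End.hasEigenvalue_iff, Module.End.eigenspace_def] at hμ0
      exact hμ0
    have hq := Submodule.finrank_quotient_add_finrank (K f (μ : ℂ))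
    obtain ⟨l, Y', ψ', hl1, hl2, hY', hψ', hdom⟩ := ih (finrank ℂ (V ⧸ K f (μ : ℂ))) (by omega)
      (V ⧸ K f (μ : ℂ)) rfl (quo f μ) (quo_surjective _ hf)
    have hsize : size l = finrank ℂ (V ⧸ K f (μ : ℂ)) := by
      have := LinearEquiv.finrank_eq ψ'
      simpa using this.symm
    -- a projection to `K`
    obtain ⟨π, hπ⟩ := LinearMap.exists_leftInverse_of_injective (K f (μ : ℂ)).subtype
      (Submodule.ker_subtype _)
    have hπ' : ∀ v : K f (μ : ℂ), π v = v := fun v => LinearMap.congr_fun hπ v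
    let φ : K f (μ : ℂ) ≃ₗ[ℂ] (Fin (finrank ℂ (K f (μ : ℂ))) → ℂ) :=
      (Module.finBasis ℂ (K f (μ : ℂ))).equivFun
    let θ0 : V →ₗ[ℂ] (K f (μ : ℂ)) × (V ⧸ K f (μ : ℂ)) := π.prod (K f (μ : ℂ)).mkQ
    have hθ0 : Function.Injective θ0 := by
      rw [← LinearMap.ker_eq_bot, LinearMap.ker_eq_bot']
      intro v hv
      have h1 : π v = 0 := congrArg Prod.fst hv
      have h2 : (K f (μ : ℂ)).mkQ v = 0 := congrArg Prod.snd hv
      rw [Submodule.mkQ_apply, Submodule.Quotient.mk_eq_zero] at h2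
      have h3 := hπ' ⟨v, h2⟩
      rw [h1] at h3
      exact (congrArg Subtype.val h3).symm
    have hθ1 : Function.Surjective θ0 := by
      rintro ⟨a, b⟩
      obtain ⟨v, rfl⟩ := (K f (μ : ℂ)).mkQ_surjective b
      refine ⟨v + ((a - π v : K f (μ : ℂ)) : V), ?_⟩
      apply Prod.ext
      · change π (v + ((a - π v : K f (μ : ℂ)) : V)) = a
        rw [map_add, hπ']
        abel
      · change (K f (μ : ℂ)).mkQ (v + ((a - π v : K f (μ : ℂ)) : V)) = (K f (μ : ℂ)).mkQ v
        rw [map_add]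
        have : (K f (μ : ℂ)).mkQ ((a - π v : K f (μ : ℂ)) : V) = 0 := by
          rw [Submodule.mkQ_apply, Submodule.Quotient.mk_eq_zero]
          exact (a - π v).2
        rw [this, add_zero]
    let θ : V ≃ₗ[ℂ] (K f (μ : ℂ)) × (V ⧸ K f (μ : ℂ)) := LinearEquiv.ofBijective θ0 ⟨hθ0, hθ1⟩
    have hθ : ∀ v, θ v = (π v, (K f (μ : ℂ)).mkQ v) := fun v => rfl
    let χ : V ≃ₗ[ℂ] (Fin (finrank ℂ (K f (μ : ℂ))) ⊕ Fin (size l) → ℂ) :=
      (θ.trans (LinearEquiv.prodCongr φ ψ')).trans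
        (LinearEquiv.sumArrowLequivProdArrow _ _ ℂ ℂ).symm
    have hχl : ∀ v i, χ v (Sum.inl i) = φ (π v) i := fun v i => rfl
    have hχr : ∀ v i, χ v (Sum.inr i) = ψ' ((K f (μ : ℂ)).mkQ v) i := fun v i => rfl
    let ψ : V ≃ₗ[ℂ] (Fin (finrank ℂ (K f (μ : ℂ)) + size l) → ℂ) :=
      χ.trans (LinearEquiv.funCongrLeft ℂ ℂ finSumFinEquiv.symm)
    have hψ : ∀ v i, ψ v i = χ v (finSumFinEquiv.symm i) := fun v i => rfl
    -- the off-diagonal block
    let Bl : (Fin (size l) → ℂ) →ₗ[ℂ] (Fin (finrank ℂ (K f (μ : ℂ))) → ℂ) :=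
      φ.toLinearMap ∘ₗ π ∘ₗ f ∘ₗ θ.symm.toLinearMap ∘ₗ
        (LinearMap.inr ℂ (K f (μ : ℂ)) (V ⧸ K f (μ : ℂ))) ∘ₗ ψ'.symm.toLinearMap
    let B := LinearMap.toMatrix' Bl
    have hB : ∀ v, B *ᵥ (ψ' ((K f (μ : ℂ)).mkQ v)) =
        φ (π (f (θ.symm (0, (K f (μ : ℂ)).mkQ v)))) := by
      intro v
      have h1 : B *ᵥ (ψ' ((K f (μ : ℂ)).mkQ v)) = Bl (ψ' ((K f (μ : ℂ)).mkQ v)) := by
        rw [← Matrix.toLin'_apply, Matrix.toLin'_toMatrix']
      rw [h1]
      simp only [Bl, LinearMap.comp_apply, LinearEquiv.coe_coe, LinearEquiv.symm_apply_apply]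
      rfl
    have hfinal : ∀ v, ψ (f v) = ((fromBlocks ((μ : ℂ) • (1 : Matrix _ _ ℂ)) B 0 Y').submatrix
        finSumFinEquiv.symm finSumFinEquiv.symm) *ᵥ ψ v := by
      intro v
      have hkey : χ (f v) = (fromBlocks ((μ : ℂ) • (1 : Matrix _ _ ℂ)) B 0 Y') *ᵥ χ v := by
        have hsplit : χ v = Sum.elim (φ (π v)) (ψ' ((K f (μ : ℂ)).mkQ v)) := by
          funext i
          rcases i with i | i
          · exact hχl v i
          · exact hχr v i
        rw [hsplit, fromBlocks_mulVec]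
        funext i
        rcases i with i | i
        · rw [hχl]
          simp only [Sum.elim_inl, Sum.elim_comp_inl, Sum.elim_comp_inr]
          rw [hB]
          have h1 : v = (π v : V) + θ.symm (0, (K f (μ : ℂ)).mkQ v) := by
            apply θ.injective
            rw [map_add, LinearEquiv.apply_symm_apply, hθ, hθ, hπ']
            apply Prod.ext
            · simp
            · have : (K f (μ : ℂ)).mkQ (π v : V) = 0 := by
                rw [Submodule.mkQ_apply, Submodule.Quotient.mk_eq_zero]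
                exact (π v).2
              simp [this]
          have h2 : f v = (μ : ℂ) • (π v : V) + f (θ.symm (0, (K f (μ : ℂ)).mkQ v)) := by
            conv_lhs => rw [h1]
            rw [map_add, mem_K.1 (π v).2]
          rw [h2, map_add, map_smul, map_add, map_smul, hπ', smul_mulVec, one_mulVec]
        · rw [hχr]
          simp only [Sum.elim_inr, Sum.elim_comp_inl, Sum.elim_comp_inr, Matrix.zero_mulVec,
            zero_add]
          rw [← quo_mk, hψ']
      funext i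
      rw [hψ, hkey]
      simp only [mulVec, dotProduct, Matrix.submatrix_apply]
      rw [← Equiv.sum_comp finSumFinEquiv.symm]
      rfl
    refine ⟨(μ, finrank ℂ (K f (μ : ℂ))) :: l,
      (fromBlocks ((μ : ℂ) • (1 : Matrix _ _ ℂ)) B 0 Y').submatrix
        finSumFinEquiv.symm finSumFinEquiv.symm, ψ, ?_, ?_, ⟨B, Y', rfl, hY'⟩, ?_, ?_⟩
    · intro x hx
      rcases List.mem_cons.1 hx with rfl | hx
      · exact hKpos
      · exact hl1 x hx
    · intro x hx
      rcases List.mem_cons.1 hx with rfl | hx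
      · exact hμ0
      · exact quo_eigenvalue (hl2 x hx)
    · exact hfinal
    · exact Dom_cons l f μ hdom (by omega)

end Crest.Agent.R003.Flag
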