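import Crest.Agent.R003.Defs

/-!
# Row 3, block INDUCTION GLUE (helper478): base cases of the closed surface statement.
`Closed O 0`, `Closed O 1`, and the case `h = 0` in every rank.
-/

set_option autoImplicit false

namespace Crest.Agent.R003

namespace Gl

open Matrix

/-- If `ρ` itself is a point of `S` which is integral at the relevant names, it is approximable. -/
theorem appr_of_integral {ι : Type} {n : ℕ} {O : Subring ℂ} {S : Set (ι → G n)} {Q : Set ι}
    {ρ : ι → G n} (h : ρ ∈ S) (hQ : ∀ x ∈ Q, ρ x ∈ GO O n) : Appr O S Q ρ :=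
  fun _ _ hv => hv ρ h hQ

/-- the equation of the closed surface -/
def Z (k h : ℕ) (ξ : ℂˣ) : Set (Fin h × Bool → G k) :=
  {T | ((List.finRange h).map fun i => T (i, false) * T (i, true) * (T (i, false))⁻¹ *
      (T (i, true))⁻¹).prod = scal k k ξ}

theorem closed_iff (O : Subring ℂ) (k : ℕ) :
    Closed O k ↔ ∀ (h : ℕ) (ξ : ℂˣ), IsSc O ξ → ∀ T ∈ Z k h ξ, Appr O (Z k h ξ) Set.univ T :=
  Iff.rfl

/-- the case `h = 0` -/
theorem closed_h0 (O : Subring ℂ) (k : ℕ) (ξ : ℂˣ) (T : Fin 0 × Bool → G k) (hT : T ∈ Z k 0 ξ) :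
    Appr O (Z k 0 ξ) Set.univ T :=
  appr_of_integral hT (fun x _ => x.1.elim0)

/-- rank `0` -/
theorem closed_zero (O : Subring ℂ) : Closed O 0 := by
  intro h ξ _ T hT
  exact appr_of_integral (S := Z 0 h ξ) hT (fun x _ i => i.elim0)

/-! ### rank one -/

theorem g1_eq_dg (a : G 1) : ∃ t : ℂˣ, a = dg fun _ => t := by
  have hdet : IsUnit a.1.det := by
    rw [← Matrix.isUnit_iff_isUnit_det]
    exact a.isUnit
  refine ⟨hdet.unit, ?_⟩
  ext i j
  have hi : i = 0 := Subsingleton.elim _ _
  have hj : j = 0 := Subsingleton.elim _ _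
  subst hi; subst hj
  simp [dg]

theorem dg_val {n : ℕ} (d : Fin n → ℂˣ) : (dg d).1 = Matrix.diagonal fun i => (d i : ℂ) := rfl

theorem dg_inv_val {n : ℕ} (d : Fin n → ℂˣ) :
    ((dg d)⁻¹).1 = Matrix.diagonal fun i => (((d i)⁻¹ : ℂˣ) : ℂ) := rfl

theorem g1_comm (a b : G 1) : a * b = b * a := by
  obtain ⟨s, rfl⟩ := g1_eq_dg a
  obtain ⟨t, rfl⟩ := g1_eq_dg b
  apply Units.ext
  rw [Units.val_mul, Units.val_mul, dg_val, dg_val, Matrix.diagonal_mul_diagonal,
    Matrix.diagonal_mul_diagonal]
  congr 1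
  ext i
  rw [mul_comm]

theorem laurent {ι : Type} [DecidableEq ι] {F : (ι → G 1) → ℂ} (hF : F ∈ Pol ι 1) (ρ : ι → G 1)
    (x : ι) : ∃ (p : Polynomial ℂ) (N : ℕ), ∀ t : ℂˣ,
      F (Function.update ρ x (dg fun _ => t)) * (t : ℂ) ^ N = p.eval (t : ℂ) := by
  unfold Pol at hF
  induction hF using Algebra.adjoin_induction with
  | mem F hF =>
    rcases hF with ⟨y, i, j, rfl⟩ | ⟨y, i, j, rfl⟩
    · by_cases hy : y = x
      · subst hy
        refine ⟨Polynomial.X, 0, fun t => ?_⟩
        have hi : i = 0 := Subsingleton.elim _ _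
        have hj : j = 0 := Subsingleton.elim _ _
        subst hi; subst hj
        simp [dg_val]
      · refine ⟨Polynomial.C ((ρ y).1 i j), 0, fun t => ?_⟩
        simp [Function.update_of_ne hy]
    · by_cases hy : y = x
      · subst hy
        refine ⟨1, 1, fun t => ?_⟩
        have hi : i = 0 := Subsingleton.elim _ _
        have hj : j = 0 := Subsingleton.elim _ _
        subst hi; subst hj
        simp only [Function.update_self, dg_inv_val, Matrix.diagonal_apply_eq, pow_one,
          Polynomial.eval_one]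
        exact Units.inv_mul t
      · refine ⟨Polynomial.C (((ρ y)⁻¹).1 i j), 0, fun t => ?_⟩
        simp only [Function.update_of_ne hy, pow_zero, mul_one, Polynomial.eval_C]
  | algebraMap r => exact ⟨Polynomial.C r, 0, fun t => by simp⟩
  | add F1 F2 _ _ h1 h2 =>
    obtain ⟨p1, N1, h1⟩ := h1
    obtain ⟨p2, N2, h2⟩ := h2
    refine ⟨p1 * Polynomial.X ^ N2 + p2 * Polynomial.X ^ N1, N1 + N2, fun t => ?_⟩
    rw [Polynomial.eval_add, Polynomial.eval_mul, Polynomial.eval_mul, ← h1, ← h2]
    simp only [Pi.add_apply, Polynomial.eval_pow, Polynomial.eval_X]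
    ring
  | mul F1 F2 _ _ h1 h2 =>
    obtain ⟨p1, N1, h1⟩ := h1
    obtain ⟨p2, N2, h2⟩ := h2
    refine ⟨p1 * p2, N1 + N2, fun t => ?_⟩
    rw [Polynomial.eval_mul, ← h1, ← h2]
    simp only [Pi.mul_apply]
    ring

theorem pow_inj {u : ℂˣ} (hu : ∀ m : ℕ, 0 < m → u ^ m ≠ 1) : Function.Injective fun m : ℕ => u ^ m := by
  intro a b hab
  rcases lt_trichotomy a b with h | h | h
  · exfalso
    apply hu (b - a) (by omega)
    have : u ^ b = u ^ a * u ^ (b - a) := by rw [← pow_add]; congr 1; omega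
    have hab' : u ^ a = u ^ b := hab
    rw [this] at hab'
    exact (mul_eq_left.mp hab'.symm)
  · exact h
  · exfalso
    apply hu (a - b) (by omega)
    have : u ^ a = u ^ b * u ^ (a - b) := by rw [← pow_add]; congr 1; omega
    have hab' : u ^ a = u ^ b := hab
    rw [this] at hab'
    exact (mul_eq_left.mp hab')

/-- in rank one (finitely many names) the integral points are dense -/
theorem appr_rank_one {ι : Type} [Finite ι] {O : Subring ℂ} (hO : Good O) (ρ : ι → G 1) :
    Appr O Set.univ Set.univ ρ := by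
  classical
  obtain ⟨u, hu, hu', hinf⟩ := hO
  intro F hF hv
  have hupow : ∀ m : ℕ, (dg fun _ => u ^ m : G 1) ∈ GO O 1 := by
    intro m i j
    rw [dg_val, dg_inv_val]
    constructor
    · rw [Matrix.diagonal_apply]
      split_ifs
      · rw [Units.val_pow_eq_pow_val]; exact O.pow_mem hu m
      · exact O.zero_mem
    · rw [Matrix.diagonal_apply]
      split_ifs
      · rw [← inv_pow, Units.val_pow_eq_pow_val]; exact O.pow_mem hu' m
      · exact O.zero_mem
  have key : ∀ s : Finset ι, ∀ ρ : ι → G 1, (∀ x ∉ s, ρ x ∈ GO O 1) → F ρ = 0 := by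
    intro s
    induction s using Finset.induction_on with
    | empty =>
      intro ρ hρ
      exact hv ρ trivial (fun x _ => hρ x (by simp))
    | insert a s _ ih =>
      intro ρ hρ
      obtain ⟨p, N, hp⟩ := laurent hF ρ a
      have hroots : ∀ m : ℕ, p.eval ((u ^ m : ℂˣ) : ℂ) = 0 := by
        intro m
        rw [← hp, ih, zero_mul]
        intro x hx
        by_cases hxa : x = a
        · subst hxa
          rw [Function.update_self]
          exact hupow m
        · rw [Function.update_of_ne hxa]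
          exact hρ x (by simp [hxa, hx])
      have hp0 : p = 0 := by
        apply Polynomial.eq_zero_of_infinite_isRoot
        apply Set.Infinite.mono (s := Set.range fun m : ℕ => ((u ^ m : ℂˣ) : ℂ))
        · rintro _ ⟨m, rfl⟩
          exact hroots m
        · apply Set.infinite_range_of_injective
          exact Units.val_injective.comp (pow_inj hinf)
      obtain ⟨t, ht⟩ := g1_eq_dg (ρ a)
      have h1 := hp t
      rw [← ht, Function.update_eq_self, hp0, Polynomial.eval_zero] at h1
      rcases mul_eq_zero.mp h1 with h | h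
      · exact h
      · exact absurd h (pow_ne_zero _ t.ne_zero)
  cases nonempty_fintype ι
  exact key Finset.univ ρ (fun x hx => absurd (Finset.mem_univ x) hx)

/-- rank `1` -/
theorem closed_one {O : Subring ℂ} (hO : Good O) : Closed O 1 := by
  intro h ξ _ T hT
  have hall : ∀ T' : Fin h × Bool → G 1, ((List.finRange h).map fun i => T' (i, false) *
      T' (i, true) * (T' (i, false))⁻¹ * (T' (i, true))⁻¹).prod = 1 := by
    intro T'
    apply List.prod_eq_one
    intro g hg
    rw [List.mem_map] at hg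
    obtain ⟨i, _, rfl⟩ := hg
    rw [g1_comm (T' (i, false)) (T' (i, true))]
    group
  have hξ : (1 : G 1) = scal 1 1 ξ := by rw [← hT, hall]
  have huniv : {T : Fin h × Bool → G 1 | ((List.finRange h).map fun i => T (i, false) * T (i, true) *
      (T (i, false))⁻¹ * (T (i, true))⁻¹).prod = scal 1 1 ξ} = Set.univ := by
    ext T'
    simp only [Set.mem_ofPred_eq, Set.mem_univ, iff_true]
    rw [hall, hξ]
  rw [huniv]
  exact appr_rank_one hO T

/-! ### the induction -/

/-- statement (i) of Part 3: solutions whose first matrix is conjugate to `D` are approximable. -/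
def WDStmt (O : Subring ℂ) (k : ℕ) (D : Fin k → ℂˣ) : Prop :=
  ∀ (h : ℕ) (ξ : ℂˣ), IsSc O ξ → ∀ T ∈ Z k (h + 1) ξ,
    (∃ g : G k, T (0, false) = g * dg D * g⁻¹) → Appr O (Z k (h + 1) ξ) Set.univ T

/-- INDUCTION GLUE: the closed surface statement in all ranks `≤ r`, from its parts. -/
theorem closed_all_of {O : Subring ℂ} (hO : Good O) (r : ℕ) (D : ∀ k, Fin k → ℂˣ)
    (hE : ∀ k, 2 ≤ k → k ≤ r → ElimStatement O k k)
    (hWD : ∀ k, 2 ≤ k → k ≤ r → ElimStatement O k k → (∀ j < k, Closed O j) → WDStmt O k (D k))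
    (h1 : ∀ k, 2 ≤ k → k ≤ r → ∀ ξ : ℂˣ, IsSc O ξ → ∀ T ∈ Z k 1 ξ, Appr O (Z k 1 ξ) Set.univ T)
    (h2 : ∀ k, 2 ≤ k → k ≤ r → WDStmt O k (D k) → ∀ (h : ℕ), 2 ≤ h → ∀ ξ : ℂˣ, IsSc O ξ →
      ∀ T ∈ Z k h ξ, Appr O (Z k h ξ) Set.univ T) :
    ∀ k, k ≤ r → Closed O k := by
  intro k
  induction k using Nat.strong_induction_on with
  | _ k ih =>
    intro hk
    rcases Nat.lt_or_ge k 2 with hk2 | hk2
    · interval_cases k
      · exact closed_zero O
      · exact closed_one hO
    · have hW := hWD k hk2 hk (hE k hk2 hk) (fun j hj => ih j hj (by omega))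
      rw [closed_iff]
      intro h ξ hξ T hT
      rcases Nat.lt_or_ge h 2 with hh | hh
      · interval_cases h
        · exact closed_h0 O k ξ T hT
        · exact h1 k hk2 hk ξ hξ T hT
      · exact h2 k hk2 hk hW h hh ξ hξ T hT

end Gl

end Crest.Agent.R003
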