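import Crest.Agent.R003.Unit992
import Crest.Agent.R003.Gl478A

/-!
# Row 3 (S0003), block (U)+(ii) (helper992)

* `torus_dense`: the units of `O[B]` are Zariski dense in `ℂ[B]ˣ` (`B` separable, integral).
* `flow`: approximable points are stable under `ρ x0 ↦ ρ x0 * q(ρ x1)`.
-/

set_option autoImplicit false

namespace Crest.Agent.R003.Unit

open Polynomial

variable {O : Subring ℂ} {L : Subfield ℂ}

/-- enumeration of the roots of a separable monic complex polynomial -/
theorem exists_roots (χ : ℂ[X]) (hmon : χ.Monic) (hsep : χ.Separable) (k : ℕ)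
    (hk : χ.natDegree = k) :
    ∃ lam : Fin k → ℂ, Function.Injective lam ∧ ∀ ν, χ.eval ν = 0 ↔ ∃ i, lam i = ν := by
  classical
  have hcard : χ.roots.toFinset.card = k := by
    rw [Multiset.toFinset_card_of_nodup (nodup_roots hsep),
      splits_iff_card_roots.mp (IsAlgClosed.splits χ), hk]
  let e := Finset.equivFinOfCardEq hcard
  refine ⟨fun i => (e.symm i : ℂ), ?_, ?_⟩
  · intro i j h
    exact e.symm.injective (Subtype.ext h)
  · intro ν
    have h1 : χ.eval ν = 0 ↔ ν ∈ χ.roots.toFinset := by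
      rw [Multiset.mem_toFinset, mem_roots hmon.ne_zero]
      rfl
    rw [h1]
    constructor
    · intro h
      exact ⟨e ⟨ν, h⟩, by simp⟩
    · rintro ⟨i, rfl⟩
      exact (e.symm i).2

/-- the group of unit vectors `(u(lam i))`, `u ∈ O[x]` invertible modulo `χ` -/
def unitGroup (O : Subring ℂ) {k : ℕ} (lam : Fin k → ℂ) : Submonoid (Fin k → ℂ) where
  carrier := {z | ∃ u v : ℂ[X], (∀ i, u.coeff i ∈ O) ∧ (∀ i, v.coeff i ∈ O) ∧
    (∀ i, u.eval (lam i) * v.eval (lam i) = 1) ∧ ∀ i, z i = u.eval (lam i)}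
  one_mem' := by
    have h1 : ∀ i, (1 : ℂ[X]).coeff i ∈ O := by
      intro i
      rw [coeff_one]
      split_ifs
      · exact O.one_mem
      · exact O.zero_mem
    exact ⟨1, 1, h1, h1, fun i => by simp, fun i => by simp⟩
  mul_mem' := by
    rintro z z' ⟨u, v, hu, hv, huv, hz⟩ ⟨u', v', hu', hv', huv', hz'⟩
    have hm : ∀ p q : ℂ[X], (∀ i, p.coeff i ∈ O) → (∀ i, q.coeff i ∈ O) →
        ∀ i, (p * q).coeff i ∈ O := by
      intro p q hp hq i
      rw [coeff_mul]
      exact O.sum_mem fun x _ => O.mul_mem (hp _) (hq _)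
    refine ⟨u * u', v * v', hm _ _ hu hu', hm _ _ hv hv', fun i => ?_, fun i => ?_⟩
    · rw [eval_mul, eval_mul]
      calc _ = (u.eval (lam i) * v.eval (lam i)) * (u'.eval (lam i) * v'.eval (lam i)) := by ring
        _ = 1 := by rw [huv, huv', one_mul]
    · rw [Pi.mul_apply, hz, hz', eval_mul]

/-- A polynomial vanishing at all `(u(lam i))_i`, `u` a unit of `O[x]/χ`, is zero. -/
theorem unit_dense (hO : IsIntRing O L) {k : ℕ} (χ : ℂ[X]) (hmon : χ.Monic)
    (hχO : ∀ i, χ.coeff i ∈ O) (hsep : χ.Separable) (lam : Fin k → ℂ)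
    (hinj : Function.Injective lam) (hlam : ∀ ν, χ.eval ν = 0 ↔ ∃ i, lam i = ν)
    (F : MvPolynomial (Fin k) ℂ) (hF : ∀ z ∈ unitGroup O lam, MvPolynomial.eval z F = 0) :
    F = 0 := by
  classical
  -- characters
  let ch : (Fin k →₀ ℕ) → (unitGroup O lam →* ℂ) := fun m =>
    { toFun := fun z => ∏ i, (z.1 i) ^ (m i)
      map_one' := by simp
      map_mul' := by
        intro a b
        rw [← Finset.prod_mul_distrib]
        refine Finset.prod_congr rfl fun i _ => ?_
        rw [Submonoid.coe_mul, Pi.mul_apply, mul_pow] }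
  have hch : Function.Injective ch := by
    intro m m' hmm
    by_contra hne
    obtain ⟨i0, hi0⟩ : ∃ i, m i ≠ m' i := by
      by_contra hcon
      push Not at hcon
      exact hne (Finsupp.ext hcon)
    let n : ℂ → ℤ := fun ν => ∑ i, if lam i = ν then ((m i : ℤ) - m' i) else 0
    have hn : ∀ i, n (lam i) = (m i : ℤ) - m' i := by
      intro i
      show (∑ j, if lam j = lam i then ((m j : ℤ) - m' j) else 0) = _
      rw [Finset.sum_eq_single i]
      · rw [if_pos rfl]
      · intro j _ hj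
        rw [if_neg (fun h => hj (hinj h))]
      · simp
    obtain ⟨u, v, hu, hv, huv, hprod⟩ := exists_unit_poly hO χ hmon hχO hsep
      (Finset.univ.image lam) (by
        intro ν
        rw [hlam]
        simp) n (lam i0) (by simp) (by
        rw [hn]
        omega)
    have huv' : ∀ i, u.eval (lam i) * v.eval (lam i) = 1 := fun i => huv _ (by simp)
    have hz : (fun i => u.eval (lam i)) ∈ unitGroup O lam := ⟨u, v, hu, hv, huv', fun i => rfl⟩
    have h1 := DFunLike.congr_fun hmm ⟨_, hz⟩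
    have h2 : ∏ i, (u.eval (lam i)) ^ (m i) = ∏ i, (u.eval (lam i)) ^ (m' i) := h1
    apply hprod
    rw [Finset.prod_image (fun i _ j _ h => hinj h)]
    have hne0 : ∀ i, u.eval (lam i) ≠ 0 := fun i h => by
      have := huv' i
      rw [h, zero_mul] at this
      exact zero_ne_one this
    have h3 : ∏ i, (u.eval (lam i)) ^ (n (lam i)) =
        (∏ i, (u.eval (lam i)) ^ (m i)) / ∏ i, (u.eval (lam i)) ^ (m' i) := by
      rw [← Finset.prod_div_distrib]
      refine Finset.prod_congr rfl fun i _ => ?_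
      rw [hn, zpow_sub₀ (hne0 i), zpow_natCast, zpow_natCast]
    rw [h3, h2, div_self]
    exact Finset.prod_ne_zero_iff.mpr fun i _ => pow_ne_zero _ (hne0 i)
  have hli := (linearIndependent_monoidHom (unitGroup O lam) ℂ).comp ch hch
  rw [linearIndependent_iff'] at hli
  have h0 := hli F.support (fun m => F.coeff m) (by
    ext z
    rw [Finset.sum_apply]
    have h := hF z.1 z.2
    rw [MvPolynomial.eval_eq'] at h
    exact h)
  ext m
  rw [MvPolynomial.coeff_zero]
  by_cases hm : m ∈ F.support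
  · exact h0 m hm
  · rwa [MvPolynomial.notMem_support_iff] at hm

/-- `∑ c_i B^i` -/
def qm {R : Type*} [CommRing R] {k : ℕ} (c : Fin k → R) (B : Matrix (Fin k) (Fin k) R) :
    Matrix (Fin k) (Fin k) R := ∑ i : Fin k, c i • B ^ (i : ℕ)

/-- Cayley-Hamilton: every polynomial in `B` is `∑ c_i B^i`, `c` the coefficients of the remainder
modulo the characteristic polynomial. -/
theorem aeval_eq_qm {k : ℕ} (B : Matrix (Fin k) (Fin k) ℂ) (u : ℂ[X]) :
    aeval B u = qm (fun i : Fin k => (u %ₘ B.charpoly).coeff i) B := by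
  have h1 : aeval B u = aeval B (u %ₘ B.charpoly) := by
    conv_lhs => rw [← modByMonic_add_div u B.charpoly]
    rw [map_add, map_mul, Matrix.aeval_self_charpoly, zero_mul, add_zero]
  have hdeg : B.charpoly.natDegree = k := by
    rw [Matrix.charpoly_natDegree_eq_dim, Fintype.card_fin]
  rw [h1]
  rcases Nat.eq_zero_or_pos k with hk | hk
  · subst hk
    exact Subsingleton.elim _ _
  · have hlt : (u %ₘ B.charpoly).natDegree < k := by
      have := natDegree_modByMonic_lt u B.charpoly_monic (by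
        intro h
        rw [h, natDegree_one] at hdeg
        omega)
      omega
    conv_lhs => rw [as_sum_range' _ k hlt]
    rw [map_sum, ← Fin.sum_univ_eq_sum_range (fun i => aeval B (monomial i
      ((u %ₘ B.charpoly).coeff i)))]
    unfold qm
    refine Finset.sum_congr rfl fun i _ => ?_
    rw [aeval_monomial, Algebra.smul_def]

theorem aeval_entry {k : ℕ} (B : Matrix (Fin k) (Fin k) ℂ) (hB : ∀ i j, B i j ∈ O) (u : ℂ[X])
    (hu : ∀ i, u.coeff i ∈ O) : ∀ i j, (aeval B u) i j ∈ O := by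
  intro i j
  obtain ⟨B', hB'⟩ : ∃ B' : Matrix (Fin k) (Fin k) O, B'.map O.subtype = B :=
    ⟨fun i j => ⟨B i j, hB i j⟩, rfl⟩
  obtain ⟨u', hu'⟩ : ∃ u' : O[X], u'.map O.subtype = u := by
    have : u ∈ Polynomial.lifts O.subtype := by
      rw [Polynomial.lifts_iff_coeff_lifts]
      intro i
      exact ⟨⟨u.coeff i, hu i⟩, rfl⟩
    exact this
  have h1 : aeval B u = (aeval B' u').map O.subtype := by
    rw [← hu', ← hB', aeval_def, aeval_def, eval₂_map]
    rw [show (Matrix.map (eval₂ (algebraMap O (Matrix (Fin k) (Fin k) O)) B' u') O.subtype) =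
      O.subtype.mapMatrix (eval₂ (algebraMap O (Matrix (Fin k) (Fin k) O)) B' u') from rfl,
      hom_eval₂]
    congr 1
    ext a i j
    simp only [RingHom.coe_comp, Function.comp_apply, RingHom.mapMatrix_apply, Matrix.map_apply,
      Matrix.algebraMap_matrix_apply]
    split_ifs
    · rfl
    · rfl
  rw [h1]
  exact ((aeval B' u') i j).2

theorem charpoly_coeff_mem {k : ℕ} (B : Matrix (Fin k) (Fin k) ℂ) (hB : ∀ i j, B i j ∈ O) :
    ∀ i, B.charpoly.coeff i ∈ O := by
  intro i
  obtain ⟨B', hB'⟩ : ∃ B' : Matrix (Fin k) (Fin k) O, B'.map O.subtype = B :=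
    ⟨fun i j => ⟨B i j, hB i j⟩, rfl⟩
  rw [← hB', Matrix.charpoly_map, coeff_map]
  exact (B'.charpoly.coeff i).2

/-- **(U)**: for `B` integral with separable characteristic polynomial the integral units `q_c(B)`
are Zariski dense. -/
theorem torus_dense (hO : IsIntRing O L) {k : ℕ} (B : Matrix (Fin k) (Fin k) ℂ)
    (hB : ∀ i j, B i j ∈ O) (hsep : B.charpoly.Separable) (F : MvPolynomial (Fin k) ℂ)
    (hF : ∀ (c : Fin k → ℂ), ∀ g ∈ GO O k, g.1 = qm c B → MvPolynomial.eval c F = 0) : F = 0 := by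
  classical
  have hdeg : B.charpoly.natDegree = k := by
    rw [Matrix.charpoly_natDegree_eq_dim, Fintype.card_fin]
  obtain ⟨lam, hinj, hlam⟩ := exists_roots B.charpoly B.charpoly_monic hsep k hdeg
  have hV : IsUnit (Matrix.vandermonde lam).det :=
    (Matrix.det_vandermonde_ne_zero_iff.mpr hinj).isUnit
  obtain ⟨W, hW⟩ : ∃ W : Matrix (Fin k) (Fin k) ℂ, W = (Matrix.vandermonde lam)⁻¹ := ⟨_, rfl⟩
  have hWV : W * Matrix.vandermonde lam = 1 := by
    rw [hW, Matrix.nonsing_inv_mul _ hV]
  obtain ⟨G, hG⟩ : ∃ G : MvPolynomial (Fin k) ℂ, ∀ z, MvPolynomial.eval z G =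
      MvPolynomial.eval (W.mulVec z) F := by
    refine ⟨MvPolynomial.bind₁ (fun i => ∑ j, MvPolynomial.C (W i j) * MvPolynomial.X j) F, ?_⟩
    intro z
    have h1 := MvPolynomial.eval₂Hom_bind₁ (RingHom.id ℂ) z
      (fun i => ∑ j, MvPolynomial.C (W i j) * MvPolynomial.X j) F
    refine h1.trans ?_
    show MvPolynomial.eval _ F = _
    congr 2
    funext i
    simp [Matrix.mulVec, dotProduct]
  have hG0 : G = 0 := by
    refine unit_dense hO B.charpoly B.charpoly_monic (charpoly_coeff_mem B hB) hsep lam hinj hlam G ?_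
    rintro z ⟨u, v, hu, hv, huv, hz⟩
    have hdvd : B.charpoly ∣ u * v - 1 := by
      rcases Nat.eq_zero_or_pos k with hk | hk
      · rw [(Polynomial.Monic.natDegree_eq_zero B.charpoly_monic).mp (by omega)]
        exact one_dvd _
      · rw [← modByMonic_eq_zero_iff_dvd B.charpoly_monic]
        apply eq_zero_of_natDegree_lt_card_of_eval_eq_zero _ hinj
        · intro i
          rw [modByMonic_eq_sub_mul_div, eval_sub, eval_mul, (hlam _).mpr ⟨i, rfl⟩, zero_mul,
            sub_zero, eval_sub, eval_mul, huv, eval_one, sub_self]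
        · rw [Fintype.card_fin]
          have := natDegree_modByMonic_lt (u * v - 1) B.charpoly_monic (by
            intro h
            rw [h, natDegree_one] at hdeg
            omega)
          omega
    have hmul : aeval B u * aeval B v = 1 := by
      obtain ⟨w, hw⟩ := hdvd
      have h1 : aeval B (u * v - 1) = 0 := by
        rw [hw, map_mul, Matrix.aeval_self_charpoly, zero_mul]
      rw [map_sub, map_one, map_mul, sub_eq_zero] at h1
      exact h1
    have hmul' : aeval B v * aeval B u = 1 := by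
      rw [← map_mul, mul_comm v u, map_mul, hmul]
    rw [hG]
    refine hF _ ⟨aeval B u, aeval B v, hmul, hmul'⟩
      (fun i j => ⟨aeval_entry B hB u hu i j, aeval_entry B hB v hv i j⟩) ?_
    show aeval B u = _
    rw [aeval_eq_qm]
    congr 1
    have h2 : (Matrix.vandermonde lam).mulVec (fun i : Fin k => (u %ₘ B.charpoly).coeff i) = z := by
      funext i
      rw [hz]
      rcases Nat.eq_zero_or_pos k with hk | hk
      · subst hk
        exact i.elim0
      have hlt : (u %ₘ B.charpoly).natDegree < k := by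
        have := natDegree_modByMonic_lt u B.charpoly_monic (by
          intro h
          rw [h, natDegree_one] at hdeg
          omega)
        omega
      have h3 : u.eval (lam i) = (u %ₘ B.charpoly).eval (lam i) := by
        rw [modByMonic_eq_sub_mul_div, eval_sub, eval_mul, (hlam _).mpr ⟨i, rfl⟩, zero_mul, sub_zero]
      rw [h3, eval_eq_sum_range' hlt, ← Fin.sum_univ_eq_sum_range (fun j =>
        (u %ₘ B.charpoly).coeff j * lam i ^ j)]
      simp only [Matrix.mulVec, dotProduct, Matrix.vandermonde_apply]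
      refine Finset.sum_congr rfl fun j _ => mul_comm _ _
    rw [← h2, Matrix.mulVec_mulVec, hWV, Matrix.one_mulVec]
  apply MvPolynomial.funext
  intro c
  rw [map_zero]
  have h := hG ((Matrix.vandermonde lam).mulVec c)
  rw [Matrix.mulVec_mulVec, hWV, Matrix.one_mulVec, hG0, map_zero] at h
  exact h.symm

/-! ### (ii): the flow -/

section Flow

variable {ι : Type} {k : ℕ}

/-- evaluation of polynomial functions -/
noncomputable def ev (ρ : ι → G k) : Pol ι k →+* ℂ :=
  (Pi.evalRingHom (fun _ : ι → G k => ℂ) ρ).comp (Pol ι k).val.toRingHom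

theorem ev_apply (ρ : ι → G k) (F : Pol ι k) : ev ρ F = F.1 ρ := rfl

/-- polynomials with coefficients polynomial functions -/
abbrev PM (ι : Type) (k : ℕ) := MvPolynomial (Fin k) (Pol ι k)

/-- matrices of such -/
abbrev MM (ι : Type) (k : ℕ) := Matrix (Fin k) (Fin k) (PM ι k)

/-- the generic matrix -/
def MB (x : ι) : Matrix (Fin k) (Fin k) (Pol ι k) := Matrix.of fun i j =>
  ⟨fun ρ => (ρ x).1 i j, Algebra.subset_adjoin (Or.inl ⟨x, i, j, rfl⟩)⟩

/-- the generic inverse matrix -/
def MI (x : ι) : Matrix (Fin k) (Fin k) (Pol ι k) := Matrix.of fun i j =>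
  ⟨fun ρ => ((ρ x)⁻¹).1 i j, Algebra.subset_adjoin (Or.inr ⟨x, i, j, rfl⟩)⟩

theorem MB_map (x : ι) (ρ : ι → G k) : (MB x).map (ev ρ) = (ρ x).1 := rfl

/-- evaluation of polynomials with polynomial coefficients -/
noncomputable def Ev (ρ : ι → G k) (c : Fin k → ℂ) : PM ι k →+* ℂ :=
  MvPolynomial.eval₂Hom (ev ρ) c

theorem Ev_C (ρ : ι → G k) (c : Fin k → ℂ) (F : Pol ι k) : Ev ρ c (MvPolynomial.C F) = F.1 ρ := by
  unfold Ev
  rw [MvPolynomial.coe_eval₂Hom, MvPolynomial.eval₂_C]
  rfl

theorem Ev_X (ρ : ι → G k) (c : Fin k → ℂ) (i : Fin k) : Ev ρ c (MvPolynomial.X i) = c i := by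
  unfold Ev
  rw [MvPolynomial.coe_eval₂Hom, MvPolynomial.eval₂_X]

/-- evaluation of matrices -/
noncomputable def EvM (ρ : ι → G k) (c : Fin k → ℂ) (Q : MM ι k) : Matrix (Fin k) (Fin k) ℂ :=
  Q.map (Ev ρ c)

theorem EvM_apply (ρ : ι → G k) (c : Fin k → ℂ) (Q : MM ι k) (i j : Fin k) :
    EvM ρ c Q i j = Ev ρ c (Q i j) := rfl

theorem EvM_det (ρ : ι → G k) (c : Fin k → ℂ) (Q : MM ι k) :
    Ev ρ c Q.det = (EvM ρ c Q).det := (Ev ρ c).map_det Q

theorem EvM_adjugate (ρ : ι → G k) (c : Fin k → ℂ) (Q : MM ι k) :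
    EvM ρ c Q.adjugate = (EvM ρ c Q).adjugate := by
  unfold EvM
  exact (Ev ρ c).map_adjugate Q

theorem EvM_mul (ρ : ι → G k) (c : Fin k → ℂ) (Q Q' : MM ι k) :
    EvM ρ c (Q * Q') = EvM ρ c Q * EvM ρ c Q' := Matrix.map_mul

/-- the generic matrix as a matrix of constant polynomials -/
noncomputable def MBC (x : ι) : MM ι k := (MB x).map MvPolynomial.C

/-- the generic inverse matrix as a matrix of constant polynomials -/
noncomputable def MIC (x : ι) : MM ι k := (MI x).map MvPolynomial.C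

theorem EvM_MBC (ρ : ι → G k) (c : Fin k → ℂ) (x : ι) : EvM ρ c (MBC x) = (ρ x).1 := by
  ext i j
  exact Ev_C ρ c _

theorem EvM_MIC (ρ : ι → G k) (c : Fin k → ℂ) (x : ι) : EvM ρ c (MIC x) = ((ρ x)⁻¹).1 := by
  ext i j
  exact Ev_C ρ c _

theorem qm_map {R S : Type*} [CommRing R] [CommRing S] (f : R →+* S) (c : Fin k → R)
    (B : Matrix (Fin k) (Fin k) R) : (qm c B).map f = qm (fun i => f (c i)) (B.map f) := by
  show f.mapMatrix (qm c B) = _
  unfold qm
  rw [map_sum]
  refine Finset.sum_congr rfl fun i _ => ?_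
  rw [show B.map f = f.mapMatrix B from rfl, ← map_pow]
  ext a b
  simp [Matrix.map_apply]

/-- the generic `q_c(ρ x1)` -/
noncomputable def QM (x1 : ι) : MM ι k := qm (fun i => MvPolynomial.X i) (MBC x1)

theorem EvM_QM (x1 : ι) (ρ : ι → G k) (c : Fin k → ℂ) :
    EvM ρ c (QM x1) = qm c (ρ x1).1 := by
  have h := qm_map (Ev ρ c) (fun i => MvPolynomial.X i) (MBC x1)
  refine h.trans ?_
  have h2 : (MBC x1).map (Ev ρ c) = (ρ x1).1 := EvM_MBC ρ c x1
  rw [h2]
  congr 1
  funext i
  exact Ev_X ρ c i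

theorem inv_eq_adj (g : G k) (i j : Fin k) : g.1.adjugate i j = (g⁻¹).1 i j * g.1.det := by
  have h2 : g.1 * g.1.adjugate = g.1.det • (1 : Matrix (Fin k) (Fin k) ℂ) :=
    Matrix.mul_adjugate _
  have h3 : (g⁻¹).1 * g.1 = 1 := by rw [← Units.val_mul, inv_mul_cancel]; rfl
  have h4 : g.1.adjugate = g.1.det • (g⁻¹).1 := by
    calc g.1.adjugate = (g⁻¹).1 * g.1 * g.1.adjugate := by rw [h3, Matrix.one_mul]
      _ = (g⁻¹).1 * (g.1.det • (1 : Matrix (Fin k) (Fin k) ℂ)) := by rw [Matrix.mul_assoc, h2]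
      _ = _ := by rw [Matrix.mul_smul, Matrix.mul_one]
  rw [h4, Matrix.smul_apply, smul_eq_mul, mul_comm]

variable [DecidableEq ι]

/-- the property proved by induction in `rep` -/
def Rep (x0 x1 : ι) (F : (ι → G k) → ℂ) : Prop :=
  ∃ (N : ℕ) (a : PM ι k), ∀ (ρ : ι → G k) (c : Fin k → ℂ) (g : G k),
      g.1 = qm c (ρ x1).1 →
      F (Function.update ρ x0 (ρ x0 * g)) * g.1.det ^ N = Ev ρ c a

theorem rep_ent (x0 x1 y : ι) (i j : Fin k) : Rep x0 x1 (fun ρ : ι → G k => (ρ y).1 i j) := by
  by_cases hy : y = x0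
  · subst hy
    refine ⟨0, (MBC y * QM x1 : MM ι k) i j, fun ρ c g hg => ?_⟩
    rw [pow_zero, mul_one, ← EvM_apply, EvM_mul, EvM_MBC, EvM_QM, ← hg]
    show (Function.update ρ y (ρ y * g) y).1 i j = _
    rw [Function.update_self]
    rfl
  · refine ⟨0, (MBC y : MM ι k) i j, fun ρ c g hg => ?_⟩
    rw [pow_zero, mul_one, ← EvM_apply, EvM_MBC]
    show (Function.update ρ x0 (ρ x0 * g) y).1 i j = _
    rw [Function.update_of_ne hy]

theorem rep_ient (x0 x1 y : ι) (i j : Fin k) :
    Rep x0 x1 (fun ρ : ι → G k => ((ρ y)⁻¹).1 i j) := by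
  by_cases hy : y = x0
  · subst hy
    refine ⟨1, ((QM x1).adjugate * MIC y : MM ι k) i j, fun ρ c g hg => ?_⟩
    rw [pow_one, ← EvM_apply, EvM_mul, EvM_MIC, EvM_adjugate, EvM_QM, ← hg]
    show ((Function.update ρ y (ρ y * g) y)⁻¹).1 i j * _ = _
    rw [Function.update_self, _root_.mul_inv_rev, Units.val_mul, Matrix.mul_apply,
      Matrix.mul_apply, Finset.sum_mul]
    refine Finset.sum_congr rfl fun l _ => ?_
    rw [inv_eq_adj]
    ring
  · refine ⟨0, (MIC y : MM ι k) i j, fun ρ c g hg => ?_⟩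
    rw [pow_zero, mul_one, ← EvM_apply, EvM_MIC]
    show ((Function.update ρ x0 (ρ x0 * g) y)⁻¹).1 i j = _
    rw [Function.update_of_ne hy]

theorem rep (x0 x1 : ι) {F : (ι → G k) → ℂ} (hF : F ∈ Pol ι k) : Rep x0 x1 F := by
  have hdet : ∀ (ρ : ι → G k) (c : Fin k → ℂ) (g : G k), g.1 = qm c (ρ x1).1 →
      g.1.det = Ev ρ c (QM x1).det := by
    intro ρ c g hg
    rw [EvM_det, EvM_QM, hg]
  unfold Pol at hF
  induction hF using Algebra.adjoin_induction with
  | mem F hF =>
    rcases hF with ⟨y, i, j, rfl⟩ | ⟨y, i, j, rfl⟩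
    · exact rep_ent x0 x1 y i j
    · exact rep_ient x0 x1 y i j
  | algebraMap r =>
    refine ⟨0, MvPolynomial.C (algebraMap ℂ (Pol ι k) r), fun ρ c g hg => ?_⟩
    rw [pow_zero, mul_one, Ev_C]
    rfl
  | add F1 F2 _ _ h1 h2 =>
    obtain ⟨N1, a1, h1⟩ := h1
    obtain ⟨N2, a2, h2⟩ := h2
    refine ⟨N1 + N2, a1 * (QM x1).det ^ N2 + a2 * (QM x1).det ^ N1, fun ρ c g hg => ?_⟩
    rw [map_add, map_mul, map_mul, map_pow, map_pow, ← hdet ρ c g hg, ← h1 ρ c g hg,
      ← h2 ρ c g hg, Pi.add_apply]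
    ring
  | mul F1 F2 _ _ h1 h2 =>
    obtain ⟨N1, a1, h1⟩ := h1
    obtain ⟨N2, a2, h2⟩ := h2
    refine ⟨N1 + N2, a1 * a2, fun ρ c g hg => ?_⟩
    rw [map_mul, ← h1 ρ c g hg, ← h2 ρ c g hg, Pi.mul_apply]
    ring

/-- the resultant of the characteristic polynomial of `ρ x` and its derivative -/
noncomputable def disc (x : ι) : Pol ι k :=
  (MB (k := k) x).charpoly.resultant (derivative (MB (k := k) x).charpoly) k (k - 1)

omit [DecidableEq ι] in
theorem disc_ne_zero_iff (x : ι) (ρ : ι → G k) :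
    (disc x).1 ρ ≠ 0 ↔ (ρ x).1.charpoly.Separable := by
  have hdeg : (ρ x).1.charpoly.natDegree = k := by
    rw [Matrix.charpoly_natDegree_eq_dim, Fintype.card_fin]
  have h1 : (disc x).1 ρ = (ρ x).1.charpoly.resultant (derivative (ρ x).1.charpoly) := by
    rw [← ev_apply, disc, ← resultant_map_map, ← derivative_map, ← Matrix.charpoly_map, MB_map]
    congr 1
    · exact hdeg.symm
    · rw [natDegree_derivative, hdeg]
  rw [h1, ne_eq, resultant_eq_zero_iff]
  have h2 : (ρ x).1.charpoly ≠ 0 := (ρ x).1.charpoly_monic.ne_zero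
  constructor
  · intro h
    by_contra hc
    exact h ⟨Or.inl h2, hc⟩
  · rintro h ⟨-, h'⟩
    exact h' h

/-- **(ii)** Approximable points are stable under the flow `ρ x0 ↦ ρ x0 * q(ρ x1)`. -/
theorem flow (hO : IsIntRing O L) (S : Set (ι → G k)) (Q : Set ι) (x0 x1 : ι) (hx1 : x1 ∈ Q)
    (hS : ∀ ρ ∈ S, ∀ g : G k, g * ρ x1 = ρ x1 * g → Function.update ρ x0 (ρ x0 * g) ∈ S)
    (T : ι → G k) (hT : Appr O S Q T) (hsep : (T x1).1.charpoly.Separable) (g : G k) (q : ℂ[X])
    (hg : g.1 = aeval (T x1).1 q) : Appr O S Q (Function.update T x0 (T x0 * g)) := by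
  intro F hF hvan
  obtain ⟨N, a, ha⟩ := rep x0 x1 hF
  have key : a.map (ev T) = 0 := by
    ext m
    rw [MvPolynomial.coeff_map, MvPolynomial.coeff_zero, ev_apply]
    have h1 := hT (fun ρ => (disc x1).1 ρ * (a.coeff m).1 ρ)
      (Subalgebra.mul_mem _ (disc x1).2 (a.coeff m).2) (by
        intro ρ hρ hint
        by_cases hs : (disc x1).1 ρ = 0
        · rw [hs, zero_mul]
        · have hs' := (disc_ne_zero_iff x1 ρ).mp hs
          have h2 : a.map (ev ρ) = 0 := by
            refine torus_dense hO (ρ x1).1 (fun i j => (hint x1 hx1 i j).1) hs' _ ?_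
            intro c g' hg' hg'c
            have h3 := ha ρ c g' hg'c
            have hcomm : g' * ρ x1 = ρ x1 * g' := by
              apply Units.ext
              rw [Units.val_mul, Units.val_mul, hg'c, qm, Finset.sum_mul, Finset.mul_sum]
              refine Finset.sum_congr rfl fun i _ => ?_
              rw [Matrix.smul_mul, Matrix.mul_smul, ← pow_succ, ← pow_succ']
            rw [hvan _ (hS ρ hρ g' hcomm) (by
              intro x hx
              by_cases hx0 : x = x0
              · subst hx0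
                rw [Function.update_self]
                exact (GO O k).mul_mem (hint x hx) hg'
              · rw [Function.update_of_ne hx0]
                exact hint x hx), zero_mul] at h3
            rw [MvPolynomial.eval_map]
            exact h3.symm
          rw [← ev_apply, ← ev_apply, ← MvPolynomial.coeff_map, h2, MvPolynomial.coeff_zero,
            mul_zero])
    exact (mul_eq_zero.mp h1).resolve_left ((disc_ne_zero_iff x1 T).mpr hsep)
  rw [aeval_eq_qm] at hg
  have h4 := ha T _ g hg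
  have h5 : Ev T (fun i : Fin k => (q %ₘ (T x1).1.charpoly).coeff i) a = 0 := by
    have h6 : Ev T (fun i : Fin k => (q %ₘ (T x1).1.charpoly).coeff i) a =
        MvPolynomial.eval (fun i : Fin k => (q %ₘ (T x1).1.charpoly).coeff i) (a.map (ev T)) := by
      rw [MvPolynomial.eval_map]
      rfl
    rw [h6, key, map_zero]
  rw [h5] at h4
  have hdetg : g.1.det ≠ 0 := ((Matrix.isUnit_iff_isUnit_det _).mp g.isUnit).ne_zero
  exact (mul_eq_zero.mp h4).resolve_right (pow_ne_zero _ hdetg)

end Flow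

/-- The closed surface equation is preserved by the flow. -/
theorem Z_update {k h : ℕ} (ξ : ℂˣ) (T : Fin h × Bool → G k) (hT : T ∈ Gl.Z k h ξ) (i : Fin h)
    (g : G k) (hg : g * T (i, true) = T (i, true) * g) :
    Function.update T (i, false) (T (i, false) * g) ∈ Gl.Z k h ξ := by
  show ((List.finRange h).map fun j => _).prod = scal k k ξ
  rw [← show ((List.finRange h).map fun i => T (i, false) * T (i, true) * (T (i, false))⁻¹ *
      (T (i, true))⁻¹).prod = scal k k ξ from hT]
  congr 1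
  refine List.map_congr_left fun j _ => ?_
  rw [Function.update_of_ne (a := (j, true)) (a' := (i, false)) (by simp)]
  by_cases hj : j = i
  · subst hj
    rw [Function.update_self]
    have : g * T (j, true) * g⁻¹ = T (j, true) := by rw [hg, mul_inv_cancel_right]
    calc T (j, false) * g * T (j, true) * (T (j, false) * g)⁻¹ * (T (j, true))⁻¹
        = T (j, false) * (g * T (j, true) * g⁻¹) * (T (j, false))⁻¹ * (T (j, true))⁻¹ := by group
      _ = _ := by rw [this]
  · rw [Function.update_of_ne (by simpa using hj)]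

/-- **(ii)** for the closed surface -/
theorem flow_Z (hO : IsIntRing O L) {k h : ℕ} (ξ : ℂˣ) (i : Fin h) (T : Fin h × Bool → G k)
    (hT : Appr O (Gl.Z k h ξ) Set.univ T) (hsep : (T (i, true)).1.charpoly.Separable) (g : G k)
    (q : ℂ[X]) (hg : g.1 = aeval (T (i, true)).1 q) :
    Appr O (Gl.Z k h ξ) Set.univ (Function.update T (i, false) (T (i, false) * g)) :=
  flow hO (Gl.Z k h ξ) Set.univ (i, false) (i, true) (Set.mem_univ _)
    (fun ρ hρ g' hg' => Z_update ξ ρ hρ i g' hg') T hT hsep g q hg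

end Crest.Agent.R003.Unit
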