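import Mathlib
import Crest.Agent.R003.Td576

/-!
# R3 (S0003), Part 3(iii): a generic pair `(A, B)` is `(h D h⁻¹ q(B), B)`
-/

set_option autoImplicit false

namespace Crest.Agent.R003

open MvPolynomial

universe u v w

/-- `n` "forms" in `n` variables over an algebraically closed field without a nontrivial common zero
define a surjective map. -/
theorem exists_of_forms {E : Type u} [Field E] [IsAlgClosed E] {n : ℕ}
    (F : Fin n → MvPolynomial (Fin n) E) (d : Fin n → ℕ) (hd : ∀ i, 0 < d i)
    (hz : ∀ i, eval 0 (F i) = 0)
    (hF : ∀ i (c : E) (u : Fin n → E), c ≠ 0 → eval (c • u) (F i) = c ^ (d i) * eval u (F i))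
    (h0 : ∀ u : Fin n → E, (∀ i, eval u (F i) = 0) → u = 0) (c : Fin n → E) :
    ∃ u : Fin n → E, ∀ i, eval u (F i) = c i := by
  classical
  let G : Fin n → MvPolynomial (Option (Fin n)) E :=
    fun i => rename some (F i) - C (c i) * X none ^ d i
  have hG : ∀ i (z : Option (Fin n) → E),
      eval z (G i) = eval (fun j => z (some j)) (F i) - c i * z none ^ d i := by
    intro i z
    simp only [G, map_sub, map_mul, map_pow, eval_C, eval_X, eval_rename]
    rfl
  -- a nontrivial common zero of `G` is enough
  by_cases hex : ∃ z : Option (Fin n) → E, z ≠ 0 ∧ ∀ i, eval z (G i) = 0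
  · obtain ⟨z, hz0, hzG⟩ := hex
    have ht : z none ≠ 0 := by
      intro ht
      apply hz0
      have h1 : (fun j => z (some j)) = 0 := by
        apply h0
        intro i
        have := hzG i
        rw [hG, ht, zero_pow (hd i).ne', mul_zero, sub_zero] at this
        exact this
      funext j
      cases j with
      | none => exact ht
      | some j => exact congrFun h1 j
    refine ⟨(z none)⁻¹ • (fun j => z (some j)), fun i => ?_⟩
    rw [hF i _ _ (inv_ne_zero ht)]
    have := hzG i
    rw [hG, sub_eq_zero] at this
    rw [this, inv_pow]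
    field_simp
  · exfalso
    push Not at hex
    let I : Ideal (MvPolynomial (Option (Fin n)) E) := Ideal.span (Set.range G)
    let m : Ideal (MvPolynomial (Option (Fin n)) E) := RingHom.ker (eval (0 : Option (Fin n) → E))
    have hm : m.IsPrime := RingHom.ker_isPrime _
    have hIm : I ≤ m := by
      rw [Ideal.span_le]
      rintro _ ⟨i, rfl⟩
      change eval 0 (G i) = 0
      rw [hG]
      have : (fun j : Fin n => (0 : Option (Fin n) → E) (some j)) = 0 := rfl
      rw [this, hz i]
      simp [(hd i).ne']
    have hmin : m ∈ I.minimalPrimes := by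
      refine ⟨⟨hm, hIm⟩, ?_⟩
      rintro P ⟨hP, hIP⟩ _
      intro g hg
      have h1 : g ∈ vanishingIdeal E (zeroLocus E I) := by
        rw [mem_vanishingIdeal_iff]
        intro z hz'
        rw [mem_zeroLocus_iff] at hz'
        have h2 : z = 0 := by
          by_contra hne
          obtain ⟨i, hi⟩ := hex z hne
          apply hi
          have := hz' (G i) (Ideal.subset_span ⟨i, rfl⟩)
          exact this
        rw [h2]
        exact hg
      rw [vanishingIdeal_zeroLocus_eq_radical] at h1
      exact (hP.radical_le_iff.2 hIP) h1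
    have hht : m.height ≤ (n : ℕ∞) := by
      have h1 := Ideal.height_le_card_of_mem_minimalPrimes_span (Set.finite_range G) hmin
      refine h1.trans ?_
      have h2 : (Set.range G).ncard ≤ n := by
        rw [← Nat.card_coe_set_eq]
        have := Nat.card_le_card_of_surjective (Set.rangeFactorization G)
          Set.rangeFactorization_surjective
        simpa using this
      exact_mod_cast h2
    obtain ⟨ι, hι, j, hj, hcard⟩ := card_le_height_add E (Option (Fin n)) m
    have hempty : IsEmpty ι := by
      refine ⟨fun i => ?_⟩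
      have h1 : rename j (X i : MvPolynomial ι E) ∈ m := by
        rw [rename_X]
        change eval 0 (X (j i)) = 0
        simp
      exact X_ne_zero i (hj _ h1)
    rw [show Nat.card ι = 0 from Nat.card_of_isEmpty, Nat.cast_zero, add_zero] at hcard
    have h3 := hcard.trans hht
    rw [Finite.card_option, Nat.card_fin] at h3
    have h4 : n + 1 ≤ n := by exact_mod_cast h3
    omega

section mat

variable {F : Type u} [Field F] {n : ℕ}

open Matrix

/-- distinct eigenvalues: diagonalisation -/
theorem exists_diag (N : Matrix (Fin n) (Fin n) F) (d : Fin n → F) (hd : Function.Injective d)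
    (hN : N.charpoly = ∏ i, (Polynomial.X - Polynomial.C (d i))) :
    ∃ h h' : Matrix (Fin n) (Fin n) F, h * h' = 1 ∧ h' * h = 1 ∧ N = h * diagonal d * h' := by
  classical
  have hev : ∀ i, ∃ v : Fin n → F, v ≠ 0 ∧ N *ᵥ v = d i • v := by
    intro i
    have h1 : (scalar (Fin n) (d i) - N).det = 0 := by
      rw [← Matrix.eval_charpoly, hN, Polynomial.eval_prod]
      exact Finset.prod_eq_zero (Finset.mem_univ i) (by simp)
    obtain ⟨v, hv, h2⟩ := Matrix.exists_mulVec_eq_zero_iff.2 h1
    refine ⟨v, hv, ?_⟩
    rw [sub_mulVec, sub_eq_zero] at h2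
    rw [← h2]
    ext j
    simp [scalar_apply, mulVec_diagonal]
  choose v hv0 hv using hev
  have hli : LinearIndependent F v := by
    refine Module.End.eigenvectors_linearIndependent' (Matrix.toLin' N) d hd v (fun i => ?_)
    rw [Module.End.hasEigenvector_iff, Module.End.mem_eigenspace_iff]
    exact ⟨by rw [Matrix.toLin'_apply]; exact hv i, hv0 i⟩
  let h : Matrix (Fin n) (Fin n) F := (Matrix.of v)ᵀ
  have hu : IsUnit h := by
    rw [← Matrix.linearIndependent_cols_iff_isUnit]
    exact hli
  have hdet : IsUnit h.det := (Matrix.isUnit_iff_isUnit_det _).1 hu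
  have hNh : N * h = h * diagonal d := by
    ext j i
    rw [Matrix.mul_diagonal]
    have := congrFun (hv i) j
    rw [Matrix.mulVec, dotProduct] at this
    rw [Matrix.mul_apply]
    simp only [h, Matrix.transpose_apply, Matrix.of_apply]
    rw [this, Pi.smul_apply, smul_eq_mul, mul_comm]
  refine ⟨h, h⁻¹, Matrix.mul_nonsing_inv _ hdet, Matrix.nonsing_inv_mul _ hdet, ?_⟩
  rw [← hNh, Matrix.mul_assoc, Matrix.mul_nonsing_inv _ hdet, Matrix.mul_one]

/-- scaling of the coefficients of the characteristic polynomial -/
theorem coeff_charpoly_smul (N : Matrix (Fin n) (Fin n) F) {c : F} (hc : c ≠ 0) {k : ℕ}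
    (hk : k ≤ n) : (c • N).charpoly.coeff k = c ^ (n - k) * N.charpoly.coeff k := by
  have h1 : (c • N).charpoly.comp (Polynomial.C c * Polynomial.X) =
      Polynomial.C (c ^ n) * N.charpoly := by
    rw [Matrix.charpoly, Matrix.charpoly, ← Polynomial.coe_compRingHom_apply, RingHom.map_det]
    have h2 : (Polynomial.compRingHom (Polynomial.C c * Polynomial.X)).mapMatrix
        (charmatrix (c • N)) = Polynomial.C c • charmatrix N := by
      ext i j : 2
      rw [RingHom.mapMatrix_apply, Matrix.map_apply, Matrix.smul_apply, charmatrix_apply,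
        charmatrix_apply, Polynomial.coe_compRingHom_apply]
      rcases eq_or_ne i j with rfl | hij
      · simp [mul_sub]
      · simp [Matrix.diagonal_apply_ne _ hij]
    rw [h2, Matrix.det_smul, Fintype.card_fin, Polynomial.C_pow]
  have h3 := congrArg (fun p => Polynomial.coeff p k) h1
  simp only [Polynomial.comp_C_mul_X_coeff, Polynomial.coeff_C_mul] at h3
  have h4 : c ^ n = c ^ (n - k) * c ^ k := by rw [← pow_add]; congr 1; omega
  rw [h4] at h3
  have h5 : c ^ k ≠ 0 := pow_ne_zero _ hc
  apply mul_right_cancel₀ h5
  rw [h3]; ring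

/-- all principal minors are nonzero -/
def PM (M : Matrix (Fin n) (Fin n) F) : Prop :=
  ∀ S : Finset (Fin n), (M.submatrix (Subtype.val : S → Fin n) Subtype.val).det ≠ 0

/-- a nilpotent `M diag(u)` with `M` having nonzero principal minors forces `u = 0` -/
theorem eq_zero_of_nilpotent {M : Matrix (Fin n) (Fin n) F} (hM : PM M) (u : Fin n → F) {m : ℕ}
    (hnil : (M * diagonal u) ^ m = 0) : u = 0 := by
  classical
  by_contra hu
  let S : Finset (Fin n) := Finset.univ.filter (fun i => u i ≠ 0)
  have hS : ∀ i, i ∉ S → u i = 0 := by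
    intro i hi
    by_contra h
    exact hi (by simp [S, h])
  obtain ⟨i0, hi0⟩ : ∃ i, u i ≠ 0 := by
    by_contra hcon
    push Not at hcon
    exact hu (funext hcon)
  have hne : Nonempty S := ⟨⟨i0, by simp [S, hi0]⟩⟩
  obtain ⟨N, hN⟩ : ∃ N, N = M * diagonal u := ⟨_, rfl⟩
  have hcol : ∀ i j, j ∉ S → N i j = 0 := by
    intro i j hj
    rw [hN, Matrix.mul_diagonal, hS j hj, mul_zero]
  have hpow : ∀ k : ℕ, (N.submatrix (Subtype.val : S → Fin n) (Subtype.val : S → Fin n)) ^ (k + 1) =
      (N ^ (k + 1)).submatrix (Subtype.val : S → Fin n) (Subtype.val : S → Fin n) := by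
    intro k
    induction k with
    | zero => simp
    | succ k ih =>
      rw [pow_succ, ih, pow_succ N (k + 1)]
      ext i j
      rw [Matrix.mul_apply, Matrix.submatrix_apply, Matrix.mul_apply]
      rw [← Finset.sum_subset (Finset.subset_univ S)]
      · rw [← Finset.sum_coe_sort S]
        rfl
      · intro l _ hl
        rw [pow_succ, Matrix.mul_apply, Finset.sum_eq_zero, zero_mul]
        intro l' _
        rw [hcol _ _ hl, mul_zero]
  have h1 : (N.submatrix (Subtype.val : S → Fin n) (Subtype.val : S → Fin n)) ^ (m + 1) = 0 := by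
    rw [hpow, pow_succ, hN, hnil, zero_mul]; rfl
  have h2 : (N.submatrix (Subtype.val : S → Fin n) (Subtype.val : S → Fin n)) =
      M.submatrix (Subtype.val : S → Fin n) (Subtype.val : S → Fin n) * diagonal (fun i : S => u i) := by
    ext i j
    rw [hN, Matrix.submatrix_apply, Matrix.mul_diagonal, Matrix.mul_diagonal,
      Matrix.submatrix_apply]
  have h3 := congrArg Matrix.det h1
  rw [Matrix.det_pow, Matrix.det_zero] at h3
  have h4 := pow_eq_zero_iff (n := m + 1) (by omega) |>.1 h3
  rw [h2, Matrix.det_mul, Matrix.det_diagonal] at h4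
  rcases mul_eq_zero.1 h4 with h5 | h5
  · exact hM S h5
  · rw [Finset.prod_eq_zero_iff] at h5
    obtain ⟨i, _, hi⟩ := h5
    have := i.2
    simp only [S, Finset.mem_filter] at this
    exact this.2 hi

/-- the key existence statement -/
theorem exists_charpoly_eq [IsAlgClosed F] {M : Matrix (Fin n) (Fin n) F} (hM : PM M)
    (p : Polynomial F) (hp : p.Monic) (hpn : p.natDegree = n) :
    ∃ u : Fin n → F, (M * diagonal u).charpoly = p := by
  classical
  let Mg : Matrix (Fin n) (Fin n) (MvPolynomial (Fin n) F) := M.map MvPolynomial.C *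
    diagonal (fun i => MvPolynomial.X i)
  let Fk : Fin n → MvPolynomial (Fin n) F := fun k => Mg.charpoly.coeff k
  have hev : ∀ (u : Fin n → F) k, eval u (Fk k) = (M * diagonal u).charpoly.coeff k := by
    intro u k
    have h1 : (M * diagonal u) = Mg.map (eval u) := by
      ext i j
      simp only [Mg]
      rw [Matrix.map_apply, Matrix.mul_diagonal, Matrix.mul_diagonal]
      simp
    rw [h1, Matrix.charpoly_map, Polynomial.coeff_map]
  have hmonic : ∀ N : Matrix (Fin n) (Fin n) F, N.charpoly.Monic := fun N => N.charpoly_monic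
  have hdeg : ∀ N : Matrix (Fin n) (Fin n) F, N.charpoly.natDegree = n := fun N => by
    rw [Matrix.charpoly_natDegree_eq_dim, Fintype.card_fin]
  have hext : ∀ (q₁ q₂ : Polynomial F), q₁.Monic → q₂.Monic → q₁.natDegree = n →
      q₂.natDegree = n → (∀ k : Fin n, q₁.coeff k = q₂.coeff k) → q₁ = q₂ := by
    intro q₁ q₂ h1 h2 h3 h4 h5
    ext k
    rcases lt_trichotomy k n with hk | hk | hk
    · exact h5 ⟨k, hk⟩
    · rw [hk]
      have := h1.coeff_natDegree
      rw [h3] at this
      rw [this]
      have := h2.coeff_natDegree
      rw [h4] at this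
      rw [this]
    · rw [Polynomial.coeff_eq_zero_of_natDegree_lt (by omega),
        Polynomial.coeff_eq_zero_of_natDegree_lt (by omega)]
  obtain ⟨u, hu⟩ := exists_of_forms Fk (fun k => n - k) (fun k => by have := k.2; omega)
    (fun k => by
      rw [hev]
      have : M * diagonal (0 : Fin n → F) = 0 := by
        rw [show diagonal (0 : Fin n → F) = 0 from Matrix.diagonal_zero', mul_zero]
      rw [this, Matrix.charpoly_zero, Polynomial.coeff_X_pow, if_neg]
      rw [Fintype.card_fin]
      exact k.2.ne)
    (fun k c u hc => by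
      rw [hev, hev]
      have : M * diagonal (c • u) = c • (M * diagonal u) := by
        rw [Matrix.diagonal_smul, Matrix.mul_smul]
      rw [this, coeff_charpoly_smul _ hc k.2.le])
    (fun u hu => by
      have h1 : (M * diagonal u).charpoly = Polynomial.X ^ n := by
        apply hext _ _ (hmonic _) (Polynomial.monic_X_pow n) (hdeg _) (Polynomial.natDegree_X_pow n)
        intro k
        rw [← hev, hu k, Polynomial.coeff_X_pow, if_neg k.2.ne]
      have h2 := Matrix.aeval_self_charpoly (M * diagonal u)
      rw [h1, map_pow, Polynomial.aeval_X] at h2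
      exact eq_zero_of_nilpotent hM u h2)
    (fun k => p.coeff k)
  refine ⟨u, hext _ _ (hmonic _) hp (hdeg _) hpn (fun k => ?_)⟩
  rw [← hev]
  exact hu k

/-- separability through a resultant -/
theorem separable_iff_resultant {p : Polynomial F} (hp : p.Monic) (hpn : p.natDegree = n) :
    p.Separable ↔ Polynomial.resultant p (Polynomial.derivative p) n n ≠ 0 := by
  obtain ⟨k, hk⟩ : ∃ k, n = (Polynomial.derivative p).natDegree + k := by
    have := Polynomial.natDegree_derivative_le p
    exact ⟨n - (Polynomial.derivative p).natDegree, by omega⟩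
  have h1 : Polynomial.resultant p (Polynomial.derivative p) n n =
      Polynomial.resultant p (Polynomial.derivative p) := by
    conv_lhs => rw [show Polynomial.resultant p (Polynomial.derivative p) n n =
      Polynomial.resultant p (Polynomial.derivative p) n
        ((Polynomial.derivative p).natDegree + k) by rw [← hk]]
    rw [Polynomial.resultant_add_right_deg _ _ _ _ _ le_rfl]
    have h2 : p.coeff n = 1 := by rw [← hpn]; exact hp.coeff_natDegree
    rw [h2, one_pow, one_mul, hpn]
  rw [h1, ← isUnit_iff_ne_zero, Polynomial.isUnit_resultant_iff_isCoprime hp]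
  rfl

end mat

section generic

open Matrix

/-- the generic matrix -/
noncomputable def genM (K : Type u) [Field K] (n : ℕ) :
    Matrix (Fin n) (Fin n) (MvPolynomial (Fin n × Fin n) K) :=
  Matrix.of fun i j => X (i, j)

variable {K : Type u} {E : Type v} [Field K] [Field E] [Algebra K E] {n : ℕ}

theorem genM_map (B : Matrix (Fin n) (Fin n) E) :
    (genM K n).map (aeval (R := K) fun p : Fin n × Fin n => B p.1 p.2) = B := by
  ext i j
  simp [genM]

/-- a matrix with algebraically independent entries has a separable characteristic polynomial -/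
theorem separable_of_generic {B : Matrix (Fin n) (Fin n) E}
    (hB : AlgebraicIndependent K (fun p : Fin n × Fin n => B p.1 p.2))
    {D : Fin n → K} (hD : Function.Injective D) : B.charpoly.Separable := by
  classical
  let R : MvPolynomial (Fin n × Fin n) K :=
    Polynomial.resultant (genM K n).charpoly (Polynomial.derivative (genM K n).charpoly) n n
  have hR : ∀ {E' : Type v} [Field E'] [Algebra K E'] (B' : Matrix (Fin n) (Fin n) E'),
      B'.charpoly.Separable ↔ aeval (R := K) (fun p : Fin n × Fin n => B' p.1 p.2) R ≠ 0 := by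
    intro E' _ _ B'
    rw [separable_iff_resultant B'.charpoly_monic
      (by rw [Matrix.charpoly_natDegree_eq_dim, Fintype.card_fin])]
    have h1 : B'.charpoly = (genM K n).charpoly.map
        (aeval (R := K) fun p : Fin n × Fin n => B' p.1 p.2).toRingHom := by
      rw [← Matrix.charpoly_map]
      congr 1
      exact (genM_map B').symm
    rw [h1, Polynomial.derivative_map, Polynomial.resultant_map_map]
    rfl
  rw [hR]
  intro h0
  have h1 : R = 0 := by
    have := hB
    rw [AlgebraicIndependent, injective_iff_map_eq_zero] at this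
    exact this R h0
  have h2 := (hR (E' := E) (diagonal (fun i => algebraMap K E (D i)))).1 (by
    rw [Matrix.charpoly_diagonal]
    rw [Polynomial.separable_prod_X_sub_C_iff]
    exact (algebraMap K E).injective.comp hD)
  rw [h1, map_zero] at h2
  exact h2 rfl

theorem aeval_minor (g g' : Matrix (Fin n) (Fin n) K) (S : Finset (Fin n))
    {R' : Type*} [CommRing R'] [Algebra K R'] (B' : Matrix (Fin n) (Fin n) R') :
    aeval (R := K) (fun p : Fin n × Fin n => B' p.1 p.2)
      ((g'.map (C : K → MvPolynomial (Fin n × Fin n) K) * genM K n * g.map C).submatrix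
      (Subtype.val : S → Fin n) (Subtype.val : S → Fin n)).det =
        ((g'.map (algebraMap K R') * B' * g.map (algebraMap K R')).submatrix
          (Subtype.val : S → Fin n) (Subtype.val : S → Fin n)).det := by
  rw [AlgHom.map_det, AlgHom.mapMatrix_apply, ← Matrix.submatrix_map]
  congr 1
  congr 1
  ext i j
  simp only [Matrix.map_apply, Matrix.mul_apply, map_sum, map_mul, genM, Matrix.of_apply, aeval_X,
    ← MvPolynomial.algebraMap_eq, AlgHom.commutes]

/-- principal minors of `g' A g`, `A` with algebraically independent entries over the field `K`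
containing the entries of `g, g'` -/
theorem pm_of_generic {A : Matrix (Fin n) (Fin n) E}
    (hA : AlgebraicIndependent K (fun p : Fin n × Fin n => A p.1 p.2))
    (g g' : Matrix (Fin n) (Fin n) K) (hg : g' * g = 1) :
    PM (g'.map (algebraMap K E) * A * g.map (algebraMap K E)) := by
  classical
  intro S h0
  rw [← aeval_minor g g' S A] at h0
  have h1 : ((g'.map (C : K → MvPolynomial (Fin n × Fin n) K) * genM K n * g.map C).submatrix
      (Subtype.val : S → Fin n) (Subtype.val : S → Fin n)).det = 0 := by
    have := hA
    rw [AlgebraicIndependent, injective_iff_map_eq_zero] at this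
    exact this _ h0
  have h2 := aeval_minor g g' S (1 : Matrix (Fin n) (Fin n) K)
  rw [h1, map_zero] at h2
  have h3 : (g'.map (algebraMap K K) * 1 * g.map (algebraMap K K)) = 1 := by
    rw [Matrix.mul_one]
    have : g'.map (algebraMap K K) = g' := by ext i j; rfl
    rw [this]
    have : g.map (algebraMap K K) = g := by ext i j; rfl
    rw [this, hg]
  rw [h3, Matrix.submatrix_one _ Subtype.val_injective, Matrix.det_one] at h2
  exact zero_ne_one h2

theorem aeval_conj' {R : Type*} [CommRing R] (h h' N : Matrix (Fin n) (Fin n) R)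
    (hh : h * h' = 1) (hh' : h' * h = 1) (q : Polynomial R) :
    Polynomial.aeval (h * N * h') q = h * Polynomial.aeval N q * h' := by
  induction q using Polynomial.induction_on' with
  | add p q hp hq => rw [map_add, map_add, hp, hq, mul_add, add_mul]
  | monomial k a =>
    rw [Polynomial.aeval_monomial, Polynomial.aeval_monomial]
    have h1 : ∀ k, (h * N * h') ^ k = h * N ^ k * h' := by
      intro k
      induction k with
      | zero => rw [pow_zero, pow_zero, mul_one, hh]
      | succ k ih =>
        rw [pow_succ, ih, pow_succ]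
        calc h * N ^ k * h' * (h * N * h') = h * N ^ k * (h' * h) * N * h' := by
              simp only [Matrix.mul_assoc]
          _ = h * (N ^ k * N) * h' := by rw [hh', mul_one]; simp only [Matrix.mul_assoc]
    rw [h1]
    have h2 : algebraMap R (Matrix (Fin n) (Fin n) R) a * (h * N ^ k * h') =
        h * (algebraMap R (Matrix (Fin n) (Fin n) R) a * N ^ k) * h' := by
      rw [← mul_assoc, ← mul_assoc, Algebra.commutes a h]
      simp only [mul_assoc]
    exact h2

theorem aeval_diagonal' {R : Type*} [CommRing R] (b : Fin n → R) (q : Polynomial R) :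
    Polynomial.aeval (diagonal b) q = diagonal (fun i => q.eval (b i)) := by
  induction q using Polynomial.induction_on' with
  | add p q hp hq =>
    rw [map_add, hp, hq, Matrix.diagonal_add]
    congr 1; ext i; simp
  | monomial k a =>
    rw [Polynomial.aeval_monomial, Matrix.diagonal_pow, Matrix.algebraMap_eq_diagonal,
      Matrix.diagonal_mul_diagonal]
    congr 1; ext i; simp

/-- a monic polynomial with distinct roots over an algebraically closed field -/
theorem exists_roots {F : Type*} [Field F] [IsAlgClosed F] {p : Polynomial F} (hp : p.Monic)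
    (hpn : p.natDegree = n) (hs : p.Separable) :
    ∃ b : Fin n → F, Function.Injective b ∧ p = ∏ i, (Polynomial.X - Polynomial.C (b i)) := by
  classical
  have hsp := IsAlgClosed.splits p
  have hcard : p.roots.toList.length = n := by
    rw [Multiset.length_toList, ← hpn]
    exact hsp.natDegree_eq_card_roots.symm
  have hnd : p.roots.toList.Nodup := by
    rw [← Multiset.coe_nodup, Multiset.coe_toList]
    exact Polynomial.nodup_roots hs
  refine ⟨fun i => p.roots.toList.get (i.cast hcard.symm), ?_, ?_⟩
  · intro i j hij
    have := hnd.injective_get hij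
    exact Fin.cast_injective _ this
  · have h1 : p = (p.roots.map (fun a => Polynomial.X - Polynomial.C a)).prod := by
      have := hsp.eq_prod_roots
      rw [hp.leadingCoeff, Polynomial.C_1, one_mul] at this
      exact this
    conv_lhs => rw [h1]
    conv_lhs => rw [← Multiset.coe_toList p.roots]
    rw [Multiset.map_coe, Multiset.prod_coe]
    rw [← List.prod_ofFn]
    congr 1
    apply List.ext_get
    · simp [hcard]
    · intro k h2 h3
      simp

/-- Part 3(iii): a generic pair `(A, B)` is of the form `(h D h⁻¹ q(B), B)`. -/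
theorem frame [IsAlgClosed E] (A B : Matrix (Fin n) (Fin n) E)
    (hind : AlgebraicIndependent K (Sum.elim (fun p : Fin n × Fin n => A p.1 p.2)
      (fun p : Fin n × Fin n => B p.1 p.2)))
    {D : Fin n → K} (hD : Function.Injective D) (hD0 : ∀ i, D i ≠ 0) :
    ∃ (h h' : Matrix (Fin n) (Fin n) E) (q : Polynomial E), h * h' = 1 ∧ h' * h = 1 ∧
      A = h * diagonal (fun i => algebraMap K E (D i)) * h' * Polynomial.aeval B q ∧
      B.charpoly.Separable ∧ IsUnit (Polynomial.aeval B q) := by
  classical
  obtain ⟨hB, hA1⟩ := AlgebraicIndependent.sumElim_iff.1 hind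
  let S : Set E := Set.range (fun p : Fin n × Fin n => B p.1 p.2)
  let K1 := IntermediateField.adjoin K S
  let F := algebraicClosure K1 E
  have hA2 : AlgebraicIndependent K1 (fun p : Fin n × Fin n => A p.1 p.2) :=
    IntermediateField.algebraicIndependent_adjoin_iff.2 hA1
  have hA3 : AlgebraicIndependent F (fun p : Fin n × Fin n => A p.1 p.2) := hA2.algebraicClosure
  have hFcl : IsAlgClosed F := (algebraicClosure.isAlgClosure K1 E).isAlgClosed
  have hBsep := separable_of_generic hB hD
  let B0 : Matrix (Fin n) (Fin n) F := Matrix.of fun i j =>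
    algebraMap K1 F ⟨B i j, IntermediateField.subset_adjoin K S ⟨(i, j), rfl⟩⟩
  have hB0 : B0.map (algebraMap F E) = B := by
    ext i j
    rfl
  have hcp : B.charpoly = B0.charpoly.map (algebraMap F E) := by
    rw [← Matrix.charpoly_map, hB0]
  have hB0sep : B0.charpoly.Separable := by
    rw [hcp, Polynomial.separable_map] at hBsep
    exact hBsep
  obtain ⟨b, hb, hbp⟩ := exists_roots B0.charpoly_monic
    (by rw [Matrix.charpoly_natDegree_eq_dim, Fintype.card_fin]) hB0sep
  obtain ⟨g, g', hgg', hg'g, hB0g⟩ := exists_diag B0 b hb hbp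
  have hM := pm_of_generic hA3 g g' hg'g
  set G := g.map (algebraMap F E) with hG
  set G' := g'.map (algebraMap F E) with hG'
  have hGG' : G * G' = 1 := by
    rw [hG, hG', ← Matrix.map_mul, hgg']
    exact Matrix.map_one _ (map_zero _) (map_one _)
  have hG'G : G' * G = 1 := by
    rw [hG, hG', ← Matrix.map_mul, hg'g]
    exact Matrix.map_one _ (map_zero _) (map_one _)
  have hBG : B = G * diagonal (fun i => algebraMap F E (b i)) * G' := by
    rw [← hB0, hB0g, Matrix.map_mul, Matrix.map_mul, Matrix.diagonal_map (map_zero _)]
  set M := G' * A * G with hMdef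
  have hpmonic : (∏ i, (Polynomial.X - Polynomial.C (algebraMap K E (D i)))).Monic :=
    Polynomial.monic_prod_of_monic _ _ (fun i _ => Polynomial.monic_X_sub_C _)
  have hpdeg : (∏ i, (Polynomial.X - Polynomial.C (algebraMap K E (D i)))).natDegree = n := by
    rw [Polynomial.natDegree_prod_of_monic _ _ (fun i _ => Polynomial.monic_X_sub_C _)]
    simp
  obtain ⟨u, hu⟩ := exists_charpoly_eq hM _ hpmonic hpdeg
  obtain ⟨h1, h1', h11, h11', hMu⟩ := exists_diag (M * diagonal u)
    (fun i => algebraMap K E (D i)) ((algebraMap K E).injective.comp hD) hu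
  have hu0 : ∀ i, u i ≠ 0 := by
    have h2 : (M * diagonal u).det ≠ 0 := by
      rw [hMu, Matrix.det_mul, Matrix.det_mul, Matrix.det_diagonal]
      have h3 : h1.det * h1'.det = 1 := by rw [← Matrix.det_mul, h11, Matrix.det_one]
      have h4 : h1.det * (∏ i, algebraMap K E (D i)) * h1'.det =
          (∏ i, algebraMap K E (D i)) * (h1.det * h1'.det) := by ring
      rw [h4, h3, mul_one, Finset.prod_ne_zero_iff]
      intro i _
      rw [Ne, map_eq_zero_iff _ (algebraMap K E).injective]
      exact hD0 i
    rw [Matrix.det_mul, Matrix.det_diagonal] at h2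
    intro i
    exact Finset.prod_ne_zero_iff.1 (right_ne_zero_of_mul h2) i (Finset.mem_univ i)
  let q : Polynomial E := Lagrange.interpolate Finset.univ (fun i => algebraMap F E (b i))
    (fun i => (u i)⁻¹)
  have hq : ∀ i, q.eval (algebraMap F E (b i)) = (u i)⁻¹ := fun i =>
    Lagrange.eval_interpolate_at_node _ (((algebraMap F E).injective.comp hb).injOn)
      (Finset.mem_univ i)
  have hqB : Polynomial.aeval B q = G * diagonal (fun i => (u i)⁻¹) * G' := by
    rw [hBG, aeval_conj' _ _ _ hGG' hG'G, aeval_diagonal']
    congr 3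
    funext i
    exact hq i
  have hdd : diagonal u * diagonal (fun i => (u i)⁻¹) = 1 := by
    rw [Matrix.diagonal_mul_diagonal, ← Matrix.diagonal_one]
    congr 1
    funext i
    exact mul_inv_cancel₀ (hu0 i)
  refine ⟨G * h1, h1' * G', q, ?_, ?_, ?_, hBsep, ?_⟩
  · calc G * h1 * (h1' * G') = G * (h1 * h1') * G' := by simp only [Matrix.mul_assoc]
      _ = 1 := by rw [h11, mul_one, hGG']
  · calc h1' * G' * (G * h1) = h1' * (G' * G) * h1 := by simp only [Matrix.mul_assoc]
      _ = 1 := by rw [hG'G, mul_one, h11']
  · rw [hqB]
    calc A = (G * G') * A * (G * G') := by rw [hGG', one_mul, mul_one]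
      _ = G * M * G' := by rw [hMdef]; simp only [Matrix.mul_assoc]
      _ = G * (M * (diagonal u * diagonal (fun i => (u i)⁻¹))) * G' := by rw [hdd, mul_one]
      _ = G * ((M * diagonal u) * diagonal (fun i => (u i)⁻¹)) * G' := by
          simp only [Matrix.mul_assoc]
      _ = G * ((h1 * diagonal (fun i => algebraMap K E (D i)) * h1') *
            diagonal (fun i => (u i)⁻¹)) * G' := by rw [hMu]
      _ = G * ((h1 * diagonal (fun i => algebraMap K E (D i)) * h1') * (G' * G) *
            diagonal (fun i => (u i)⁻¹)) * G' := by rw [hG'G, mul_one]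
      _ = _ := by simp only [Matrix.mul_assoc]
  · rw [hqB]
    refine ⟨⟨G * diagonal (fun i => (u i)⁻¹) * G', G * diagonal u * G', ?_, ?_⟩, rfl⟩
    · calc G * diagonal (fun i => (u i)⁻¹) * G' * (G * diagonal u * G')
          = G * diagonal (fun i => (u i)⁻¹) * (G' * G) * diagonal u * G' := by
            simp only [Matrix.mul_assoc]
        _ = G * (diagonal (fun i => (u i)⁻¹) * diagonal u) * G' := by
            rw [hG'G, mul_one]; simp only [Matrix.mul_assoc]
        _ = 1 := by rw [mul_eq_one_comm.1 hdd, mul_one, hGG']
    · calc G * diagonal u * G' * (G * diagonal (fun i => (u i)⁻¹) * G')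
          = G * diagonal u * (G' * G) * diagonal (fun i => (u i)⁻¹) * G' := by
            simp only [Matrix.mul_assoc]
        _ = G * (diagonal u * diagonal (fun i => (u i)⁻¹)) * G' := by
            rw [hG'G, mul_one]; simp only [Matrix.mul_assoc]
        _ = 1 := by rw [hdd, mul_one, hGG']

end generic

end Crest.Agent.R003
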