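import Mathlib
import Crest.Agent.R003.Fr576
import Crest.Agent.R003.Deb576
import Crest.Agent.R003.Gl478A
import Crest.Agent.R003.Cg475F

/-!
# R3 (S0003), Part 3(v): from the special solutions `(g D g⁻¹ c, B, …)` to all solutions
-/

set_option autoImplicit false

namespace Crest.Agent.R003

namespace Gen

open Matrix MvPolynomial

universe u v w

section ring

variable {ι : Type*} {n : ℕ} {R : Type*} [CommRing R]

/-- product of commutators with adjugates instead of inverses -/
def Wadj (M : ι × Bool → Matrix (Fin n) (Fin n) R) (l : List ι) : Matrix (Fin n) (Fin n) R :=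
  (l.map fun i => M (i, false) * M (i, true) * adjugate (M (i, false)) *
    adjugate (M (i, true))).prod

/-- the product of the determinants -/
def dd (M : ι × Bool → Matrix (Fin n) (Fin n) R) (l : List ι) : R :=
  (l.map fun i => (M (i, false)).det * (M (i, true)).det).prod

theorem Wadj_map {S : Type*} [CommRing S] (φ : R →+* S)
    (M : ι × Bool → Matrix (Fin n) (Fin n) R) (l : List ι) :
    (Wadj M l).map φ = Wadj (fun p => (M p).map φ) l := by
  induction l with
  | nil => simp [Wadj]
  | cons i l ih =>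
    simp only [Wadj, List.map_cons, List.prod_cons] at ih ⊢
    rw [Matrix.map_mul, ih, Matrix.map_mul, Matrix.map_mul, Matrix.map_mul]
    have h1 : ∀ N : Matrix (Fin n) (Fin n) R, (adjugate N).map φ = adjugate (N.map φ) := fun N =>
      (RingHom.map_adjugate φ N)
    rw [h1, h1]

theorem dd_map {S : Type*} [CommRing S] (φ : R →+* S)
    (M : ι × Bool → Matrix (Fin n) (Fin n) R) (l : List ι) :
    φ (dd M l) = dd (fun p => (M p).map φ) l := by
  induction l with
  | nil => simp [dd]
  | cons i l ih =>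
    simp only [dd, List.map_cons, List.prod_cons] at ih ⊢
    rw [map_mul, ih, map_mul]
    have h1 : ∀ N : Matrix (Fin n) (Fin n) R, φ N.det = (N.map φ).det := fun N =>
      (RingHom.map_det φ N)
    rw [h1, h1]

theorem adjugate_units (T : GL (Fin n) R) : adjugate T.1 = T.1.det • (T⁻¹).1 := by
  have h1 : T.1 * adjugate T.1 = T.1.det • 1 := Matrix.mul_adjugate T.1
  have h2 : (T⁻¹).1 * T.1 = 1 := by rw [← Units.val_mul, inv_mul_cancel]; rfl
  calc adjugate T.1 = ((T⁻¹).1 * T.1) * adjugate T.1 := by rw [h2, one_mul]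
    _ = (T⁻¹).1 * (T.1 * adjugate T.1) := by rw [mul_assoc]
    _ = T.1.det • (T⁻¹).1 := by rw [h1, Matrix.mul_smul, mul_one]

theorem Wadj_GL (T : ι × Bool → GL (Fin n) R) (l : List ι) :
    Wadj (fun p => (T p).1) l = dd (fun p => (T p).1) l •
      ((l.map fun i => T (i, false) * T (i, true) * (T (i, false))⁻¹ *
        (T (i, true))⁻¹).prod).1 := by
  induction l with
  | nil => simp [Wadj, dd]
  | cons i l ih =>
    simp only [Wadj, dd, List.map_cons, List.prod_cons] at ih ⊢
    rw [ih, adjugate_units, adjugate_units]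
    simp only [Units.val_mul, Matrix.mul_smul, Matrix.smul_mul, smul_smul]
    congr 1
    ring

theorem det_comm_prod (T : ι × Bool → GL (Fin n) R) (l : List ι) :
    (((l.map fun i => T (i, false) * T (i, true) * (T (i, false))⁻¹ *
        (T (i, true))⁻¹).prod).1).det = 1 := by
  induction l with
  | nil => simp
  | cons i l ih =>
    rw [List.map_cons, List.prod_cons, Units.val_mul, Matrix.det_mul, ih, mul_one]
    simp only [Units.val_mul, Matrix.det_mul]
    have h1 : ∀ g : GL (Fin n) R, g.1.det * (g⁻¹).1.det = 1 := by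
      intro g
      rw [← Matrix.det_mul, ← Units.val_mul, mul_inv_cancel]
      simp
    calc _ = ((T (i, false)).1.det * ((T (i, false))⁻¹).1.det) *
          ((T (i, true)).1.det * ((T (i, true))⁻¹).1.det) := by ring
      _ = 1 := by rw [h1, h1, one_mul]

end ring

/-- a `K`-algebra of finite type (nontrivial) over an algebraically closed field has a point -/
theorem exists_algHom {K : Type u} [Field K] [IsAlgClosed K] (R : Type v) [CommRing R] [Nontrivial R]
    [Algebra K R] [Algebra.FiniteType K R] : Nonempty (R →ₐ[K] K) := by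
  obtain ⟨m, hm⟩ := Ideal.exists_maximal R
  let _ : Field (R ⧸ m) := Ideal.Quotient.field m
  have h1 : Algebra.FiniteType K (R ⧸ m) :=
    Algebra.FiniteType.of_surjective (Ideal.Quotient.mkₐ K m) (Ideal.Quotient.mkₐ_surjective K m)
  have h2 : Module.Finite K (R ⧸ m) := finite_of_finite_type_of_isJacobsonRing K (R ⧸ m)
  have h3 : Function.Bijective (algebraMap K (R ⧸ m)) :=
    IsAlgClosed.algebraMap_bijective_of_isIntegral
  let e : K ≃ₐ[K] (R ⧸ m) := AlgEquiv.ofBijective (Algebra.ofId K (R ⧸ m)) h3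
  exact ⟨e.symm.toAlgHom.comp (Ideal.Quotient.mkₐ K m)⟩

section gen

variable {J : Type} {k : ℕ}

/-- the generic family of matrices -/
noncomputable def gen (J : Type) (k : ℕ) (p : J) :
    Matrix (Fin k) (Fin k) (MvPolynomial (J × Fin k × Fin k) ℂ) :=
  Matrix.of fun a b => X (p, a, b)

theorem gen_map {R : Type*} [CommRing R] [Algebra ℂ R] (T : J → Matrix (Fin k) (Fin k) R) (p : J) :
    (gen J k p).map (aeval (R := ℂ) fun q : J × Fin k × Fin k => T q.1 q.2.1 q.2.2) = T p := by
  ext a b
  simp [gen]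

/-- clearing denominators -/
theorem exists_clear [Fintype J] {F : (J → G k) → ℂ} (hF : F ∈ Pol J k) :
    ∃ (f : MvPolynomial (J × Fin k × Fin k) ℂ) (N : ℕ), ∀ T : J → G k,
      F T * (∏ p, (T p).1.det) ^ N = aeval (fun q : J × Fin k × Fin k => (T q.1).1 q.2.1 q.2.2) f := by
  classical
  let dp : MvPolynomial (J × Fin k × Fin k) ℂ := ∏ p, (gen J k p).det
  have hdet : ∀ (T : J → G k) p, aeval (fun q : J × Fin k × Fin k => (T q.1).1 q.2.1 q.2.2)
      (gen J k p).det = (T p).1.det := by
    intro T p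
    rw [AlgHom.map_det, AlgHom.mapMatrix_apply]
    congr 1
    exact gen_map (fun p => (T p).1) p
  have hdp : ∀ T : J → G k, aeval (fun q : J × Fin k × Fin k => (T q.1).1 q.2.1 q.2.2) dp =
      ∏ p, (T p).1.det := by
    intro T
    rw [map_prod]
    exact Finset.prod_congr rfl (fun p _ => hdet T p)
  induction hF using Algebra.adjoin_induction with
  | mem F hF =>
    rcases hF with ⟨x, i, j, rfl⟩ | ⟨x, i, j, rfl⟩
    · exact ⟨X (x, i, j), 0, fun T => by simp⟩
    · refine ⟨adjugate (gen J k x) i j * ∏ p ∈ Finset.univ.erase x, (gen J k p).det, 1, ?_⟩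
      intro T
      rw [map_mul, map_prod, pow_one]
      have h1 : aeval (fun q : J × Fin k × Fin k => (T q.1).1 q.2.1 q.2.2)
          (adjugate (gen J k x) i j) = (T x).1.det * ((T x)⁻¹).1 i j := by
        have h2 : ((adjugate (gen J k x)).map
            (aeval (R := ℂ) fun q : J × Fin k × Fin k => (T q.1).1 q.2.1 q.2.2)) =
            adjugate (T x).1 := by
          have h3 := RingHom.map_adjugate
            (aeval (R := ℂ) fun q : J × Fin k × Fin k => (T q.1).1 q.2.1 q.2.2).toRingHom
            (gen J k x)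
          have h4 : (aeval (R := ℂ) fun q : J × Fin k × Fin k =>
              (T q.1).1 q.2.1 q.2.2).toRingHom.mapMatrix (gen J k x) = (T x).1 :=
            gen_map (fun p => (T p).1) x
          rw [h4] at h3
          exact h3
        have h5 := congrFun (congrFun h2 i) j
        rw [Matrix.map_apply, adjugate_units, Matrix.smul_apply, smul_eq_mul] at h5
        exact h5
      rw [h1, ← Finset.mul_prod_erase Finset.univ _ (Finset.mem_univ x)]
      rw [Finset.prod_congr rfl (fun p _ => hdet T p)]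
      ring
  | algebraMap r =>
    refine ⟨C r, 0, fun T => ?_⟩
    rw [pow_zero, mul_one, aeval_C]
    rfl
  | add F1 F2 _ _ h1 h2 =>
    obtain ⟨f1, N1, h1⟩ := h1
    obtain ⟨f2, N2, h2⟩ := h2
    refine ⟨f1 * dp ^ N2 + f2 * dp ^ N1, N1 + N2, fun T => ?_⟩
    rw [map_add, map_mul, map_mul, map_pow, map_pow, hdp, ← h1, ← h2, Pi.add_apply]
    ring
  | mul F1 F2 _ _ h1 h2 =>
    obtain ⟨f1, N1, h1⟩ := h1
    obtain ⟨f2, N2, h2⟩ := h2
    refine ⟨f1 * f2, N1 + N2, fun T => ?_⟩
    rw [map_mul, ← h1, ← h2, Pi.mul_apply]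
    ring

theorem scal_val (k : ℕ) (ξ : ℂˣ) : (scal k k ξ).1 = Matrix.scalar (Fin k) (ξ : ℂ) := by
  ext a b
  change Matrix.diagonal (fun i : Fin k => ((if i.1 < k then ξ else 1 : ℂˣ) : ℂ)) a b = _
  rw [Matrix.scalar_apply, Matrix.diagonal_apply, Matrix.diagonal_apply]
  simp

/-- specialisation to `ℂ` of a solution over a field `E ⊇ ℂ` of the special form -/
theorem specialise_special {E : Type u} [Field E] [Algebra ℂ E] {h : ℕ} (i0 : Fin h)
    (TE : Fin h × Bool → GL (Fin k) E) (ξ : ℂˣ)
    (hZ : (((List.finRange h).map fun i => TE (i, false) * TE (i, true) * (TE (i, false))⁻¹ *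
        (TE (i, true))⁻¹).prod).1 = Matrix.scalar (Fin k) (algebraMap ℂ E ξ))
    (D : Fin k → ℂˣ) (H H1 Cm C1 : Matrix (Fin k) (Fin k) E) (hH : H * H1 = 1)
    (hC : Cm * C1 = 1) (hcomm : Cm * (TE (i0, true)).1 = (TE (i0, true)).1 * Cm)
    (hA : (TE (i0, false)).1 = H * diagonal (fun i => algebraMap ℂ E (D i)) * H1 * Cm)
    (hsep : (TE (i0, true)).1.charpoly.Separable)
    (f : MvPolynomial ((Fin h × Bool) × Fin k × Fin k) ℂ)
    (hf : aeval (fun q : (Fin h × Bool) × Fin k × Fin k => (TE q.1).1 q.2.1 q.2.2) f ≠ 0) :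
    ∃ T1 ∈ Gl.Z k h ξ, (∃ g c : G k, c * T1 (i0, true) = T1 (i0, true) * c ∧
      T1 (i0, false) = g * dg D * g⁻¹ * c) ∧ (T1 (i0, true)).1.charpoly.Separable ∧
      aeval (fun q : (Fin h × Bool) × Fin k × Fin k => (T1 q.1).1 q.2.1 q.2.2) f ≠ 0 := by
  classical
  -- the element to be inverted
  let x : (Fin h × Bool) × Fin k × Fin k → E := fun q => (TE q.1).1 q.2.1 q.2.2
  let w : E := aeval x f * Polynomial.resultant (TE (i0, true)).1.charpoly
    (Polynomial.derivative (TE (i0, true)).1.charpoly) k k * ∏ p, (TE p).1.det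
  have hw : w ≠ 0 := by
    refine mul_ne_zero (mul_ne_zero hf ?_) ?_
    · exact (separable_iff_resultant (Matrix.charpoly_monic _)
        (by rw [Matrix.charpoly_natDegree_eq_dim, Fintype.card_fin])).1 hsep
    · rw [Finset.prod_ne_zero_iff]
      intro p _
      exact ((Matrix.isUnit_iff_isUnit_det _).1 (TE p).isUnit).ne_zero
  let S : Set E := Set.range x ∪ Set.range (fun q : Fin k × Fin k => H q.1 q.2) ∪
    Set.range (fun q : Fin k × Fin k => H1 q.1 q.2) ∪
    Set.range (fun q : Fin k × Fin k => Cm q.1 q.2) ∪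
    Set.range (fun q : Fin k × Fin k => C1 q.1 q.2) ∪ {w⁻¹}
  have hSfin : S.Finite := by
    refine ((((Set.finite_range _).union (Set.finite_range _)).union (Set.finite_range _)).union
      (Set.finite_range _)).union (Set.finite_range _) |>.union (Set.finite_singleton _)
  let R0 := Algebra.adjoin ℂ S
  have hft : Algebra.FiniteType ℂ R0 := by
    rw [← Subalgebra.fg_iff_finiteType]
    exact Subalgebra.fg_def.2 ⟨S, hSfin, rfl⟩
  obtain ⟨φ⟩ := exists_algHom (K := ℂ) R0
  have hmem : ∀ {z : E}, z ∈ S → z ∈ R0 := fun hz => Algebra.subset_adjoin hz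
  have hxm : ∀ q, x q ∈ R0 := fun q => hmem (by
    simp only [S, Set.mem_union, Set.mem_range]
    exact Or.inl (Or.inl (Or.inl (Or.inl (Or.inl ⟨q, rfl⟩)))))
  have hHm : ∀ a b, H a b ∈ R0 := fun a b => hmem (by
    simp only [S, Set.mem_union, Set.mem_range]
    exact Or.inl (Or.inl (Or.inl (Or.inl (Or.inr ⟨(a, b), rfl⟩)))))
  have hH1m : ∀ a b, H1 a b ∈ R0 := fun a b => hmem (by
    simp only [S, Set.mem_union, Set.mem_range]
    exact Or.inl (Or.inl (Or.inl (Or.inr ⟨(a, b), rfl⟩))))
  have hCm : ∀ a b, Cm a b ∈ R0 := fun a b => hmem (by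
    simp only [S, Set.mem_union, Set.mem_range]
    exact Or.inl (Or.inl (Or.inr ⟨(a, b), rfl⟩)))
  have hC1m : ∀ a b, C1 a b ∈ R0 := fun a b => hmem (by
    simp only [S, Set.mem_union, Set.mem_range]
    exact Or.inl (Or.inr ⟨(a, b), rfl⟩))
  have hwm : w⁻¹ ∈ R0 := hmem (by simp [S])
  -- lifting
  let j : R0 →+* E := R0.val.toRingHom
  have hj : Function.Injective j := Subtype.val_injective
  have hjM : ∀ {M N : Matrix (Fin k) (Fin k) R0}, M.map j = N.map j → M = N := by
    intro M N hMN
    ext a b : 1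
    exact hj (congrFun (congrFun hMN a) b)
  let T0 : Fin h × Bool → Matrix (Fin k) (Fin k) R0 := fun p =>
    Matrix.of fun a b => ⟨x (p, a, b), hxm _⟩
  let H0 : Matrix (Fin k) (Fin k) R0 := Matrix.of fun a b => ⟨H a b, hHm a b⟩
  let H10 : Matrix (Fin k) (Fin k) R0 := Matrix.of fun a b => ⟨H1 a b, hH1m a b⟩
  let C0 : Matrix (Fin k) (Fin k) R0 := Matrix.of fun a b => ⟨Cm a b, hCm a b⟩
  let C10 : Matrix (Fin k) (Fin k) R0 := Matrix.of fun a b => ⟨C1 a b, hC1m a b⟩
  have hT0 : ∀ p, (T0 p).map j = (TE p).1 := fun p => by ext a b; rfl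
  have hH0 : H0.map j = H := by ext a b; rfl
  have hH10 : H10.map j = H1 := by ext a b; rfl
  have hC0 : C0.map j = Cm := by ext a b; rfl
  have hC10 : C10.map j = C1 := by ext a b; rfl
  have hjalg : ∀ a : ℂ, j (algebraMap ℂ R0 a) = algebraMap ℂ E a := fun a => rfl
  have hone : (1 : Matrix (Fin k) (Fin k) R0).map j = 1 :=
    Matrix.map_one _ (map_zero _) (map_one _)
  -- identities over `R0`
  have eH : H0 * H10 = 1 := hjM (by rw [Matrix.map_mul, hH0, hH10, hH, hone])
  have eC : C0 * C10 = 1 := hjM (by rw [Matrix.map_mul, hC0, hC10, hC, hone])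
  have ecomm : C0 * T0 (i0, true) = T0 (i0, true) * C0 := hjM (by
    rw [Matrix.map_mul, Matrix.map_mul, hC0, hT0, hcomm])
  have eA : T0 (i0, false) = H0 * diagonal (fun i => algebraMap ℂ R0 (D i)) * H10 * C0 := hjM (by
    rw [Matrix.map_mul, Matrix.map_mul, Matrix.map_mul, hH0, hH10, hC0, hT0, hA,
      Matrix.diagonal_map (map_zero _)]
    rfl)
  have eW : Wadj T0 (List.finRange h) = dd T0 (List.finRange h) •
      Matrix.scalar (Fin k) (algebraMap ℂ R0 ξ) := hjM (by
    rw [Wadj_map]
    have h1 : (fun p => (T0 p).map j) = fun p => (TE p).1 := funext hT0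
    rw [h1, Wadj_GL, hZ]
    ext a b
    rw [Matrix.map_apply, Matrix.smul_apply, Matrix.smul_apply, smul_eq_mul, smul_eq_mul, map_mul,
      dd_map, h1]
    congr 1
    rw [Matrix.scalar_apply, Matrix.scalar_apply, Matrix.diagonal_apply, Matrix.diagonal_apply]
    split_ifs
    · rfl
    · simp)
  -- the inverted element
  let x0 : (Fin h × Bool) × Fin k × Fin k → R0 := fun q => ⟨x q, hxm q⟩
  let w0 : R0 := aeval x0 f * Polynomial.resultant (T0 (i0, true)).charpoly
    (Polynomial.derivative (T0 (i0, true)).charpoly) k k * ∏ p, (T0 p).det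
  have hx0 : j (aeval x0 f) = aeval x f := by
    have h1 := MvPolynomial.map_aeval x0 j f
    rw [h1, MvPolynomial.aeval_def]
    rfl
  have hw0 : j w0 = w := by
    simp only [w0, w, map_mul, map_prod]
    rw [hx0]
    congr 1
    · congr 1
      rw [← Polynomial.resultant_map_map, ← Polynomial.derivative_map, ← Matrix.charpoly_map, hT0]
    · refine Finset.prod_congr rfl (fun p _ => ?_)
      rw [← hT0 p]
      exact RingHom.map_det j (T0 p)
  have hw1 : w0 * ⟨w⁻¹, hwm⟩ = 1 := hj (by
    rw [map_mul, hw0, map_one]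
    exact mul_inv_cancel₀ hw)
  have hφw : φ w0 ≠ 0 := by
    intro h0
    have := congrArg φ hw1
    rw [map_mul, h0, zero_mul, map_one] at this
    exact zero_ne_one this
  have hφ1 : φ (aeval x0 f) ≠ 0 := by
    intro h0; apply hφw; simp only [w0, map_mul, h0, zero_mul]
  have hφ2 : φ (Polynomial.resultant (T0 (i0, true)).charpoly
      (Polynomial.derivative (T0 (i0, true)).charpoly) k k) ≠ 0 := by
    intro h0; apply hφw; simp only [w0, map_mul, h0, zero_mul, mul_zero]
  have hφ3 : ∀ p, φ ((T0 p).det) ≠ 0 := by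
    intro p h0
    apply hφw
    have : φ (∏ p, (T0 p).det) = 0 := by
      rw [map_prod]; exact Finset.prod_eq_zero (Finset.mem_univ p) h0
    simp only [w0, map_mul, this, mul_zero]
  -- the point over `ℂ`
  let φr : R0 →+* ℂ := φ.toRingHom
  have hdet : ∀ p, ((T0 p).map φr).det ≠ 0 := fun p => by
    rw [show ((T0 p).map φr).det = φ ((T0 p).det) from (RingHom.map_det φr (T0 p)).symm]
    exact hφ3 p
  let T1 : Fin h × Bool → G k := fun p => Matrix.GeneralLinearGroup.mkOfDetNeZero _ (hdet p)
  have hT1 : ∀ p, (T1 p).1 = (T0 p).map φr := fun p => rfl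
  have honeφ : (1 : Matrix (Fin k) (Fin k) R0).map φr = 1 :=
    Matrix.map_one _ (map_zero _) (map_one _)
  have fH : H0.map φr * H10.map φr = 1 := by rw [← Matrix.map_mul, eH, honeφ]
  have fC : C0.map φr * C10.map φr = 1 := by rw [← Matrix.map_mul, eC, honeφ]
  let g : G k := ⟨H0.map φr, H10.map φr, fH, mul_eq_one_comm.1 fH⟩
  let c : G k := ⟨C0.map φr, C10.map φr, fC, mul_eq_one_comm.1 fC⟩
  refine ⟨T1, ?_, ⟨g, c, ?_, ?_⟩, ?_, ?_⟩
  · have h1 := Wadj_map φr T0 (List.finRange h)
    have h2 : (fun p => (T0 p).map φr) = fun p => (T1 p).1 := rfl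
    rw [h2, Wadj_GL, eW] at h1
    have h3 : dd (fun p => (T1 p).1) (List.finRange h) ≠ 0 := by
      unfold dd
      apply List.prod_ne_zero
      intro h0
      rw [List.mem_map] at h0
      obtain ⟨i, _, hi⟩ := h0
      rcases mul_eq_zero.1 hi with h4 | h4
      · exact hdet _ h4
      · exact hdet _ h4
    have h4 : (dd T0 (List.finRange h) • Matrix.scalar (Fin k) (algebraMap ℂ R0 ξ)).map φr =
        dd (fun p => (T1 p).1) (List.finRange h) • Matrix.scalar (Fin k) (ξ : ℂ) := by
      ext a b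
      rw [Matrix.map_apply, Matrix.smul_apply, Matrix.smul_apply, smul_eq_mul, smul_eq_mul, map_mul,
        dd_map, h2]
      congr 1
      rw [Matrix.scalar_apply, Matrix.scalar_apply, Matrix.diagonal_apply, Matrix.diagonal_apply]
      split_ifs
      · exact φ.commutes _
      · simp
    rw [h4] at h1
    have h5 := smul_right_injective _ h3 h1
    change ((List.finRange h).map fun i => T1 (i, false) * T1 (i, true) * (T1 (i, false))⁻¹ *
      (T1 (i, true))⁻¹).prod = scal k k ξ
    apply Units.ext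
    rw [← h5, scal_val]
  · apply Units.ext
    rw [Units.val_mul, Units.val_mul]
    change C0.map φr * (T0 (i0, true)).map φr = (T0 (i0, true)).map φr * C0.map φr
    rw [← Matrix.map_mul, ← Matrix.map_mul, ecomm]
  · apply Units.ext
    rw [Units.val_mul, Units.val_mul, Units.val_mul]
    change (T0 (i0, false)).map φr = H0.map φr * diagonal (fun i => (D i : ℂ)) * H10.map φr *
      C0.map φr
    rw [eA, Matrix.map_mul, Matrix.map_mul, Matrix.map_mul, Matrix.diagonal_map (map_zero _)]
    congr 3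
    have h6 : (fun i => φr (algebraMap ℂ R0 (D i : ℂ))) = fun i => (D i : ℂ) := by
      funext i
      exact φ.commutes _
    rw [← h6]
  · rw [separable_iff_resultant (Matrix.charpoly_monic _)
      (by rw [Matrix.charpoly_natDegree_eq_dim, Fintype.card_fin])]
    have h6 : (T1 (i0, true)).1.charpoly = (T0 (i0, true)).charpoly.map φr := by
      rw [hT1, Matrix.charpoly_map]
    rw [h6, Polynomial.derivative_map, Polynomial.resultant_map_map]
    exact hφ2
  · have h6 : aeval (fun q : (Fin h × Bool) × Fin k × Fin k => (T1 q.1).1 q.2.1 q.2.2) f =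
        φ (aeval x0 f) := by
      rw [← AlgHom.comp_apply, MvPolynomial.comp_aeval]
      rfl
    rw [h6]
    exact hφ1

theorem aeval_Wadj {ι : Type} {R : Type*} [CommRing R] [Algebra ℂ R]
    (T : ι × Bool → Matrix (Fin k) (Fin k) R) (l : List ι) (a b : Fin k) :
    aeval (fun q : (ι × Bool) × Fin k × Fin k => T q.1 q.2.1 q.2.2)
      (Wadj (gen (ι × Bool) k) l a b) = Wadj T l a b := by
  have h1 := Wadj_map (aeval (R := ℂ)
    fun q : (ι × Bool) × Fin k × Fin k => T q.1 q.2.1 q.2.2).toRingHom (gen (ι × Bool) k) l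
  have h2 : (fun p => (gen (ι × Bool) k p).map (aeval (R := ℂ)
      fun q : (ι × Bool) × Fin k × Fin k => T q.1 q.2.1 q.2.2).toRingHom) = T :=
    funext fun p => gen_map T p
  rw [h2] at h1
  rw [← h1]
  rfl

theorem aeval_dd {ι : Type} {R : Type*} [CommRing R] [Algebra ℂ R]
    (T : ι × Bool → Matrix (Fin k) (Fin k) R) (l : List ι) :
    aeval (fun q : (ι × Bool) × Fin k × Fin k => T q.1 q.2.1 q.2.2)
      (dd (gen (ι × Bool) k) l) = dd T l := by
  have h1 := dd_map (aeval (R := ℂ)
    fun q : (ι × Bool) × Fin k × Fin k => T q.1 q.2.1 q.2.2).toRingHom (gen (ι × Bool) k) l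
  have h2 : (fun p => (gen (ι × Bool) k p).map (aeval (R := ℂ)
      fun q : (ι × Bool) × Fin k × Fin k => T q.1 q.2.1 q.2.2).toRingHom) = T :=
    funext fun p => gen_map T p
  rw [h2] at h1
  rw [← h1]
  rfl

theorem dd_ne_zero {ι : Type} {E : Type*} [Field E] (T : ι × Bool → GL (Fin k) E) (l : List ι) :
    dd (fun p => (T p).1) l ≠ 0 := by
  unfold dd
  apply List.prod_ne_zero
  intro h0
  rw [List.mem_map] at h0
  obtain ⟨i, _, hi⟩ := h0
  rcases mul_eq_zero.1 hi with h4 | h4
  · exact ((Matrix.isUnit_iff_isUnit_det _).1 (T (i, false)).isUnit).ne_zero h4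
  · exact ((Matrix.isUnit_iff_isUnit_det _).1 (T (i, true)).isUnit).ne_zero h4

/-- Part 3(v): if all special solutions (`A₁ = g D g⁻¹ c`, `c` commuting with the separable `B₁`) are
approximable, then all solutions are. -/
theorem appr_of_special {O : Subring ℂ} {g : ℕ} (hk : 1 ≤ k) (hg : 1 ≤ g) (D : Fin k → ℂˣ)
    (hD : Function.Injective D) (ξ : ℂˣ)
    (hsp : ∀ T1 ∈ Gl.Z k (g + 1) ξ, (∃ a c : G k, c * T1 (0, true) = T1 (0, true) * c ∧
      T1 (0, false) = a * dg D * a⁻¹ * c) → (T1 (0, true)).1.charpoly.Separable →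
      Appr O (Gl.Z k (g + 1) ξ) Set.univ T1) :
    ∀ T ∈ Gl.Z k (g + 1) ξ, Appr O (Gl.Z k (g + 1) ξ) Set.univ T := by
  classical
  intro T hT F hF hv
  by_contra hne
  obtain ⟨f, N, hf⟩ := exists_clear hF
  let J := Fin (g + 1) × Bool
  let l := List.finRange (g + 1)
  let last : Fin k := ⟨k - 1, by omega⟩
  let m := {ab : Fin k × Fin k // ab ≠ (last, last)}
  let ent : J × Fin k × Fin k → ℂ := fun q => (T q.1).1 q.2.1 q.2.2
  let P : m → MvPolynomial (J × Fin k × Fin k) ℂ := fun ab =>
    Wadj (gen J k) l ab.1.1 ab.1.2 - dd (gen J k) l * C (Matrix.scalar (Fin k) (ξ : ℂ) ab.1.1 ab.1.2)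
  have hTW : (((List.finRange (g + 1)).map fun i => T (i, false) * T (i, true) * (T (i, false))⁻¹ *
      (T (i, true))⁻¹).prod) = scal k k ξ := hT
  have hξ : (ξ : ℂ) ^ k = 1 := by
    have h1 := det_comm_prod T l
    rw [hTW, scal_val] at h1
    rw [Matrix.scalar_apply, Matrix.det_diagonal] at h1
    simpa using h1
  have hP : ∀ ab, eval ent (P ab) = 0 := by
    intro ab
    have h1 : ∀ p : MvPolynomial (J × Fin k × Fin k) ℂ, eval ent p = aeval ent p := fun p => by
      rw [MvPolynomial.aeval_eq_eval]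
    rw [h1]
    simp only [P, map_sub, map_mul]
    rw [aeval_Wadj (fun p => (T p).1), aeval_dd (fun p => (T p).1), Wadj_GL, hTW, scal_val,
      Matrix.smul_apply, smul_eq_mul, aeval_C]
    simp
  obtain ⟨E, _, _, _, x, hxP, hxT, hcard⟩ := exists_generic P ent hP
  let TEm : J → Matrix (Fin k) (Fin k) E := fun p => Matrix.of fun a b => x (p, a, b)
  have hTEx : (fun q : J × Fin k × Fin k => TEm q.1 q.2.1 q.2.2) = x := rfl
  have hdet : ∀ p, (TEm p).det ≠ 0 := by
    intro p h0
    have h1 : aeval x ((gen J k p).det) = 0 := by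
      rw [← h0, AlgHom.map_det, AlgHom.mapMatrix_apply]
      congr 1
      exact gen_map TEm p
    have h2 := hxT _ h1
    have h3 : eval ent ((gen J k p).det) = (T p).1.det := by
      rw [RingHom.map_det, RingHom.mapMatrix_apply]
      congr 1
      ext a b
      simp [gen, ent]
    rw [h3] at h2
    exact ((Matrix.isUnit_iff_isUnit_det _).1 (T p).isUnit).ne_zero h2
  let TE : J → GL (Fin k) E := fun p => Matrix.GeneralLinearGroup.mkOfDetNeZero _ (hdet p)
  have hTE : ∀ p, (TE p).1 = TEm p := fun p => rfl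
  have hξE : (algebraMap ℂ E ξ) ^ k = 1 := by rw [← map_pow, hξ, map_one]
  have hξ0 : algebraMap ℂ E ξ ≠ 0 := by
    rw [Ne, map_eq_zero_iff _ (algebraMap ℂ E).injective]
    exact ξ.ne_zero
  -- the equation over `E`
  have hW : ((l.map fun i => TE (i, false) * TE (i, true) * (TE (i, false))⁻¹ *
      (TE (i, true))⁻¹).prod).1 = Matrix.scalar (Fin k) (algebraMap ℂ E ξ) := by
    obtain ⟨W, hWdef⟩ : ∃ W, W = ((l.map fun i => TE (i, false) * TE (i, true) *
      (TE (i, false))⁻¹ * (TE (i, true))⁻¹).prod).1 := ⟨_, rfl⟩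
    have hdetW : W.det = 1 := by rw [hWdef]; exact det_comm_prod TE l
    have hent : ∀ a b, (a, b) ≠ (last, last) →
        W a b = Matrix.scalar (Fin k) (algebraMap ℂ E ξ) a b := by
      intro a b hab
      have h1 := hxP ⟨(a, b), hab⟩
      simp only [P, map_sub, map_mul] at h1
      rw [← hTEx, aeval_Wadj TEm, aeval_dd TEm, sub_eq_zero] at h1
      have h2 := congrFun (congrFun (Wadj_GL TE l) a) b
      rw [← hWdef, Matrix.smul_apply, smul_eq_mul] at h2
      have h3 : Wadj TEm l a b = Wadj (fun p => (TE p).1) l a b := rfl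
      rw [h3, h2] at h1
      have h4 := mul_left_cancel₀ (dd_ne_zero TE l) h1
      rw [h4, aeval_C, Matrix.scalar_apply, Matrix.scalar_apply, Matrix.diagonal_apply,
        Matrix.diagonal_apply]
      split_ifs
      · rfl
      · simp
    have hdiag : W = diagonal (fun i => if i = last then W last last else algebraMap ℂ E ξ) := by
      ext a b
      rw [Matrix.diagonal_apply]
      by_cases hab : (a, b) = (last, last)
      · rw [Prod.mk.injEq] at hab
        rw [hab.1, hab.2]; simp
      · rw [hent a b hab, Matrix.scalar_apply, Matrix.diagonal_apply]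
        split_ifs with h1 h2
        · exfalso; apply hab; rw [← h1, h2]
        · rfl
        · rfl
    have hlast : W last last = algebraMap ℂ E ξ := by
      rw [hdiag, Matrix.det_diagonal, ← Finset.mul_prod_erase Finset.univ _ (Finset.mem_univ last)]
        at hdetW
      rw [if_pos rfl] at hdetW
      have h1 : ∏ x ∈ Finset.univ.erase last, (if x = last then W last last else algebraMap ℂ E ξ) =
          (algebraMap ℂ E ξ) ^ (k - 1) := by
        rw [Finset.prod_congr rfl (fun i hi => if_neg (Finset.ne_of_mem_erase hi)),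
          Finset.prod_const, Finset.card_erase_of_mem (Finset.mem_univ _), Finset.card_univ,
          Fintype.card_fin]
      rw [h1] at hdetW
      have h2 : algebraMap ℂ E ξ * (algebraMap ℂ E ξ) ^ (k - 1) = 1 := by
        rw [← pow_succ', show k - 1 + 1 = k by omega, hξE]
      exact mul_right_cancel₀ (pow_ne_zero (k - 1) hξ0) (hdetW.trans h2.symm)
    rw [← hWdef]
    rw [hdiag, hlast, Matrix.scalar_apply]
    congr 1
    funext i
    split_ifs <;> rfl
  -- transcendence degree
  have htd : 2 * (g + 1) * k ^ 2 + 1 ≤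
      td ℂ (Set.range fun q : (Fin (g + 1) × Bool) × Fin k × Fin k => (TE q.1).1 q.2.1 q.2.2) +
        k ^ 2 := by
    have h1 : Nat.card (J × Fin k × Fin k) = 2 * (g + 1) * k ^ 2 := by
      rw [Nat.card_eq_fintype_card]
      simp only [J, Fintype.card_prod, Fintype.card_fin, Fintype.card_bool]
      ring
    have h2 : Nat.card m = k ^ 2 - 1 := by
      rw [Nat.card_eq_fintype_card]
      simp only [m]
      rw [Fintype.card_subtype_compl (fun ab : Fin k × Fin k => ab = (last, last)),
        Fintype.card_subtype_eq, Fintype.card_prod, Fintype.card_fin, pow_two]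
    have h3 : (fun q : (Fin (g + 1) × Bool) × Fin k × Fin k => (TE q.1).1 q.2.1 q.2.2) = x := rfl
    rw [h3]
    rw [h1, h2] at hcard
    have h4 : 1 ≤ k ^ 2 := Nat.one_le_pow _ _ (by omega)
    omega
  have hind := Cg.gen_indep (F := ℂ) hg TE (ξ : ℂ) hW htd
  obtain ⟨H, H1, q, hH, hH', hA, hsep, hu⟩ := frame (K := ℂ) (TE (0, false)).1 (TE (0, true)).1 hind
    (D := fun i => (D i : ℂ)) (fun i j hij => hD (Units.ext hij)) (fun i => (D i).ne_zero)
  obtain ⟨cu, hcu⟩ := hu
  have hcomm : (Polynomial.aeval (TE (0, true)).1 q) * (TE (0, true)).1 =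
      (TE (0, true)).1 * (Polynomial.aeval (TE (0, true)).1 q) := by
    have h1 : Polynomial.aeval (TE (0, true)).1 (q * Polynomial.X) =
        Polynomial.aeval (TE (0, true)).1 (Polynomial.X * q) := by rw [mul_comm]
    rwa [map_mul, map_mul, Polynomial.aeval_X] at h1
  have hfx : aeval (fun q : (Fin (g + 1) × Bool) × Fin k × Fin k => (TE q.1).1 q.2.1 q.2.2) f ≠ 0 := by
    intro h0
    have h1 : eval ent f = 0 := hxT f h0
    have h2 := hf T
    have h3 : aeval ent f = eval ent f := by rw [MvPolynomial.aeval_eq_eval]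
    change F T * _ = aeval ent f at h2
    rw [h3, h1] at h2
    rcases mul_eq_zero.1 h2 with h4 | h4
    · exact hne h4
    · have h6 : (∏ p, (T p).1.det) ≠ 0 := by
        rw [Finset.prod_ne_zero_iff]
        intro p _
        exact ((Matrix.isUnit_iff_isUnit_det _).1 (T p).isUnit).ne_zero
      exact pow_ne_zero _ h6 h4
  obtain ⟨T1, hT1, ⟨a, c, hc1, hc2⟩, hT1s, hT1f⟩ := specialise_special (0 : Fin (g + 1)) TE ξ hW D H H1
    (Polynomial.aeval (TE (0, true)).1 q) (cu⁻¹).1 hH
    (by rw [← hcu, ← Units.val_mul, mul_inv_cancel]; rfl) hcomm hA hsep f hfx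
  have h1 := hsp T1 hT1 ⟨a, c, hc1, hc2⟩ hT1s F hF hv
  have h2 := hf T1
  rw [h1, zero_mul] at h2
  exact hT1f h2.symm

end gen

end Gen

end Crest.Agent.R003
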