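import Crest.Agent.R003.Flow992
import Crest.Agent.R003.Cyc644

/-!
# Row 3 (S0003): `WDStmt` + (ii) give the hypothesis of (v) (helper992)
-/

set_option autoImplicit false

namespace Crest.Agent.R003.Unit

open Polynomial

variable {O : Subring ℂ} {L : Subfield ℂ}

/-- If `A₁ = (g D g⁻¹) q(B₁)` with `B₁` separable then `T` is approximable. -/
theorem appr_of_WD_poly (hO : IsIntRing O L) {k h : ℕ} (D : Fin k → ℂˣ) (hWD : Gl.WDStmt O k D)
    (ξ : ℂˣ) (hξ : IsSc O ξ) (T : Fin (h + 1) × Bool → G k) (hT : T ∈ Gl.Z k (h + 1) ξ) (g c : G k)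
    (q : ℂ[X]) (hc : c.1 = aeval (T (0, true)).1 q) (hA : T (0, false) = g * dg D * g⁻¹ * c)
    (hsep : (T (0, true)).1.charpoly.Separable) : Appr O (Gl.Z k (h + 1) ξ) Set.univ T := by
  have hcomm : c * T (0, true) = T (0, true) * c := by
    apply Units.ext
    rw [Units.val_mul, Units.val_mul, hc]
    have h1 : aeval (T (0, true)).1 (q * X) = aeval (T (0, true)).1 (X * q) := by rw [mul_comm]
    rwa [map_mul, map_mul, aeval_X] at h1
  have hcomm' : c⁻¹ * T (0, true) = T (0, true) * c⁻¹ := by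
    rw [inv_mul_eq_iff_eq_mul, ← mul_assoc, hcomm, mul_inv_cancel_right]
  have hT0 := Z_update ξ T hT 0 c⁻¹ hcomm'
  have h0 : T (0, false) * c⁻¹ = g * dg D * g⁻¹ := by rw [hA, mul_inv_cancel_right]
  have h1 := hWD h ξ hξ _ hT0 ⟨g, by rw [Function.update_self, h0]⟩
  have h2 := flow_Z hO ξ 0 _ h1 (by
    rw [Function.update_of_ne (by simp)]
    exact hsep) c q (by
    rw [Function.update_of_ne (by simp)]
    exact hc)
  rw [Function.update_idem, Function.update_self, inv_mul_cancel_right,
    Function.update_eq_self] at h2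
  exact h2

/-- A matrix commuting with a separable matrix is a polynomial in it. -/
theorem exists_poly_of_separable {k : ℕ} (B C : Matrix (Fin k) (Fin k) ℂ)
    (hsep : B.charpoly.Separable) (hBC : C * B = B * C) : ∃ q : ℂ[X], C = aeval B q := by
  classical
  have hdeg : B.charpoly.natDegree = k := by
    rw [Matrix.charpoly_natDegree_eq_dim, Fintype.card_fin]
  obtain ⟨lam, hinj, hlam⟩ := exists_roots B.charpoly B.charpoly_monic hsep k hdeg
  -- eigenvectors
  have hv : ∀ i, ∃ v : Fin k → ℂ, v ≠ 0 ∧ B.mulVec v = lam i • v := by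
    intro i
    have h1 : B.charpoly.eval (lam i) = 0 := (hlam _).mpr ⟨i, rfl⟩
    have h2 : (Matrix.scalar (Fin k) (lam i) - B).det = 0 := by
      rw [← Matrix.eval_charpoly]
      exact h1
    obtain ⟨v, hv0, hv⟩ := Matrix.exists_mulVec_eq_zero_iff.mpr h2
    refine ⟨v, hv0, ?_⟩
    rw [Matrix.sub_mulVec, sub_eq_zero] at hv
    rw [← hv]
    ext j
    rw [Matrix.scalar_apply, Matrix.mulVec_diagonal]
    rfl
  choose v hv0 hv using hv
  -- they are linearly independent
  have hli : LinearIndependent ℂ v := by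
    refine Module.End.eigenvectors_linearIndependent' (Matrix.toLin' B) lam hinj v ?_
    intro i
    rw [Module.End.hasEigenvector_iff, Module.End.mem_eigenspace_iff]
    exact ⟨by rw [Matrix.toLin'_apply]; exact hv i, hv0 i⟩
  have hpow : ∀ (j : ℕ) (i : Fin k), (B ^ j).mulVec (v i) = lam i ^ j • v i := by
    intro j i
    induction j with
    | zero => rw [pow_zero, pow_zero, Matrix.one_mulVec, one_smul]
    | succ j ih =>
      rw [pow_succ, ← Matrix.mulVec_mulVec, hv, Matrix.mulVec_smul, ih, smul_smul, pow_succ,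
        mul_comm]
  refine Str.exists_poly_of_commute (v := ∑ i, v i) ?_ hBC
  rw [Fintype.linearIndependent_iff]
  intro a ha
  have h1 : ∑ i, (∑ j : Fin k, lam i ^ (j : ℕ) * a j) • v i = 0 := by
    rw [← ha]
    simp_rw [Matrix.mulVec_sum, hpow, Finset.smul_sum, Finset.sum_smul]
    rw [Finset.sum_comm]
    refine Finset.sum_congr rfl fun i _ => Finset.sum_congr rfl fun j _ => ?_
    rw [smul_smul, mul_comm]
  have h2 := Fintype.linearIndependent_iff.mp hli _ h1
  have h3 : (Matrix.vandermonde lam).mulVec a = 0 := by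
    funext i
    exact h2 i
  have h4 : (Matrix.vandermonde lam).det ≠ 0 := Matrix.det_vandermonde_ne_zero_iff.mpr hinj
  by_contra hcon
  push Not at hcon
  obtain ⟨i, hi⟩ := hcon
  exact h4 (Matrix.exists_mulVec_eq_zero_iff.mp ⟨a, fun h => hi (by rw [h]; rfl), h3⟩)

/-- The same with `c` commuting with `B₁` (the hypothesis `hsp` of 576's `closed_ge_two`). -/
theorem appr_of_WD (hO : IsIntRing O L) {k h : ℕ} (D : Fin k → ℂˣ) (hWD : Gl.WDStmt O k D)
    (ξ : ℂˣ) (hξ : IsSc O ξ) (T : Fin (h + 1) × Bool → G k) (hT : T ∈ Gl.Z k (h + 1) ξ) (g c : G k)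
    (hc : c * T (0, true) = T (0, true) * c) (hA : T (0, false) = g * dg D * g⁻¹ * c)
    (hsep : (T (0, true)).1.charpoly.Separable) : Appr O (Gl.Z k (h + 1) ξ) Set.univ T := by
  obtain ⟨q, hq⟩ := exists_poly_of_separable (T (0, true)).1 c.1 hsep (by
    have := congrArg Units.val hc
    exact this)
  exact appr_of_WD_poly hO D hWD ξ hξ T hT g c q hq hA hsep

end Crest.Agent.R003.Unit
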