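import Crest.Agent.R003.Tor363e
import Crest.Agent.R003.Cyc644

/-!
# R003 (helper363), file f: `Closed` for `h = 1`, unconditional
-/

set_option autoImplicit false

namespace Crest.Agent.R003.Tor

open Matrix

theorem exists_cyc (l : ℕ) (b : Matrix (Fin l) (Fin l) ℂ) :
    ∃ (c : Matrix (Fin l) (Fin l) ℂ) (v : Fin l → ℂ), c * b = b * c ∧ (cyc c v).det ≠ 0 := by
  obtain ⟨c, v, h1, h2⟩ := Str.exists_commute_cyclic_matrix b
  refine ⟨c, v, h1, ?_⟩
  have h3 := (Str.linearIndependent_iff_det c v).1 h2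
  have h4 : cyc c v = (Matrix.of fun j : Fin l => (c ^ j.1).mulVec v)ᵀ := by
    ext i j
    rfl
  rw [h4, Matrix.det_transpose]
  exact h3

/-- **the case `h = 1` of `Closed O k`** -/
theorem closed_torus {O : Subring ℂ} (hO : Good O) (k : ℕ) (ξ : ℂˣ) (hξ : IsSc O ξ)
    (T : Fin 1 × Bool → G k)
    (hT : ((List.finRange 1).map fun i => T (i, false) * T (i, true) * (T (i, false))⁻¹ *
      (T (i, true))⁻¹).prod = scal k k ξ) :
    Appr O {T : Fin 1 × Bool → G k | ((List.finRange 1).map fun i => T (i, false) * T (i, true) *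
      (T (i, false))⁻¹ * (T (i, true))⁻¹).prod = scal k k ξ} Set.univ T :=
  closed_one hO exists_cyc k ξ hξ T hT

end Crest.Agent.R003.Tor
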