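import Crest.Agent.R003.Flow992
import Crest.Agent.R003.NF452

/-!
# Row 3 (S0003): the ring of integers of `rootField K n` satisfies the hypotheses of (U) (helper992)
-/

set_option autoImplicit false

open Crest.NumberTheoryR.CharVarRel

namespace Crest.Agent.R003.Unit

/-- `O = OO (rootField K n)` satisfies `IsIntRing`. -/
theorem isIntRing_rootField (K : Subfield ℂ) (hK : FiniteDimensional ℚ K) {n : ℕ} (hn : 2 < n) :
    IsIntRing (OO (rootField K n)) (rootField K n) where
  fin := finiteDimensional_rootField K hK n (by omega)
  mem := fun _ => mem_OO
  nonreal := exists_not_real K hn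
  place := exists_embedding K hK (by omega)

end Crest.Agent.R003.Unit
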