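import Crest.Agent.R003.WD518C
import Crest.Agent.R003.Gl478A

/-!
# Row 3, block W_D (Part 3 (i)) (helper518)

From the Elimination Theorem: every solution of `∏ [A_i,B_i] = ξ` with `A_0` conjugate to the diagonal
matrix `D` is approximable.
-/

set_option autoImplicit false

namespace Crest.Agent.R003.WD

open Matrix

/-! ### blocks of size one -/

def dL {k : ℕ} (D : Fin k → ℂˣ) : List (ℕ × ℂˣ) := List.ofFn fun i => (1, D i)

theorem dL_succ {k : ℕ} (D : Fin (k + 1) → ℂˣ) : dL D = (1, D 0) :: dL (fun i => D i.succ) := by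
  rw [dL, List.ofFn_succ]
  rfl

theorem len_dL {k : ℕ} (D : Fin k → ℂˣ) : len (dL D) = k := by
  induction k with
  | zero => rfl
  | succ k ih => rw [dL_succ, len_cons, ih, Nat.add_comm]

theorem length_dL {k : ℕ} (D : Fin k → ℂˣ) : (dL D).length = k := by simp [dL]

theorem blkOf_dL {k : ℕ} (D : Fin k → ℂˣ) (i : Fin k) : blkOf (dL D) i.1 = (i.1, D i) := by
  induction k with
  | zero => exact i.elim0
  | succ k ih =>
    rw [dL_succ]
    refine Fin.cases ?_ (fun j => ?_) i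
    · rw [blkOf_lt (by simp)]
      rfl
    · rw [blkOf_ge (by simp)]
      have := ih (fun i => D i.succ) j
      simp only [Fin.val_succ, Nat.add_sub_cancel]
      rw [this]

theorem NT_dL {k : ℕ} (D : Fin k → ℂˣ) (X : G k) :
    NT (dL D) X ↔ UT (fun i => (D i : ℂ)) X.1 := by
  constructor
  · rintro ⟨-, -, h⟩
    refine ⟨fun i j hij => ?_, fun i => ?_⟩
    · refine (h i j (by rw [len_dL]; exact i.2) (by rw [len_dL]; exact j.2)).1 ?_
      rw [blkOf_dL, blkOf_dL]
      exact hij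
    · rw [(h i i (by rw [len_dL]; exact i.2) (by rw [len_dL]; exact i.2)).2 rfl, blkOf_dL, if_pos rfl]
  · intro h
    refine ⟨by rw [len_dL], fun i j hij => ?_, fun i j _ _ => ⟨fun hij => ?_, fun hij => ?_⟩⟩
    · rw [len_dL] at hij
      have := i.2
      have := j.2
      omega
    · rw [blkOf_dL, blkOf_dL] at hij
      exact h.1 i j hij
    · rw [blkOf_dL, blkOf_dL] at hij
      have : i = j := Fin.ext hij.symm
      subst this
      rw [h.2, blkOf_dL, if_pos rfl]

theorem dL_shape {k : ℕ} (hk : 2 ≤ k) (D : Fin k → ℂˣ) : ∃ a b L, dL D = a :: b :: L := by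
  obtain ⟨m, rfl⟩ := Nat.exists_eq_add_of_le' hk
  exact ⟨_, _, _, by rw [dL_succ, dL_succ]⟩

theorem UT_inv {k : ℕ} {D : Fin k → ℂˣ} {X : G k} (h : UT (fun i => (D i : ℂ)) X.1) :
    UT (fun i => (((D i)⁻¹ : ℂˣ) : ℂ)) (X⁻¹).1 := by
  have h1 : (X⁻¹).1 = (X.1)⁻¹ := Matrix.coe_units_inv X
  have hb : (X.1).BlockTriangular id := fun i j hij => h.1 i j hij
  have : Invertible X.1 := Units.invertible X
  have h2 : ((X⁻¹).1).BlockTriangular id := by
    rw [h1]
    exact Matrix.blockTriangular_inv_of_blockTriangular hb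
  have h3 : UT (fun i => (X⁻¹).1 i i) (X⁻¹).1 := ⟨fun i j hij => h2 hij, fun _ => rfl⟩
  refine ⟨h3.1, fun i => ?_⟩
  have h4 := (h3.mul h).2 i
  rw [← Units.val_mul, inv_mul_cancel] at h4
  simp only [Units.val_one, Matrix.one_apply_eq] at h4
  have h5 : (((D i)⁻¹ : ℂˣ) : ℂ) = ((D i : ℂ))⁻¹ := Units.val_inv_eq_inv_val _
  exact (eq_inv_of_mul_eq_one_left h4.symm).trans h5.symm

theorem mem_GLk_top {k : ℕ} (g : G k) : g ∈ GLk k k := by
  intro i j hij
  have := i.2
  have := j.2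
  omega

/-! ### commutator words -/

def cw : ℕ → ℕ → Wd
  | _, 0 => []
  | s, m + 1 => Lt.full s true :: Lt.full (s + 1) true :: Lt.full s false :: Lt.full (s + 1) false ::
      cw (s + 2) m

def cV (k : ℕ) : ℕ → ℕ → Multiset (ℕ × ℕ)
  | _, 0 => 0
  | s, m + 1 => {(s, k)} + {(s + 1, k)} + cV k (s + 2) m

theorem eval_cw {n : ℕ} (ρ : ℕ → G n) (s m : ℕ) : Wd.eval ρ (cw s m) =
    ((List.finRange m).map fun i => ρ (s + 2 * i.1) * ρ (s + 2 * i.1 + 1) * (ρ (s + 2 * i.1))⁻¹ *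
      (ρ (s + 2 * i.1 + 1))⁻¹).prod := by
  induction m generalizing s with
  | zero => rfl
  | succ m ih =>
    rw [cw, H486.eval_cons, H486.eval_cons, H486.eval_cons, H486.eval_cons, ih, List.finRange_succ,
      List.map_cons, List.prod_cons, List.map_map]
    simp only [Lt.eval, if_true, Fin.val_zero, mul_zero, add_zero, mul_assoc]
    have key : ∀ i : Fin m, s + 2 + 2 * i.1 = s + 2 * (i.1 + 1) := fun i => by ring
    simp only [key]
    rfl

theorem occ_cw (k s m : ℕ) : Wd.occ (cw s m) k = pr (cV k s m) := by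
  induction m generalizing s with
  | zero => rfl
  | succ m ih =>
    rw [cw, cV, pr_add, ← ih]
    simp only [H486.occ_cons, Lt.occ, pr, Multiset.map_add, Multiset.map_singleton]
    abel

theorem pn_cw (s m : ℕ) : Wd.pn (cw s m) = 0 := by
  induction m generalizing s with
  | zero => rfl
  | succ m ih =>
    rw [cw]
    simp only [H486.pn_cons, Lt.pn, ih, add_zero]

theorem cV_fst (k s m : ℕ) : (cV k s m).map Prod.fst = ((List.range' s (2 * m) : List ℕ) : Multiset ℕ) := by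
  induction m generalizing s with
  | zero => rfl
  | succ m ih =>
    have e1 : 2 * (m + 1) = 2 + 2 * m := by ring
    have e2 : ((List.range' s 2 : List ℕ) : Multiset ℕ) = {s} + {s + 1} := rfl
    rw [cV, e1, List.range'_append_1.symm, ← Multiset.coe_add, ← ih, e2, Multiset.map_add,
      Multiset.map_add, Multiset.map_singleton, Multiset.map_singleton]

theorem WF_cw (O : Subring ℂ) (k s m : ℕ) (d : Option (List Bool)) : Wd.WF O (cw s m) k d := by
  induction m generalizing s d with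
  | zero => trivial
  | succ m ih => exact ih (s + 2) none

/-! ### the system -/

section sys

variable {k : ℕ} (D : Fin k → ℂˣ) (h : ℕ) (ξ : ℂˣ)

/-- the base name of the first nest -/
abbrev P1 (h : ℕ) : ℕ := 2 + 2 * h
/-- the base name of the second nest -/
abbrev P2 (k h : ℕ) : ℕ := 2 + 2 * h + 3 * (k - 1)

/-- the main word -/
def mw : Wd := Lt.full 0 true :: (nestW (P1 h) (dL D) ++ Lt.full 0 false :: Lt.full 1 true ::
  (nestW (P2 k h) (dL fun i => (D i)⁻¹) ++ Lt.full 1 false :: cw 2 h))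

def Sy : Sys := ⟨⟨k, ξ⁻¹, mw D h⟩ :: (nestR (P1 h) (dL D) ++ nestR (P2 k h) (dL fun i => (D i)⁻¹)), []⟩

theorem eval_mw {n : ℕ} (ρ : ℕ → G n) : Wd.eval ρ (mw D h) = ρ 0 * Wd.eval ρ (nestW (P1 h) (dL D)) *
    (ρ 0)⁻¹ * (ρ 1 * Wd.eval ρ (nestW (P2 k h) (dL fun i => (D i)⁻¹)) * (ρ 1)⁻¹) *
    Wd.eval ρ (cw 2 h) := by
  rw [mw]
  simp only [H486.eval_cons, H486.eval_app, Lt.eval, if_true, mul_assoc]
  rfl

variable {D h ξ}

theorem Sy_WF {O : Subring ℂ} (hD : ∀ i, IsSc O (D i)) (hξ : IsSc O ξ) : (Sy D h ξ).WF O k := by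
  have hL1 : ∀ a ∈ dL D, IsSc O a.2 := by
    intro a ha
    rw [dL, List.mem_ofFn] at ha
    obtain ⟨i, rfl⟩ := ha
    exact hD i
  have hL2 : ∀ a ∈ dL (fun i => (D i)⁻¹), IsSc O a.2 := by
    intro a ha
    rw [dL, List.mem_ofFn] at ha
    obtain ⟨i, rfl⟩ := ha
    exact (hD i).inv
  refine ⟨?_, fun z hz => absurd hz (by simp [Sy]), ?_⟩
  · intro r hr
    rw [Sy] at hr
    simp only [List.mem_cons, List.mem_append] at hr
    rcases hr with rfl | hr | hr
    · refine ⟨le_rfl, hξ.inv, ?_⟩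
      dsimp only
      have w1 := nest_WF O (P1 h) (dL D) hL1 none
      have w2 := nest_WF O (P2 k h) (dL fun i => (D i)⁻¹) hL2 none
      rw [len_dL] at w1 w2
      change Wd.WF O (nestW (P1 h) (dL D) ++ Lt.full 0 false :: Lt.full 1 true ::
        (nestW (P2 k h) (dL fun i => (D i)⁻¹) ++ Lt.full 1 false :: cw 2 h)) k none
      rw [H486.WF_app]
      refine ⟨w1, ?_⟩
      change Wd.WF O (nestW (P2 k h) (dL fun i => (D i)⁻¹) ++ Lt.full 1 false :: cw 2 h) k none
      rw [H486.WF_app]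
      exact ⟨w2, WF_cw O k 2 h none⟩
    · exact nestR_WF O k (P1 h) (dL D) hL1 (by rw [len_dL]) r hr
    · exact nestR_WF O k (P2 k h) _ hL2 (by rw [len_dL]) r hr
  · refine ⟨{(0, k)} + {(1, k)} + cV k 2 h + nestV (P1 h) (dL D) +
      nestV (P2 k h) (dL fun i => (D i)⁻¹), ?_, ?_⟩
    · change _ = pr _
      have h1 := nest_occ (P1 h) (dL D) k
      have h2 := nest_occ (P2 k h) (dL fun i => (D i)⁻¹) k
      rw [pr_add, pr_add, pr_add, ← occ_cw, ← h1, ← h2]
      rw [Sys.occ, Sy]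
      simp only [List.map_cons, List.map_append, List.sum_cons, List.sum_append, Root.occ, mw,
        H486.occ_cons, H486.occ_app, Lt.occ, pr, Multiset.map_add, Multiset.map_singleton]
      abel
    · have h1 := nest_pn (P1 h) (dL D)
      have h2 := nest_pn (P2 k h) (dL fun i => (D i)⁻¹)
      rw [length_dL] at h1 h2
      have h3 := cV_fst k 2 h
      have h4 : (({(0, k)} + {(1, k)} + cV k 2 h + nestV (P1 h) (dL D) +
          nestV (P2 k h) (dL fun i => (D i)⁻¹) : Multiset (ℕ × ℕ)).map Prod.fst + (Sy D h ξ).pn +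
          (((Sy D h ξ).free.map Prod.fst : List ℕ) : Multiset ℕ)) =
          ((List.range' 0 (2 + 2 * h + 3 * (k - 1) + 3 * (k - 1)) : List ℕ) : Multiset ℕ) := by
        rw [List.range'_append_1.symm, List.range'_append_1.symm, List.range'_append_1.symm,
          ← Multiset.coe_add, ← Multiset.coe_add, ← Multiset.coe_add]
        simp only [zero_add]
        rw [← h1, ← h2, ← h3]
        have e2 : ((List.range' 0 2 : List ℕ) : Multiset ℕ) = {0} + {1} := rfl
        rw [e2, Sys.pn, Sy]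
        simp only [List.map_cons, List.map_append, List.sum_cons, List.sum_append, Root.pn, mw,
          H486.pn_cons, H486.pn_app, Lt.pn, Multiset.map_add, Multiset.map_singleton, pn_cw,
          List.map_nil, Multiset.coe_nil, zero_add, add_zero]
        abel
      rw [h4, Multiset.coe_nodup]
      exact List.nodup_range'

theorem pos_dL (D : Fin k → ℂˣ) : ∀ a ∈ dL D, 0 < a.1 := by
  intro a ha
  rw [dL, List.mem_ofFn] at ha
  obtain ⟨i, rfl⟩ := ha
  exact one_pos

theorem par_mem_nest (hk : 2 ≤ k) (D : Fin k → ℂˣ) (p : ℕ) :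
    ∃ l ∈ nestW p (dL D), l.Nd ∧ p ∈ H486.lnm l := by
  obtain ⟨a, b, L, hL⟩ := dL_shape hk D
  have ha : 0 < a.1 := pos_dL D a (by rw [hL]; simp)
  have hb : 0 < len (b :: L) := by
    have := pos_dL D b (by rw [hL]; simp)
    rw [len_cons]; omega
  refine ⟨Lt.par p [] (fun _ _ => 1) (stdl a.1 (len (b :: L))) (stdl a.1 (len (b :: L)))
      (fun x => bif x then p + 2 else p + 1),
    by rw [hL, nestW_cons]; exact List.mem_singleton_self _, ?_, Or.inl rfl⟩
  rintro (_ | _)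
  · rw [count_false_stdl]; exact ha
  · rw [count_true_stdl]; exact hb

theorem Sy_Adm (hk : 2 ≤ k) : Adm k (Sy D h ξ) := by
  have hp : ∀ D : Fin k → ℂˣ, ∀ a ∈ dL D, 0 < a.1 := pos_dL
  intro r hr
  rw [Sy] at hr
  simp only [List.mem_cons, List.mem_append] at hr
  rcases hr with rfl | hr | hr
  · right
    refine ⟨rfl, ?_⟩
    obtain ⟨l, hl, hNd, -⟩ := par_mem_nest hk D (P1 h)
    exact ⟨l, List.mem_cons_of_mem _ (List.mem_append_left _ hl), hNd⟩
  · left
    have := nestR_rank (P1 h) (dL D) (hp D) r hr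
    rwa [len_dL] at this
  · left
    have := nestR_rank (P2 k h) (dL fun i => (D i)⁻¹) (hp _) r hr
    rwa [len_dL] at this

theorem eval_nest (hk : 2 ≤ k) (D : Fin k → ℂˣ) {n : ℕ} (ρ : ℕ → G n) (p : ℕ) :
    Wd.eval ρ (nestW p (dL D)) = ρ p ∧ nval ρ p (dL D) = ρ p := by
  obtain ⟨a, b, L, hL⟩ := dL_shape hk D
  have h1 : nval ρ p (dL D) = ρ p := by rw [hL, nval_cons]
  refine ⟨?_, h1⟩
  rw [nval, hL] at h1
  change scal n _ 1 * _ = _ at h1
  rwa [scal_one, one_mul, ← hL] at h1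

/-- the polynomial map -/
noncomputable def Φ (D : Fin k → ℂˣ) (h : ℕ) (ρ : ℕ → G k) : Fin (h + 1) × Bool → G k := fun y =>
  Fin.cases
    (bif y.2 then ρ 1 * vG (fun i => (D i : ℂ)) (ρ (P2 k h))⁻¹ * (vG (fun i => (D i : ℂ)) (ρ (P1 h)))⁻¹ *
      (ρ 0)⁻¹ else ρ 0 * ρ (P1 h) * (ρ 0)⁻¹)
    (fun j => bif y.2 then ρ (2 + 2 * j.1 + 1) else ρ (2 + 2 * j.1)) y.1

theorem Φ_0f (ρ : ℕ → G k) : Φ D h ρ (0, false) = ρ 0 * ρ (P1 h) * (ρ 0)⁻¹ := rfl
theorem Φ_0t (ρ : ℕ → G k) : Φ D h ρ (0, true) = ρ 1 * vG (fun i => (D i : ℂ)) (ρ (P2 k h))⁻¹ *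
    (vG (fun i => (D i : ℂ)) (ρ (P1 h)))⁻¹ * (ρ 0)⁻¹ := rfl
theorem Φ_sf (ρ : ℕ → G k) (j : Fin h) : Φ D h ρ (j.succ, false) = ρ (2 + 2 * j.1) := rfl
theorem Φ_st (ρ : ℕ → G k) (j : Fin h) : Φ D h ρ (j.succ, true) = ρ (2 + 2 * j.1 + 1) := rfl

theorem Sol_UT (hk : 2 ≤ k) {ρ : ℕ → G k} (hρ : ρ ∈ (Sy D h ξ).Sol k) :
    UT (fun i => (D i : ℂ)) (ρ (P1 h)).1 ∧ UT (fun i => (D i : ℂ)) ((ρ (P2 k h))⁻¹).1 ∧
      Wd.eval ρ (mw D h) = scal k k ξ := by
  obtain ⟨hr, -⟩ := hρ
  have hm := hr _ List.mem_cons_self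
  have hr1 : ∀ r ∈ nestR (P1 h) (dL D), r.Sol ρ := fun r h' =>
    hr r (List.mem_cons_of_mem _ (List.mem_append_left _ h'))
  have hr2 : ∀ r ∈ nestR (P2 k h) (dL fun i => (D i)⁻¹), r.Sol ρ := fun r h' =>
    hr r (List.mem_cons_of_mem _ (List.mem_append_right _ h'))
  obtain ⟨hs, he⟩ := hm
  dsimp only at hs he
  have hs1 : Wd.Sat ρ (nestW (P1 h) (dL D)) (len (dL D)) := by
    rw [len_dL]
    intro l hl
    exact hs l (List.mem_cons_of_mem _ (List.mem_append_left _ hl))
  have hs2 : Wd.Sat ρ (nestW (P2 k h) (dL fun i => (D i)⁻¹)) (len (dL fun i => (D i)⁻¹)) := by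
    rw [len_dL]
    intro l hl
    exact hs l (List.mem_cons_of_mem _ (List.mem_append_right _ (List.mem_cons_of_mem _
      (List.mem_cons_of_mem _ (List.mem_append_left _ hl)))))
  have hne : ∀ D : Fin k → ℂˣ, dL D ≠ [] := by
    intro D
    obtain ⟨a, b, L, hL⟩ := dL_shape hk D
    rw [hL]; exact List.cons_ne_nil _ _
  have n1 := NT_of_Sol ρ (P1 h) (dL D) (hne D) (by rw [len_dL]) hs1 hr1
  have n2 := NT_of_Sol ρ (P2 k h) (dL fun i => (D i)⁻¹) (hne _) (by rw [len_dL]) hs2 hr2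
  rw [(eval_nest hk D ρ _).2, NT_dL] at n1
  rw [(eval_nest hk _ ρ _).2, NT_dL] at n2
  refine ⟨n1, ?_, ?_⟩
  · have := UT_inv (D := fun i => (D i)⁻¹) n2
    simpa using this
  · have : scal k k ξ * (scal k k ξ⁻¹ * Wd.eval ρ (mw D h)) = scal k k ξ := by rw [he, mul_one]
    rw [← mul_assoc] at this
    have e : scal k k ξ * scal k k ξ⁻¹ = 1 := by
      apply Units.ext
      ext i j
      rw [Units.val_mul, Matrix.mul_apply, Finset.sum_eq_single i]
      · rw [scal_apply, scal_apply, if_pos rfl, if_pos i.2, if_pos i.2]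
        split_ifs with hij
        · subst hij; simp
        · simp [hij]
      · intro l _ hl
        rw [scal_apply, if_neg (Ne.symm hl), zero_mul]
      · simp
    rwa [e, one_mul] at this

theorem prod_succ (T : Fin (h + 1) × Bool → G k) : ((List.finRange (h + 1)).map fun i => T (i, false) *
    T (i, true) * (T (i, false))⁻¹ * (T (i, true))⁻¹).prod = T (0, false) * (T (0, true) *
    (T (0, false))⁻¹ * (T (0, true))⁻¹) * ((List.finRange h).map fun i => T (i.succ, false) *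
    T (i.succ, true) * (T (i.succ, false))⁻¹ * (T (i.succ, true))⁻¹).prod := by
  rw [List.finRange_succ, List.map_cons, List.prod_cons, List.map_map]
  simp only [mul_assoc]
  rfl

theorem Φ_mem (hk : 2 ≤ k) (hinj : Function.Injective D) {ρ : ℕ → G k}
    (hρ : ρ ∈ (Sy D h ξ).Sol k) : Φ D h ρ ∈ Gl.Z k (h + 1) ξ := by
  obtain ⟨u1, u2, he⟩ := Sol_UT hk hρ
  change ((List.finRange (h + 1)).map fun i => Φ D h ρ (i, false) * Φ D h ρ (i, true) *
    (Φ D h ρ (i, false))⁻¹ * (Φ D h ρ (i, true))⁻¹).prod = scal k k ξ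
  rw [prod_succ, Φ_0t, Φ_0f]
  have hB := vG_conj hinj u1 u2 (ρ 0) (ρ 1)
  dsimp only at hB
  rw [hB, ← he, eval_mw, eval_cw, (eval_nest hk D ρ _).1, (eval_nest hk _ ρ _).1]
  rfl

/-- THE W_D BLOCK -/
theorem wd {O : Subring ℂ} {k : ℕ} (hk : 2 ≤ k) (D : Fin k → ℂˣ) (hsc : ∀ i, IsSc O (D i))
    (hinj : Function.Injective D) (hu : ∀ i j, i ≠ j → ((D i : ℂ) - D j)⁻¹ ∈ O) (hO : Good O)
    (hE : ElimStatement O k k) (hC : ∀ j < k, Closed O j) : Gl.WDStmt O k D := by
  intro h ξ hξ T hT hg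
  obtain ⟨g, hg⟩ := hg
  have hinj' : Function.Injective fun i => (D i : ℂ) := fun i j hij => hinj (Units.ext hij)
  have hP1 : P1 h = 2 + 2 * h := rfl
  have hP2 : P2 k h = 2 + 2 * h + 3 * (k - 1) := rfl
  have hne : ∀ D : Fin k → ℂˣ, dL D ≠ [] := by
    intro D
    obtain ⟨a, b, L, hL⟩ := dL_shape hk D
    rw [hL]; exact List.cons_ne_nil _ _
  have hdgUT : ∀ D : Fin k → ℂˣ, UT (fun i => (D i : ℂ)) (dg D).1 := fun D =>
    ⟨fun i j hij => Matrix.diagonal_apply_ne _ (ne_of_gt hij), fun i => Matrix.diagonal_apply_eq _ _⟩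
  obtain ⟨r1, hr1⟩ := nest_exists (dL D) (hne D) (dg D) ((NT_dL D _).2 (hdgUT D)) (P1 h)
  obtain ⟨r2, hr2⟩ := nest_exists (dL fun i => (D i)⁻¹) (hne _) (dg fun i => (D i)⁻¹)
    ((NT_dL _ _).2 (hdgUT _)) (P2 k h)
  rw [length_dL] at hr1 hr2
  -- the point
  set ρ : ℕ → G k := fun x => if x = 0 then g else if x = 1 then T (0, true) * g else
    if hx : (x - 2) / 2 < h ∧ x < P1 h then T (Fin.succ ⟨(x - 2) / 2, hx.1⟩, decide (x % 2 = 1)) else
    if x < P2 k h then r1 x else r2 x with hρdef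
  have e0 : ρ 0 = g := rfl
  have e1 : ρ 1 = T (0, true) * g := rfl
  have e2 : ∀ j : Fin h, ρ (2 + 2 * j.1) = T (j.succ, false) := by
    intro j
    have hj := j.2
    simp only [hρdef]
    rw [if_neg (by omega), if_neg (by omega), dif_pos ⟨by omega, by omega⟩]
    have a1 : (2 + 2 * j.1) % 2 = 0 := by omega
    have a2 : (2 + 2 * j.1 - 2) / 2 = j.1 := by omega
    simp only [a1, a2]
    rfl
  have e3 : ∀ j : Fin h, ρ (2 + 2 * j.1 + 1) = T (j.succ, true) := by
    intro j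
    have hj := j.2
    simp only [hρdef]
    rw [if_neg (by omega), if_neg (by omega), dif_pos ⟨by omega, by omega⟩]
    have a1 : (2 + 2 * j.1 + 1) % 2 = 1 := by omega
    have a2 : (2 + 2 * j.1 + 1 - 2) / 2 = j.1 := by omega
    simp only [a1, a2]
    rfl
  have e4 : ∀ x, P1 h ≤ x → x < P1 h + 3 * (k - 1) → ρ x = r1 x := by
    intro x hx hx'
    simp only [hρdef]
    rw [if_neg (by omega), if_neg (by omega), dif_neg (by omega), if_pos (by omega)]
  have e5 : ∀ x, P2 k h ≤ x → x < P2 k h + 3 * (k - 1) → ρ x = r2 x := by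
    intro x hx hx'
    simp only [hρdef]
    rw [if_neg (by omega), if_neg (by omega), dif_neg (by omega), if_neg (by omega)]
  obtain ⟨s1, s2, s3⟩ := hr1 ρ e4
  obtain ⟨t1, t2, t3⟩ := hr2 ρ e5
  rw [(eval_nest hk D ρ _).2] at s3
  rw [(eval_nest hk _ ρ _).2] at t3
  have hdinv : (dg fun i => (D i)⁻¹) = (dg D)⁻¹ := by
    apply Units.ext
    rfl
  have hΦ : Φ D h ρ = T := by
    funext ⟨i, b⟩
    refine Fin.cases ?_ (fun j => ?_) i
    · cases b
      · rw [Φ_0f, e0, s3, hg]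
      · rw [Φ_0t, e0, e1, s3, t3, hdinv, inv_inv, vG_dg hinj]
        group
    · cases b
      · rw [Φ_sf, e2]
      · rw [Φ_st, e3]
  have hmem : ρ ∈ (Sy D h ξ).Sol k := by
    refine ⟨?_, fun z hz => absurd hz (by simp [Sy])⟩
    intro r hr
    rw [Sy] at hr
    simp only [List.mem_cons, List.mem_append] at hr
    rcases hr with rfl | hr | hr
    · rw [len_dL] at s1 t1
      have hfull : ∀ x ε, Lt.Sat ρ k (Lt.full x ε) := fun x ε => mem_GLk_top _
      have hcw : ∀ s m, Wd.Sat ρ (cw s m) k := by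
        intro s m
        induction m generalizing s with
        | zero => intro l hl; simp [cw] at hl
        | succ m ih =>
          rw [cw]
          simp only [H486.Sat_cons]
          exact ⟨hfull _ _, hfull _ _, hfull _ _, hfull _ _, ih _⟩
      refine ⟨?_, ?_⟩
      · dsimp only
        rw [mw]
        simp only [H486.Sat_cons, H486.Sat_app]
        exact ⟨hfull _ _, s1, hfull _ _, hfull _ _, t1, hfull _ _, hcw _ _⟩
      · dsimp only
        have hprod : Wd.eval ρ (mw D h) = scal k k ξ := by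
          have hT' : ((List.finRange (h + 1)).map fun i => T (i, false) * T (i, true) *
            (T (i, false))⁻¹ * (T (i, true))⁻¹).prod = scal k k ξ := hT
          rw [← hT', prod_succ, eval_mw, eval_cw, (eval_nest hk D ρ _).1, (eval_nest hk _ ρ _).1, e0,
            e1, s3, t3, hdinv, hg]
          simp only [e2, e3]
          group
        rw [hprod]
        apply Units.ext
        ext i j
        rw [Units.val_mul, Matrix.mul_apply, Finset.sum_eq_single i]
        · rw [scal_apply, scal_apply, if_pos rfl, if_pos i.2, if_pos i.2]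
          split_ifs with hij
          · subst hij; simp
          · simp [hij]
        · intro l _ hl
          rw [scal_apply, if_neg (Ne.symm hl), zero_mul]
        · simp
    · exact s2 r hr
    · exact t2 r hr
  have hA := hE hO hC (Sy D h ξ) (Sy_WF hsc hξ) (Sy_Adm hk) ρ hmem
  have hfin := appr_map hmem hA (Gl.Z k (h + 1) ξ) Set.univ (Φ D h) ?_ (fun ρ hρ => Φ_mem hk hinj hρ) ?_
  · rwa [hΦ] at hfin
  · rintro ⟨i, b⟩
    refine Fin.cases ?_ (fun j => ?_) i
    · cases b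
      · exact polG_mul (polG_mul (polG_name _ 0) (polG_name _ _)) (polG_inv (polG_name _ 0))
      · refine polG_mul (polG_mul (polG_mul (polG_name _ 1) ?_) (polG_inv ?_))
          (polG_inv (polG_name _ 0))
        · exact polG_vG hinj' (polG_inv (polG_name _ _)) fun ρ hρ => (Sol_UT hk hρ).2.1
        · exact polG_vG hinj' (polG_name _ _) fun ρ hρ => (Sol_UT hk hρ).1
    · cases b
      · exact polG_name _ _
      · exact polG_name _ _
  · intro ρ' hρ' hint
    have hO' : ∀ i, (D i : ℂ) ∈ O := fun i => (hsc i).1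
    have hnm : ∀ x, x ∈ H486.wnm (mw D h) → ρ' x ∈ GO O k := fun x hx =>
      hint x (H486.mem_names.2 (Or.inl ⟨_, List.mem_cons_self, hx⟩))
    have h0 : ρ' 0 ∈ GO O k := hnm 0 ⟨Lt.full 0 true, List.mem_cons_self, rfl⟩
    have h1 : ρ' 1 ∈ GO O k := hnm 1 ⟨Lt.full 1 true, by simp [mw], rfl⟩
    have hp1 : ρ' (P1 h) ∈ GO O k := by
      obtain ⟨l, hl, -, hl'⟩ := par_mem_nest hk D (P1 h)
      exact hnm _ ⟨l, List.mem_cons_of_mem _ (List.mem_append_left _ hl), hl'⟩
    have hp2 : ρ' (P2 k h) ∈ GO O k := by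
      obtain ⟨l, hl, -, hl'⟩ := par_mem_nest hk (fun i => (D i)⁻¹) (P2 k h)
      exact hnm _ ⟨l, List.mem_cons_of_mem _ (List.mem_append_right _ (List.mem_cons_of_mem _
        (List.mem_cons_of_mem _ (List.mem_append_left _ hl)))), hl'⟩
    have hcw : ∀ m s j, j < m → ∀ b : Bool, (s + 2 * j + b.toNat) ∈ H486.wnm (cw s m) := by
      intro m
      induction m with
      | zero => intro s j hj; omega
      | succ m ih =>
        intro s j hj b
        rcases Nat.eq_zero_or_pos j with rfl | hj'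
        · cases b
          · exact ⟨Lt.full s true, by simp [cw], rfl⟩
          · exact ⟨Lt.full (s + 1) true, by simp [cw], rfl⟩
        · obtain ⟨l, hl, hl'⟩ := ih (s + 2) (j - 1) (by omega) b
          refine ⟨l, by rw [cw]; simp [hl], ?_⟩
          have : s + 2 + 2 * (j - 1) + b.toNat = s + 2 * j + b.toNat := by omega
          rwa [this] at hl'
    have hcm : ∀ x, x ∈ H486.wnm (cw 2 h) → ρ' x ∈ GO O k := by
      rintro x ⟨l, hl, hl'⟩
      refine hnm x ⟨l, ?_, hl'⟩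
      rw [mw]
      simp [hl]
    rintro ⟨i, b⟩ -
    refine Fin.cases ?_ (fun j => ?_) i
    · cases b
      · rw [Φ_0f]
        exact (GO O k).mul_mem ((GO O k).mul_mem h0 hp1) ((GO O k).inv_mem h0)
      · rw [Φ_0t]
        exact (GO O k).mul_mem ((GO O k).mul_mem ((GO O k).mul_mem h1
          (vG_GO O hO' hu ((GO O k).inv_mem hp2))) ((GO O k).inv_mem (vG_GO O hO' hu hp1)))
          ((GO O k).inv_mem h0)
    · cases b
      · rw [Φ_sf]
        exact hcm _ (hcw h 2 j.1 j.2 false)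
      · rw [Φ_st]
        exact hcm _ (hcw h 2 j.1 j.2 true)

end sys

end Crest.Agent.R003.WD
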