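import Crest.Agent.R003.Gl478A
import Crest.Agent.R003.Hsp992
import Crest.Agent.R003.UnitNF992
import Crest.Agent.R003.Tor363f
import Crest.Agent.R003.Gen576
import Crest.Agent.R003.WD518D

/-!
# Row 3, block INDUCTION GLUE (helper478), part B: `Closed O k` for all `k ≤ r` from the elimination
theorem, for `O = OO (rootField K (p * q))`, `p ≠ q` primes `> r`.
-/

set_option autoImplicit false

open Crest.NumberTheoryR.CharVarRel

namespace Crest.Agent.R003

namespace Gl

open Matrix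

/-- `Closed O k` for all `k ≤ r`, abstract form. -/
theorem closed_le_of {O : Subring ℂ} {L : Subfield ℂ} (hO : Unit.IsIntRing O L) (hgood : Good O)
    (r : ℕ) (D : ∀ k, Fin k → ℂˣ)
    (hsc : ∀ k, k ≤ r → ∀ i, IsSc O (D k i)) (hinj : ∀ k, k ≤ r → Function.Injective (D k))
    (hu : ∀ k, k ≤ r → ∀ i j, i ≠ j → ((D k i : ℂ) - D k j)⁻¹ ∈ O)
    (hE : ∀ k, 2 ≤ k → k ≤ r → ElimStatement O k k) : ∀ k, k ≤ r → Closed O k := by
  refine closed_all_of hgood r D hE ?_ ?_ ?_
  · intro k hk hkr hEk hC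
    exact WD.wd hk (D k) (hsc k hkr) (hinj k hkr) (hu k hkr) hgood hEk hC
  · intro k _ _ ξ hξ T hT
    exact Tor.closed_torus hgood k ξ hξ T hT
  · intro k hk hkr hW h hh ξ hξ T hT
    obtain ⟨g, rfl⟩ : ∃ g, h = g + 1 := ⟨h - 1, by omega⟩
    exact Gen.appr_of_special (by omega) (by omega) (D k) (hinj k hkr) ξ
      (fun T1 hT1 hac hsep => by
        obtain ⟨a, c, hc, hA⟩ := hac
        exact Unit.appr_of_WD hO (D k) hW ξ hξ T1 hT1 a c hc hA hsep) T hT

/-- the root of unity `zt n` as a unit -/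
noncomputable def ztu (n : ℕ) : ℂˣ := Units.mk0 (zt n) (Complex.exp_ne_zero _)

theorem ztu_val (n : ℕ) : (ztu n : ℂ) = zt n := rfl

theorem ztu_pow {n : ℕ} (hn : 0 < n) : ztu n ^ n = 1 := by
  apply Units.ext
  rw [Units.val_pow_eq_pow_val, ztu_val, Units.val_one]
  exact (zt_prim hn.ne').pow_eq_one

/-- `D k i = ζ ^ i` -/
noncomputable def Dz (n k : ℕ) (i : Fin k) : ℂˣ := ztu n ^ i.1

theorem good_OO (K : Subfield ℂ) (n : ℕ) : Good (OO (rootField K n)) :=
  ⟨u0, u0_mem K n, u0_inv_mem K n, fun _ hm => u0_pow_ne_one hm⟩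

/-- ALL closed surfaces: `Closed O k`, `k ≤ r`, for `O = OO (rootField K (p * q))`. -/
theorem closed_le (K : Subfield ℂ) (hK : FiniteDimensional ℚ K) {p q r : ℕ} (hp : p.Prime)
    (hq : q.Prime) (hpq : p ≠ q) (hrp : r < p) (hrq : r < q)
    (hE : ∀ k, 2 ≤ k → k ≤ r → ElimStatement (OO (rootField K (p * q))) k k) :
    ∀ k, k ≤ r → Closed (OO (rootField K (p * q))) k := by
  have hpos : 0 < p * q := Nat.mul_pos hp.pos hq.pos
  have h2 : 2 < p * q := by
    have h3 := hp.two_le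
    have h4 := hq.two_le
    nlinarith
  refine closed_le_of (Unit.isIntRing_rootField K hK h2) (good_OO K _) r (Dz (p * q)) ?_ ?_ ?_ hE
  · intro k _ i
    refine ⟨?_, p * q, hpos, ?_⟩
    · rw [Dz, Units.val_pow_eq_pow_val, ztu_val]
      exact Subring.pow_mem _ (zt_mem K hpos).1 _
    · rw [Dz, ← pow_mul, mul_comm i.1 (p * q), pow_mul, ztu_pow hpos, one_pow]
  · intro k hk i j hij
    have h5 := congrArg Units.val hij
    rw [Dz, Dz, Units.val_pow_eq_pow_val, Units.val_pow_eq_pow_val, ztu_val] at h5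
    have hi := i.2
    have hj := j.2
    exact Fin.ext (zt_pow_injOn hp hq hrp (by omega) (by omega) h5)
  · intro k hk i j hij
    rw [Dz, Dz, Units.val_pow_eq_pow_val, Units.val_pow_eq_pow_val, ztu_val]
    have hi := i.2
    have hj := j.2
    exact zt_sub_inv_mem K hp hq hpq hrp hrq (fun h => hij (Fin.ext h)) (by omega) (by omega)

end Gl

end Crest.Agent.R003
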