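import Mathlib

/-!
# Row 3 (S0003), step S5: the normal form of a two-label block triangular matrix with respect to a
third label (helper990)
-/

set_option autoImplicit false
set_option linter.unusedVariables false
set_option linter.unusedSectionVars false

namespace Crest.Agent.R003.NF5

open Matrix

variable {F : Type*} [Field F]

/-- triangularity with respect to labels in a partial order, together with an inverse which is
triangular in the other direction -/
structure TI {Λ m n : Type*} [PartialOrder Λ] [Fintype m] [Fintype n] [DecidableEq m]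
    [DecidableEq n] (c : m → Λ) (c' : n → Λ) (A : Matrix m n F) (B : Matrix n m F) : Prop where
  mul : A * B = 1
  mul' : B * A = 1
  tri : ∀ i j, ¬ c i ≤ c' j → A i j = 0
  tri' : ∀ i j, ¬ c' j ≤ c i → B j i = 0

section TIlemmas

variable {Λ : Type*} [PartialOrder Λ] {m n p q : Type*} [Fintype m] [Fintype n] [Fintype p]
  [Fintype q] [DecidableEq m] [DecidableEq n] [DecidableEq p] [DecidableEq q]

theorem TI.comp {c : m → Λ} {c' : n → Λ} {c'' : p → Λ} {A : Matrix m n F} {B : Matrix n m F}
    {A' : Matrix n p F} {B' : Matrix p n F} (h : TI c c' A B) (h' : TI c' c'' A' B') :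
    TI c c'' (A * A') (B' * B) where
  mul := by
    rw [Matrix.mul_assoc, ← Matrix.mul_assoc A' B' B, h'.mul, Matrix.one_mul, h.mul]
  mul' := by
    rw [Matrix.mul_assoc, ← Matrix.mul_assoc B A A', h.mul', Matrix.one_mul, h'.mul']
  tri := by
    intro i j hij
    rw [Matrix.mul_apply]
    refine Finset.sum_eq_zero fun t _ => ?_
    by_cases h1 : c i ≤ c' t
    · have h2 : ¬ c' t ≤ c'' j := fun h2 => hij (h1.trans h2)
      rw [h'.tri t j h2, mul_zero]
    · rw [h.tri i t h1, zero_mul]
  tri' := by
    intro i j hij
    rw [Matrix.mul_apply]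
    refine Finset.sum_eq_zero fun t _ => ?_
    by_cases h1 : c'' j ≤ c' t
    · have h2 : ¬ c' t ≤ c i := fun h2 => hij (h1.trans h2)
      rw [h.tri' i t h2, mul_zero]
    · rw [h'.tri' t j h1, zero_mul]

theorem TI.symm {c : m → Λ} {c' : n → Λ} {A : Matrix m n F} {B : Matrix n m F}
    (h : TI c c' A B) : TI c' c B A where
  mul := h.mul'
  mul' := h.mul
  tri := fun i j hij => h.tri' j i hij
  tri' := fun i j hij => h.tri j i hij

theorem TI.blk [DecidableEq Λ] {c : m → Λ} {c' : n → Λ} {A : Matrix m n F} {B : Matrix n m F}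
    (h : TI c c' A B) (l : Λ) :
    (A.submatrix (fun i : {i // c i = l} => i.1) (fun j : {j // c' j = l} => j.1)) *
      (B.submatrix (fun j : {j // c' j = l} => j.1) (fun i : {i // c i = l} => i.1)) = 1 := by
  ext i j
  rw [Matrix.mul_apply]
  have h1 : (A * B) i.1 j.1 = (1 : Matrix m m F) i.1 j.1 := by rw [h.mul]
  rw [Matrix.mul_apply] at h1
  have h2 : (1 : Matrix {i // c i = l} {i // c i = l} F) i j = (1 : Matrix m m F) i.1 j.1 := by
    rw [Matrix.one_apply, Matrix.one_apply]
    by_cases hij : i = j
    · rw [if_pos hij, if_pos (by rw [hij])]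
    · rw [if_neg hij, if_neg (fun h => hij (Subtype.ext h))]
  rw [h2, ← h1]
  simp only [Matrix.submatrix_apply]
  have h4 : ∑ x : {t // c' t = l}, A i.1 x.1 * B x.1 j.1
      = ∑ t ∈ Finset.univ.filter (fun t => c' t = l), A i.1 t * B t j.1 := by
    rw [← Finset.sum_subtype (Finset.univ.filter fun t => c' t = l)
      (p := fun t => c' t = l) (by intro x; simp) (fun t => A i.1 t * B t j.1)]
  rw [h4, Finset.sum_filter_of_ne]
  intro t _ ht
  by_contra hne
  apply ht
  by_cases h5 : c i.1 ≤ c' t
  · have h6 : ¬ c' t ≤ c j.1 := by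
      intro h6
      rw [i.2] at h5
      rw [j.2] at h6
      exact hne (le_antisymm h6 h5)
    rw [h.tri' j.1 t h6, mul_zero]
  · rw [h.tri i.1 t h5, zero_mul]

theorem card_le_of_mul_eq_one {A : Matrix m n F} {B : Matrix n m F} (h : A * B = 1) :
    Fintype.card m ≤ Fintype.card n := by
  have := Matrix.rank_mul_le_left A B
  rw [h, Matrix.rank_one] at this
  exact this.trans (Matrix.rank_le_card_width _)

/-- the joint classes have the same size -/
theorem TI.card_eq [DecidableEq Λ] {c : m → Λ} {c' : n → Λ} {A : Matrix m n F} {B : Matrix n m F}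
    (h : TI c c' A B) (l : Λ) :
    Fintype.card {i // c i = l} = Fintype.card {j // c' j = l} :=
  le_antisymm (card_le_of_mul_eq_one (h.blk l)) (card_le_of_mul_eq_one (h.symm.blk l))

end TIlemmas

section Bases

variable {m n : Type*} [Fintype m] [Fintype n] [DecidableEq m] [DecidableEq n]

/-- the matrix whose columns are the vectors of a basis -/
noncomputable def Mb {ι : Type*} [Fintype ι] (b : Module.Basis ι F (m → F)) : Matrix m ι F :=
  fun i j => b j i

/-- its inverse -/
noncomputable def Mb' {ι : Type*} [Fintype ι] (b : Module.Basis ι F (m → F)) : Matrix ι m F :=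
  fun i j => b.repr (Pi.single j 1) i

theorem Mb_mul {ι : Type*} [Fintype ι] [DecidableEq ι] (b : Module.Basis ι F (m → F)) :
    Mb b * Mb' b = 1 := by
  have h := Module.Basis.toMatrix_mul_toMatrix_flip (Pi.basisFun F m) b
  have h1 : (Pi.basisFun F m).toMatrix b = Mb b := by
    ext i j
    simp [Mb, Module.Basis.toMatrix_apply]
  have h2 : b.toMatrix (Pi.basisFun F m) = Mb' b := by
    ext i j
    simp [Mb', Module.Basis.toMatrix_apply]
  rw [h1, h2] at h
  exact h

theorem Mb_mul' {ι : Type*} [Fintype ι] [DecidableEq ι] (b : Module.Basis ι F (m → F)) :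
    Mb' b * Mb b = 1 := by
  have h := Module.Basis.toMatrix_mul_toMatrix_flip b (Pi.basisFun F m)
  have h1 : (Pi.basisFun F m).toMatrix b = Mb b := by
    ext i j
    simp [Mb, Module.Basis.toMatrix_apply]
  have h2 : b.toMatrix (Pi.basisFun F m) = Mb' b := by
    ext i j
    simp [Mb', Module.Basis.toMatrix_apply]
  rw [h1, h2] at h
  exact h

/-- index type with the four types 00, 01, 10, 11 (first label, second label) -/
abbrev I4 (a b c d : ℕ) : Type := (Fin a ⊕ Fin b) ⊕ (Fin c ⊕ Fin d)

/-- first label -/
def l1 {a b c d : ℕ} : I4 a b c d → Bool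
  | Sum.inl _ => false
  | Sum.inr _ => true

/-- second label -/
def l2 {a b c d : ℕ} : I4 a b c d → Bool
  | Sum.inl (Sum.inl _) => false
  | Sum.inl (Sum.inr _) => true
  | Sum.inr (Sum.inl _) => false
  | Sum.inr (Sum.inr _) => true

/-- a basis adapted to two subspaces -/
theorem adapted2 {V : Type*} [AddCommGroup V] [Module F V] [FiniteDimensional F V]
    (A B : Submodule F V) :
    ∃ (a b c d : ℕ) (v : Module.Basis (I4 a b c d) F V),
      (∀ i, l1 i = false → v i ∈ A) ∧ (∀ x ∈ A, ∀ i, l1 i = true → v.repr x i = 0) ∧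
      (∀ i, l2 i = false → v i ∈ B) ∧ (∀ x ∈ B, ∀ i, l2 i = true → v.repr x i = 0) := by
  classical
  -- complements
  obtain ⟨C1, hC1⟩ := (A ⊓ B).exists_isCompl
  obtain ⟨C3, hC3⟩ := (A ⊔ B).exists_isCompl
  -- C1 ⊓ A is a complement of A ⊓ B in A, C1 ⊓ B one in B
  set P := A ⊓ B with hP
  set PA := C1 ⊓ A with hPA
  set PB := C1 ⊓ B with hPB
  have hA : P ⊔ PA = A := by
    rw [hPA, ← sup_inf_assoc_of_le C1 (inf_le_left : P ≤ A)]
    rw [hC1.sup_eq_top, top_inf_eq]
  have hB : P ⊔ PB = B := by
    rw [hPB, ← sup_inf_assoc_of_le C1 (inf_le_right : P ≤ B)]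
    rw [hC1.sup_eq_top, top_inf_eq]
  have d1 : Disjoint P PA := hC1.disjoint.mono_right inf_le_left
  have d2 : Disjoint (P ⊔ PA) PB := by
    rw [hA, disjoint_iff]
    have : A ⊓ PB ≤ P ⊓ C1 := by
      rw [hPB]
      refine le_inf (le_inf inf_le_left (inf_le_right.trans inf_le_right))
        (inf_le_right.trans inf_le_left)
    exact le_bot_iff.mp (this.trans (disjoint_iff.mp hC1.disjoint).le)
  have d3 : Disjoint ((P ⊔ PA) ⊔ PB) C3 := by
    refine hC3.disjoint.mono_left ?_
    rw [hA]
    exact sup_le le_sup_left ((inf_le_right : PB ≤ B).trans le_sup_right)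
  have htop : ((P ⊔ PA) ⊔ PB) ⊔ C3 = ⊤ := by
    rw [eq_top_iff, ← hC3.sup_eq_top]
    refine sup_le (sup_le ?_ ?_) le_sup_right
    · rw [← hA]; exact le_sup_left.trans le_sup_left
    · calc B = P ⊔ PB := hB.symm
        _ ≤ _ := sup_le (le_sup_left.trans (le_sup_left.trans le_sup_left))
          (le_sup_right.trans le_sup_left)
  -- bases of the pieces
  let b0 := Module.finBasis F P
  let b1 := Module.finBasis F PA
  let b2 := Module.finBasis F PB
  let b3 := Module.finBasis F C3
  let w0 : Fin (Module.finrank F P) → V := fun i => (b0 i : V)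
  let w1 : Fin (Module.finrank F PA) → V := fun i => (b1 i : V)
  let w2 : Fin (Module.finrank F PB) → V := fun i => (b2 i : V)
  let w3 : Fin (Module.finrank F C3) → V := fun i => (b3 i : V)
  have li : ∀ (S : Submodule F V), LinearIndependent F
      (fun i => ((Module.finBasis F S) i : V)) := fun S =>
    (Module.finBasis F S).linearIndependent.map' S.subtype (Submodule.ker_subtype S)
  have sp : ∀ (S : Submodule F V), Submodule.span F
      (Set.range fun i => ((Module.finBasis F S) i : V)) = S := by
    intro S
    have h : (Set.range fun i => ((Module.finBasis F S) i : V))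
        = S.subtype '' (Set.range (Module.finBasis F S)) := by
      rw [← Set.range_comp]; rfl
    rw [h, Submodule.span_image, (Module.finBasis F S).span_eq, Submodule.map_top,
      Submodule.range_subtype]
  have li01 : LinearIndependent F (Sum.elim w0 w1) :=
    (li P).sum_type (li PA) (by rw [sp, sp]; exact d1)
  have sp01 : Submodule.span F (Set.range (Sum.elim w0 w1)) = P ⊔ PA := by
    rw [Set.Sum.elim_range, Submodule.span_union]
    exact congrArg₂ _ (sp P) (sp PA)
  -- order the family as ((w0, w1), (w2, w3)) : use the three step sum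
  have li012 : LinearIndependent F (Sum.elim (Sum.elim w0 w1) w2) :=
    li01.sum_type (li PB) (by rw [sp01, sp]; exact d2)
  have sp012 : Submodule.span F (Set.range (Sum.elim (Sum.elim w0 w1) w2)) = (P ⊔ PA) ⊔ PB := by
    rw [Set.Sum.elim_range, Submodule.span_union]
    exact congrArg₂ _ sp01 (sp PB)
  have li0123 : LinearIndependent F (Sum.elim (Sum.elim (Sum.elim w0 w1) w2) w3) :=
    li012.sum_type (li C3) (by rw [sp012, sp]; exact d3)
  have sp0123 : Submodule.span F (Set.range (Sum.elim (Sum.elim (Sum.elim w0 w1) w2) w3))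
      = ⊤ := by
    rw [Set.Sum.elim_range, Submodule.span_union, ← htop]
    exact congrArg₂ _ sp012 (sp C3)
  let v0 := Module.Basis.mk li0123 sp0123.ge
  let v := v0.reindex (Equiv.sumAssoc _ _ _)
  have hv : ∀ i, v i = Sum.elim (Sum.elim w0 w1) (Sum.elim w2 w3) i := by
    rintro ((i | i) | (i | i)) <;> simp [v, v0, Equiv.sumAssoc]
  refine ⟨_, _, _, _, v, ?_, ?_, ?_, ?_⟩
  · rintro ((i | i) | (i | i)) h <;> simp [l1] at h
    · rw [hv]
      exact (inf_le_left : P ≤ A) (b0 i).2
    · rw [hv]
      exact (inf_le_right : PA ≤ A) (b1 i).2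
  · intro x hx i hi
    have h1 : x ∈ Submodule.span F (v '' {i | l1 i = false}) := by
      have h2 : A ≤ Submodule.span F (v '' {i | l1 i = false}) := by
        have h3 : P ⊔ PA ≤ Submodule.span F (v '' {i | l1 i = false}) := by
          refine sup_le ((sp P).ge.trans (Submodule.span_mono ?_))
            ((sp PA).ge.trans (Submodule.span_mono ?_))
          · rintro y ⟨i, rfl⟩
            exact ⟨Sum.inl (Sum.inl i), rfl, hv _⟩
          · rintro y ⟨i, rfl⟩
            exact ⟨Sum.inl (Sum.inr i), rfl, hv _⟩
        exact hA.ge.trans h3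
      exact h2 hx
    rw [Module.Basis.mem_span_image] at h1
    by_contra h2
    have h3 := h1 (Finsupp.mem_support_iff.mpr h2)
    simp [hi] at h3
  · rintro ((i | i) | (i | i)) h <;> simp [l2] at h
    · rw [hv]
      exact (inf_le_right : P ≤ B) (b0 i).2
    · rw [hv]
      exact (inf_le_right : PB ≤ B) (b2 i).2
  · intro x hx i hi
    have h1 : x ∈ Submodule.span F (v '' {i | l2 i = false}) := by
      have h2 : B ≤ Submodule.span F (v '' {i | l2 i = false}) := by
        have h3 : P ⊔ PB ≤ Submodule.span F (v '' {i | l2 i = false}) := by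
          refine sup_le ((sp P).ge.trans (Submodule.span_mono ?_))
            ((sp PB).ge.trans (Submodule.span_mono ?_))
          · rintro y ⟨i, rfl⟩
            exact ⟨Sum.inl (Sum.inl i), rfl, hv _⟩
          · rintro y ⟨i, rfl⟩
            exact ⟨Sum.inr (Sum.inl i), rfl, hv _⟩
        exact hB.ge.trans h3
      exact h2 hx
    rw [Module.Basis.mem_span_image] at h1
    by_contra h2
    have h3 := h1 (Finsupp.mem_support_iff.mpr h2)
    simp [hi] at h3

/-- BRUHAT in terms of abstract index types: an invertible matrix `W` with row labels `E` and column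
labels `Y` factors through a corner with joint labels. -/
theorem bruhat {W : Matrix m n F} {W' : Matrix n m F} (h : W * W' = 1) (h' : W' * W = 1)
    (E : m → Bool) (Y : n → Bool) :
    ∃ (a b c d : ℕ) (l : Matrix m (I4 a b c d) F) (l' : Matrix (I4 a b c d) m F)
      (r : Matrix (I4 a b c d) n F) (r' : Matrix n (I4 a b c d) F),
      TI E l1 l l' ∧ TI l2 Y r r' ∧ W = l * r := by
  classical
  let A : Submodule F (m → F) :=
    { carrier := {v | ∀ i, E i = true → v i = 0}
      add_mem' := by
        intro x y hx hy i hi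
        simp [hx i hi, hy i hi]
      zero_mem' := by intro i _; rfl
      smul_mem' := by
        intro t x hx i hi
        simp [hx i hi] }
  let B : Submodule F (m → F) :=
    { carrier := {v | ∀ j, Y j = true → (W' *ᵥ v) j = 0}
      add_mem' := by
        intro x y hx hy i hi
        simp only [Set.mem_ofPred_eq] at hx hy
        rw [Matrix.mulVec_add, Pi.add_apply, hx i hi, hy i hi, add_zero]
      zero_mem' := by intro i _; rw [Matrix.mulVec_zero]; rfl
      smul_mem' := by
        intro t x hx i hi
        simp only [Set.mem_ofPred_eq] at hx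
        rw [Matrix.mulVec_smul, Pi.smul_apply, hx i hi, smul_zero] }
  obtain ⟨a, b, c, d, v, h1, h2, h3, h4⟩ := adapted2 A B
  have e1 := Mb_mul v
  have e2 := Mb_mul' v
  refine ⟨a, b, c, d, Mb v, Mb' v, Mb' v * W, W' * Mb v, ⟨e1, e2, ?_, ?_⟩,
    ⟨?_, ?_, ?_, ?_⟩, ?_⟩
  · intro i j hij
    have hi : E i = true := by
      by_contra hne
      rw [Bool.not_eq_true] at hne
      exact hij (by rw [hne]; exact Bool.false_le _)
    have hj : l1 j = false := by
      by_contra hne
      rw [Bool.not_eq_false] at hne
      exact hij (by rw [hne]; exact Bool.le_true _)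
    exact h1 j hj i hi
  · intro i j hij
    have hi : E i = false := by
      by_contra hne
      rw [Bool.not_eq_false] at hne
      exact hij (by rw [hne]; exact Bool.le_true _)
    have hj : l1 j = true := by
      by_contra hne
      rw [Bool.not_eq_true] at hne
      exact hij (by rw [hne]; exact Bool.false_le _)
    refine h2 _ ?_ j hj
    intro t ht
    have : t ≠ i := by
      rintro rfl
      rw [hi] at ht
      exact Bool.noConfusion ht
    simp [this]
  · rw [Matrix.mul_assoc, ← Matrix.mul_assoc W W', h, Matrix.one_mul, e2]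
  · rw [Matrix.mul_assoc, ← Matrix.mul_assoc (Mb v) (Mb' v), e1, Matrix.one_mul, h']
  · intro i j hij
    have hi : l2 i = true := by
      by_contra hne
      rw [Bool.not_eq_true] at hne
      exact hij (by rw [hne]; exact Bool.false_le _)
    have hj : Y j = false := by
      by_contra hne
      rw [Bool.not_eq_false] at hne
      exact hij (by rw [hne]; exact Bool.le_true _)
    -- (Mb' v * W) i j = v.repr (W e_j) i
    have hx : (fun t => W t j) ∈ B := by
      intro t ht
      have : (W' *ᵥ fun t => W t j) t = (W' * W) t j := by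
        rw [Matrix.mul_apply]; rfl
      rw [this, h', Matrix.one_apply, if_neg]
      rintro rfl
      rw [hj] at ht
      exact Bool.noConfusion ht
    have hz := h4 _ hx i hi
    have hr : (Mb' v * W) i j = v.repr (fun t => W t j) i := by
      have hs : (fun t => W t j) = ∑ t, W t j • (Pi.single t 1 : m → F) := by
        ext u
        simp [Finset.sum_apply, Pi.single_apply]
      rw [hs, map_sum, Matrix.mul_apply]
      simp only [Finsupp.coe_finsetSum, Finset.sum_apply, map_smul, Finsupp.coe_smul,
        Pi.smul_apply, smul_eq_mul, Mb']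
      exact Finset.sum_congr rfl fun t _ => mul_comm _ _
    rw [hr, hz]
  · intro i j hij
    have hi : l2 i = false := by
      by_contra hne
      rw [Bool.not_eq_false] at hne
      exact hij (by rw [hne]; exact Bool.le_true _)
    have hj : Y j = true := by
      by_contra hne
      rw [Bool.not_eq_true] at hne
      exact hij (by rw [hne]; exact Bool.false_le _)
    exact h3 i hi j hj
  · rw [← Matrix.mul_assoc, e1, Matrix.one_mul]

theorem li_fin {V : Type*} [AddCommGroup V] [Module F V] [FiniteDimensional F V]
    (S : Submodule F V) : LinearIndependent F (fun i => ((Module.finBasis F S) i : V)) :=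
  (Module.finBasis F S).linearIndependent.map' S.subtype (Submodule.ker_subtype S)

theorem sp_fin {V : Type*} [AddCommGroup V] [Module F V] [FiniteDimensional F V]
    (S : Submodule F V) : Submodule.span F
      (Set.range fun i => ((Module.finBasis F S) i : V)) = S := by
  have h : (Set.range fun i => ((Module.finBasis F S) i : V))
      = S.subtype '' (Set.range (Module.finBasis F S)) := by
    rw [← Set.range_comp]; rfl
  rw [h, Submodule.span_image, (Module.finBasis F S).span_eq, Submodule.map_top,
    Submodule.range_subtype]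

/-- the rank normal form matrix -/
def nu (a b r : ℕ) : Matrix (Fin r ⊕ Fin a) (Fin b ⊕ Fin r) F
  | Sum.inl i, Sum.inr j => if i = j then 1 else 0
  | _, _ => 0

/-- rank normal form -/
theorem rank_nf (N : Matrix m n F) :
    ∃ (a b r : ℕ) (g : Matrix m (Fin r ⊕ Fin a) F) (g' : Matrix (Fin r ⊕ Fin a) m F)
      (h : Matrix (Fin b ⊕ Fin r) n F) (h' : Matrix n (Fin b ⊕ Fin r) F),
      g * g' = 1 ∧ g' * g = 1 ∧ h * h' = 1 ∧ h' * h = 1 ∧
        N = (g * (nu a b r : Matrix (Fin r ⊕ Fin a) (Fin b ⊕ Fin r) F) :
          Matrix m (Fin b ⊕ Fin r) F) * h := by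
  classical
  let T : (n → F) →ₗ[F] (m → F) := N.mulVecLin
  obtain ⟨C, hC⟩ := (LinearMap.ker T).exists_isCompl
  obtain ⟨D, hD⟩ := (LinearMap.range T).exists_isCompl
  let k0 : Fin (Module.finrank F (LinearMap.ker T)) → (n → F) :=
    fun i => (Module.finBasis F (LinearMap.ker T) i : n → F)
  let c0 : Fin (Module.finrank F C) → (n → F) := fun i => (Module.finBasis F C i : n → F)
  let d0 : Fin (Module.finrank F D) → (m → F) := fun i => (Module.finBasis F D i : m → F)
  have hk : LinearIndependent F (Sum.elim k0 c0) :=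
    (li_fin _).sum_type (li_fin C) (by rw [sp_fin, sp_fin]; exact hC.disjoint)
  have sk : Submodule.span F (Set.range (Sum.elim k0 c0)) = ⊤ := by
    rw [Set.Sum.elim_range, Submodule.span_union, ← hC.sup_eq_top]
    exact congrArg₂ _ (sp_fin _) (sp_fin C)
  have hTc : LinearIndependent F (fun i => T (c0 i)) :=
    (li_fin C).map (by rw [sp_fin]; exact hC.symm.disjoint)
  have sTc : Submodule.span F (Set.range fun i => T (c0 i)) = LinearMap.range T := by
    have h1 : (Set.range fun i => T (c0 i)) = T '' (Set.range c0) := by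
      rw [← Set.range_comp]; rfl
    rw [h1, Submodule.span_image]
    have h2 : Submodule.span F (Set.range c0) = C := sp_fin C
    rw [h2, LinearMap.range_eq_map, ← hC.sup_eq_top, Submodule.map_sup]
    have h3 : Submodule.map T (LinearMap.ker T) = ⊥ := by
      rw [eq_bot_iff]
      rintro x ⟨y, hy, rfl⟩
      simpa using hy
    rw [h3, bot_sup_eq]
  have hd : LinearIndependent F (Sum.elim (fun i => T (c0 i)) d0) :=
    hTc.sum_type (li_fin D) (by rw [sTc, sp_fin]; exact hD.disjoint)
  have sd : Submodule.span F (Set.range (Sum.elim (fun i => T (c0 i)) d0)) = ⊤ := by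
    rw [Set.Sum.elim_range, Submodule.span_union, ← hD.sup_eq_top, sTc]
    exact congrArg₂ _ rfl (sp_fin D)
  let bq := Module.Basis.mk hk sk.ge
  let bp := Module.Basis.mk hd sd.ge
  refine ⟨Module.finrank F D, Module.finrank F (LinearMap.ker T), Module.finrank F C,
    Mb bp, Mb' bp, Mb' bq, Mb bq, Mb_mul bp, Mb_mul' bp, Mb_mul' bq, Mb_mul bq, ?_⟩
  have key : N * Mb bq = (Mb bp * (nu _ _ _ :
      Matrix (Fin (Module.finrank F C) ⊕ Fin (Module.finrank F D))
        (Fin (Module.finrank F (LinearMap.ker T)) ⊕ Fin (Module.finrank F C)) F) :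
      Matrix m (Fin (Module.finrank F (LinearMap.ker T)) ⊕ Fin (Module.finrank F C)) F) := by
    ext x j
    have e1 : (N * Mb bq) x j = T (bq j) x := by
      rw [Matrix.mul_apply]; rfl
    rw [e1, Matrix.mul_apply, Fintype.sum_sum_type]
    rcases j with j | j
    · have : T (bq (Sum.inl j)) = 0 := by
        simp only [bq, Module.Basis.mk_apply, Sum.elim_inl]
        exact (Module.finBasis F (LinearMap.ker T) j).2
      rw [this]
      simp [nu]
    · have : T (bq (Sum.inr j)) = bp (Sum.inl j) := by
        simp only [bq, bp, Module.Basis.mk_apply, Sum.elim_inl, Sum.elim_inr]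
      rw [this]
      simp [nu, Mb]
  calc N = N * (Mb bq * Mb' bq) := by rw [Mb_mul bq, Matrix.mul_one]
    _ = _ := by rw [← Matrix.mul_assoc, key]

end Bases

end Crest.Agent.R003.NF5
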