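import Crest.Agent.R003.NF5_990

/-!
# Row 3 (S0003), step S5: assembly of the normal form on abstract corners (helper990)
-/

set_option autoImplicit false
set_option linter.unusedVariables false
set_option linter.unusedSectionVars false

namespace Crest.Agent.R003.NF5

open Matrix

variable {F : Type*} [Field F]

section TIops

variable {Λ Λ' : Type*} [PartialOrder Λ] [PartialOrder Λ']
  {m n p q : Type*} [Fintype m] [Fintype n] [Fintype p]
  [Fintype q] [DecidableEq m] [DecidableEq n] [DecidableEq p] [DecidableEq q]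

/-- change of the label set -/
theorem TI.map {c : m → Λ} {c' : n → Λ} {A : Matrix m n F} {B : Matrix n m F}
    (h : TI c c' A B) {d : m → Λ'} {d' : n → Λ'} (h1 : ∀ i j, c i ≤ c' j → d i ≤ d' j)
    (h2 : ∀ i j, c' j ≤ c i → d' j ≤ d i) : TI d d' A B where
  mul := h.mul
  mul' := h.mul'
  tri := fun i j hij => h.tri i j fun h' => hij (h1 i j h')
  tri' := fun i j hij => h.tri' i j fun h' => hij (h2 i j h')

/-- reindexing -/
theorem TI.sub {c : m → Λ} {c' : n → Λ} {A : Matrix m n F} {B : Matrix n m F}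
    (h : TI c c' A B) (e : p ≃ m) (e' : q ≃ n) :
    TI (c ∘ e) (c' ∘ e') (A.submatrix e e') (B.submatrix e' e) where
  mul := by
    rw [Matrix.submatrix_mul_equiv, h.mul, Matrix.submatrix_one_equiv]
  mul' := by
    rw [Matrix.submatrix_mul_equiv, h.mul', Matrix.submatrix_one_equiv]
  tri := fun i j hij => h.tri _ _ hij
  tri' := fun i j hij => h.tri' _ _ hij

/-- block diagonal -/
theorem TI.diag {c : m → Λ} {c' : n → Λ} {A : Matrix m n F} {A' : Matrix n m F}
    {d : p → Λ} {d' : q → Λ} {B : Matrix p q F} {B' : Matrix q p F}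
    (h : TI c c' A A') (h' : TI d d' B B') :
    TI (Sum.elim (fun i => (c i, false)) (fun i => (d i, true)) : m ⊕ p → Λ × Bool)
      (Sum.elim (fun i => (c' i, false)) (fun i => (d' i, true)) : n ⊕ q → Λ × Bool)
      (fromBlocks A 0 0 B) (fromBlocks A' 0 0 B') where
  mul := by
    rw [fromBlocks_multiply]
    simp [h.mul, h'.mul]
  mul' := by
    rw [fromBlocks_multiply]
    simp [h.mul', h'.mul']
  tri := by
    rintro (i | i) (j | j) hij
    · exact h.tri i j fun h1 => hij ⟨h1, le_rfl⟩
    · rfl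
    · rfl
    · exact h'.tri i j fun h1 => hij ⟨h1, le_rfl⟩
  tri' := by
    rintro (i | i) (j | j) hij
    · exact h.tri' i j fun h1 => hij ⟨h1, le_rfl⟩
    · rfl
    · rfl
    · exact h'.tri' i j fun h1 => hij ⟨h1, le_rfl⟩

/-- block unipotent -/
theorem TI.uni (c : m → Λ) (d : n → Λ) (U : Matrix m n F)
    (hU : ∀ i j, ¬ c i ≤ d j → U i j = 0) :
    TI (Sum.elim (fun i => (c i, false)) (fun i => (d i, true)) : m ⊕ n → Λ × Bool)
      (Sum.elim (fun i => (c i, false)) (fun i => (d i, true)) : m ⊕ n → Λ × Bool)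
      (fromBlocks 1 U 0 1) (fromBlocks 1 (-U) 0 1) where
  mul := by
    rw [fromBlocks_multiply]
    simp
  mul' := by
    rw [fromBlocks_multiply]
    simp
  tri := by
    rintro (i | i) (j | j) hij
    · have : i ≠ j := by
        rintro rfl
        exact hij le_rfl
      simp [this]
    · exact hU i j fun h1 => hij ⟨h1, Bool.false_le _⟩
    · rfl
    · have : i ≠ j := by
        rintro rfl
        exact hij le_rfl
      simp [this]
  tri' := by
    rintro (i | i) (j | j) hij
    · have : j ≠ i := by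
        rintro rfl
        exact hij le_rfl
      simp [this]
    · rfl
    · have h1 := hU j i fun h1 => hij ⟨h1, Bool.false_le _⟩
      simp [h1]
    · have : j ≠ i := by
        rintro rfl
        exact hij le_rfl
      simp [this]

/-- signed permutation matrix -/
def sp (σ : m ≃ n) (s : n → F) : Matrix m n F := fun i j => if σ i = j then s j else 0

def sp' (σ : m ≃ n) (s : n → F) : Matrix n m F := fun j i => if σ i = j then s j else 0

theorem TI.perm (σ : m ≃ n) (s : n → F) (hs : ∀ j, s j * s j = 1) (c : m → Λ) (c' : n → Λ)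
    (h : ∀ i, c i = c' (σ i)) : TI c c' (sp σ s) (sp' σ s) where
  mul := by
    ext i j
    rw [Matrix.mul_apply, Finset.sum_eq_single (σ i)]
    · simp only [sp, sp', if_true]
      rw [Matrix.one_apply]
      by_cases hij : i = j
      · subst hij
        simp [hs]
      · have : σ j ≠ σ i := fun h => hij (σ.injective h).symm
        simp [this, hij]
    · intro t _ ht
      simp [sp, Ne.symm ht]
    · simp
  mul' := by
    ext i j
    rw [Matrix.mul_apply, Finset.sum_eq_single (σ.symm i)]
    · simp only [sp, sp', Equiv.apply_symm_apply, if_true]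
      rw [Matrix.one_apply]
      by_cases hij : i = j
      · subst hij
        simp [hs]
      · simp [hij]
    · intro t _ ht
      have : σ t ≠ i := by
        rintro rfl
        simp at ht
      simp [sp', this]
    · simp
  tri := by
    intro i j hij
    simp only [sp]
    rw [if_neg]
    rintro rfl
    exact hij (h i).le
  tri' := by
    intro i j hij
    simp only [sp']
    rw [if_neg]
    rintro rfl
    exact hij (h i).ge

end TIops

section four

variable {α β γ δ δ' α' : Type*}

/-- first label -/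
def f1 : (α ⊕ β) ⊕ (γ ⊕ δ) → Bool
  | Sum.inl _ => false
  | Sum.inr _ => true

/-- second label -/
def f2 : (α ⊕ β) ⊕ (γ ⊕ δ) → Bool
  | Sum.inl (Sum.inl _) => false
  | Sum.inl (Sum.inr _) => true
  | Sum.inr (Sum.inl _) => false
  | Sum.inr (Sum.inr _) => true

theorem l1_eq (a b c d : ℕ) : (l1 : I4 a b c d → Bool) = f1 := by
  funext x
  rcases x with (x | x) | (x | x) <;> rfl

theorem l2_eq (a b c d : ℕ) : (l2 : I4 a b c d → Bool) = f2 := by
  funext x
  rcases x with (x | x) | (x | x) <;> rfl

variable [Fintype α] [Fintype β] [Fintype γ] [Fintype δ] [Fintype δ'] [Fintype α']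
  [DecidableEq α] [DecidableEq β] [DecidableEq γ] [DecidableEq δ] [DecidableEq δ']
  [DecidableEq α']

/-- modification of the class (1,1) -/
theorem TI.mod11 {g : Matrix δ δ' F} {g' : Matrix δ' δ F} (h : g * g' = 1) (h' : g' * g = 1)
    (L : (α ⊕ β) ⊕ (γ ⊕ δ) → Bool) (L' : (α ⊕ β) ⊕ (γ ⊕ δ') → Bool)
    (hL : (L = f1 ∧ L' = f1) ∨ (L = f2 ∧ L' = f2)) :
    TI L L' (fromBlocks 1 0 0 (fromBlocks 1 0 0 g)) (fromBlocks 1 0 0 (fromBlocks 1 0 0 g')) where
  mul := by simp [fromBlocks_multiply, h]
  mul' := by simp [fromBlocks_multiply, h']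
  tri := by
    rcases hL with ⟨rfl, rfl⟩ | ⟨rfl, rfl⟩ <;>
    rintro ((i | i) | (i | i)) ((j | j) | (j | j)) hij <;>
    first
      | (simp [f1, f2] at hij; done)
      | simp
  tri' := by
    rcases hL with ⟨rfl, rfl⟩ | ⟨rfl, rfl⟩ <;>
    rintro ((i | i) | (i | i)) ((j | j) | (j | j)) hij <;>
    first
      | (simp [f1, f2] at hij; done)
      | simp

/-- modification of the class (0,0) -/
theorem TI.mod00 {g : Matrix α α' F} {g' : Matrix α' α F} (h : g * g' = 1) (h' : g' * g = 1)
    (L : (α ⊕ β) ⊕ (γ ⊕ δ) → Bool) (L' : (α' ⊕ β) ⊕ (γ ⊕ δ) → Bool)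
    (hL : (L = f1 ∧ L' = f1) ∨ (L = f2 ∧ L' = f2)) :
    TI L L' (fromBlocks (fromBlocks g 0 0 1) 0 0 1) (fromBlocks (fromBlocks g' 0 0 1) 0 0 1) where
  mul := by simp [fromBlocks_multiply, h]
  mul' := by simp [fromBlocks_multiply, h']
  tri := by
    rcases hL with ⟨rfl, rfl⟩ | ⟨rfl, rfl⟩ <;>
    rintro ((i | i) | (i | i)) ((j | j) | (j | j)) hij <;>
    first
      | (simp [f1, f2] at hij; done)
      | simp
  tri' := by
    rcases hL with ⟨rfl, rfl⟩ | ⟨rfl, rfl⟩ <;>
    rintro ((i | i) | (i | i)) ((j | j) | (j | j)) hij <;>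
    first
      | (simp [f1, f2] at hij; done)
      | simp

end four

end Crest.Agent.R003.NF5
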