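import Crest.Agent.R003.NF5b_990
import Crest.Agent.R003.Corner832

/-!
# Row 3 (S0003), step S5: the normal form with the corner of `Corner832` (helper990)
-/

set_option autoImplicit false
set_option linter.unusedVariables false
set_option linter.unusedSectionVars false

namespace Crest.Agent.R003.NF5

open Matrix

instance : Fintype Atm where
  elems := {.a000, .a001, .a100, .a010, .al, .be, .a101, .a011, .a110, .a111}
  complete := by intro x; cases x <;> decide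

/-- tables -/
def tE : Atm → Bool
  | .a000 => false | .a001 => false | .a100 => true | .a010 => false | .al => false
  | .be => true | .a101 => true | .a011 => false | .a110 => true | .a111 => true

def tY : Atm → Bool
  | .a000 => false | .a001 => true | .a100 => false | .a010 => false | .al => true
  | .be => false | .a101 => true | .a011 => true | .a110 => false | .a111 => true

def tXE : Atm → Bool
  | .a000 => false | .a001 => false | .a100 => false | .a010 => true | .al => true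
  | .be => false | .a101 => false | .a011 => true | .a110 => true | .a111 => true

def tXY : Atm → Bool
  | .a000 => false | .a001 => false | .a100 => false | .a010 => true | .al => false
  | .be => true | .a101 => false | .a011 => true | .a110 => true | .a111 => true

/-- the abstract corner -/
abbrev KC (z : Sz) : Type := Σ a : Atm, Fin (z.size a)

variable {F : Type*} [Field F]

section corner
variable (a0 b0 c0 r a' b' b1 c1 d1 : ℕ)

/-- the sizes -/
def mkSz : Sz := ⟨a0, b0, c0, b', r, a', b1, c1, d1⟩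

/-- intermediate corner, class `x = 0` -/
abbrev H0 : Type := (Fin a0 ⊕ Fin b0) ⊕ (Fin c0 ⊕ (Fin r ⊕ Fin a'))

/-- intermediate corner, class `x = 1` -/
abbrev H1 : Type := ((Fin b' ⊕ Fin r) ⊕ Fin b1) ⊕ (Fin c1 ⊕ Fin d1)

def sE : H0 a0 b0 c0 r a' ⊕ H1 r b' b1 c1 d1 ≃ KC (mkSz a0 b0 c0 r a' b' b1 c1 d1) where
  toFun
    | .inl (.inl (.inl i)) => ⟨.a000, i⟩
    | .inl (.inl (.inr i)) => ⟨.a001, i⟩
    | .inl (.inr (.inl i)) => ⟨.a100, i⟩
    | .inl (.inr (.inr (.inl i))) => ⟨.be, i⟩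
    | .inl (.inr (.inr (.inr i))) => ⟨.a101, i⟩
    | .inr (.inl (.inl (.inl i))) => ⟨.a010, i⟩
    | .inr (.inl (.inl (.inr i))) => ⟨.al, i⟩
    | .inr (.inl (.inr i)) => ⟨.a011, i⟩
    | .inr (.inr (.inl i)) => ⟨.a110, i⟩
    | .inr (.inr (.inr i)) => ⟨.a111, i⟩
  invFun
    | ⟨.a000, i⟩ => .inl (.inl (.inl i))
    | ⟨.a001, i⟩ => .inl (.inl (.inr i))
    | ⟨.a100, i⟩ => .inl (.inr (.inl i))
    | ⟨.be, i⟩ => .inl (.inr (.inr (.inl i)))
    | ⟨.a101, i⟩ => .inl (.inr (.inr (.inr i)))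
    | ⟨.a010, i⟩ => .inr (.inl (.inl (.inl i)))
    | ⟨.al, i⟩ => .inr (.inl (.inl (.inr i)))
    | ⟨.a011, i⟩ => .inr (.inl (.inr i))
    | ⟨.a110, i⟩ => .inr (.inr (.inl i))
    | ⟨.a111, i⟩ => .inr (.inr (.inr i))
  left_inv := by rintro (((i | i) | (i | (i | i))) | (((i | i) | i) | (i | i))) <;> rfl
  right_inv := by rintro ⟨a, i⟩; cases a <;> rfl

def sY : H0 a0 b0 c0 r a' ⊕ H1 r b' b1 c1 d1 ≃ KC (mkSz a0 b0 c0 r a' b' b1 c1 d1) where
  toFun
    | .inl (.inl (.inl i)) => ⟨.a000, i⟩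
    | .inl (.inl (.inr i)) => ⟨.a001, i⟩
    | .inl (.inr (.inl i)) => ⟨.a100, i⟩
    | .inl (.inr (.inr (.inl i))) => ⟨.al, i⟩
    | .inl (.inr (.inr (.inr i))) => ⟨.a101, i⟩
    | .inr (.inl (.inl (.inl i))) => ⟨.a010, i⟩
    | .inr (.inl (.inl (.inr i))) => ⟨.be, i⟩
    | .inr (.inl (.inr i)) => ⟨.a011, i⟩
    | .inr (.inr (.inl i)) => ⟨.a110, i⟩
    | .inr (.inr (.inr i)) => ⟨.a111, i⟩
  invFun
    | ⟨.a000, i⟩ => .inl (.inl (.inl i))
    | ⟨.a001, i⟩ => .inl (.inl (.inr i))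
    | ⟨.a100, i⟩ => .inl (.inr (.inl i))
    | ⟨.al, i⟩ => .inl (.inr (.inr (.inl i)))
    | ⟨.a101, i⟩ => .inl (.inr (.inr (.inr i)))
    | ⟨.a010, i⟩ => .inr (.inl (.inl (.inl i)))
    | ⟨.be, i⟩ => .inr (.inl (.inl (.inr i)))
    | ⟨.a011, i⟩ => .inr (.inl (.inr i))
    | ⟨.a110, i⟩ => .inr (.inr (.inl i))
    | ⟨.a111, i⟩ => .inr (.inr (.inr i))
  left_inv := by rintro (((i | i) | (i | (i | i))) | (((i | i) | i) | (i | i))) <;> rfl
  right_inv := by rintro ⟨a, i⟩; cases a <;> rfl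

end corner

/-- the matrix unit block `(α,β)` -/
def Aab (z : Sz) : Matrix (KC z) (KC z) F
  | ⟨.al, i⟩, ⟨.be, j⟩ => if i = j then 1 else 0
  | _, _ => 0

/-- the matrix unit block `(β,α)` -/
def Aba (z : Sz) : Matrix (KC z) (KC z) F
  | ⟨.be, i⟩, ⟨.al, j⟩ => if i = j then 1 else 0
  | _, _ => 0

/-- signs -/
def sgA (a : Atm) : F := if tE a = false ∧ tY a = true then -1 else 1

/-- signs on the left corner -/
def sgB : Atm → F
  | .a001 => -1
  | .a011 => -1
  | _ => 1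

theorem sgB_sq (a : Atm) : (sgB a : F) * sgB a = 1 := by
  cases a <;> simp [sgB]

/-- sign matrix -/
def DA (z : Sz) : Matrix (KC z) (KC z) F := Matrix.diagonal fun x => sgA x.1

/-- `Θ = N₁ D₁₃ N₃` -/
def ThA (z : Sz) : Matrix (KC z) (KC z) F := (1 + Aab z) * DA z * (1 + Aba z)

/-- explicit form of `Θ` -/
def Th0 (z : Sz) : Matrix (KC z) (KC z) F
  | ⟨.a000, i⟩, ⟨.a000, j⟩ => if i = j then 1 else 0
  | ⟨.a001, i⟩, ⟨.a001, j⟩ => if i = j then -1 else 0
  | ⟨.a100, i⟩, ⟨.a100, j⟩ => if i = j then 1 else 0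
  | ⟨.a010, i⟩, ⟨.a010, j⟩ => if i = j then 1 else 0
  | ⟨.al, i⟩, ⟨.be, j⟩ => if i = j then 1 else 0
  | ⟨.be, i⟩, ⟨.al, j⟩ => if i = j then 1 else 0
  | ⟨.be, i⟩, ⟨.be, j⟩ => if i = j then 1 else 0
  | ⟨.a101, i⟩, ⟨.a101, j⟩ => if i = j then 1 else 0
  | ⟨.a011, i⟩, ⟨.a011, j⟩ => if i = j then -1 else 0
  | ⟨.a110, i⟩, ⟨.a110, j⟩ => if i = j then 1 else 0
  | ⟨.a111, i⟩, ⟨.a111, j⟩ => if i = j then 1 else 0
  | _, _ => 0

theorem Aab_mul (z : Sz) (M : Matrix (KC z) (KC z) F) (x y : KC z) :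
    ((Aab z : Matrix (KC z) (KC z) F) * M) x y = match x with
      | ⟨.al, i⟩ => M ⟨.be, i⟩ y
      | _ => 0 := by
  rw [Matrix.mul_apply]
  obtain ⟨a, i⟩ := x
  cases a
  case al =>
    rw [Finset.sum_eq_single (⟨.be, i⟩ : KC z)]
    · simp [Aab]
    · rintro ⟨b, j⟩ _ hne
      cases b
      case be =>
        have : i ≠ j := by
          rintro rfl
          exact hne rfl
        have h1 : Aab (F := F) z ⟨.al, i⟩ ⟨.be, j⟩ = if i = j then 1 else 0 := rfl
        rw [h1, if_neg this, zero_mul]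
      all_goals exact zero_mul _
    · simp
  all_goals
    refine Finset.sum_eq_zero ?_
    rintro ⟨b, j⟩ _
    cases b <;> exact zero_mul _

theorem mul_Aba (z : Sz) (M : Matrix (KC z) (KC z) F) (x y : KC z) :
    (M * (Aba z : Matrix (KC z) (KC z) F)) x y = match y with
      | ⟨.al, i⟩ => M x ⟨.be, i⟩
      | _ => 0 := by
  rw [Matrix.mul_apply]
  obtain ⟨a, i⟩ := y
  cases a
  case al =>
    rw [Finset.sum_eq_single (⟨.be, i⟩ : KC z)]
    · simp [Aba]
    · rintro ⟨b, j⟩ _ hne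
      cases b
      case be =>
        have : j ≠ i := by
          rintro rfl
          exact hne rfl
        have h1 : Aba (F := F) z ⟨.be, j⟩ ⟨.al, i⟩ = if j = i then 1 else 0 := rfl
        rw [h1, if_neg this, mul_zero]
      all_goals exact mul_zero _
    · simp
  all_goals
    refine Finset.sum_eq_zero ?_
    rintro ⟨b, j⟩ _
    cases b <;> exact mul_zero _

theorem ThA_eq (z : Sz) : (ThA z : Matrix (KC z) (KC z) F) = Th0 z := by
  have h : (ThA z : Matrix (KC z) (KC z) F) =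
      DA z + Aab z * DA z + (DA z * Aba z + Aab z * (DA z * Aba z)) := by
    unfold ThA
    rw [Matrix.add_mul, Matrix.one_mul, Matrix.mul_add, Matrix.mul_one, Matrix.add_mul,
      Matrix.mul_assoc]
  rw [h]
  ext x y
  simp only [Matrix.add_apply, Aab_mul, mul_Aba]
  obtain ⟨a, i⟩ := x
  obtain ⟨b, j⟩ := y
  cases a <;> cases b <;>
    simp [DA, Th0, Matrix.diagonal_apply, sgA, tE, tY]
  · rcases eq_or_ne i j with rfl | hij
    · rw [if_pos rfl, if_pos rfl]; simp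
    · rw [if_neg hij, zero_add]; exact if_neg hij
  · rfl

theorem sp_mul_apply {m n p : Type*} [Fintype m] [Fintype n] [Fintype p] [DecidableEq m]
    [DecidableEq n] (σ : m ≃ n) (s : n → F) (M : Matrix n p F) (i : m) (j : p) :
    (sp σ s * M) i j = s (σ i) * M (σ i) j := by
  rw [Matrix.mul_apply, Finset.sum_eq_single (σ i)]
  · simp [sp]
  · intro t _ ht
    simp [sp, Ne.symm ht]
  · simp

theorem mul_sp'_apply {m n p : Type*} [Fintype m] [Fintype n] [Fintype p] [DecidableEq m]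
    [DecidableEq n] (σ : m ≃ n) (s : n → F) (M : Matrix p n F) (i : p) (j : m) :
    (M * sp' σ s) i j = M i (σ j) * s (σ j) := by
  rw [Matrix.mul_apply, Finset.sum_eq_single (σ j)]
  · simp [sp']
  · intro t _ ht
    simp [sp', Ne.symm ht]
  · simp

/-- the middle matrix -/
def midU (a0 b0 c0 r a' b' b1 c1 d1 : ℕ) : Matrix (H0 a0 b0 c0 r a') (H1 r b' b1 c1 d1) F
  | .inr (.inr (.inl i)), .inl (.inl (.inr j)) => if i = j then 1 else 0
  | _, _ => 0

abbrev HH (a0 b0 c0 r a' b' b1 c1 d1 : ℕ) : Type := H0 a0 b0 c0 r a' ⊕ H1 r b' b1 c1 d1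

abbrev KK (a0 b0 c0 r a' b' b1 c1 d1 : ℕ) : Type := KC (mkSz a0 b0 c0 r a' b' b1 c1 d1)

theorem middle (a0 b0 c0 r a' b' b1 c1 d1 : ℕ) :
    (fromBlocks 1 (midU a0 b0 c0 r a' b' b1 c1 d1) 0 1 :
      Matrix (HH a0 b0 c0 r a' b' b1 c1 d1) (HH a0 b0 c0 r a' b' b1 c1 d1) F) =
    ((sp (sE a0 b0 c0 r a' b' b1 c1 d1) (fun x => sgB x.1) :
        Matrix (HH a0 b0 c0 r a' b' b1 c1 d1) (KK a0 b0 c0 r a' b' b1 c1 d1) F) *
      (((ThA (mkSz a0 b0 c0 r a' b' b1 c1 d1) :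
          Matrix (KK a0 b0 c0 r a' b' b1 c1 d1) (KK a0 b0 c0 r a' b' b1 c1 d1) F) *
        (sp' (sY a0 b0 c0 r a' b' b1 c1 d1) (fun _ => (1 : F)) :
          Matrix (KK a0 b0 c0 r a' b' b1 c1 d1) (HH a0 b0 c0 r a' b' b1 c1 d1) F)) :
          Matrix (KK a0 b0 c0 r a' b' b1 c1 d1) (HH a0 b0 c0 r a' b' b1 c1 d1) F) :
      Matrix (HH a0 b0 c0 r a' b' b1 c1 d1) (HH a0 b0 c0 r a' b' b1 c1 d1) F) := by
  ext x y
  rw [sp_mul_apply, mul_sp'_apply, ThA_eq, mul_one]
  rcases x with (((i | i) | (i | (i | i))) | (((i | i) | i) | (i | i))) <;>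
  rcases y with (((j | j) | (j | (j | j))) | (((j | j) | j) | (j | j))) <;>
  simp [sE, sY, Th0, sgB, midU, Matrix.one_apply] <;> rfl

end Crest.Agent.R003.NF5
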