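import Crest.Agent.R003.NF5c_990

/-!
# Row 3 (S0003), step S5: the abstract normal form (helper990)
-/

set_option autoImplicit false
set_option linter.unusedVariables false
set_option linter.unusedSectionVars false

namespace Crest.Agent.R003.NF5

open Matrix

variable {F : Type*} [Field F]

theorem ub_mul {p q : Type*} [Fintype p] [Fintype q] [DecidableEq p] [DecidableEq q]
    (A B : Matrix p q F) :
    ((fromBlocks 1 A 0 1 : Matrix (p ⊕ q) (p ⊕ q) F) * (fromBlocks 1 B 0 1 :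
      Matrix (p ⊕ q) (p ⊕ q) F) : Matrix (p ⊕ q) (p ⊕ q) F) = fromBlocks 1 (B + A) 0 1 := by
  rw [fromBlocks_multiply]
  simp

theorem bd_mul {p q p1 q1 p2 q2 : Type*} [Fintype p] [Fintype q] [DecidableEq p] [DecidableEq q]
    (A : Matrix p1 p F) (B : Matrix q1 q F) (X : Matrix p q F) (C : Matrix p p2 F)
    (D : Matrix q q2 F) :
    (((fromBlocks A 0 0 B : Matrix (p1 ⊕ q1) (p ⊕ q) F) *
      (fromBlocks 1 X 0 1 : Matrix (p ⊕ q) (p ⊕ q) F) : Matrix (p1 ⊕ q1) (p ⊕ q) F) *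
      (fromBlocks C 0 0 D : Matrix (p ⊕ q) (p2 ⊕ q2) F) : Matrix (p1 ⊕ q1) (p2 ⊕ q2) F) =
      fromBlocks (A * C) (A * X * D) 0 (B * D) := by
  rw [fromBlocks_multiply, fromBlocks_multiply]
  simp

theorem nf_blk {m0 m1 n0 n1 : Type*} [Fintype m0] [Fintype m1] [Fintype n0] [Fintype n1]
    [DecidableEq m0] [DecidableEq m1] [DecidableEq n0] [DecidableEq n1]
    (E0 : m0 → Bool) (E1 : m1 → Bool) (Y0 : n0 → Bool) (Y1 : n1 → Bool)
    (W0 : Matrix m0 n0 F) (W0' : Matrix n0 m0 F) (U : Matrix m0 n1 F)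
    (W1 : Matrix m1 n1 F) (W1' : Matrix n1 m1 F)
    (h0 : W0 * W0' = 1) (h0' : W0' * W0 = 1) (h1 : W1 * W1' = 1) (h1' : W1' * W1 = 1) :
    ∃ (z : Sz) (L : Matrix (m0 ⊕ m1) (KC z) F) (L' : Matrix (KC z) (m0 ⊕ m1) F)
      (R : Matrix (KC z) (n0 ⊕ n1) F) (R' : Matrix (n0 ⊕ n1) (KC z) F),
      TI (Sum.elim (fun i => (E0 i, false)) (fun i => (E1 i, true)) : m0 ⊕ m1 → Bool × Bool)
        (fun x : KC z => (tE x.1, tXE x.1)) L L' ∧
      TI (fun x : KC z => (tY x.1, tXY x.1))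
        (Sum.elim (fun i => (Y0 i, false)) (fun i => (Y1 i, true)) : n0 ⊕ n1 → Bool × Bool)
        R R' ∧
      (fromBlocks W0 U 0 W1 : Matrix (m0 ⊕ m1) (n0 ⊕ n1) F) =
        L * ((ThA z : Matrix (KC z) (KC z) F) * R : Matrix (KC z) (n0 ⊕ n1) F) := by
  obtain ⟨a0, b0, c0, d0, l0, l0', r0, r0', hl0, hr0, e0⟩ := bruhat h0 h0' E0 Y0
  obtain ⟨a1, b1, c1, d1, l1, l1', r1, r1', hl1, hr1, e1⟩ := bruhat h1 h1' E1 Y1
  rw [l1_eq] at hl0 hl1
  rw [l2_eq] at hr0 hr1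
  set U' : Matrix (I4 a0 b0 c0 d0) (I4 a1 b1 c1 d1) F := l0' * U * r1' with hU'
  let N : Matrix (Fin d0) (Fin a1) F := fun i j => U' (.inr (.inr i)) (.inl (.inl j))
  obtain ⟨a', b', r, g, g', h, h', hg, hg', hh, hh', hN⟩ := rank_nf N
  let G0 : Matrix (I4 a0 b0 c0 d0) (H0 a0 b0 c0 r a') F :=
    fromBlocks 1 0 0 (fromBlocks 1 0 0 g)
  let G0' : Matrix (H0 a0 b0 c0 r a') (I4 a0 b0 c0 d0) F :=
    fromBlocks 1 0 0 (fromBlocks 1 0 0 g')
  let G1 : Matrix (H1 r b' b1 c1 d1) (I4 a1 b1 c1 d1) F :=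
    fromBlocks (fromBlocks h 0 0 1) 0 0 1
  let G1' : Matrix (I4 a1 b1 c1 d1) (H1 r b' b1 c1 d1) F :=
    fromBlocks (fromBlocks h' 0 0 1) 0 0 1
  have tG0 : TI f1 f1 G0 G0' := TI.mod11 hg hg' f1 f1 (Or.inl ⟨rfl, rfl⟩)
  have tG0' : TI f2 f2 G0 G0' := TI.mod11 hg hg' f2 f2 (Or.inr ⟨rfl, rfl⟩)
  have tG1 : TI f1 f1 G1' G1 := TI.mod00 hh' hh f1 f1 (Or.inl ⟨rfl, rfl⟩)
  have tG1' : TI f2 f2 G1' G1 := TI.mod00 hh' hh f2 f2 (Or.inr ⟨rfl, rfl⟩)
  let U2 : Matrix (H0 a0 b0 c0 r a') (H1 r b' b1 c1 d1) F := G0' * U' * G1'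
  let UL : Matrix (H0 a0 b0 c0 r a') (H1 r b' b1 c1 d1) F :=
    fun i j => if f1 i ≤ f1 j then U2 i j else 0
  let UR : Matrix (H0 a0 b0 c0 r a') (H1 r b' b1 c1 d1) F :=
    fun i j => if ¬ (f1 i ≤ f1 j) ∧ f2 i ≤ f2 j then U2 i j else 0
  have hmid : ∀ i j, U2 (.inr (.inr i)) (.inl (.inl j)) = nu a' b' r i j := by
    have hN' : (g' * (N * h' : Matrix (Fin d0) (Fin b' ⊕ Fin r) F) :
        Matrix (Fin r ⊕ Fin a') (Fin b' ⊕ Fin r) F) = nu a' b' r := by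
      rw [hN]
      generalize (nu a' b' r : Matrix (Fin r ⊕ Fin a') (Fin b' ⊕ Fin r) F) = nn
      calc (g' * ((g * nn * h : Matrix (Fin d0) (Fin a1) F) * h' :
            Matrix (Fin d0) (Fin b' ⊕ Fin r) F) : Matrix (Fin r ⊕ Fin a') (Fin b' ⊕ Fin r) F)
          = ((g' * g : Matrix (Fin r ⊕ Fin a') (Fin r ⊕ Fin a') F) *
            (nn * (h * h' : Matrix (Fin b' ⊕ Fin r) (Fin b' ⊕ Fin r) F) :
              Matrix (Fin r ⊕ Fin a') (Fin b' ⊕ Fin r) F) :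
              Matrix (Fin r ⊕ Fin a') (Fin b' ⊕ Fin r) F) := by
            simp only [Matrix.mul_assoc]
        _ = nn := by rw [hg', hh, Matrix.one_mul, Matrix.mul_one]
    intro i j
    rw [← hN']
    simp [U2, G0', G1', Matrix.mul_apply, Fintype.sum_sum_type, N, Finset.sum_mul,
      Finset.mul_sum, mul_assoc]
    rw [Finset.sum_comm]
  have ntf : ¬ (true ≤ false) := by decide
  have hU2 : U2 = UL + midU a0 b0 c0 r a' b' b1 c1 d1 + UR := by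
    ext i j
    rcases i with ((i | i) | (i | i)) <;> rcases j with ((j | j) | (j | j))
    case inr.inr.inl.inl =>
      rw [hmid]
      rcases i with i | i <;> rcases j with j | j <;>
        simp [UL, UR, midU, nu, f1, f2, ntf]
    all_goals simp [UL, UR, midU, f1, f2]
  let z := mkSz a0 b0 c0 r a' b' b1 c1 d1
  let HHt := HH a0 b0 c0 r a' b' b1 c1 d1
  let D1 : Matrix (m0 ⊕ m1) HHt F := fromBlocks (l0 * G0) 0 0 (l1 * G1')
  let D1' : Matrix HHt (m0 ⊕ m1) F := fromBlocks (G0' * l0') 0 0 (G1 * l1')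
  let D2 : Matrix HHt (n0 ⊕ n1) F := fromBlocks (G0' * r0) 0 0 (G1 * r1)
  let D2' : Matrix (n0 ⊕ n1) HHt F := fromBlocks (r0' * G0) 0 0 (r1' * G1')
  have tD1 : TI (Sum.elim (fun i => (E0 i, false)) (fun i => (E1 i, true)) : m0 ⊕ m1 → Bool × Bool)
      (Sum.elim (fun i => (f1 i, false)) (fun i => (f1 i, true)) : HHt → Bool × Bool) D1 D1' :=
    TI.diag (hl0.comp tG0) (hl1.comp tG1)
  have tD2 : TI (Sum.elim (fun i => (f2 i, false)) (fun i => (f2 i, true)) : HHt → Bool × Bool)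
      (Sum.elim (fun i => (Y0 i, false)) (fun i => (Y1 i, true)) : n0 ⊕ n1 → Bool × Bool)
      D2 D2' :=
    TI.diag (tG0'.symm.comp hr0) (tG1'.symm.comp hr1)
  have tUL : TI (Sum.elim (fun i => (f1 i, false)) (fun i => (f1 i, true)) : HHt → Bool × Bool)
      (Sum.elim (fun i => (f1 i, false)) (fun i => (f1 i, true)) : HHt → Bool × Bool)
      (fromBlocks 1 UL 0 1) (fromBlocks 1 (-UL) 0 1) :=
    TI.uni f1 f1 UL (fun i j hij => if_neg hij)
  have tUR : TI (Sum.elim (fun i => (f2 i, false)) (fun i => (f2 i, true)) : HHt → Bool × Bool)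
      (Sum.elim (fun i => (f2 i, false)) (fun i => (f2 i, true)) : HHt → Bool × Bool)
      (fromBlocks 1 UR 0 1) (fromBlocks 1 (-UR) 0 1) :=
    TI.uni f2 f2 UR (fun i j hij => if_neg fun hh => hij hh.2)
  have tSE : TI (Sum.elim (fun i => (f1 i, false)) (fun i => (f1 i, true)) : HHt → Bool × Bool)
      (fun x : KC z => (tE x.1, tXE x.1)) (sp (sE a0 b0 c0 r a' b' b1 c1 d1) fun x => sgB x.1)
      (sp' (sE a0 b0 c0 r a' b' b1 c1 d1) fun x => (sgB x.1 : F)) := by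
    refine TI.perm _ _ (fun x => sgB_sq x.1) _ _ ?_
    rintro (((i | i) | (i | (i | i))) | (((i | i) | i) | (i | i))) <;> rfl
  have tSY : TI (Sum.elim (fun i => (f2 i, false)) (fun i => (f2 i, true)) : HHt → Bool × Bool)
      (fun x : KC z => (tY x.1, tXY x.1)) (sp (sY a0 b0 c0 r a' b' b1 c1 d1) fun _ => (1 : F))
      (sp' (sY a0 b0 c0 r a' b' b1 c1 d1) fun _ => (1 : F)) := by
    refine TI.perm _ _ (fun x => one_mul 1) _ _ ?_
    rintro (((i | i) | (i | (i | i))) | (((i | i) | i) | (i | i))) <;> rfl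
  let SE : Matrix HHt (KC z) F := sp (sE a0 b0 c0 r a' b' b1 c1 d1) fun x => sgB x.1
  let SE' : Matrix (KC z) HHt F := sp' (sE a0 b0 c0 r a' b' b1 c1 d1) fun x => (sgB x.1 : F)
  let SY : Matrix HHt (KC z) F := sp (sY a0 b0 c0 r a' b' b1 c1 d1) fun _ => (1 : F)
  let SY' : Matrix (KC z) HHt F := sp' (sY a0 b0 c0 r a' b' b1 c1 d1) fun _ => (1 : F)
  let VL : Matrix HHt HHt F := fromBlocks 1 UL 0 1
  let VR : Matrix HHt HHt F := fromBlocks 1 UR 0 1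
  have tVL : TI (Sum.elim (fun i => (f1 i, false)) (fun i => (f1 i, true)) : HHt → Bool × Bool)
      (Sum.elim (fun i => (f1 i, false)) (fun i => (f1 i, true)) : HHt → Bool × Bool)
      VL (fromBlocks 1 (-UL) 0 1) := tUL
  have tVR : TI (Sum.elim (fun i => (f2 i, false)) (fun i => (f2 i, true)) : HHt → Bool × Bool)
      (Sum.elim (fun i => (f2 i, false)) (fun i => (f2 i, true)) : HHt → Bool × Bool)
      VR (fromBlocks 1 (-UR) 0 1) := tUR
  have tSE2 : TI (Sum.elim (fun i => (f1 i, false)) (fun i => (f1 i, true)) : HHt → Bool × Bool)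
      (fun x : KC z => (tE x.1, tXE x.1)) SE SE' := tSE
  have tSY2 : TI (Sum.elim (fun i => (f2 i, false)) (fun i => (f2 i, true)) : HHt → Bool × Bool)
      (fun x : KC z => (tY x.1, tXY x.1)) SY SY' := tSY
  let Q : Matrix (KC z) (KC z) F := ThA z
  have hm : (fromBlocks 1 (midU a0 b0 c0 r a' b' b1 c1 d1) 0 1 : Matrix HHt HHt F) =
      (SE * (Q * SY' : Matrix (KC z) HHt F) : Matrix HHt HHt F) :=
    middle (F := F) a0 b0 c0 r a' b' b1 c1 d1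
  let L : Matrix (m0 ⊕ m1) (KC z) F :=
    (D1 * VL : Matrix (m0 ⊕ m1) HHt F) * SE
  let R : Matrix (KC z) (n0 ⊕ n1) F :=
    (SY' * VR : Matrix (KC z) HHt F) * D2
  refine ⟨z, L, _, R, _, (tD1.comp tVL).comp tSE2, (tSY2.symm.comp tVR).comp tD2, ?_⟩
  have e3 : (L * (Q * R : Matrix (KC z) (n0 ⊕ n1) F) : Matrix (m0 ⊕ m1) (n0 ⊕ n1) F) =
      ((D1 * (VL * ((SE * (Q * SY' : Matrix (KC z) HHt F) : Matrix HHt HHt F) * VR :
        Matrix HHt HHt F) : Matrix HHt HHt F) : Matrix (m0 ⊕ m1) HHt F) * D2 :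
          Matrix (m0 ⊕ m1) (n0 ⊕ n1) F) := by
    simp only [L, R, Matrix.mul_assoc]
  refine Eq.trans ?_ e3.symm
  rw [← hm]
  have q1 : ((fromBlocks 1 (midU a0 b0 c0 r a' b' b1 c1 d1) 0 1 : Matrix HHt HHt F) * VR :
      Matrix HHt HHt F) = fromBlocks 1 (UR + midU a0 b0 c0 r a' b' b1 c1 d1) 0 1 := ub_mul _ _
  rw [q1]
  have q2 : (VL * (fromBlocks 1 (UR + midU a0 b0 c0 r a' b' b1 c1 d1) 0 1 : Matrix HHt HHt F) :
      Matrix HHt HHt F) = fromBlocks 1 (UR + midU a0 b0 c0 r a' b' b1 c1 d1 + UL) 0 1 :=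
    ub_mul _ _
  rw [q2]
  refine Eq.trans ?_ (bd_mul (l0 * G0) (l1 * G1') (UR + midU a0 b0 c0 r a' b' b1 c1 d1 + UL)
    (G0' * r0) (G1 * r1)).symm
  have k0 : l0 * G0 * (G0' * r0) = W0 := by
    rw [Matrix.mul_assoc, ← Matrix.mul_assoc G0, tG0.mul, Matrix.one_mul, ← e0]
  have k1 : l1 * G1' * (G1 * r1) = W1 := by
    rw [Matrix.mul_assoc, ← Matrix.mul_assoc G1', tG1.mul, Matrix.one_mul, ← e1]
  have k2 : l0 * G0 * (UR + midU a0 b0 c0 r a' b' b1 c1 d1 + UL) * (G1 * r1) = U := by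
    have : UR + midU a0 b0 c0 r a' b' b1 c1 d1 + UL = U2 := by
      rw [hU2]; abel
    rw [this]
    calc l0 * G0 * (G0' * U' * G1') * (G1 * r1)
        = l0 * (G0 * G0') * U' * (G1' * G1) * r1 := by simp only [Matrix.mul_assoc]
      _ = l0 * (l0' * U * r1') * r1 := by
          rw [tG0.mul, tG1.mul, Matrix.mul_one, Matrix.mul_one]
      _ = (l0 * l0') * U * (r1' * r1) := by simp only [Matrix.mul_assoc]
      _ = U := by rw [hl0.mul, hr1.mul', Matrix.one_mul, Matrix.mul_one]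
  rw [k0, k1, k2]

end Crest.Agent.R003.NF5
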