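import Crest.Agent.R003.TwoLab832

/-!
# Row 3 (S0003): the matrix `Θ = N₁ D₁₃ N₃` of step S5 (helper832)
-/

set_option autoImplicit false

namespace Crest.Agent.R003

open Finset

/-! ### the four labellings of the corner -/

def labE : Atm → Bool
  | .a000 => false
  | .a001 => false
  | .a100 => true
  | .a010 => false
  | .al => false
  | .be => true
  | .a101 => true
  | .a011 => false
  | .a110 => true
  | .a111 => true

def labY : Atm → Bool
  | .a000 => false
  | .a001 => true
  | .a100 => false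
  | .a010 => false
  | .al => true
  | .be => false
  | .a101 => true
  | .a011 => true
  | .a110 => false
  | .a111 => true

def labXE : Atm → Bool
  | .a000 => false
  | .a001 => false
  | .a100 => false
  | .a010 => true
  | .al => true
  | .be => false
  | .a101 => false
  | .a011 => true
  | .a110 => true
  | .a111 => true

def labXY : Atm → Bool
  | .a000 => false
  | .a001 => false
  | .a100 => false
  | .a010 => true
  | .al => false
  | .be => true
  | .a101 => false
  | .a011 => true
  | .a110 => true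
  | .a111 => true

/-- the nilpotent matrix with entries `1` at `(s + t, s + m + t)`, `t < m` -/
def nilp (n s m : ℕ) : Matrix (Fin n) (Fin n) ℂ :=
  fun i j => if s ≤ i.1 ∧ i.1 < s + m ∧ j.1 = i.1 + m then 1 else 0

theorem nilp_sq (n s m : ℕ) : nilp n s m * nilp n s m = 0 := by
  ext i j
  rw [Matrix.mul_apply, Matrix.zero_apply]
  apply sum_eq_zero
  intro l _
  unfold nilp
  by_cases h1 : s ≤ i.1 ∧ i.1 < s + m ∧ l.1 = i.1 + m
  · rw [if_neg (c := s ≤ l.1 ∧ l.1 < s + m ∧ j.1 = l.1 + m) (by omega), mul_zero]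
  · rw [if_neg h1, zero_mul]

/-- `1 + N` -/
def nG (n s m : ℕ) : G n where
  val := 1 + nilp n s m
  inv := 1 - nilp n s m
  val_inv := by
    rw [mul_sub, add_mul, add_mul, nilp_sq]
    simp
  inv_val := by
    rw [sub_mul, mul_add, mul_add, nilp_sq]
    simp

/-- `1 + Nᵀ` -/
def nGT (n s m : ℕ) : G n where
  val := 1 + (nilp n s m).transpose
  inv := 1 - (nilp n s m).transpose
  val_inv := by
    rw [mul_sub, add_mul, add_mul, ← Matrix.transpose_mul, nilp_sq]
    simp
  inv_val := by
    rw [sub_mul, mul_add, mul_add, ← Matrix.transpose_mul, nilp_sq]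
    simp

theorem nG_apply (n s m : ℕ) (i j : Fin n) : (nG n s m).1 i j =
    (if i = j then 1 else 0) + if s ≤ i.1 ∧ i.1 < s + m ∧ j.1 = i.1 + m then 1 else 0 := by
  change (1 + nilp n s m) i j = _
  rw [Matrix.add_apply, Matrix.one_apply]
  rfl

theorem nGT_apply (n s m : ℕ) (i j : Fin n) : (nGT n s m).1 i j =
    (if i = j then 1 else 0) + if s ≤ j.1 ∧ j.1 < s + m ∧ i.1 = j.1 + m then 1 else 0 := by
  change (1 + (nilp n s m).transpose) i j = _
  rw [Matrix.add_apply, Matrix.one_apply]
  rfl

theorem nilp_mem (O : Subring ℂ) (n s m : ℕ) (i j : Fin n) : nilp n s m i j ∈ O := by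
  unfold nilp
  split_ifs
  · exact O.one_mem
  · exact O.zero_mem

theorem one_mem_O (O : Subring ℂ) (n : ℕ) (i j : Fin n) :
    (1 : Matrix (Fin n) (Fin n) ℂ) i j ∈ O := by
  rw [Matrix.one_apply]
  split_ifs
  · exact O.one_mem
  · exact O.zero_mem

theorem nG_mem_GO (O : Subring ℂ) (n s m : ℕ) : nG n s m ∈ GO O n := by
  intro i j
  exact ⟨O.add_mem (one_mem_O O n i j) (nilp_mem O n s m i j),
    O.sub_mem (one_mem_O O n i j) (nilp_mem O n s m i j)⟩

theorem nGT_mem_GO (O : Subring ℂ) (n s m : ℕ) : nGT n s m ∈ GO O n := by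
  intro i j
  exact ⟨O.add_mem (one_mem_O O n i j) (nilp_mem O n s m j i),
    O.sub_mem (one_mem_O O n i j) (nilp_mem O n s m j i)⟩

theorem nG_mem_GLk {n s m k : ℕ} (h : s + m + m ≤ k) : nG n s m ∈ GLk n k := by
  intro i j hij
  rw [nG_apply, if_neg (c := s ≤ i.1 ∧ i.1 < s + m ∧ j.1 = i.1 + m) (by omega), add_zero]

theorem nGT_mem_GLk {n s m k : ℕ} (h : s + m + m ≤ k) : nGT n s m ∈ GLk n k := by
  intro i j hij
  rw [nGT_apply, if_neg (c := s ≤ j.1 ∧ j.1 < s + m ∧ i.1 = j.1 + m) (by omega), add_zero]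

/-- a unipotent block triangular matrix -/
theorem isPar_unip {n : ℕ} {c : List Bool} {P : G n} (hn : c.length ≤ n)
    (hm : P ∈ GLk n c.length)
    (h : ∀ (i j : Fin n) (a b : Bool), lab c i.1 = some a → lab c j.1 = some b →
      ¬ (a = false ∧ b = true) → P.1 i j = if i = j then 1 else 0) :
    IsPar c c (fun _ => (1 : G n)) P where
  len := hn
  cnt := fun _ => rfl
  mem := hm
  blk := fun l => (GLk n _).one_mem
  zero := by
    intro i j a b hi hj hab
    rw [h i j a b hi hj, if_neg]
    · rintro rfl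
      rw [hi] at hj
      exact hab (by rw [Option.some.inj hj])
    · rintro ⟨rfl, rfl⟩
      exact hab (by decide)
  diag := by
    intro i j u v a hi hj hu hv
    rw [h i j a a hi hj (by rintro ⟨h1, h2⟩; rw [h1] at h2; cases h2)]
    change _ = (1 : Matrix (Fin n) (Fin n) ℂ) u v
    rw [Matrix.one_apply]
    by_cases hij : i = j
    · subst hij
      rw [if_pos rfl, if_pos (Fin.ext (by rw [hu, hv]))]
    · rw [if_neg hij, if_neg]
      rintro rfl
      exact hij (Fin.ext (take_count_inj hi hj (by rw [← hu, ← hv])))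

namespace Sz

/-- start of the plane atoms -/
def st (z : Sz) : ℕ := z.start .al

theorem start_be (z : Sz) : z.start .be = z.st + z.m := rfl

theorem two_m_le (z : Sz) : z.st + z.m + z.m ≤ z.tot := by
  simp only [st, start, tot]
  omega

/-- `N₁` -/
def N1 (z : Sz) (n : ℕ) : G n := nG n z.st z.m

/-- `N₃` -/
def N3 (z : Sz) (n : ℕ) : G n := nGT n z.st z.m

theorem lab_al {Λ : Type} (z : Sz) (f : Atm → Λ) {i : ℕ} (h1 : z.st ≤ i) (h2 : i < z.st + z.m) :
    lab (z.lst f) i = some (f .al) := by
  have := z.lst_getElem f .al (i - z.st) (by simp only [size]; omega)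
  rw [show z.start .al + (i - z.st) = i by simp only [st] at *; omega] at this
  exact this

theorem lab_be {Λ : Type} (z : Sz) (f : Atm → Λ) {i : ℕ} (h1 : z.st ≤ i) (h2 : i < z.st + z.m) :
    lab (z.lst f) (i + z.m) = some (f .be) := by
  have := z.lst_getElem f .be (i - z.st) (by simp only [size]; omega)
  rw [show z.start .be + (i - z.st) = i + z.m by simp only [start_be] at *; omega] at this
  exact this

theorem isPar_N1 (z : Sz) {n : ℕ} (hn : z.tot ≤ n) :
    IsPar (z.lst labE) (z.lst labE) (fun _ => (1 : G n)) (z.N1 n) := by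
  apply isPar_unip
  · rw [lst_length]; exact hn
  · rw [lst_length]; exact nG_mem_GLk z.two_m_le
  · intro i j a b hi hj hab
    rw [N1, nG_apply, if_neg (c := z.st ≤ i.1 ∧ i.1 < z.st + z.m ∧ j.1 = i.1 + z.m), add_zero]
    rintro ⟨h1, h2, h3⟩
    rw [z.lab_al labE h1 h2] at hi
    rw [h3, z.lab_be labE h1 h2] at hj
    exact hab ⟨(Option.some.inj hi).symm, (Option.some.inj hj).symm⟩

theorem isPar_N3 (z : Sz) {n : ℕ} (hn : z.tot ≤ n) :
    IsPar (z.lst labY) (z.lst labY) (fun _ => (1 : G n)) (z.N3 n) := by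
  apply isPar_unip
  · rw [lst_length]; exact hn
  · rw [lst_length]; exact nGT_mem_GLk z.two_m_le
  · intro i j a b hi hj hab
    rw [N3, nGT_apply, if_neg (c := z.st ≤ j.1 ∧ j.1 < z.st + z.m ∧ i.1 = j.1 + z.m), add_zero]
    rintro ⟨h1, h2, h3⟩
    rw [z.lab_al labY h1 h2] at hj
    rw [h3, z.lab_be labY h1 h2] at hi
    exact hab ⟨(Option.some.inj hi).symm, (Option.some.inj hj).symm⟩

/-- entries of `Θ` -/
noncomputable def thE (z : Sz) (i j : ℕ) : ℂ :=
  if i = j then (if z.st ≤ i ∧ i < z.st + z.m then 0 else (dsv (z.lst labE) (z.lst labY) sg i : ℂ))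
  else if (z.st ≤ i ∧ i < z.st + z.m ∧ j = i + z.m) ∨ (z.st ≤ j ∧ j < z.st + z.m ∧ i = j + z.m)
  then 1 else 0

/-- `Θ` -/
noncomputable def Th (z : Sz) (n : ℕ) : G n :=
  z.N1 n * dsg n (z.lst labE) (z.lst labY) sg * z.N3 n

theorem Th_apply (z : Sz) {n : ℕ} (hn : z.tot ≤ n) (i j : Fin n) :
    (z.Th n).1 i j = z.thE i.1 j.1 := by
  have h2m := z.two_m_le
  have dal : ∀ i, z.st ≤ i → i < z.st + z.m → dsv (z.lst labE) (z.lst labY) sg i = -1 := by
    intro i h1 h2
    rw [dsv_of_some (z.lab_al labE h1 h2) (z.lab_al labY h1 h2)]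
    simp [sg, labE, labY]
  have dbe : ∀ i, z.st ≤ i → i < z.st + z.m → dsv (z.lst labE) (z.lst labY) sg (i + z.m) = 1 := by
    intro i h1 h2
    rw [dsv_of_some (z.lab_be labE h1 h2) (z.lab_be labY h1 h2)]
    simp [sg, labE]
  unfold Th
  rw [Units.val_mul, Units.val_mul, Matrix.mul_apply]
  have e1 : ∀ l : Fin n, ((z.N1 n).1 * (dsg n (z.lst labE) (z.lst labY) sg).1) i l =
      (z.N1 n).1 i l * (dsv (z.lst labE) (z.lst labY) sg l.1 : ℂ) := by
    intro l
    rw [Matrix.mul_apply, sum_eq_single l]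
    · rw [dsg_apply, if_pos rfl]
    · intro l' _ h
      rw [dsg_apply, if_neg h, mul_zero]
    · simp
  simp only [e1]
  unfold N1 N3 thE
  simp only [nG_apply, nGT_apply]
  by_cases hi : z.st ≤ i.1 ∧ i.1 < z.st + z.m
  · -- row in the `α` part
    have hb : i.1 + z.m < n := by omega
    rw [← sum_subset (subset_univ {i, ⟨i.1 + z.m, hb⟩})]
    · have hm : 0 < z.m := by omega
      rw [sum_pair (by intro h; have := congrArg Fin.val h; simp at this; omega)]
      rw [dal _ hi.1 hi.2, dbe _ hi.1 hi.2]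
      have hii : i ≠ (⟨i.1 + z.m, hb⟩ : Fin n) := by
        intro h; have := congrArg Fin.val h; simp at this; omega
      by_cases hij : i = j
      · subst hij
        simp [hi.1, hi.2, hm.ne', hii, hii.symm]
      · have hij' : i.1 ≠ j.1 := fun h => hij (Fin.ext h)
        by_cases hj : j.1 = i.1 + z.m
        · have hji : (⟨i.1 + z.m, hb⟩ : Fin n) = j := Fin.ext hj.symm
          simp [hi.1, hi.2, hm.ne', hij, hj, hji]
        · have hji : (⟨i.1 + z.m, hb⟩ : Fin n) ≠ j := fun h => hj (by rw [← h])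
          have h3 : ¬ (z.st ≤ j.1 ∧ j.1 < z.st + z.m ∧ i.1 + z.m = j.1 + z.m) := by omega
          have h4 : ¬ (z.st ≤ j.1 ∧ j.1 < z.st + z.m ∧ i.1 = j.1 + z.m) := by omega
          simp only [hij, if_false, h3, h4, hji, hj, hij', and_false, or_self, mul_zero, add_zero]
    · intro l _ hl
      simp only [mem_insert, mem_singleton, not_or] at hl
      have h1 : ¬ (i = l) := fun h => hl.1 h.symm
      have h2 : ¬ (z.st ≤ i.1 ∧ i.1 < z.st + z.m ∧ l.1 = i.1 + z.m) := by
        rintro ⟨_, _, h⟩
        exact hl.2 (Fin.ext h)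
      simp only [h1, h2, if_false, add_zero, zero_mul]
  · have hrow : ∀ l : Fin n, ((if i = l then (1 : ℂ) else 0) +
        if z.st ≤ i.1 ∧ i.1 < z.st + z.m ∧ l.1 = i.1 + z.m then 1 else 0) =
        if i = l then 1 else 0 := by
      intro l
      rw [if_neg (c := z.st ≤ i.1 ∧ i.1 < z.st + z.m ∧ l.1 = i.1 + z.m)
        (fun h => hi ⟨h.1, h.2.1⟩), add_zero]
    simp only [hrow]
    rw [sum_eq_single i]
    · by_cases hij : i = j
      · subst hij
        have h3 : ¬ (z.st ≤ i.1 ∧ i.1 < z.st + z.m ∧ i.1 = i.1 + z.m) :=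
          fun h => hi ⟨h.1, h.2.1⟩
        simp only [if_true, one_mul, h3, if_false, add_zero, mul_one, hi]
      · have hij' : i.1 ≠ j.1 := fun h => hij (Fin.ext h)
        have h3 : ¬ (z.st ≤ i.1 ∧ i.1 < z.st + z.m ∧ j.1 = i.1 + z.m) :=
          fun h => hi ⟨h.1, h.2.1⟩
        by_cases hj : z.st ≤ j.1 ∧ j.1 < z.st + z.m ∧ i.1 = j.1 + z.m
        · have hd := dbe _ hj.1 hj.2.1
          rw [← hj.2.2] at hd
          rw [if_pos rfl, one_mul, if_neg hij, zero_add, if_pos hj, mul_one, hd, if_neg hij',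
            if_pos (Or.inr hj)]
          simp
        · simp only [if_true, one_mul, hij, if_false, zero_add, hj, mul_zero, hij', h3, or_self]
    · intro l _ hl
      rw [if_neg (Ne.symm hl), zero_mul, zero_mul]
    · simp

theorem dsv_start (z : Sz) (p : Atm) (t : ℕ) (ht : t < z.size p) :
    dsv (z.lst labE) (z.lst labY) sg (z.start p + t) = sg (labE p) (labY p) :=
  dsv_of_some (z.lst_getElem labE p t ht) (z.lst_getElem labY p t ht)

theorem F1 (z : Sz) (p q : Atm) (t t' : ℕ) (ht : t < z.size p) (ht' : t' < z.size q) :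
    z.start p + t = z.start q + t' ↔ p = q ∧ t = t' := by
  cases p <;> cases q <;> simp only [start, size, reduceCtorEq, false_and, true_and, iff_false] at ht ht' ⊢ <;>
    omega

theorem F2 (z : Sz) (p : Atm) (t : ℕ) (ht : t < z.size p) :
    (z.st ≤ z.start p + t ∧ z.start p + t < z.st + z.m) ↔ p = .al := by
  cases p <;> simp only [start, size, st, reduceCtorEq, iff_false, iff_true] at ht ⊢ <;> omega

theorem F3 (z : Sz) (p q : Atm) (t t' : ℕ) (ht : t < z.size p) (ht' : t' < z.size q)
    (hp : p = .al) :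
    z.start q + t' = z.start p + t + z.m ↔ q = .be ∧ t = t' := by
  subst hp
  cases q <;> simp only [start, size, reduceCtorEq, false_and, true_and, iff_false] at ht ht' ⊢ <;>
    omega

theorem F5 (z : Sz) (x : Bool) (p q : Atm) (t t' : ℕ) (ht : t < z.size p)
    (ht' : t' < z.size q) (hp : labXE p = x) (hq : labXY q = x) :
    z.pre labXE x p + t = z.pre labXY x q + t' ↔
      t = t' ∧ (p = q ∨ (p = .al ∧ q = .be) ∨ (p = .be ∧ q = .al)) := by
  cases x <;> cases p <;> (try (exact absurd hp (by decide))) <;> cases q <;>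
    (try (exact absurd hq (by decide))) <;>
    simp only [pre, size, labXE, labXY, if_true, if_false, Bool.false_eq_true, Bool.true_eq_false,
      reduceCtorEq, and_true, or_false, and_false, iff_false, and_self, or_true, or_self]
      at ht ht' ⊢ <;> omega

/-- the only combinatorial check of step S5 -/
theorem thE_diag (z : Sz) (x : Bool) (p q : Atm) (t t' : ℕ) (ht : t < z.size p)
    (ht' : t' < z.size q) (hp : labXE p = x) (hq : labXY q = x) :
    z.thE (z.start p + t) (z.start q + t') =
      if z.pre labXE x p + t = z.pre labXY x q + t' then (sg (labE p) (labY q) : ℂ) else 0 := by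
  have f1 := z.F1 p q t t' ht ht'
  have f2 := z.F2 p t ht
  have f2' := z.F2 q t' ht'
  have f5 := z.F5 x p q t t' ht ht' hp hq
  have h3 : (z.st ≤ z.start p + t ∧ z.start p + t < z.st + z.m ∧
      z.start q + t' = z.start p + t + z.m) ↔ (p = .al ∧ q = .be ∧ t = t') := by
    constructor
    · rintro ⟨h1, h2, h3⟩
      have hpa := f2.mp ⟨h1, h2⟩
      exact ⟨hpa, (z.F3 p q t t' ht ht' hpa).mp h3⟩
    · rintro ⟨h1, h2⟩
      exact ⟨(f2.mpr h1).1, (f2.mpr h1).2, (z.F3 p q t t' ht ht' h1).mpr h2⟩
  have h4 : (z.st ≤ z.start q + t' ∧ z.start q + t' < z.st + z.m ∧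
      z.start p + t = z.start q + t' + z.m) ↔ (q = .al ∧ p = .be ∧ t' = t) := by
    constructor
    · rintro ⟨h1, h2, h3⟩
      have hpa := f2'.mp ⟨h1, h2⟩
      exact ⟨hpa, (z.F3 q p t' t ht' ht hpa).mp h3⟩
    · rintro ⟨h1, h2⟩
      exact ⟨(f2'.mpr h1).1, (f2'.mpr h1).2, (z.F3 q p t' t ht' ht h1).mpr h2⟩
  unfold thE
  rw [z.dsv_start p t ht]
  by_cases htt : t = t'
  · subst htt
    by_cases hpq : p = q
    · subst hpq
      rw [if_pos (f1.mpr ⟨rfl, rfl⟩), if_pos (f5.mpr ⟨rfl, Or.inl rfl⟩), if_neg]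
      rw [f2]
      rintro rfl
      rw [← hq] at hp
      exact absurd hp (by decide)
    · rw [if_neg (fun h => hpq (f1.mp h).1)]
      by_cases h5 : (p = .al ∧ q = .be) ∨ (p = .be ∧ q = .al)
      · rw [if_pos (f5.mpr ⟨rfl, Or.inr h5⟩), if_pos]
        · rcases h5 with ⟨rfl, rfl⟩ | ⟨rfl, rfl⟩ <;> simp [sg, labE, labY]
        · rcases h5 with ⟨rfl, rfl⟩ | ⟨rfl, rfl⟩
          · exact Or.inl (h3.mpr ⟨rfl, rfl, rfl⟩)
          · exact Or.inr (h4.mpr ⟨rfl, rfl, rfl⟩)
      · have hB : ¬ (z.pre labXE x p + t = z.pre labXY x q + t) := by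
          intro h
          rcases (f5.mp h).2 with h | h
          · exact hpq h
          · exact h5 h
        rw [if_neg hB, if_neg]
        rintro (h | h)
        · have := h3.mp h
          exact h5 (Or.inl ⟨this.1, this.2.1⟩)
        · have := h4.mp h
          exact h5 (Or.inr ⟨this.2.1, this.1⟩)
  · rw [if_neg (fun h => htt (f1.mp h).2), if_neg (fun h => htt (f5.mp h).1), if_neg]
    rintro (h | h)
    · exact htt (h3.mp h).2.2
    · exact htt (h4.mp h).2.2.symm

theorem Th_isPar (z : Sz) {n : ℕ} (hn : z.tot ≤ n) :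
    IsPar (z.lst labXE) (z.lst labXY)
      (fun x => dsg n (restr (z.lst labXY) (z.lst labY) x) (restr (z.lst labXE) (z.lst labE) x)
        (fun y e => sg e y)) (z.Th n) where
  len := by rw [lst_length]; exact hn
  cnt := by
    intro l
    cases l <;> simp [lst, labXE, labXY, List.count_replicate]
  mem := by
    rw [lst_length]
    exact (GLk n _).mul_mem ((GLk n _).mul_mem (nG_mem_GLk z.two_m_le)
      (dsg_mem_GLk832 (Or.inl (by rw [lst_length])))) (nGT_mem_GLk z.two_m_le)
  blk := by
    intro l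
    apply dsg_mem_GLk832
    right
    rw [restr_length832 (by rw [lst_length, lst_length])]
  zero := by
    intro i j a b hi hj hab
    have ha : a = true := by
      cases a
      · exact absurd (Bool.false_le b) hab
      · rfl
    have hb : b = false := by
      cases b
      · rfl
      · exact absurd (Bool.le_true a) hab
    subst ha hb
    rw [z.Th_apply hn]
    obtain ⟨p, t, ht, hip⟩ := z.exists_atm (i := i.1) (by
      have := lab_lt832 hi; rwa [lst_length] at this)
    obtain ⟨q, t', ht', hjq⟩ := z.exists_atm (i := j.1) (by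
      have := lab_lt832 hj; rwa [lst_length] at this)
    rw [hip] at hi ⊢
    rw [hjq] at hj ⊢
    have hp : labXE p = true := by
      have := z.lst_getElem labXE p t ht
      rw [lab, this] at hi
      exact Option.some.inj hi
    have hq : labXY q = false := by
      have := z.lst_getElem labXY q t' ht'
      rw [lab, this] at hj
      exact Option.some.inj hj
    unfold thE
    by_cases h1 : z.start p + t = z.start q + t'
    · obtain ⟨rfl, rfl⟩ := (z.F1 p q t t' ht ht').mp h1
      rw [if_pos rfl, if_pos]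
      rw [z.F2 p t ht]
      cases p <;> simp_all [labXE, labXY]
    · rw [if_neg h1, if_neg]
      rintro (⟨h2, h3, h4⟩ | ⟨h2, h3, h4⟩)
      · have h5 := (z.F2 p t ht).mp ⟨h2, h3⟩
        have h6 := (z.F3 p q t t' ht ht' h5).mp h4
        rw [h6.1] at hq
        exact absurd hq (by decide)
      · have h5 := (z.F2 q t' ht').mp ⟨h2, h3⟩
        have h6 := (z.F3 q p t' t ht' ht h5).mp h4
        rw [h6.1] at hp
        exact absurd hp (by decide)
  diag := by
    intro i j u v x hi hj hu hv
    have hlen1 : (z.lst labXE).length = (z.lst labE).length := by rw [lst_length, lst_length]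
    have hlen2 : (z.lst labXY).length = (z.lst labY).length := by rw [lst_length, lst_length]
    have hr1 := lab_restr hlen1 hi
    have hr2 := lab_restr hlen2 hj
    rw [← hu] at hr1
    rw [← hv] at hr2
    rw [z.Th_apply hn]
    obtain ⟨p, t, ht, hip⟩ := z.exists_atm (i := i.1) (by
      have := lab_lt832 hi; rwa [lst_length] at this)
    obtain ⟨q, t', ht', hjq⟩ := z.exists_atm (i := j.1) (by
      have := lab_lt832 hj; rwa [lst_length] at this)
    rw [hip] at hi hu hr1 ⊢
    rw [hjq] at hj hv hr2 ⊢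
    have hp : labXE p = x := by
      have := z.lst_getElem labXE p t ht
      rw [lab, this] at hi
      exact Option.some.inj hi
    have hq : labXY q = x := by
      have := z.lst_getElem labXY q t' ht'
      rw [lab, this] at hj
      exact Option.some.inj hj
    have hr1' : lab (restr (z.lst labXE) (z.lst labE) x) u.1 = some (labE p) := by
      rw [hr1]; exact z.lst_getElem labE p t ht
    have hr2' : lab (restr (z.lst labXY) (z.lst labY) x) v.1 = some (labY q) := by
      rw [hr2]; exact z.lst_getElem labY q t' ht'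
    rw [z.lst_count_take labXE x p t ht, if_pos hp] at hu
    rw [z.lst_count_take labXY x q t' ht', if_pos hq] at hv
    rw [z.thE_diag x p q t t' ht ht' hp hq, ← hu, ← hv, dsg_apply]
    by_cases huv : u = v
    · subst huv
      rw [if_pos rfl, if_pos rfl, dsv_of_some hr2' hr1']
    · rw [if_neg huv, if_neg (fun h => huv (Fin.ext h))]

end Sz

end Crest.Agent.R003
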