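import Crest.Agent.R003.NF5d_990
import Crest.Agent.R003.Theta832

/-!
# Row 3 (S0003), step S5: the abstract normal form on arbitrary index types (helper990)
-/

set_option autoImplicit false
set_option linter.unusedVariables false
set_option linter.unusedSectionVars false

namespace Crest.Agent.R003.NF5

open Matrix

theorem tE_eq : tE = labE := by funext x; cases x <;> rfl
theorem tY_eq : tY = labY := by funext x; cases x <;> rfl
theorem tXE_eq : tXE = labXE := by funext x; cases x <;> rfl
theorem tXY_eq : tXY = labXY := by funext x; cases x <;> rfl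

variable {F : Type*} [Field F]

theorem nf_abs {m n : Type*} [Fintype m] [Fintype n] [DecidableEq m] [DecidableEq n]
    (P : Matrix m n F) (P' : Matrix n m F) (hP : P * P' = 1) (hP' : P' * P = 1)
    (E X : m → Bool) (X' Y : n → Bool) (hz : ∀ i j, ¬ X i ≤ X' j → P i j = 0)
    (hc : Fintype.card {i // X i = false} = Fintype.card {j // X' j = false}) :
    ∃ (z : Sz) (L : Matrix m (KC z) F) (L' : Matrix (KC z) m F) (R : Matrix (KC z) n F)
      (R' : Matrix n (KC z) F),
      TI (fun i => (E i, X i)) (fun x : KC z => (tE x.1, tXE x.1)) L L' ∧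
      TI (fun x : KC z => (tY x.1, tXY x.1)) (fun j => (Y j, X' j)) R R' ∧
      P = L * ((ThA z : Matrix (KC z) (KC z) F) * R : Matrix (KC z) n F) := by
  let em : {i // X i = false} ⊕ {i // ¬ X i = false} ≃ m := Equiv.sumCompl _
  let en : {j // X' j = false} ⊕ {j // ¬ X' j = false} ≃ n := Equiv.sumCompl _
  let Q : Matrix ({i // X i = false} ⊕ {i // ¬ X i = false})
    ({j // X' j = false} ⊕ {j // ¬ X' j = false}) F := P.submatrix em en
  let Q' : Matrix ({j // X' j = false} ⊕ {j // ¬ X' j = false})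
    ({i // X i = false} ⊕ {i // ¬ X i = false}) F := P'.submatrix en em
  have hQ : Q * Q' = 1 := by
    simp only [Q, Q']
    rw [Matrix.submatrix_mul_equiv, hP, Matrix.submatrix_one_equiv]
  have hQ' : Q' * Q = 1 := by
    simp only [Q, Q']
    rw [Matrix.submatrix_mul_equiv, hP', Matrix.submatrix_one_equiv]
  have h21 : Q.toBlocks₂₁ = 0 := by
    ext i j
    refine hz _ _ ?_
    have h1 : X i.1 = true := by
      have := i.2
      simpa using this
    have h1 : X (em (.inr i)) = true := h1
    have h2 : X' (en (.inl j)) = false := j.2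
    rw [h1, h2]
    decide
  have hQb : Q = fromBlocks Q.toBlocks₁₁ Q.toBlocks₁₂ 0 Q.toBlocks₂₂ := by
    rw [← h21, fromBlocks_toBlocks]
  have hQb' : Q' = fromBlocks Q'.toBlocks₁₁ Q'.toBlocks₁₂ Q'.toBlocks₂₁ Q'.toBlocks₂₂ :=
    (fromBlocks_toBlocks Q').symm
  have k1 := hQ
  have k2 := hQ'
  rw [hQb, hQb', fromBlocks_multiply, ← fromBlocks_one] at k1 k2
  rw [fromBlocks_inj] at k1 k2
  simp only [Matrix.zero_mul, Matrix.mul_zero, zero_add, add_zero] at k1 k2
  obtain ⟨a1, a2, a3, a4⟩ := k1
  obtain ⟨b1, b2, b3, b4⟩ := k2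
  have c1 : Q.toBlocks₁₁ * Q'.toBlocks₁₁ = 1 :=
    (Matrix.mul_eq_one_comm_of_equiv (Fintype.equivOfCardEq hc.symm)).mp b1
  have c2 : Q'.toBlocks₂₁ = 0 := by
    have : Q'.toBlocks₂₁ * (Q.toBlocks₁₁ * Q'.toBlocks₁₁) = 0 := by
      rw [← Matrix.mul_assoc, b3, Matrix.zero_mul]
    rwa [c1, Matrix.mul_one] at this
  rw [c2, Matrix.zero_mul, zero_add] at b4
  obtain ⟨z, L, L', R, R', hL, hR, he⟩ := nf_blk (fun i : {i // X i = false} => E i.1)
    (fun i : {i // ¬ X i = false} => E i.1) (fun j : {j // X' j = false} => Y j.1)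
    (fun j : {j // ¬ X' j = false} => Y j.1) Q.toBlocks₁₁ Q'.toBlocks₁₁ Q.toBlocks₁₂
    Q.toBlocks₂₂ Q'.toBlocks₂₂ c1 b1 a4 b4
  rw [← hQb] at he
  have hL2 := hL.sub em.symm (Equiv.refl (KC z))
  have hR2 := hR.sub (Equiv.refl (KC z)) en.symm
  have e1 : (Sum.elim (fun i : {i // X i = false} => (E i.1, false))
      (fun i : {i // ¬ X i = false} => (E i.1, true))) ∘ em.symm = fun i => (E i, X i) := by
    funext i
    obtain ⟨x, rfl⟩ := em.surjective i
    rw [Function.comp_apply, Equiv.symm_apply_apply]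
    rcases x with x | x
    · exact Prod.ext rfl x.2.symm
    · exact Prod.ext rfl (by
        have := x.2
        simp only [Bool.not_eq_false] at this
        exact this.symm)
  have e2 : (Sum.elim (fun j : {j // X' j = false} => (Y j.1, false))
      (fun j : {j // ¬ X' j = false} => (Y j.1, true))) ∘ en.symm = fun j => (Y j, X' j) := by
    funext i
    obtain ⟨x, rfl⟩ := en.surjective i
    rw [Function.comp_apply, Equiv.symm_apply_apply]
    rcases x with x | x
    · exact Prod.ext rfl x.2.symm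
    · exact Prod.ext rfl (by
        have := x.2
        simp only [Bool.not_eq_false] at this
        exact this.symm)
  rw [e1] at hL2
  rw [e2] at hR2
  refine ⟨z, _, _, _, _, hL2, hR2, ?_⟩
  have e3 : P = Q.submatrix em.symm en.symm := by
    ext i j
    simp [Q]
  rw [e3, he]
  ext i j
  simp only [Matrix.mul_apply, Matrix.submatrix_apply, Equiv.refl_apply]

end Crest.Agent.R003.NF5
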