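import Crest.Agent.R003.NF5e_990
import Crest.Agent.R003.NF5a832
import Crest.Agent.R003.BruhatG686

/-!
# Row 3 (S0003), step S5: `NF5 n` (helper990)
-/

set_option autoImplicit false
set_option linter.unusedVariables false
set_option linter.unusedSectionVars false

namespace Crest.Agent.R003.NF5

open Matrix

theorem start_add_lt (z : Sz) (a : Atm) (t : ℕ) (ht : t < z.size a) :
    z.start a + t < z.tot := by
  cases a <;> simp only [Sz.start, Sz.size, Sz.tot] at * <;> omega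

/-- positions -/
noncomputable def posE (z : Sz) : KC z ≃ Fin z.tot :=
  Equiv.ofBijective (fun x => ⟨z.start x.1 + x.2.1, start_add_lt z x.1 x.2.1 x.2.2⟩) (by
    constructor
    · rintro ⟨a, i⟩ ⟨b, j⟩ hab
      have h1 : z.start a + i.1 = z.start b + j.1 := congrArg Fin.val hab
      obtain ⟨h2, h3⟩ := (z.F1 a b i.1 j.1 i.2 j.2).mp h1
      subst h2
      rw [Fin.ext h3]
    · intro i
      obtain ⟨a, t, ht, hi⟩ := z.exists_atm i.2
      exact ⟨⟨a, ⟨t, ht⟩⟩, Fin.ext hi.symm⟩)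

theorem posE_val (z : Sz) (x : KC z) : (posE z x).1 = z.start x.1 + x.2.1 := rfl

theorem gl_posE {Λ : Type} (z : Sz) (f : Atm → Λ) (x : KC z) :
    gl (z.lst f) (z.lst_length f) (posE z x) = f x.1 := by
  have h1 : lab (z.lst f) (z.start x.1 + x.2.1) = some (f x.1) :=
    z.lst_getElem f x.1 x.2.1 x.2.2
  obtain ⟨h2, h3⟩ := (lab_eq_some_iff (z.lst f) (z.lst_length f) _ _).mp h1
  exact h3

/-- entries of `Θ` -/
theorem thE_eq (z : Sz) (x y : KC z) :
    z.thE (z.start x.1 + x.2.1) (z.start y.1 + y.2.1) = (ThA z : Matrix (KC z) (KC z) ℂ) x y := by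
  obtain ⟨a, i⟩ := x
  obtain ⟨b, j⟩ := y
  simp only
  rw [ThA_eq]
  have f1 := z.F1 a b i.1 j.1 i.2 j.2
  have f2 := z.F2 a i.1 i.2
  have f2' := z.F2 b j.1 j.2
  have h3 : (z.st ≤ z.start a + i.1 ∧ z.start a + i.1 < z.st + z.m ∧
      z.start b + j.1 = z.start a + i.1 + z.m) ↔ (a = .al ∧ b = .be ∧ i.1 = j.1) := by
    constructor
    · rintro ⟨h1, h2, h3⟩
      have hpa := f2.mp ⟨h1, h2⟩
      exact ⟨hpa, (z.F3 a b i.1 j.1 i.2 j.2 hpa).mp h3⟩
    · rintro ⟨h1, h2⟩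
      exact ⟨(f2.mpr h1).1, (f2.mpr h1).2, (z.F3 a b i.1 j.1 i.2 j.2 h1).mpr h2⟩
  have h4 : (z.st ≤ z.start b + j.1 ∧ z.start b + j.1 < z.st + z.m ∧
      z.start a + i.1 = z.start b + j.1 + z.m) ↔ (b = .al ∧ a = .be ∧ j.1 = i.1) := by
    constructor
    · rintro ⟨h1, h2, h3⟩
      have hpa := f2'.mp ⟨h1, h2⟩
      exact ⟨hpa, (z.F3 b a j.1 i.1 j.2 i.2 hpa).mp h3⟩
    · rintro ⟨h1, h2⟩
      exact ⟨(f2'.mpr h1).1, (f2'.mpr h1).2, (z.F3 b a j.1 i.1 j.2 i.2 h1).mpr h2⟩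
  unfold Sz.thE
  rw [z.dsv_start a i.1 i.2]
  simp only [f1, f2, h3, h4]
  cases a <;> cases b <;>
    simp [Th0, sg, labE, labY, Fin.ext_iff, eq_comm]

/-- the embedded `Θ` -/
theorem Th_eq (z : Sz) {n : ℕ} (hn : z.tot ≤ n) (T : GL (Fin z.tot) ℂ)
    (hT : T.1 = (ThA z : Matrix (KC z) (KC z) ℂ).submatrix (posE z).symm (posE z).symm) :
    embG hn T = z.Th n := by
  apply Units.ext
  ext i j
  rw [z.Th_apply hn]
  change emb686 hn T.1 i j = _
  by_cases hij : z.tot ≤ i.1 ∨ z.tot ≤ j.1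
  · rw [emb_ge hn _ i j hij]
    unfold Sz.thE
    have h2m := z.two_m_le
    by_cases h : i = j
    · subst h
      rw [if_pos rfl, if_pos rfl, if_neg (by omega), dsv_of_le]
      · simp
      · left
        rw [z.lst_length]
        omega
    · have h' : ¬ (i.1 = j.1) := fun h' => h (Fin.ext h')
      rw [if_neg h, if_neg h', if_neg (by omega)]
  · rw [not_or, not_le, not_le] at hij
    rw [emb_lt hn _ i j hij.1 hij.2, hT, submatrix_apply]
    obtain ⟨x, hx⟩ := (posE z).surjective ⟨i.1, hij.1⟩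
    obtain ⟨y, hy⟩ := (posE z).surjective ⟨j.1, hij.2⟩
    have hx1 : z.start x.1 + x.2.1 = i.1 := by
      rw [← posE_val, hx]
    have hy1 : z.start y.1 + y.2.1 = j.1 := by
      rw [← posE_val, hy]
    rw [← hx, ← hy, Equiv.symm_apply_apply, Equiv.symm_apply_apply, ← thE_eq, hx1, hy1]

theorem zp_left (z : Sz) {n : ℕ} (hn : z.tot ≤ n) (c : List Bool) (hc : c.length = z.tot)
    (f : Atm → Bool) (A : GL (Fin z.tot) ℂ)
    (h : ∀ i j, ¬ gl c hc i ≤ f ((posE z).symm j).1 → A.1 i j = 0) :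
    ZP c (z.lst f) (embG hn A) := by
  intro i j a b ha hb hab
  obtain ⟨hi, hi2⟩ := (lab_eq_some_iff c hc _ _).mp ha
  obtain ⟨hj, hj2⟩ := (lab_eq_some_iff (z.lst f) (z.lst_length f) _ _).mp hb
  refine (emb_lt hn A.1 i j hi hj).trans (h _ _ ?_)
  obtain ⟨y, hy⟩ := (posE z).surjective ⟨j.1, hj⟩
  rw [← hy, gl_posE] at hj2
  rw [← hy, Equiv.symm_apply_apply, hi2, hj2]
  exact hab

theorem zp_right (z : Sz) {n : ℕ} (hn : z.tot ≤ n) (c : List Bool) (hc : c.length = z.tot)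
    (f : Atm → Bool) (A : GL (Fin z.tot) ℂ)
    (h : ∀ i j, ¬ f ((posE z).symm i).1 ≤ gl c hc j → A.1 i j = 0) :
    ZP (z.lst f) c (embG hn A) := by
  intro i j a b ha hb hab
  obtain ⟨hi, hi2⟩ := (lab_eq_some_iff (z.lst f) (z.lst_length f) _ _).mp ha
  obtain ⟨hj, hj2⟩ := (lab_eq_some_iff c hc _ _).mp hb
  refine (emb_lt hn A.1 i j hi hj).trans (h _ _ ?_)
  obtain ⟨y, hy⟩ := (posE z).surjective ⟨i.1, hi⟩
  rw [← hy, gl_posE] at hi2
  rw [← hy, Equiv.symm_apply_apply, hi2, hj2]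
  exact hab

theorem count_lst (z : Sz) (f : Atm → Bool) (b : Bool) :
    (z.lst f).count b = Fintype.card {x : KC z // f x.1 = b} := by
  rw [← card_gl (z.lst f) (z.lst_length f) b, ← Fintype.card_subtype]
  refine Fintype.card_congr ?_
  refine ((posE z).subtypeEquiv ?_).symm
  intro x
  rw [gl_posE]

theorem nf5core (n : ℕ) : NF5Core n := by
  classical
  intro k hk E X X' Y W P hE hX hX' hY hP
  obtain ⟨A, rfl⟩ := exists_embG hk P (hX ▸ hP.mem)
  have hcard : Fintype.card {i // gl X hX i = false} = Fintype.card {j // gl X' hX' j = false} := by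
    rw [Fintype.card_subtype, Fintype.card_subtype, card_gl, card_gl]
    exact hP.cnt false
  have hz : ∀ i j, ¬ gl X hX i ≤ gl X' hX' j → A.1 i j = 0 := by
    intro i j hij
    have h1 := hP.zero (Fin.castLE hk i) (Fin.castLE hk j) (gl X hX i) (gl X' hX' j)
      ((lab_eq_some_iff X hX _ _).mpr ⟨i.2, rfl⟩) ((lab_eq_some_iff X' hX' _ _).mpr ⟨j.2, rfl⟩) hij
    rw [← h1]
    exact (emb_lt hk A.1 (Fin.castLE hk i) (Fin.castLE hk j) i.2 j.2).symm
  obtain ⟨z, L, L', R, R', hL, hR, he⟩ := nf_abs A.1 (A⁻¹).1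
    (by rw [← Units.val_mul, mul_inv_cancel, Units.val_one])
    (by rw [← Units.val_mul, inv_mul_cancel, Units.val_one]) (gl E hE) (gl X hX) (gl X' hX')
    (gl Y hY) hz hcard
  have hzk : z.tot = k := by
    have h1 := (hL.map (d := fun _ => ()) (d' := fun _ => ()) (fun _ _ _ => le_rfl)
      (fun _ _ _ => le_rfl)).card_eq ()
    rw [Fintype.card_congr (Equiv.subtypeUnivEquiv (fun _ => rfl)),
      Fintype.card_congr (Equiv.subtypeUnivEquiv (fun _ => rfl)), Fintype.card_fin,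
      Fintype.card_congr (posE z), Fintype.card_fin] at h1
    exact h1.symm
  subst hzk
  have hL2 := hL.sub (Equiv.refl (Fin z.tot)) (posE z).symm
  have hR2 := hR.sub (posE z).symm (Equiv.refl (Fin z.tot))
  let L3 : GL (Fin z.tot) ℂ := ⟨_, _, hL2.mul, hL2.mul'⟩
  let R3 : GL (Fin z.tot) ℂ := ⟨_, _, hR2.mul, hR2.mul'⟩
  let T : GL (Fin z.tot) ℂ := L3⁻¹ * A * R3⁻¹
  have hA : A = L3 * T * R3 := by
    simp only [T]
    group
  have hT : T.1 = (ThA z : Matrix (KC z) (KC z) ℂ).submatrix (posE z).symm (posE z).symm := by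
    have h1 : T.1 = (L'.submatrix (posE z).symm (Equiv.refl (Fin z.tot))) * A.1 *
        (R'.submatrix (Equiv.refl (Fin z.tot)) (posE z).symm) := rfl
    have h2 : T.1 = ((L' * A.1 : Matrix (KC z) (Fin z.tot) ℂ) * R' :
        Matrix (KC z) (KC z) ℂ).submatrix (posE z).symm (posE z).symm := by
      rw [h1]
      ext i j
      simp only [Matrix.mul_apply, Matrix.submatrix_apply, Equiv.refl_apply]
    rw [h2, he]
    congr 1
    have h3 : (L' * (L * ((ThA z : Matrix (KC z) (KC z) ℂ) * R : Matrix (KC z) (Fin z.tot) ℂ) :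
        Matrix (Fin z.tot) (Fin z.tot) ℂ) : Matrix (KC z) (Fin z.tot) ℂ) =
        ((ThA z : Matrix (KC z) (KC z) ℂ) * R : Matrix (KC z) (Fin z.tot) ℂ) := by
      rw [← Matrix.mul_assoc, hL.mul', Matrix.one_mul]
    rw [h3, Matrix.mul_assoc, hR.mul, Matrix.mul_one]
  refine ⟨z, rfl, embG hk L3, embG hk R3, embG_mem _ _, embG_mem _ _, ?_, ?_, ?_, ?_, ?_, ?_, ?_,
    ?_⟩
  · rw [← Th_eq z hk T hT, ← embG_mul, ← embG_mul, ← hA]
  · rw [← tE_eq]
    refine zp_left z hk E hE tE L3 ?_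
    intro i j hij
    exact hL2.tri i j (fun h => hij h.1)
  · rw [← tXE_eq]
    refine zp_left z hk X hX tXE L3 ?_
    intro i j hij
    exact hL2.tri i j (fun h => hij h.2)
  · rw [← tY_eq]
    refine zp_right z hk Y hY tY R3 ?_
    intro i j hij
    exact hR2.tri i j (fun h => hij h.1)
  · rw [← tXY_eq]
    refine zp_right z hk X' hX' tXY R3 ?_
    intro i j hij
    exact hR2.tri i j (fun h => hij h.2)
  · intro b
    rw [count_lst, ← card_gl E hE b, ← Fintype.card_subtype, ← tE_eq]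
    exact (hL.map (d := gl E hE) (d' := fun x => tE x.1) (fun _ _ h => h.1)
      (fun _ _ h => h.1)).card_eq b
  · intro b
    rw [count_lst, ← card_gl Y hY b, ← Fintype.card_subtype, ← tY_eq]
    exact ((hR.map (d := fun x => tY x.1) (d' := gl Y hY) (fun _ _ h => h.1)
      (fun _ _ h => h.1)).card_eq b).symm
  · intro b
    rw [count_lst, ← card_gl X hX b, ← Fintype.card_subtype, ← tXE_eq]
    exact (hL.map (d := gl X hX) (d' := fun x => tXE x.1) (fun _ _ h => h.2)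
      (fun _ _ h => h.2)).card_eq b

theorem nf5 (n : ℕ) : NF5 n := nf5_of_core (nf5core n)

end Crest.Agent.R003.NF5
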