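import Crest.Agent.R003.Iface

/-!
# Row 3 (S0003): calculus of labelled block triangular matrices (helper961)

Function level theory (`c : Fin n → L`), then the list level statements `Calc`.
-/

set_option autoImplicit false
set_option linter.unusedSectionVars false

namespace Crest.Agent.R003

namespace P961

open Finset

section fn

variable {n : ℕ} {L : Type*} [PartialOrder L] [DecidableEq L]

/-- number of members of the class `b` before position `i` -/
def cb (c : Fin n → L) (b : L) (i : ℕ) : ℕ := (univ.filter (fun j : Fin n => j.1 < i ∧ c j = b)).card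

/-- class size -/
def cs (c : Fin n → L) (b : L) : ℕ := cb c b n

lemma cb_zero (c : Fin n → L) (b : L) : cb c b 0 = 0 := by
  simp [cb]

lemma cb_succ (c : Fin n → L) (b : L) (i : Fin n) :
    cb c b (i.1 + 1) = cb c b i.1 + (if c i = b then 1 else 0) := by
  unfold cb
  have : (univ.filter (fun j : Fin n => j.1 < i.1 + 1 ∧ c j = b)) =
      (univ.filter (fun j : Fin n => j.1 < i.1 ∧ c j = b)) ∪
        (if c i = b then {i} else ∅) := by
    ext j
    simp only [mem_filter, mem_univ, true_and, mem_union]
    by_cases hij : j = i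
    · subst hij
      by_cases hb : c j = b
      · simp [hb]
      · simp [hb]
    · have hne : j.1 ≠ i.1 := fun h => hij (Fin.ext h)
      have : j.1 < i.1 + 1 ↔ j.1 < i.1 := by omega
      rw [this]
      by_cases hb : c i = b
      · simp [hb, hij]
      · simp [hb]
  rw [this, card_union_of_disjoint]
  · congr 1
    split_ifs <;> simp
  · split_ifs with hb
    · rw [Finset.disjoint_singleton_right]
      simp
    · simp

lemma cb_mono (c : Fin n → L) (b : L) {i j : ℕ} (h : i ≤ j) : cb c b i ≤ cb c b j := by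
  unfold cb
  apply card_le_card
  intro x
  simp only [mem_filter, mem_univ, true_and]
  rintro ⟨h1, h2⟩
  exact ⟨by omega, h2⟩

lemma cb_le (c : Fin n → L) (b : L) (i : Fin n) : cb c b i.1 ≤ i.1 := by
  unfold cb
  calc (univ.filter (fun j : Fin n => j.1 < i.1 ∧ c j = b)).card
      ≤ (univ.filter (fun j : Fin n => j < i)).card := by
        apply card_le_card
        intro x
        simp only [mem_filter, mem_univ, true_and]
        rintro ⟨h1, _⟩
        exact h1
    _ = (Finset.Iio i).card := by congr 1; ext x; simp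
    _ = i.1 := Fin.card_Iio i

lemma cb_lt_cs (c : Fin n → L) (i : Fin n) : cb c (c i) i.1 < cs c (c i) := by
  have h := cb_succ c (c i) i
  simp only [if_true] at h
  have h2 := cb_mono c (c i) (show i.1 + 1 ≤ n from i.2)
  unfold cs
  omega

lemma cb_inj (c : Fin n → L) {b : L} {i j : Fin n} (hi : c i = b) (hj : c j = b)
    (h : cb c b i.1 = cb c b j.1) : i = j := by
  rcases lt_trichotomy i.1 j.1 with h1 | h1 | h1
  · have h2 := cb_succ c b i
    rw [if_pos hi] at h2
    have h3 := cb_mono c b (show i.1 + 1 ≤ j.1 from h1)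
    omega
  · exact Fin.ext h1
  · have h2 := cb_succ c b j
    rw [if_pos hj] at h2
    have h3 := cb_mono c b (show j.1 + 1 ≤ i.1 from h1)
    omega

lemma exists_pos (c : Fin n → L) (b : L) {t : ℕ} (ht : t < cs c b) :
    ∃ i : Fin n, c i = b ∧ cb c b i.1 = t := by
  -- discrete intermediate value
  have key : ∀ m : ℕ, m ≤ n → t < cb c b m → ∃ i : Fin n, c i = b ∧ cb c b i.1 = t := by
    intro m
    induction m with
    | zero => intro _ h; rw [cb_zero] at h; omega
    | succ m ih =>
      intro hm h
      by_cases h' : t < cb c b m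
      · exact ih (by omega) h'
      · have h2 := cb_succ c b ⟨m, hm⟩
        simp only at h2
        by_cases hb : c ⟨m, hm⟩ = b
        · rw [if_pos hb] at h2
          exact ⟨⟨m, hm⟩, hb, by simp only; omega⟩
        · rw [if_neg hb] at h2
          omega
  exact key n le_rfl ht

/-- position of `i` in its class -/
def ci (c : Fin n → L) (i : Fin n) : Fin n := ⟨cb c (c i) i.1, lt_of_le_of_lt (cb_le c _ i) i.2⟩

@[simp] lemma ci_val (c : Fin n → L) (i : Fin n) : (ci c i).1 = cb c (c i) i.1 := rfl

open Classical in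
/-- the `t`-th member of the class `b` -/
noncomputable def pos (c : Fin n → L) (b : L) (t : Fin n) : Fin n :=
  if h : t.1 < cs c b then (exists_pos c b h).choose else t

lemma pos_label (c : Fin n → L) (b : L) (t : Fin n) (h : t.1 < cs c b) : c (pos c b t) = b := by
  unfold pos
  rw [dif_pos h]
  exact (exists_pos c b h).choose_spec.1

lemma cb_pos (c : Fin n → L) (b : L) (t : Fin n) (h : t.1 < cs c b) : cb c b (pos c b t).1 = t.1 := by
  unfold pos
  rw [dif_pos h]
  exact (exists_pos c b h).choose_spec.2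

lemma ci_pos (c : Fin n → L) (b : L) (t : Fin n) (h : t.1 < cs c b) : ci c (pos c b t) = t := by
  apply Fin.ext
  rw [ci_val, pos_label c b t h, cb_pos c b t h]

lemma pos_ci (c : Fin n → L) (i : Fin n) : pos c (c i) (ci c i) = i := by
  have h : (ci c i).1 < cs c (c i) := cb_lt_cs c i
  exact cb_inj c (pos_label c _ _ h) rfl (by rw [cb_pos c _ _ h]; rfl)

lemma pos_ci' (c : Fin n → L) {b : L} {i : Fin n} (hb : c i = b) : pos c b (ci c i) = i := by
  subst hb; exact pos_ci c i

lemma ci_lt (c : Fin n → L) {b : L} {i : Fin n} (hb : c i = b) : (ci c i).1 < cs c b := by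
  subst hb; exact cb_lt_cs c i

lemma sum_class {M : Type*} [AddCommMonoid M] (c : Fin n → L) (b : L) (F : Fin n → M) :
    (∑ j ∈ univ.filter (fun j => c j = b), F j) =
      ∑ t ∈ univ.filter (fun t : Fin n => t.1 < cs c b), F (pos c b t) := by
  symm
  apply Finset.sum_bij' (fun t _ => pos c b t) (fun j _ => ci c j)
  · intro t ht
    simp only [mem_filter, mem_univ, true_and] at ht ⊢
    exact pos_label c b t ht
  · intro j hj
    simp only [mem_filter, mem_univ, true_and] at hj ⊢
    exact ci_lt c hj
  · intro t ht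
    simp only [mem_filter, mem_univ, true_and] at ht
    exact ci_pos c b t ht
  · intro j hj
    simp only [mem_filter, mem_univ, true_and] at hj
    exact pos_ci' c hj
  · intro t _; rfl

variable {R : Type*} [CommRing R]

/-- block triangular -/
def Tri (c c' : Fin n → L) (P : Matrix (Fin n) (Fin n) R) : Prop := ∀ i j, ¬ c i ≤ c' j → P i j = 0

/-- diagonal block of the class `b` -/
noncomputable def blk (c c' : Fin n → L) (b : L) (P : Matrix (Fin n) (Fin n) R) :
    Matrix (Fin n) (Fin n) R :=
  fun s t => if s.1 < cs c b ∧ t.1 < cs c b then P (pos c b s) (pos c' b t) else if s = t then 1 else 0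

lemma blk_apply (c c' : Fin n → L) (P : Matrix (Fin n) (Fin n) R) (hs : ∀ b, cs c b = cs c' b)
    {b : L} {i j : Fin n} (hi : c i = b) (hj : c' j = b) :
    blk c c' b P (ci c i) (ci c' j) = P i j := by
  unfold blk
  rw [if_pos ⟨ci_lt c hi, by rw [hs]; exact ci_lt c' hj⟩, pos_ci' c hi, pos_ci' c' hj]

lemma Tri.mul {c c' c'' : Fin n → L} {P P' : Matrix (Fin n) (Fin n) R} (h : Tri c c' P)
    (h' : Tri c' c'' P') : Tri c c'' (P * P') := by
  intro i j hij
  rw [Matrix.mul_apply]
  apply Finset.sum_eq_zero
  intro k _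
  by_cases h1 : c i ≤ c' k
  · rw [h' k j (fun h2 => hij (h1.trans h2)), mul_zero]
  · rw [h i k h1, zero_mul]

lemma Tri.one (c : Fin n → L) : Tri c c (1 : Matrix (Fin n) (Fin n) R) := by
  intro i j hij
  rw [Matrix.one_apply, if_neg]
  rintro rfl
  exact hij le_rfl

lemma blk_out (c c' : Fin n → L) (b : L) (P : Matrix (Fin n) (Fin n) R) (s t : Fin n)
    (h : cs c b ≤ s.1 ∨ cs c b ≤ t.1) : blk c c' b P s t = if s = t then 1 else 0 := by
  unfold blk
  rw [if_neg]
  rintro ⟨h1, h2⟩
  omega

lemma blk_mul {c c' c'' : Fin n → L} {P P' : Matrix (Fin n) (Fin n) R} (hs : ∀ b, cs c b = cs c' b)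
    (hs' : ∀ b, cs c' b = cs c'' b)
    (h : Tri c c' P) (h' : Tri c' c'' P') (b : L) :
    blk c c'' b (P * P') = blk c c' b P * blk c' c'' b P' := by
  ext s t
  rw [Matrix.mul_apply]
  by_cases hst : s.1 < cs c b ∧ t.1 < cs c b
  · have e1 : blk c c'' b (P * P') s t = ∑ k, P (pos c b s) k * P' k (pos c'' b t) := by
      unfold blk
      rw [if_pos hst, Matrix.mul_apply]
    have ht : t.1 < cs c'' b := by rw [← hs', ← hs]; exact hst.2
    rw [e1]
    have e2 : (∑ k, P (pos c b s) k * P' k (pos c'' b t)) =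
        ∑ k ∈ univ.filter (fun k => c' k = b), P (pos c b s) k * P' k (pos c'' b t) := by
      symm
      apply Finset.sum_subset (Finset.subset_univ _)
      intro k _ hk
      simp only [mem_filter, mem_univ, true_and] at hk
      by_cases h1 : c (pos c b s) ≤ c' k
      · by_cases h2 : c' k ≤ c'' (pos c'' b t)
        · exfalso
          rw [pos_label c b s hst.1] at h1
          rw [pos_label c'' b t ht] at h2
          exact hk (le_antisymm h2 h1)
        · rw [h' k _ h2, mul_zero]
      · rw [h _ k h1, zero_mul]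
    rw [e2, sum_class]
    have e3 : (∑ k, blk c c' b P s k * blk c' c'' b P' k t) =
        ∑ k ∈ univ.filter (fun k : Fin n => k.1 < cs c' b), blk c c' b P s k * blk c' c'' b P' k t := by
      symm
      apply Finset.sum_subset (Finset.subset_univ _)
      intro k _ hk
      simp only [mem_filter, mem_univ, true_and, not_lt] at hk
      rw [blk_out c c' b P s k (Or.inr (by rw [hs]; exact hk)), if_neg, zero_mul]
      rintro rfl
      rw [← hs] at hk
      omega
    rw [e3]
    apply Finset.sum_congr rfl
    intro k hk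
    simp only [mem_filter, mem_univ, true_and] at hk
    unfold blk
    rw [if_pos ⟨hst.1, by rw [hs]; exact hk⟩, if_pos ⟨hk, by rw [← hs]; exact hst.2⟩]
  · have hst' : cs c b ≤ s.1 ∨ cs c b ≤ t.1 := by
      by_contra hcon
      push Not at hcon
      exact hst hcon
    rw [blk_out c c'' b _ s t hst']
    rcases hst' with h1 | h1
    · rw [Finset.sum_eq_single s]
      · rw [blk_out c c' b _ s s (Or.inl h1), if_pos rfl, one_mul,
          blk_out c' c'' b _ s t (Or.inl (by rw [← hs]; exact h1))]
      · intro k _ hk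
        rw [blk_out c c' b _ s k (Or.inl h1), if_neg (Ne.symm hk), zero_mul]
      · simp
    · rw [Finset.sum_eq_single t]
      · rw [blk_out c' c'' b _ t t (Or.inl (by rw [← hs]; exact h1)), if_pos rfl, mul_one,
          blk_out c c' b _ s t (Or.inr h1)]
      · intro k _ hk
        rw [blk_out c' c'' b _ k t (Or.inr (by rw [← hs]; exact h1)), if_neg hk, mul_zero]
      · simp

lemma blk_one (c : Fin n → L) (b : L) : blk c c b (1 : Matrix (Fin n) (Fin n) R) = 1 := by
  ext s t
  rw [Matrix.one_apply]
  by_cases hst : s.1 < cs c b ∧ t.1 < cs c b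
  · unfold blk
    rw [if_pos hst, Matrix.one_apply]
    congr 1
    apply propext
    constructor
    · intro h
      rw [← ci_pos c b s hst.1, h, ci_pos c b t hst.2]
    · rintro rfl; rfl
  · rw [blk_out]
    by_contra hcon
    push Not at hcon
    exact hst hcon

/-- the permutation matching the classes -/
noncomputable def mperm {c c' : Fin n → L} (hs : ∀ b, cs c b = cs c' b) : Equiv.Perm (Fin n) where
  toFun i := pos c' (c i) (ci c i)
  invFun j := pos c (c' j) (ci c' j)
  left_inv i := by
    have h : (ci c i).1 < cs c' (c i) := by rw [← hs]; exact ci_lt c rfl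
    simp only
    rw [pos_label c' _ _ h, ci_pos c' _ _ h, pos_ci]
  right_inv j := by
    have h : (ci c' j).1 < cs c (c' j) := by rw [hs]; exact ci_lt c' rfl
    simp only
    rw [pos_label c _ _ h, ci_pos c _ _ h, pos_ci]

lemma mperm_label {c c' : Fin n → L} (hs : ∀ b, cs c b = cs c' b) (i : Fin n) :
    c' (mperm hs i) = c i := by
  have h : (ci c i).1 < cs c' (c i) := by rw [← hs]; exact ci_lt c rfl
  exact pos_label c' _ _ h

open Classical in
lemma Tri.inv_same {c : Fin n → L} {P Q : Matrix (Fin n) (Fin n) R} (h : Tri c c P) (hPQ : P * Q = 1) :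
    Tri c c Q := by
  intro i j hij
  let f : Fin n → Bool := fun k => decide (c i ≤ c k)
  have hB : Matrix.BlockTriangular P f := by
    intro k l hkl
    apply h
    intro hle
    have h1 : ¬ c i ≤ c l ∧ c i ≤ c k := by
      have := hkl
      simp only [f] at this
      rw [Bool.lt_iff] at this
      simpa using this
    exact h1.1 (h1.2.trans hle)
  let _ : Invertible P := invertibleOfRightInverse P Q hPQ
  have hQ : P⁻¹ = Q := Matrix.inv_eq_right_inv hPQ
  have h2 := Matrix.blockTriangular_inv_of_blockTriangular hB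
  rw [hQ] at h2
  apply h2
  simp only [f]
  rw [Bool.lt_iff]
  simpa using hij

lemma Tri.inv {c c' : Fin n → L} (hs : ∀ b, cs c b = cs c' b) {P Q : Matrix (Fin n) (Fin n) R}
    (h : Tri c c' P) (hPQ : P * Q = 1) : Tri c' c Q := by
  have h1 : Tri c c (P.submatrix id (mperm hs)) := by
    intro i j hij
    rw [Matrix.submatrix_apply]
    apply h
    rw [mperm_label hs j]
    exact hij
  have h2 : P.submatrix id (mperm hs) * Q.submatrix (mperm hs) id = 1 := by
    rw [Matrix.submatrix_mul_equiv, hPQ]
    ext i j; simp [Matrix.one_apply]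
  have h3 := h1.inv_same h2
  intro i j hij
  have h4 := h3 ((mperm hs).symm i) j (by
    have := mperm_label hs ((mperm hs).symm i)
    rw [Equiv.apply_symm_apply] at this
    rw [← this]
    exact hij)
  rw [Matrix.submatrix_apply, Equiv.apply_symm_apply] at h4
  exact h4

/-- assembly from blocks and upper part -/
def asm (c c' : Fin n → L) [DecidableLE L] (g : L → Matrix (Fin n) (Fin n) R)
    (U : Matrix (Fin n) (Fin n) R) : Matrix (Fin n) (Fin n) R :=
  fun i j => if c i = c' j then g (c i) (ci c i) (ci c' j) else if c i ≤ c' j then U i j else 0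

variable [DecidableLE L]

lemma asm_tri (c c' : Fin n → L) (g : L → Matrix (Fin n) (Fin n) R)
    (U : Matrix (Fin n) (Fin n) R) : Tri c c' (asm c c' g U) := by
  intro i j hij
  unfold asm
  rw [if_neg, if_neg hij]
  intro h
  exact hij h.le

lemma asm_blk {c c' : Fin n → L} (hs : ∀ b, cs c b = cs c' b) (g : L → Matrix (Fin n) (Fin n) R)
    (U : Matrix (Fin n) (Fin n) R) (b : L)
    (hg : ∀ s t : Fin n, (cs c b ≤ s.1 ∨ cs c b ≤ t.1) → g b s t = if s = t then 1 else 0) :
    blk c c' b (asm c c' g U) = g b := by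
  ext s t
  by_cases hst : s.1 < cs c b ∧ t.1 < cs c b
  · have ht : t.1 < cs c' b := by rw [← hs]; exact hst.2
    unfold blk asm
    rw [if_pos hst, if_pos, pos_label c b s hst.1, ci_pos c b s hst.1, ci_pos c' b t ht]
    rw [pos_label c b s hst.1, pos_label c' b t ht]
  · have hst' : cs c b ≤ s.1 ∨ cs c b ≤ t.1 := by
      by_contra hcon
      push Not at hcon
      exact hst hcon
    rw [blk_out _ _ _ _ _ _ hst', hg s t hst']

lemma eq_asm {c c' : Fin n → L} (hs : ∀ b, cs c b = cs c' b) {P : Matrix (Fin n) (Fin n) R}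
    (h : Tri c c' P) : P = asm c c' (fun b => blk c c' b P) P := by
  ext i j
  unfold asm
  split_ifs with h1 h2
  · exact (blk_apply c c' P hs rfl h1.symm).symm
  · rfl
  · exact h i j h2

/-- two block triangular matrices with the same blocks and the same strict upper entries agree -/
lemma ext_tri {c c' : Fin n → L} (hs : ∀ b, cs c b = cs c' b) {P P' : Matrix (Fin n) (Fin n) R}
    (h : Tri c c' P) (h' : Tri c c' P') (hb : ∀ b, blk c c' b P = blk c c' b P')
    (hU : ∀ i j, c i < c' j → P i j = P' i j) : P = P' := by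
  ext i j
  by_cases h1 : c i = c' j
  · rw [← blk_apply c c' P hs rfl h1.symm, ← blk_apply c c' P' hs rfl h1.symm, hb]
  · by_cases h2 : c i ≤ c' j
    · exact hU i j (lt_of_le_of_ne h2 h1)
    · rw [h i j h2, h' i j h2]

/-- height -/
noncomputable def ht (c : Fin n → L) (i : Fin n) : ℕ := by
  classical
  exact (univ.filter (fun j : Fin n => c j < c i)).card

lemma ht_lt (c : Fin n → L) {i j : Fin n} (h : c i < c j) : ht c i < ht c j := by
  classical
  unfold ht
  apply card_lt_card
  rw [Finset.ssubset_iff_of_subset]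
  · exact ⟨i, by simpa using h, by simp⟩
  · intro x
    simp only [mem_filter, mem_univ, true_and]
    exact fun hx => hx.trans h

lemma ht_le (c : Fin n → L) (i : Fin n) : ht c i < n := by
  classical
  unfold ht
  calc (univ.filter (fun j : Fin n => c j < c i)).card < (univ : Finset (Fin n)).card := by
        apply card_lt_card
        rw [Finset.ssubset_iff_of_subset (Finset.filter_subset _ _)]
        exact ⟨i, by simp, by simp⟩
    _ = n := by simp

lemma nilp {c : Fin n → L} {M : Matrix (Fin n) (Fin n) R} (h : ∀ i j, ¬ c i < c j → M i j = 0) :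
    M ^ n = 0 := by
  have key : ∀ m : ℕ, ∀ i j, (M ^ m) i j ≠ 0 → ht c i + m ≤ ht c j := by
    intro m
    induction m with
    | zero =>
      intro i j hij
      rw [pow_zero, Matrix.one_apply] at hij
      by_cases h1 : i = j
      · subst h1; omega
      · rw [if_neg h1] at hij; exact absurd rfl hij
    | succ m ih =>
      intro i j hij
      rw [pow_succ, Matrix.mul_apply] at hij
      obtain ⟨k, _, hk⟩ := Finset.exists_ne_zero_of_sum_ne_zero hij
      have h1 := ih i k (left_ne_zero_of_mul hk)
      have h2 : c k < c j := by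
        by_contra hcon
        exact right_ne_zero_of_mul hk (h k j hcon)
      have h3 := ht_lt c h2
      omega
  ext i j
  by_contra hcon
  have h1 := key n i j hcon
  have h2 := ht_le c j
  omega

lemma inv_formula {c c' : Fin n → L} (hs : ∀ b, cs c b = cs c' b)
    {P D : Matrix (Fin n) (Fin n) R} (hP : Tri c c' P) (hD : Tri c' c D)
    (hb : ∀ b, blk c c' b P * blk c' c b D = 1) :
    P * (D * ∑ m ∈ Finset.range n, (1 - P * D) ^ m) = 1 := by
  have hs' : ∀ b, cs c' b = cs c b := fun b => (hs b).symm
  have h1 : (1 - P * D) ^ n = 0 := by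
    apply nilp (c := c)
    intro i j hij
    by_cases h2 : c i = c j
    · have h3 : blk c c (c i) (P * D) = 1 := by rw [blk_mul hs hs' hP hD, hb]
      have h4 := blk_apply c c (P * D) (fun b => rfl) rfl h2.symm
      rw [h3] at h4
      rw [Matrix.sub_apply, ← h4, ← blk_apply c c (1 : Matrix (Fin n) (Fin n) R) (fun b => rfl) rfl h2.symm,
        blk_one, sub_self]
    · have h3 : ¬ c i ≤ c j := fun h => hij (lt_of_le_of_ne h h2)
      rw [Matrix.sub_apply, (Tri.one c) i j h3, (hP.mul hD) i j h3, sub_self]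
  have h2 : (1 - (1 - P * D)) * ∑ m ∈ Finset.range n, (1 - P * D) ^ m = 1 := by
    rw [mul_neg_geom_sum, h1, sub_zero]
  rw [← mul_assoc]
  rw [sub_sub_cancel] at h2
  exact h2

end fn

section list

variable {n : ℕ} {Λ : Type} [PartialOrder Λ] [DecidableEq Λ]

/-- the label function of a list of labels; `inr ()` outside -/
def lb (n : ℕ) (c : List Λ) (i : Fin n) : Λ ⊕ Unit :=
  match lab c i.1 with
  | some a => Sum.inl a
  | none => Sum.inr ()

lemma lb_eq_inl {c : List Λ} {i : Fin n} {a : Λ} : lb n c i = Sum.inl a ↔ lab c i.1 = some a := by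
  unfold lb
  cases h : lab c i.1 <;> simp

lemma lb_eq_inr {c : List Λ} {i : Fin n} : lb n c i = Sum.inr () ↔ c.length ≤ i.1 := by
  unfold lb
  cases h : lab c i.1 with
  | some a =>
    simp only [reduceCtorEq, false_iff, not_le]
    exact (List.getElem?_eq_some_iff.1 h).1
  | none =>
    simp only [true_iff]
    exact List.getElem?_eq_none_iff.1 h

lemma cb_lb (l : List Λ) (a : Λ) (i : ℕ) (hi : i ≤ n) :
    cb (lb n l) (Sum.inl a) i = (l.take i).count a := by
  induction i with
  | zero => rw [cb_zero]; simp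
  | succ i ih =>
    have h1 := cb_succ (lb n l) (Sum.inl a) ⟨i, hi⟩
    simp only at h1
    rw [h1, ih (by omega), List.take_add_one, List.count_append]
    congr 1
    by_cases h : lb n l ⟨i, hi⟩ = Sum.inl a
    · rw [if_pos h]
      rw [lb_eq_inl] at h
      simp only at h
      unfold lab at h
      rw [h]
      simp
    · rw [if_neg h]
      rw [lb_eq_inl] at h
      simp only at h
      unfold lab at h
      generalize l[i]? = o at h ⊢
      cases o with
      | none => simp
      | some b =>
        have : b ≠ a := by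
          rintro rfl
          exact h rfl
        simp [this]

lemma cs_lb (c : List Λ) (a : Λ) (hc : c.length ≤ n) : cs (lb n c) (Sum.inl a) = c.count a := by
  unfold cs
  rw [cb_lb c a n le_rfl, List.take_of_length_le hc]

lemma cb_lb_inr (c : List Λ) (i : ℕ) (hi : i ≤ n) :
    cb (lb n c) (Sum.inr ()) i = i - c.length := by
  induction i with
  | zero => rw [cb_zero]; omega
  | succ i ih =>
    have h1 := cb_succ (lb n c) (Sum.inr ()) ⟨i, hi⟩
    simp only at h1
    rw [h1, ih (by omega)]
    by_cases h : lb n c ⟨i, hi⟩ = Sum.inr ()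
    · rw [if_pos h]
      rw [lb_eq_inr] at h
      simp only at h
      omega
    · rw [if_neg h]
      rw [lb_eq_inr] at h
      simp only at h
      omega

lemma cs_lb_inr (c : List Λ) : cs (lb n c) (Sum.inr ()) = n - c.length := by
  unfold cs
  exact cb_lb_inr c n le_rfl

lemma ci_lb {c : List Λ} {i : Fin n} {a : Λ} (h : lab c i.1 = some a) :
    (ci (lb n c) i).1 = (c.take i.1).count a := by
  have h1 : lb n c i = Sum.inl a := lb_eq_inl.2 h
  rw [ci_val, h1, cb_lb _ _ _ i.2.le]

lemma cs_eq {c c' : List Λ} (hc : c.length ≤ n) (hcnt : ∀ l, c.count l = c'.count l) :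
    ∀ b, cs (lb n c) b = cs (lb n c') b := by
  have hp : c.Perm c' := List.perm_iff_count.2 hcnt
  rintro (a | ⟨⟩)
  · rw [cs_lb c a hc, cs_lb c' a (hp.length_eq ▸ hc), hcnt]
  · rw [cs_lb_inr, cs_lb_inr, hp.length_eq]

end list

end P961

open P961

variable {n : ℕ} {Λ : Type} [PartialOrder Λ] [DecidableEq Λ]

namespace IsPar

variable {c c' c'' : List Λ} {g g' : Λ → G n} {P P' : G n}

lemma length_eq (h : IsPar c c' g P) : c.length = c'.length :=
  (List.perm_iff_count.2 h.cnt).length_eq

lemma len' (h : IsPar c c' g P) : c'.length ≤ n := h.length_eq ▸ h.len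

lemma sizes (h : IsPar c c' g P) : ∀ b, cs (lb n c) b = cs (lb n c') b := cs_eq h.len h.cnt

lemma tri (h : IsPar c c' g P) : Tri (lb n c) (lb n c') P.1 := by
  intro i j hij
  rcases hi : lb n c i with a | ⟨⟩
  · rcases hj : lb n c' j with b | ⟨⟩
    · rw [hi, hj, Sum.inl_le_inl_iff] at hij
      exact h.zero i j a b (lb_eq_inl.1 hi) (lb_eq_inl.1 hj) hij
    · have h1 : c'.length ≤ j.1 := lb_eq_inr.1 hj
      have h2 := h.mem i j (Or.inr (h.length_eq ▸ h1))
      rw [h2, if_neg]
      rintro rfl
      have h3 := lb_eq_inl.1 hi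
      have h4 := (List.getElem?_eq_some_iff.1 h3).1
      rw [h.length_eq] at h4
      omega
  · have h1 : c.length ≤ i.1 := lb_eq_inr.1 hi
    have h2 := h.mem i j (Or.inl h1)
    rw [h2, if_neg]
    rintro rfl
    have h3 : lb n c' i = Sum.inr () := lb_eq_inr.2 (h.length_eq ▸ h1)
    rw [hi, h3] at hij
    exact hij le_rfl

lemma blk_eq (h : IsPar c c' g P) (a : Λ) : P961.blk (lb n c) (lb n c') (Sum.inl a) P.1 = (g a).1 := by
  ext s t
  have hcs : cs (lb n c) (Sum.inl a) = c.count a := cs_lb c a h.len
  by_cases hst : s.1 < cs (lb n c) (Sum.inl a) ∧ t.1 < cs (lb n c) (Sum.inl a)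
  · have ht : t.1 < cs (lb n c') (Sum.inl a) := by rw [← h.sizes]; exact hst.2
    have e1 := pos_label (lb n c) (Sum.inl a) s hst.1
    have e2 := pos_label (lb n c') (Sum.inl a) t ht
    have e3 := cb_pos (lb n c) (Sum.inl a) s hst.1
    have e4 := cb_pos (lb n c') (Sum.inl a) t ht
    rw [cb_lb _ _ _ (Fin.is_lt _).le] at e3 e4
    unfold P961.blk
    rw [if_pos hst]
    exact h.diag _ _ s t a (lb_eq_inl.1 e1) (lb_eq_inl.1 e2) e3.symm e4.symm
  · have hst' : cs (lb n c) (Sum.inl a) ≤ s.1 ∨ cs (lb n c) (Sum.inl a) ≤ t.1 := by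
      by_contra hcon
      push Not at hcon
      exact hst hcon
    rw [blk_out _ _ _ _ _ _ hst']
    rw [hcs] at hst'
    exact (h.blk a s t hst').symm

lemma mk' (hlen : c.length ≤ n) (hcnt : ∀ l, c.count l = c'.count l) (hP : P ∈ GLk n c.length)
    (hg : ∀ l, g l ∈ GLk n (c.count l)) (htri : Tri (lb n c) (lb n c') P.1)
    (hblk : ∀ a, P961.blk (lb n c) (lb n c') (Sum.inl a) P.1 = (g a).1) : IsPar c c' g P where
  len := hlen
  cnt := hcnt
  mem := hP
  blk := hg
  zero := by
    intro i j a b hi hj hab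
    apply htri
    rw [lb_eq_inl.2 hi, lb_eq_inl.2 hj, Sum.inl_le_inl_iff]
    exact hab
  diag := by
    intro i j u v a hi hj hu hv
    have h1 := blk_apply (lb n c) (lb n c') P.1 (cs_eq hlen hcnt) (lb_eq_inl.2 hi) (lb_eq_inl.2 hj)
    rw [hblk] at h1
    rw [← h1]
    have e1 : ci (lb n c) i = u := Fin.ext (by rw [hu, ci_lb hi])
    have e2 : ci (lb n c') j = v := Fin.ext (by rw [hv, ci_lb hj])
    rw [e1, e2]

/-- the blocks of the product -/
lemma mul (h : IsPar c c' g P) (h' : IsPar c' c'' g' P') :
    IsPar c c'' (fun b => g b * g' b) (P * P') := by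
  apply mk' h.len (fun l => (h.cnt l).trans (h'.cnt l))
  · exact (GLk n c.length).mul_mem h.mem (h.length_eq ▸ h'.mem)
  · intro l
    exact (GLk n _).mul_mem (h.blk l) (h.cnt l ▸ h'.blk l)
  · exact h.tri.mul h'.tri
  · intro a
    rw [Units.val_mul, Units.val_mul, blk_mul h.sizes h'.sizes h.tri h'.tri, h.blk_eq, h'.blk_eq]

lemma inv (h : IsPar c c' g P) : IsPar c' c (fun b => (g b)⁻¹) P⁻¹ := by
  have hPQ : P.1 * (P⁻¹).1 = 1 := by rw [← Units.val_mul, mul_inv_cancel, Units.val_one]
  have htri : Tri (lb n c') (lb n c) (P⁻¹).1 := h.tri.inv h.sizes hPQ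
  apply mk' h.len' (fun l => (h.cnt l).symm)
  · exact (GLk n _).inv_mem (h.length_eq ▸ h.mem)
  · intro l
    exact (GLk n _).inv_mem (h.cnt l ▸ h.blk l)
  · exact htri
  · intro a
    have h1 := blk_mul h.sizes (fun b => (h.sizes b).symm) h.tri htri (Sum.inl a)
    rw [hPQ, blk_one, h.blk_eq] at h1
    have h2 : (g a)⁻¹ * (g a) = 1 := inv_mul_cancel _
    have h3 : ((g a)⁻¹).1 * (g a).1 = 1 := by rw [← Units.val_mul, h2, Units.val_one]
    calc P961.blk (lb n c') (lb n c) (Sum.inl a) (P⁻¹).1
        = (((g a)⁻¹).1 * (g a).1) * P961.blk (lb n c') (lb n c) (Sum.inl a) (P⁻¹).1 := by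
          rw [h3, one_mul]
      _ = ((g a)⁻¹).1 := by rw [mul_assoc, ← h1, mul_one]

lemma one (hc : c.length ≤ n) : IsPar c c (fun _ => (1 : G n)) 1 := by
  apply mk' hc (fun _ => rfl)
  · exact (GLk n _).one_mem
  · intro l; exact (GLk n _).one_mem
  · exact Tri.one _
  · intro a; exact blk_one _ _

lemma unique (h : IsPar c c' g P) (h' : IsPar c c' g' P) : g = g' := by
  funext a
  apply Units.ext
  rw [← h.blk_eq, ← h'.blk_eq]

end IsPar

/-- `IsPar` for a diagonal matrix -/
lemma isPar_dg (c : List Λ) (hc : c.length ≤ n) (d : Fin n → ℂˣ) (δ : Λ → Fin n → ℂˣ)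
    (h1 : ∀ i : Fin n, c.length ≤ i.1 → d i = 1)
    (h2 : ∀ (i u : Fin n) (a : Λ), lab c i.1 = some a → u.1 = (c.take i.1).count a → d i = δ a u)
    (h3 : ∀ (a : Λ) (u : Fin n), c.count a ≤ u.1 → δ a u = 1) :
    IsPar c c (fun a => dg (δ a)) (dg d) where
  len := hc
  cnt := fun _ => rfl
  mem := by
    intro i j hij
    change Matrix.diagonal (fun i => (d i : ℂ)) i j = _
    rw [Matrix.diagonal_apply]
    split_ifs with h
    · subst h
      rw [h1 i (by tauto)]; rfl
    · rfl
  blk := by
    intro a i j hij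
    change Matrix.diagonal (fun i => (δ a i : ℂ)) i j = _
    rw [Matrix.diagonal_apply]
    split_ifs with h
    · subst h
      rw [h3 a i (by tauto)]; rfl
    · rfl
  zero := by
    intro i j a b hi hj hab
    change Matrix.diagonal (fun i => (d i : ℂ)) i j = _
    rw [Matrix.diagonal_apply, if_neg]
    rintro rfl
    rw [hi] at hj
    exact hab (Option.some_injective _ hj).le
  diag := by
    intro i j u v a hi hj hu hv
    change Matrix.diagonal (fun i => (d i : ℂ)) i j = Matrix.diagonal (fun i => (δ a i : ℂ)) u v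
    rw [Matrix.diagonal_apply, Matrix.diagonal_apply]
    by_cases h : i = j
    · subst h
      have huv : u = v := Fin.ext (by rw [hu, hv])
      rw [if_pos rfl, if_pos huv, h2 i u a hi hu]
    · rw [if_neg h, if_neg]
      intro huv
      apply h
      apply cb_inj (lb n c) (lb_eq_inl.2 hi) (lb_eq_inl.2 hj)
      rw [cb_lb _ _ _ i.2.le, cb_lb _ _ _ j.2.le, ← hu, ← hv, huv]

end Crest.Agent.R003
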