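import Crest.Agent.R003.Bruhat686

/-!
# Row 3 (S0003): rank normal form (helper686)
-/

set_option autoImplicit false

open Module

namespace Crest.Agent.R003

section RankNF

variable {K : Type*} [Field K]

/-- identity of size `m` in the rows `[0,m)` and the last `m` columns -/
def nuM (K : Type*) [Field K] (a b m : ℕ) : Matrix (Fin a) (Fin b) K :=
  fun i j => if i.1 < m ∧ j.1 = i.1 + (b - m) then 1 else 0

theorem rank_normal_form {a b : ℕ} (N : Matrix (Fin a) (Fin b) K) :
    ∃ (m : ℕ) (g : GL (Fin a) K) (h : GL (Fin b) K), m ≤ a ∧ m ≤ b ∧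
      N = g.1 * nuM K a b m * h.1 := by
  classical
  obtain ⟨C, hC⟩ := Submodule.exists_isCompl (LinearMap.ker N.mulVecLin)
  obtain ⟨D, hD⟩ := Submodule.exists_isCompl (LinearMap.range N.mulVecLin)
  have hdC := Submodule.finrank_add_eq_of_isCompl hC
  have hdD := Submodule.finrank_add_eq_of_isCompl hD
  have hrn := LinearMap.finrank_range_add_finrank_ker N.mulVecLin
  simp only [Module.finrank_fintype_fun_eq_card, Fintype.card_fin] at hdC hdD hrn
  -- basis of the source
  have hm : finrank K C = finrank K (LinearMap.range N.mulVecLin) := by omega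
  let v : Fin (finrank K (LinearMap.ker N.mulVecLin)) ⊕ Fin (finrank K C) → (Fin b → K) :=
    Sum.elim (fun i => (finBasis K (LinearMap.ker N.mulVecLin) i : Fin b → K))
      (fun i => (finBasis K C i : Fin b → K))
  have hv : ⊤ ≤ Submodule.span K (Set.range v) := by
    have h0 : Set.range v = Set.range (fun i => (finBasis K (LinearMap.ker N.mulVecLin) i :
        Fin b → K)) ∪ Set.range (fun i => (finBasis K C i : Fin b → K)) := by
      simp only [v, Set.Sum.elim_range]
    rw [h0, Submodule.span_union, span_range_finBasis_coe, span_range_finBasis_coe, hC.sup_eq_top]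
  have hvc : Fintype.card (Fin (finrank K (LinearMap.ker N.mulVecLin)) ⊕ Fin (finrank K C)) =
      finrank K (Fin b → K) := by
    simp only [Fintype.card_sum, Fintype.card_fin, Module.finrank_fintype_fun_eq_card]
    omega
  let w : Fin (finrank K C) ⊕ Fin (finrank K D) → (Fin a → K) :=
    Sum.elim (fun i => N.mulVecLin (finBasis K C i : Fin b → K))
      (fun i => (finBasis K D i : Fin a → K))
  have hw : ⊤ ≤ Submodule.span K (Set.range w) := by
    have h0 : Set.range w = N.mulVecLin '' Set.range (fun i => (finBasis K C i : Fin b → K)) ∪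
        Set.range (fun i => (finBasis K D i : Fin a → K)) := by
      rw [← Set.range_comp]
      simp only [w, Set.Sum.elim_range]
      rfl
    rw [h0, Submodule.span_union, ← Submodule.map_span, span_range_finBasis_coe,
      span_range_finBasis_coe]
    have h1 : LinearMap.range N.mulVecLin ≤ C.map N.mulVecLin := by
      rintro _ ⟨x, rfl⟩
      have hx : x ∈ LinearMap.ker N.mulVecLin ⊔ C := by rw [hC.sup_eq_top]; trivial
      obtain ⟨y, hy, z, hz, rfl⟩ := Submodule.mem_sup.1 hx
      refine ⟨z, hz, ?_⟩
      rw [map_add, LinearMap.mem_ker.1 hy, zero_add]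
    rw [← hD.sup_eq_top]
    exact sup_le_sup_right h1 _
  have hwc : Fintype.card (Fin (finrank K C) ⊕ Fin (finrank K D)) =
      finrank K (Fin a → K) := by
    simp only [Fintype.card_sum, Fintype.card_fin, Module.finrank_fintype_fun_eq_card]
    omega
  let B := basisOfTopLeSpanOfCardEqFinrank v hv hvc
  have hB : ⇑B = v := coe_basisOfTopLeSpanOfCardEqFinrank v hv hvc
  let B' := basisOfTopLeSpanOfCardEqFinrank w hw hwc
  have hB' : ⇑B' = w := coe_basisOfTopLeSpanOfCardEqFinrank w hw hwc
  have hker : ∀ i, N.mulVec (finBasis K (LinearMap.ker N.mulVecLin) i : Fin b → K) = 0 :=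
    fun i => (finBasis K (LinearMap.ker N.mulVecLin) i).2
  have hvl : ∀ i, v (Sum.inl i) = (finBasis K (LinearMap.ker N.mulVecLin) i : Fin b → K) :=
    fun i => rfl
  have hvw : ∀ i, N.mulVec (v (Sum.inr i)) = w (Sum.inl i) := fun i => rfl
  have hvk : ∀ i, N.mulVec (v (Sum.inl i)) = 0 := fun i => hker i
  clear hvl hker
  clear_value B B' v w
  generalize finrank K (LinearMap.ker N.mulVecLin) = n1 at *
  generalize finrank K C = m at *
  generalize finrank K D = n2 at *
  let e : Fin n1 ⊕ Fin m ≃ Fin b := finSumFinEquiv.trans (finCongr (by omega))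
  let e' : Fin m ⊕ Fin n2 ≃ Fin a := finSumFinEquiv.trans (finCongr (by omega))
  let B1 := B.reindex e
  let B2 := B'.reindex e'
  let cb := Pi.basisFun K (Fin b)
  let ca := Pi.basisFun K (Fin a)
  let h : GL (Fin b) K := ⟨B1.toMatrix cb, cb.toMatrix B1, Basis.toMatrix_mul_toMatrix_flip _ _,
    Basis.toMatrix_mul_toMatrix_flip _ _⟩
  let g : GL (Fin a) K := ⟨ca.toMatrix B2, B2.toMatrix ca, Basis.toMatrix_mul_toMatrix_flip _ _,
    Basis.toMatrix_mul_toMatrix_flip _ _⟩
  refine ⟨m, g, h, by omega, by omega, ?_⟩
  have key : N * (h⁻¹).1 = g.1 * nuM K a b m := by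
    ext i j
    have h1 : (N * (h⁻¹).1) i j = N.mulVec (B1 j) i := by
      rw [Matrix.mul_apply, Matrix.mulVec, dotProduct]
      refine Finset.sum_congr rfl fun l _ => ?_
      congr 1
    have h2 : (g.1 * nuM K a b m) i j = ∑ l, B2 l i * nuM K a b m l j := by
      rw [Matrix.mul_apply]
      refine Finset.sum_congr rfl fun l _ => ?_
      congr 1
    rw [h1, h2]
    obtain ⟨x, rfl⟩ := e.surjective j
    have h3 : B1 (e x) = v x := by
      rw [Basis.reindex_apply, Equiv.symm_apply_apply, hB]
    rw [h3]
    rcases x with x | x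
    · rw [hvk]
      have hx : ∀ l : Fin a, nuM K a b m l (e (Sum.inl x)) = 0 := by
        intro l
        rw [nuM, if_neg]
        rintro ⟨h5, h6⟩
        have : (e (Sum.inl x)).1 = x.1 := by simp [e]
        rw [this] at h6
        have := x.2
        omega
      simp [hx]
    · rw [hvw]
      rw [Finset.sum_eq_single (e' (Sum.inl x))]
      · have h4 : nuM K a b m (e' (Sum.inl x)) (e (Sum.inr x)) = 1 := by
          rw [nuM, if_pos]
          have h5 : (e' (Sum.inl x)).1 = x.1 := by simp [e']
          have h6 : (e (Sum.inr x)).1 = n1 + x.1 := by simp [e]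
          rw [h5, h6]
          exact ⟨x.2, by omega⟩
        rw [h4, mul_one, Basis.reindex_apply, Equiv.symm_apply_apply, hB']
      · intro l _ hl
        have h4 : nuM K a b m l (e (Sum.inr x)) = 0 := by
          rw [nuM, if_neg]
          rintro ⟨h5, h6⟩
          apply hl
          have h7 : (e' (Sum.inl x)).1 = x.1 := by simp [e']
          have h8 : (e (Sum.inr x)).1 = n1 + x.1 := by simp [e]
          ext
          rw [h7]
          rw [h8] at h6
          omega
        rw [h4, mul_zero]
      · simp
  calc N = N * (h⁻¹).1 * h.1 := by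
        rw [Matrix.mul_assoc, ← Units.val_mul, inv_mul_cancel, Units.val_one, Matrix.mul_one]
    _ = _ := by rw [key]

end RankNF

end Crest.Agent.R003
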