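import Crest.Agent.R003.Base412

/-!
# Row 3: the general reduction lemma for steps that replace one root (helper412)
-/

set_option autoImplicit false

namespace Crest.Agent.R003.W412

open Crest.Agent.R003

/-- both occurrences of the full names in `V` -/
def pm (V : Multiset (ℕ × ℕ)) : Multiset (ℕ × ℕ × Bool) :=
  V.map (fun v => (v.1, v.2, true)) + V.map (fun v => (v.1, v.2, false))

theorem pm_add (V W : Multiset (ℕ × ℕ)) : pm (V + W) = pm V + pm W := by
  simp only [pm, Multiset.map_add]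
  abel

theorem pos_pm (V : Multiset (ℕ × ℕ)) :
    ((pm V).filter (fun v => v.2.2 = true)).map (fun v => (v.1, v.2.1)) = V := by
  simp only [pm, Multiset.filter_add, Multiset.map_add, Multiset.filter_map]
  simp

theorem lin_split {D V : Multiset (ℕ × ℕ)} {U : Multiset (ℕ × ℕ × Bool)}
    (h : pm D + U = pm V) : ∃ V0, V = D + V0 ∧ U = pm V0 := by
  refine ⟨(U.filter (fun v => v.2.2 = true)).map (fun v => (v.1, v.2.1)), ?_, ?_⟩
  · rw [← pos_pm V, ← h, Multiset.filter_add, Multiset.map_add, pos_pm]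
  · have hV : V = D + (U.filter (fun v => v.2.2 = true)).map (fun v => (v.1, v.2.1)) := by
      rw [← pos_pm V, ← h, Multiset.filter_add, Multiset.map_add, pos_pm]
    have h2 : pm D + U = pm D + pm ((U.filter (fun v => v.2.2 = true)).map (fun v => (v.1, v.2.1))) := by
      rw [← pm_add, ← hV, h]
    exact add_left_cancel h2

theorem mem_pm {V : Multiset (ℕ × ℕ)} {x j : ℕ} {ε : Bool} (h : (x, j, ε) ∈ pm V) :
    x ∈ V.map Prod.fst := by
  simp only [pm, Multiset.mem_add, Multiset.mem_map] at h ⊢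
  rcases h with ⟨a, ha, h⟩ | ⟨a, ha, h⟩
  · exact ⟨a, ha, (Prod.mk.inj h).1⟩
  · exact ⟨a, ha, (Prod.mk.inj h).1⟩

theorem pm_mem {V : Multiset (ℕ × ℕ)} {x : ℕ} (h : x ∈ V.map Prod.fst) :
    ∃ j, (x, j, true) ∈ pm V := by
  simp only [Multiset.mem_map] at h
  obtain ⟨a, ha, rfl⟩ := h
  exact ⟨a.2, by simp only [pm, Multiset.mem_add, Multiset.mem_map]; exact Or.inl ⟨a, ha, rfl⟩⟩

/-- all occurrences in a list of roots -/
def occs (L : List Root) : Multiset (ℕ × ℕ × Bool) := (L.map Root.occ).sum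
/-- all P-names in a list of roots -/
def pns (L : List Root) : Multiset ℕ := (L.map Root.pn).sum

theorem occs_append (L L' : List Root) : occs (L ++ L') = occs L + occs L' := by simp [occs]
theorem pns_append (L L' : List Root) : pns (L ++ L') = pns L + pns L' := by simp [pns]

/-- the set of names of a pair (occurrences, P-names) -/
def nmU (U : Multiset (ℕ × ℕ × Bool)) (P : Multiset ℕ) : Set ℕ :=
  {x | (∃ j ε, (x, j, ε) ∈ U) ∨ x ∈ P}

theorem nmU_mono {U U' : Multiset (ℕ × ℕ × Bool)} {P P' : Multiset ℕ} (h : U ≤ U') (h' : P ≤ P') :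
    nmU U P ⊆ nmU U' P' := by
  rintro x (⟨j, ε, hx⟩ | hx)
  · exact Or.inl ⟨j, ε, Multiset.mem_of_le h hx⟩
  · exact Or.inr (Multiset.mem_of_le h' hx)

theorem sol_congr {n : ℕ} {ρ ρ' : ℕ → G n} (r : Root) (h : ∀ x ∈ nmU r.occ r.pn, ρ x = ρ' x)
    (hs : r.Sol ρ) : r.Sol ρ' := by
  refine ⟨(sat_congr r.w r.k h).1 hs.1, ?_⟩
  rw [← eval_congr r.w r.k h]
  exact hs.2

theorem occ_le_occs {r : Root} {L : List Root} (h : r ∈ L) : r.occ ≤ occs L :=
  List.single_le_sum (fun _ _ => Multiset.zero_le _) _ (List.mem_map_of_mem h)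

theorem pn_le_pns {r : Root} {L : List Root} (h : r ∈ L) : r.pn ≤ pns L :=
  List.single_le_sum (fun _ _ => Multiset.zero_le _) _ (List.mem_map_of_mem h)

/-- a bound for all names -/
theorem exists_bound (S : Sys) : ∃ N : ℕ, ∀ x ∈ S.names, x < N := by
  classical
  let T : Multiset ℕ := S.occ.map Prod.fst + S.pn + ((S.free.map Prod.fst : List ℕ) : Multiset ℕ)
  refine ⟨T.sum + 1, fun x hx => ?_⟩
  have hT : x ∈ T := by
    rcases hx with ⟨j, ε, hx⟩ | hx | hx
    · exact Multiset.mem_add.2 (Or.inl (Multiset.mem_add.2 (Or.inl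
        (Multiset.mem_map.2 ⟨_, hx, rfl⟩))))
    · exact Multiset.mem_add.2 (Or.inl (Multiset.mem_add.2 (Or.inr hx)))
    · exact Multiset.mem_add.2 (Or.inr (by simpa using hx))
  exact Nat.lt_succ_of_le (Multiset.single_le_sum (fun _ _ => Nat.zero_le _) _ hT)

/-- solutions of the new roots and free names -/
def newSol (n : ℕ) (news : List Root) (fnew : List (ℕ × ℕ)) : Set (ℕ → G n) :=
  {τ | (∀ r ∈ news, r.Sol τ) ∧ ∀ z ∈ fnew, τ z.1 ∈ GLk n z.2}

/-- names of a system in terms of a decomposition of its occurrences -/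
theorem names_iff {S : Sys} {A B : Multiset (ℕ × ℕ)} {P P0 F0 F : Multiset ℕ}
    (h1 : S.occ = pm (A + B)) (h2 : S.pn = P + P0)
    (h3 : ((S.free.map Prod.fst : List ℕ) : Multiset ℕ) = F0 + F) (x : ℕ) :
    x ∈ S.names ↔ (x ∈ A.map Prod.fst + P + F0 ∨ x ∈ B.map Prod.fst + P0 + F) := by
  have hfree : x ∈ S.free.map Prod.fst ↔ x ∈ F0 + F := by rw [← h3, Multiset.mem_coe]
  constructor
  · rintro (⟨j, ε, hx⟩ | hx | hx)
    · rw [h1] at hx
      have := mem_pm hx
      simp only [Multiset.map_add, Multiset.mem_add] at this ⊢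
      tauto
    · rw [h2] at hx
      simp only [Multiset.mem_add] at hx ⊢
      tauto
    · rw [hfree] at hx
      simp only [Multiset.mem_add] at hx ⊢
      tauto
  · intro hx
    have e1 : x ∈ (A + B).map Prod.fst → ∃ k ε, (x, k, ε) ∈ S.occ := by
      intro h
      obtain ⟨j, hj⟩ := pm_mem h
      exact ⟨j, true, by rw [h1]; exact hj⟩
    simp only [Multiset.map_add, Multiset.mem_add] at hx e1
    have e2 : x ∈ S.pn ↔ x ∈ P ∨ x ∈ P0 := by rw [h2, Multiset.mem_add]
    have e3 : x ∈ S.free.map Prod.fst ↔ x ∈ F0 ∨ x ∈ F := by rw [hfree, Multiset.mem_add]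
    change (∃ k ε, (x, k, ε) ∈ S.occ) ∨ x ∈ S.pn ∨ x ∈ S.free.map Prod.fst
    rw [e2, e3]
    rcases hx with ((h | h) | h) | ((h | h) | h)
    · exact Or.inl (e1 (Or.inl h))
    · exact Or.inr (Or.inl (Or.inl h))
    · exact Or.inr (Or.inr (Or.inl h))
    · exact Or.inl (e1 (Or.inr h))
    · exact Or.inr (Or.inl (Or.inr h))
    · exact Or.inr (Or.inr (Or.inr h))

/-- the removed names are distinct and disjoint from the kept ones -/
theorem old_nodup {O : Subring ℂ} {n : ℕ} {olds rest : List Root}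
    {fr : List (ℕ × ℕ)} {D : Multiset (ℕ × ℕ)}
    {U : Multiset (ℕ × ℕ × Bool)} {P P0 : Multiset ℕ}
    (hS : (⟨olds ++ rest, fr⟩ : Sys).WF O n)
    (hoccR : occs olds = pm D + U) (hpnR : pns olds = P + P0) :
    (D.map Prod.fst + P).Nodup ∧ ∀ z ∈ D.map Prod.fst + P, z ∉ nmU U P0 := by
  classical
  obtain ⟨V, hV, hVnd⟩ := hS.lin
  have hSocc : (⟨olds ++ rest, fr⟩ : Sys).occ = occs olds + occs rest := by simp [Sys.occ, occs]
  have hSpn : (⟨olds ++ rest, fr⟩ : Sys).pn = pns olds + pns rest := by simp [Sys.pn, pns]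
  obtain ⟨V0, rfl, hV0⟩ : ∃ V0, V = D + V0 ∧ U + occs rest = pm V0 := by
    refine lin_split ?_
    rw [hSocc, hoccR] at hV
    rw [← add_assoc, hV]; rfl
  have hnodup : ((D.map Prod.fst + P) + (V0.map Prod.fst + (P0 + pns rest) +
      ((fr.map Prod.fst : List ℕ) : Multiset ℕ))).Nodup := by
    have : (D + V0).map Prod.fst + (⟨olds ++ rest, fr⟩ : Sys).pn +
        ((fr.map Prod.fst : List ℕ) : Multiset ℕ) =
        (D.map Prod.fst + P) + (V0.map Prod.fst + (P0 + pns rest) +
      ((fr.map Prod.fst : List ℕ) : Multiset ℕ)) := by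
      rw [hSpn, hpnR, Multiset.map_add]
      abel
    rw [← this]; exact hVnd
  rw [Multiset.nodup_add] at hnodup
  refine ⟨hnodup.1, fun z hz hz' => (Multiset.disjoint_left.1 hnodup.2.2) hz ?_⟩
  rcases hz' with ⟨j, ε, hx⟩ | hx
  · have : (z, j, ε) ∈ pm V0 := by rw [← hV0]; exact Multiset.mem_add.2 (Or.inl hx)
    exact Multiset.mem_add.2 (Or.inl (Multiset.mem_add.2 (Or.inl (mem_pm this))))
  · exact Multiset.mem_add.2 (Or.inl (Multiset.mem_add.2 (Or.inr (Multiset.mem_add.2 (Or.inl hx)))))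

/-- names of the removed roots are names of the system -/
theorem nmU_names {olds rest : List Root} {fr : List (ℕ × ℕ)} :
    nmU (occs olds) (pns olds) ⊆ (⟨olds ++ rest, fr⟩ : Sys).names := by
  have hSocc : (⟨olds ++ rest, fr⟩ : Sys).occ = occs olds + occs rest := by simp [Sys.occ, occs]
  have hSpn : (⟨olds ++ rest, fr⟩ : Sys).pn = pns olds + pns rest := by simp [Sys.pn, pns]
  rintro x (⟨j, ε, hx⟩ | hx)
  · exact Or.inl ⟨j, ε, by rw [hSocc]; exact Multiset.mem_add.2 (Or.inl hx)⟩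
  · exact Or.inr (Or.inl (by rw [hSpn]; exact Multiset.mem_add.2 (Or.inl hx)))

/-- assign the values in the list `l` to the names `N, N+1, ...` -/
def upd {n : ℕ} (ρ : ℕ → G n) (N : ℕ) (l : List (G n)) (z : ℕ) : G n :=
  if z < N then ρ z else (l[z - N]?).getD (ρ z)

theorem upd_lt {n : ℕ} {ρ : ℕ → G n} {N : ℕ} {l : List (G n)} {z : ℕ} (h : z < N) :
    upd ρ N l z = ρ z := by simp [upd, h]

theorem upd_ge {n : ℕ} {ρ : ℕ → G n} {N : ℕ} {l : List (G n)} {z : ℕ} (h : N + l.length ≤ z) :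
    upd ρ N l z = ρ z := by
  unfold upd
  split_ifs
  · rfl
  · rw [List.getElem?_eq_none (by omega)]; rfl

theorem upd_at {n : ℕ} {ρ : ℕ → G n} {N : ℕ} {l : List (G n)} (i : ℕ) :
    upd ρ N l (N + i) = (l[i]?).getD (ρ (N + i)) := by
  simp [upd]

/-- THE GENERAL REDUCTION LEMMA: the roots `olds` are replaced by the roots `news`, and the free names
`fnew` are added. `D` / `N`: full names removed / added; `P` / `Q`: P-names removed / added; `U`, `P0`:
remaining occurrences / P-names of `olds`. `φ z`: the value of the removed name `z` in terms of a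
solution of the new system; `ρ'`: the new point. -/
theorem red_gen {O : Subring ℂ} {n : ℕ} {olds : List Root} (news : List Root) {rest : List Root}
    {fr : List (ℕ × ℕ)} (fnew : List (ℕ × ℕ)) {ρ : ℕ → G n} (D N : Multiset (ℕ × ℕ))
    (U : Multiset (ℕ × ℕ × Bool)) (P Q P0 : Multiset ℕ)
    (hS : (⟨olds ++ rest, fr⟩ : Sys).WF O n) (hsol : ρ ∈ (⟨olds ++ rest, fr⟩ : Sys).Sol n)
    (hoccR : occs olds = pm D + U) (hpnR : pns olds = P + P0)
    (hoccN : occs news = pm N + U) (hpnN : pns news = Q + P0)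
    (hnd : (N.map Prod.fst + Q + ((fnew.map Prod.fst : List ℕ) : Multiset ℕ)).Nodup)
    (hfresh : ∀ z ∈ N.map Prod.fst + Q + ((fnew.map Prod.fst : List ℕ) : Multiset ℕ),
      z ∉ (⟨olds ++ rest, fr⟩ : Sys).names)
    (hfn : ∀ z ∈ fnew, z.2 ≤ n)
    (hWF : ∀ r ∈ news, r.WF O n)
    (hwt : Multiset.IsDershowitzMannaLT ((news.map Root.wt).sum) ((olds.map Root.wt).sum))
    (hAdm : ∀ k0, (∀ r ∈ olds, (r.k < k0 ∨ (r.k = k0 ∧ Wd.hasNd r.w))) →
      ∀ r ∈ news, (r.k < k0 ∨ (r.k = k0 ∧ Wd.hasNd r.w)))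
    (φ : ℕ → (ℕ → G n) → G n) (ρ' : ℕ → G n) (hρN : ρ' ∈ newSol n news fnew)
    (hρK : ∀ z, z ∉ N.map Prod.fst + Q + ((fnew.map Prod.fst : List ℕ) : Multiset ℕ) → ρ' z = ρ z)
    (hφ : ∀ z ∈ D.map Prod.fst + P, φ z ρ' = ρ z)
    (hpol : ∀ z ∈ D.map Prod.fst + P, PolG (newSol n news fnew) (φ z))
    (hint : ∀ τ ∈ newSol n news fnew, (∀ x ∈ nmU (occs news) (pns news), τ x ∈ GO O n) →
      (∀ z ∈ fnew, τ z.1 ∈ GO O n) → ∀ z ∈ D.map Prod.fst + P, φ z τ ∈ GO O n)
    (hback : ∀ τ ∈ newSol n news fnew, ∀ τ' : ℕ → G n,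
      (∀ z ∈ D.map Prod.fst + P, τ' z = φ z τ) → (∀ z ∈ nmU U P0, τ' z = τ z) →
      ∀ r ∈ olds, r.Sol τ') :
    Red O n (⟨olds ++ rest, fr⟩ : Sys) ρ := by
  classical
  obtain ⟨V, hV, hVnd⟩ := hS.lin
  have hSocc : (⟨olds ++ rest, fr⟩ : Sys).occ = occs olds + occs rest := by simp [Sys.occ, occs]
  have hSpn : (⟨olds ++ rest, fr⟩ : Sys).pn = pns olds + pns rest := by simp [Sys.pn, pns]
  obtain ⟨V0, rfl, hV0⟩ : ∃ V0, V = D + V0 ∧ U + occs rest = pm V0 := by
    refine lin_split ?_
    rw [hSocc, hoccR] at hV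
    rw [← add_assoc, hV]; rfl
  set S' : Sys := ⟨news ++ rest, fnew ++ fr⟩ with hS'
  have hSocc' : S'.occ = pm (N + V0) := by
    have : S'.occ = occs news + occs rest := by simp [S', Sys.occ, occs]
    rw [this, hoccN, add_assoc, hV0, pm_add]
  have hSpn' : S'.pn = Q + (P0 + pns rest) := by
    have : S'.pn = pns news + pns rest := by simp [S', Sys.pn, pns]
    rw [this, hpnN, add_assoc]
  set F : Multiset ℕ := ((fr.map Prod.fst : List ℕ) : Multiset ℕ) with hF
  set F0 : Multiset ℕ := ((fnew.map Prod.fst : List ℕ) : Multiset ℕ) with hF0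
  have hfree' : ((S'.free.map Prod.fst : List ℕ) : Multiset ℕ) = F0 + F := by
    simp [S', hF, hF0]
  -- kept names
  set K : Multiset ℕ := V0.map Prod.fst + (P0 + pns rest) + F with hK
  have hnodup : ((D.map Prod.fst + P) + K).Nodup := by
    have : (D + V0).map Prod.fst + (⟨olds ++ rest, fr⟩ : Sys).pn + F =
        (D.map Prod.fst + P) + K := by
      rw [hSpn, hpnR, Multiset.map_add, hK]
      abel
    rw [← this]; exact hVnd
  rw [Multiset.nodup_add] at hnodup
  obtain ⟨hn1, hn2, hn3⟩ := hnodup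
  have hnot : ∀ z ∈ D.map Prod.fst + P, z ∉ K := fun z hz hz' =>
    (Multiset.disjoint_left.1 hn3) hz hz'
  have hnamesS : ∀ x, x ∈ (⟨olds ++ rest, fr⟩ : Sys).names ↔ (x ∈ D.map Prod.fst + P ∨ x ∈ K) := by
    intro x
    have := names_iff (S := ⟨olds ++ rest, fr⟩) (A := D) (B := V0) (P := P) (P0 := P0 + pns rest)
      (F0 := 0) (F := F) (by rw [hV]; rfl) (by rw [hSpn, hpnR, add_assoc]) (by simp [hF]) x
    rw [add_zero] at this
    exact this
  have hnamesS' : ∀ x, x ∈ S'.names ↔ (x ∈ N.map Prod.fst + Q + F0 ∨ x ∈ K) := fun x =>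
    names_iff (S := S') hSocc' hSpn' hfree' x
  have hkept : ∀ x ∈ nmU (U + occs rest) (P0 + pns rest), x ∈ K := by
    rintro x (⟨j, ε, hx⟩ | hx)
    · rw [hV0] at hx
      exact Multiset.mem_add.2 (Or.inl (Multiset.mem_add.2 (Or.inl (mem_pm hx))))
    · exact Multiset.mem_add.2 (Or.inl (Multiset.mem_add.2 (Or.inr hx)))
  have hkeptU : ∀ x ∈ nmU U P0, x ∈ K := fun x hx =>
    hkept x (nmU_mono (Multiset.le_add_right _ _) (Multiset.le_add_right _ _) hx)
  have hkeptR : ∀ r ∈ rest, ∀ x ∈ nmU r.occ r.pn, x ∈ K := fun r hr x hx =>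
    hkept x (nmU_mono ((occ_le_occs hr).trans (Multiset.le_add_left _ _))
      ((pn_le_pns hr).trans (Multiset.le_add_left _ _)) hx)
  have hkeptF : ∀ z ∈ fr, z.1 ∈ K := by
    intro z hz
    refine Multiset.mem_add.2 (Or.inr ?_)
    rw [hF, Multiset.mem_coe]
    exact List.mem_map_of_mem hz
  have hKfresh : ∀ x ∈ K, x ∉ N.map Prod.fst + Q + F0 := fun x hx hx' =>
    hfresh x hx' ((hnamesS x).2 (Or.inr hx))
  have hsol' : ρ' ∈ S'.Sol n := by
    refine ⟨?_, ?_⟩
    · intro r hr
      rcases List.mem_append.1 hr with hr | hr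
      · exact hρN.1 r hr
      · exact sol_congr r (fun x hx => (hρK x (hKfresh x (hkeptR r hr x hx))).symm)
          (hsol.1 r (List.mem_append_right _ hr))
    · intro z hz
      rcases List.mem_append.1 hz with hz | hz
      · exact hρN.2 z hz
      · rw [hρK z.1 (hKfresh _ (hkeptF z hz))]
        exact hsol.2 z hz
  have hnew : ∀ τ ∈ S'.Sol n, τ ∈ newSol n news fnew := fun τ hτ =>
    ⟨fun r hr => hτ.1 r (List.mem_append_left _ hr), fun z hz => hτ.2 z (List.mem_append_left _ hz)⟩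
  refine ⟨S', ρ', ?_, ?_, ?_, hsol', ?_⟩
  · -- well-formed
    refine ⟨?_, ?_, N + V0, hSocc', ?_⟩
    · intro r hr
      rcases List.mem_append.1 hr with hr | hr
      · exact hWF r hr
      · exact hS.roots r (List.mem_append_right _ hr)
    · intro z hz
      rcases List.mem_append.1 hz with hz | hz
      · exact hfn z hz
      · exact hS.free z hz
    · have : (N + V0).map Prod.fst + S'.pn + ((S'.free.map Prod.fst : List ℕ) : Multiset ℕ) =
          (N.map Prod.fst + Q + F0) + K := by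
        rw [hSpn', hfree', Multiset.map_add, hK]
        abel
      rw [this, Multiset.nodup_add]
      exact ⟨hnd, hn2, Multiset.disjoint_left.2 fun hx hx' => hKfresh _ hx' hx⟩
  · -- weight
    obtain ⟨X, Y, Z, hZ, h1, h2, h3⟩ := hwt
    refine ⟨X + (rest.map Root.wt).sum, Y, Z, hZ, ?_, ?_, h3⟩
    · have : S'.wt = (news.map Root.wt).sum + (rest.map Root.wt).sum := by simp [S', Sys.wt]
      rw [this, h1]; abel
    · have : (⟨olds ++ rest, fr⟩ : Sys).wt = (olds.map Root.wt).sum + (rest.map Root.wt).sum := by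
        simp [Sys.wt]
      rw [this, h2]; abel
  · intro k0 hk r hr
    rcases List.mem_append.1 hr with hr | hr
    · exact hAdm k0 (fun r hr => hk r (List.mem_append_left _ hr)) r hr
    · exact hk r (List.mem_append_right _ hr)
  · -- transfer
    intro hA
    refine appr_map (fun τ z => if z ∈ D.map Prod.fst + P then φ z τ else
      if z ∈ K then τ z else ρ z) ?_ ?_ ?_ hsol' ?_ hA
    · intro z
      by_cases hz : z ∈ D.map Prod.fst + P
      · simp only [hz, if_true]
        intro i j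
        obtain ⟨⟨G1, hG1, e1⟩, ⟨G2, hG2, e2⟩⟩ := hpol z hz i j
        exact ⟨⟨G1, hG1, fun τ hτ => e1 τ (hnew τ hτ)⟩, ⟨G2, hG2, fun τ hτ => e2 τ (hnew τ hτ)⟩⟩
      · simp only [hz, if_false]
        by_cases hz' : z ∈ K
        · simp only [hz', if_true]
          exact polG_name _ z
        · simp only [hz', if_false]
          exact polG_const _ _
    · intro τ hτ
      have hKK : ∀ x ∈ K, (if x ∈ D.map Prod.fst + P then φ x τ else if x ∈ K then τ x else ρ x) =
          τ x := by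
        intro x hx
        rw [if_neg (fun h => hnot x h hx), if_pos hx]
      refine ⟨?_, ?_⟩
      · intro r hr
        rcases List.mem_append.1 hr with hr | hr
        · exact hback τ (hnew τ hτ) _ (fun z hz => by simp only [hz, if_true])
            (fun z hz => hKK z (hkeptU z hz)) r hr
        · exact sol_congr r (fun x hx => (hKK x (hkeptR r hr x hx)).symm)
            (hτ.1 r (List.mem_append_right _ hr))
      · intro z hz
        have h1 := hKK z.1 (hkeptF z hz)
        have h2 := hτ.2 z (List.mem_append_right _ hz)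
        change (if z.1 ∈ D.map Prod.fst + P then φ z.1 τ else if z.1 ∈ K then τ z.1 else ρ z.1) ∈
          GLk n z.2
        rw [h1]
        exact h2
    · intro τ hτ hτi x hx
      by_cases hz : x ∈ D.map Prod.fst + P
      · simp only [hz, if_true]
        refine hint τ (hnew τ hτ) (fun y hy => hτi y ?_) (fun y hy => hτi y.1 ?_) x hz
        · rw [hoccN, hpnN] at hy
          rw [hnamesS']
          rcases hy with ⟨j, ε, hy⟩ | hy
          · rcases Multiset.mem_add.1 hy with hy | hy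
            · exact Or.inl (Multiset.mem_add.2 (Or.inl (Multiset.mem_add.2 (Or.inl (mem_pm hy)))))
            · exact Or.inr (hkeptU y (Or.inl ⟨j, ε, hy⟩))
          · rcases Multiset.mem_add.1 hy with hy | hy
            · exact Or.inl (Multiset.mem_add.2 (Or.inl (Multiset.mem_add.2 (Or.inr hy))))
            · exact Or.inr (hkeptU y (Or.inr hy))
        · rw [hnamesS']
          refine Or.inl (Multiset.mem_add.2 (Or.inr ?_))
          rw [hF0, Multiset.mem_coe]
          exact List.mem_map_of_mem hy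
      · have hx' : x ∈ K := ((hnamesS x).1 hx).resolve_left hz
        simp only [hz, if_false, hx', if_true]
        exact hτi x ((hnamesS' x).2 (Or.inr hx'))
    · funext z
      by_cases hz : z ∈ D.map Prod.fst + P
      · simp only [hz, if_true]
        exact hφ z hz
      · simp only [hz, if_false]
        by_cases hz' : z ∈ K
        · simp only [hz', if_true]
          exact hρK z (hKfresh z hz')
        · simp only [hz', if_false]

end Crest.Agent.R003.W412
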