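import Crest.Agent.R003.WdApi
import Crest.Agent.R003.Step638
import Crest.Agent.R003.Driver537

/-!
# Row 3: rotation of a root, permutation of the roots (helper278)
-/

set_option autoImplicit false

namespace Crest.Agent.R003

/-- `Red` only depends on the weights, `Adm`, the solutions and the names -/
theorem Red.transfer {O : Subring ℂ} {n : ℕ} {S S' : Sys} {ρ : ℕ → G n} (hwt : S'.wt = S.wt)
    (hadm : ∀ k0, Adm k0 S → Adm k0 S') (hsol : S'.Sol n = S.Sol n) (hnames : S'.names = S.names)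
    (h : Red O n S' ρ) : Red O n S ρ := by
  obtain ⟨S'', ρ'', h1, h2, h3, h4, h5⟩ := h
  refine ⟨S'', ρ'', h1, ?_, fun k0 hk => h3 k0 (hadm k0 hk), h4, ?_⟩
  · rwa [hwt] at h2
  · rwa [hsol, hnames] at h5

/-! ### values in `GL_k` -/

theorem dsg_mem_GLk' {n k : ℕ} (e c : List Bool) (σ : Bool → Bool → ℂˣ) (h : c.length ≤ k) :
    dsg n e c σ ∈ GLk n k := by
  intro i j hij
  have h1 : (dsg n e c σ).1 i j = if i = j then
      (((match lab e i.1, lab c i.1 with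
        | some x, some y => σ x y
        | _, _ => 1) : ℂˣ) : ℂ) else 0 := by
    show Matrix.diagonal _ i j = _
    rw [Matrix.diagonal_apply]
    rfl
  rw [h1]
  by_cases hh : i = j
  · subst hh
    have hi : k ≤ i.1 := by rcases hij with h | h <;> exact h
    have h2 : lab c i.1 = none := by
      simp only [lab, List.getElem?_eq_none_iff]; omega
    rw [if_pos rfl, if_pos rfl, h2]
    cases lab e i.1 <;> simp
  · rw [if_neg hh, if_neg hh]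

theorem Lt.eval_mem {n k : ℕ} {ρ : ℕ → G n} {l : Lt} (h : Lt.Sat ρ k l)
    (hc : ∀ (p : ℕ) e σ c c' g, l = Lt.par p e σ c c' g → c.length = k) : l.eval ρ ∈ GLk n k := by
  cases l with
  | full x ε =>
    rw [Lt.eval_full]
    split_ifs
    · exact h
    · exact (GLk n k).inv_mem h
  | par p e σ c c' g =>
    have hc' := hc p e σ c c' g rfl
    rw [Lt.Sat_par] at h
    exact (GLk n k).mul_mem (dsg_mem_GLk' _ _ _ hc'.le) (hc' ▸ h.mem)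

/-- the value of a word lies in `GL_k` -/
theorem Wd.eval_mem {O : Subring ℂ} {n k : ℕ} {ρ : ℕ → G n} {w : Wd} {d : Option (List Bool)}
    (hw : Wd.WF O w k d) (h : Wd.Sat ρ w k) : Wd.eval ρ w ∈ GLk n k := by
  refine Subgroup.list_prod_mem _ fun x hx => ?_
  obtain ⟨l, hl, rfl⟩ := List.mem_map.1 hx
  refine Lt.eval_mem (h l hl) fun p e σ c c' g hg => ?_
  subst hg
  exact (hw.letter hl).1

/-! ### rotation -/

theorem Wd.WF_rotate {O : Subring ℂ} {u v : Wd} {k : ℕ}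
    (h : Wd.WF O (u ++ v) k (Wd.last (u ++ v) none)) :
    Wd.WF O (v ++ u) k (Wd.last (v ++ u) none) := by
  by_cases hu : u = []
  · subst hu; simpa using h
  by_cases hv : v = []
  · subst hv; simpa using h
  rw [Wd.WF_app, Wd.last_app] at h ⊢
  have hU : ∀ d, Wd.last u d = Wd.last u none := fun d => Wd.last_eq_of_ne_nil hu d none
  have hV : ∀ d, Wd.last v d = Wd.last v none := fun d => Wd.last_eq_of_ne_nil hv d none
  rw [hV, hU] at h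
  rw [hU, hV]
  exact ⟨h.2, h.1⟩

theorem Root.WF_rotate {O : Subring ℂ} {n : ℕ} {u v : Wd} {k : ℕ} {ξ : ℂˣ}
    (h : (⟨k, ξ, u ++ v⟩ : Root).WF O n) : (⟨k, ξ, v ++ u⟩ : Root).WF O n :=
  ⟨h.1, h.2.1, Wd.WF_rotate h.2.2⟩

theorem Root.Sol_rotate {O : Subring ℂ} {n : ℕ} {u v : Wd} {k : ℕ} {ξ : ℂˣ} {ρ : ℕ → G n}
    (hw : (⟨k, ξ, u ++ v⟩ : Root).WF O n) (h : (⟨k, ξ, u ++ v⟩ : Root).Sol ρ) :
    (⟨k, ξ, v ++ u⟩ : Root).Sol ρ := by
  obtain ⟨h1, h2⟩ := h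
  have h3 : Wd.Sat ρ u k ∧ Wd.Sat ρ v k := (Wd.Sat_app ρ u v k).1 h1
  refine ⟨(Wd.Sat_app ρ v u k).2 ⟨h3.2, h3.1⟩, ?_⟩
  have h4 : Wd.eval ρ u ∈ GLk n k := Wd.eval_mem ((Wd.WF_app O u v k _).1 hw.2.2).1 h3.1
  have h5 := scal_mul_comm (n := n) (k := k) ξ h4
  simp only [] at h2 ⊢
  rw [Wd.eval_app] at h2 ⊢
  have h6 : Wd.eval ρ u * (scal n k ξ * Wd.eval ρ v) = 1 := by
    rw [← mul_assoc, ← h5, mul_assoc]; exact h2
  have h7 := mul_eq_one_iff_eq_inv'.1 h6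
  rw [← mul_assoc, h7, inv_mul_cancel]

theorem rotInv (O : Subring ℂ) (n : ℕ) : RotInv O n := by
  have key : ∀ (k : ℕ) (ξ : ℂˣ) (u v : Wd) (rest : List Root) (fr : List (ℕ × ℕ)),
      Sys.WF O n ⟨⟨k, ξ, u ++ v⟩ :: rest, fr⟩ →
      Sys.WF O n ⟨⟨k, ξ, v ++ u⟩ :: rest, fr⟩ ∧
      Sys.Sol n ⟨⟨k, ξ, u ++ v⟩ :: rest, fr⟩ ⊆ Sys.Sol n ⟨⟨k, ξ, v ++ u⟩ :: rest, fr⟩ := by
    intro k ξ u v rest fr h
    have hr : (⟨k, ξ, u ++ v⟩ : Root).WF O n := h.roots _ (by simp)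
    have hocc : Sys.occ ⟨⟨k, ξ, v ++ u⟩ :: rest, fr⟩ = Sys.occ ⟨⟨k, ξ, u ++ v⟩ :: rest, fr⟩ := by
      rw [Sys.occ_cons, Sys.occ_cons, Root.occ_mk, Root.occ_mk,
        Wd.occ_perm (List.perm_append_comm (l₁ := v) (l₂ := u))]
    have hpn : Sys.pn ⟨⟨k, ξ, v ++ u⟩ :: rest, fr⟩ = Sys.pn ⟨⟨k, ξ, u ++ v⟩ :: rest, fr⟩ := by
      rw [Sys.pn_cons, Sys.pn_cons, Root.pn_mk, Root.pn_mk,
        Wd.pn_perm (List.perm_append_comm (l₁ := v) (l₂ := u))]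
    refine ⟨⟨?_, h.free, ?_⟩, ?_⟩
    · intro r hr'
      rcases List.mem_cons.1 hr' with rfl | hr'
      · exact Root.WF_rotate hr
      · exact h.roots _ (List.mem_cons_of_mem _ hr')
    · rw [hocc, hpn]; exact h.lin
    · intro ρ hρ
      rw [Sys.mem_Sol_cons] at hρ ⊢
      exact ⟨Root.Sol_rotate hr hρ.1, hρ.2⟩
  intro k ξ u v rest fr ρ hWF hρ
  obtain ⟨h1, h2⟩ := key k ξ u v rest fr hWF
  obtain ⟨_, h3⟩ := key k ξ v u rest fr h1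
  refine ⟨h1, h2 hρ, fun h => Red.transfer ?_ ?_ (Set.Subset.antisymm h3 h2) ?_ h⟩
  · rw [Sys.wt_cons, Sys.wt_cons, Root.wt_mk, Root.wt_mk,
      Wd.wt_perm (List.perm_append_comm (l₁ := v) (l₂ := u))]
  · intro k0 hk r hr
    rcases List.mem_cons.1 hr with rfl | hr
    · rcases hk ⟨k, ξ, u ++ v⟩ (by simp) with h | ⟨h, h'⟩
      · exact Or.inl h
      · exact Or.inr ⟨h, (Wd.hasNd_perm (List.perm_append_comm (l₁ := u) (l₂ := v))).1 h'⟩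
    · exact hk r (List.mem_cons_of_mem _ hr)
  · ext x
    rw [Sys.mem_names_cons, Sys.mem_names_cons]
    have : Root.nm ⟨k, ξ, v ++ u⟩ = Root.nm ⟨k, ξ, u ++ v⟩ :=
      Wd.nm_perm (List.perm_append_comm (l₁ := v) (l₂ := u))
    rw [this]

/-! ### permutation -/

theorem permInv (O : Subring ℂ) (n : ℕ) : PermInv O n := by
  intro l l' fr ρ hp hWF hρ
  have hocc : Sys.occ ⟨l', fr⟩ = Sys.occ ⟨l, fr⟩ := (hp.symm.map _).sum_eq
  have hpn : Sys.pn ⟨l', fr⟩ = Sys.pn ⟨l, fr⟩ := (hp.symm.map _).sum_eq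
  have hwt : Sys.wt ⟨l', fr⟩ = Sys.wt ⟨l, fr⟩ := (hp.symm.map _).sum_eq
  have hsol : Sys.Sol n ⟨l', fr⟩ = Sys.Sol n ⟨l, fr⟩ := by
    ext σ
    rw [Sys.mem_Sol, Sys.mem_Sol]
    simp only [hp.mem_iff]
  refine ⟨⟨?_, hWF.free, ?_⟩, ?_, fun h => Red.transfer hwt ?_ hsol ?_ h⟩
  · intro r hr
    exact hWF.roots r (hp.mem_iff.2 hr)
  · rw [hocc, hpn]; exact hWF.lin
  · rw [hsol]; exact hρ
  · intro k0 hk r hr
    exact hk r (hp.mem_iff.2 hr)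
  · ext x
    rw [Sys.mem_names, Sys.mem_names]
    simp only [hp.mem_iff]

/-- permutation of the free names -/
theorem freePermInv (O : Subring ℂ) (n : ℕ) (l : List Root) (fr fr' : List (ℕ × ℕ))
    (ρ : ℕ → G n) (hp : fr.Perm fr') (hWF : Sys.WF O n ⟨l, fr⟩) (hρ : ρ ∈ Sys.Sol n ⟨l, fr⟩) :
    Sys.WF O n ⟨l, fr'⟩ ∧ ρ ∈ Sys.Sol n ⟨l, fr'⟩ ∧ (Red O n ⟨l, fr'⟩ ρ → Red O n ⟨l, fr⟩ ρ) := by
  have hsol : Sys.Sol n ⟨l, fr'⟩ = Sys.Sol n ⟨l, fr⟩ := by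
    ext σ
    rw [Sys.mem_Sol, Sys.mem_Sol]
    simp only [hp.mem_iff]
  refine ⟨⟨hWF.roots, ?_, ?_⟩, ?_, fun h => Red.transfer (S' := ⟨l, fr'⟩) (S := ⟨l, fr⟩) rfl
    (fun k0 hk => hk) hsol ?_ h⟩
  · intro z hz
    exact hWF.free z (hp.mem_iff.2 hz)
  · obtain ⟨V, h1, h2⟩ := hWF.lin
    refine ⟨V, h1, ?_⟩
    have : ((fr'.map Prod.fst : List ℕ) : Multiset ℕ) = ((fr.map Prod.fst : List ℕ) : Multiset ℕ) :=
      Multiset.coe_eq_coe.2 (hp.symm.map _)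
    rw [this]
    exact h2
  · rw [hsol]; exact hρ
  · ext x
    rw [Sys.mem_names, Sys.mem_names]
    simp only [hp.mem_iff]

end Crest.Agent.R003
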