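import Mathlib

set_option autoImplicit false

namespace Crest.Agent.R003.Semi

open Matrix Module

variable {ι m n : Type*}

/-- `W` is mapped into itself by every `T i`. -/
def MInv [Fintype m] (T : ι → Matrix m m ℂ) (W : Submodule ℂ (m → ℂ)) : Prop :=
  ∀ i, ∀ v ∈ W, (T i).mulVec v ∈ W

/-- irreducible family of matrices -/
def MIrr [Fintype m] (T : ι → Matrix m m ℂ) : Prop :=
  Nonempty m ∧ ∀ W : Submodule ℂ (m → ℂ), MInv T W → W = ⊥ ∨ W = ⊤

/-- semisimple family of matrices -/
def MSS [Fintype m] (T : ι → Matrix m m ℂ) : Prop :=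
  ∀ W : Submodule ℂ (m → ℂ), MInv T W → ∃ W' : Submodule ℂ (m → ℂ), MInv T W' ∧ IsCompl W W'

section alg

variable [Fintype m] [DecidableEq m]

/-- the algebra generated by the `T i`, acting on `m → ℂ` -/
noncomputable abbrev Alg (T : ι → Matrix m m ℂ) : Subalgebra ℂ (Module.End ℂ (m → ℂ)) :=
  Algebra.adjoin ℂ (Set.range fun i => Matrix.toLin' (T i))

theorem inv_alg {T : ι → Matrix m m ℂ} {W : Submodule ℂ (m → ℂ)} (h : MInv T W)
    (a : Module.End ℂ (m → ℂ)) (ha : a ∈ Alg T) : ∀ v ∈ W, a v ∈ W := by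
  induction ha using Algebra.adjoin_induction with
  | mem x hx =>
    obtain ⟨i, rfl⟩ := hx
    intro v hv
    simpa using h i v hv
  | algebraMap c =>
    intro v hv
    simpa [Algebra.algebraMap_eq_smul_one] using W.smul_mem c hv
  | add x y _ _ hx hy =>
    intro v hv
    exact W.add_mem (hx v hv) (hy v hv)
  | mul x y _ _ hx hy =>
    intro v hv
    exact hx _ (hy v hv)

/-- the generator as an element of the algebra -/
noncomputable def gen (T : ι → Matrix m m ℂ) (i : ι) : Alg T :=
  ⟨Matrix.toLin' (T i), Algebra.subset_adjoin ⟨i, rfl⟩⟩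

theorem gen_smul (T : ι → Matrix m m ℂ) (i : ι) (v : m → ℂ) : gen T i • v = (T i).mulVec v := by
  change (Matrix.toLin' (T i)) v = _
  simp

/-- an invariant subspace is a submodule over the algebra -/
def toSub {T : ι → Matrix m m ℂ} (W : Submodule ℂ (m → ℂ)) (h : MInv T W) :
    Submodule (Alg T) (m → ℂ) where
  carrier := W
  add_mem' := W.add_mem
  zero_mem' := W.zero_mem
  smul_mem' := fun a v hv => inv_alg h a.1 a.2 v hv

theorem mem_toSub {T : ι → Matrix m m ℂ} (W : Submodule ℂ (m → ℂ)) (h : MInv T W) (v : m → ℂ) :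
    v ∈ toSub W h ↔ v ∈ W := Iff.rfl

theorem inv_restrict {T : ι → Matrix m m ℂ} (W : Submodule (Alg T) (m → ℂ)) :
    MInv T (W.restrictScalars ℂ) := by
  intro i v hv
  have := W.smul_mem (gen T i) hv
  rwa [gen_smul] at this

theorem isSemisimple_of_MSS {T : ι → Matrix m m ℂ} (h : MSS T) :
    IsSemisimpleModule (Alg T) (m → ℂ) := by
  rw [isSemisimpleModule_iff]
  refine ⟨fun W => ?_⟩
  obtain ⟨W', h1, h2⟩ := h (W.restrictScalars ℂ) (inv_restrict W)
  refine ⟨toSub W' h1, ?_⟩
  rw [isCompl_iff] at h2 ⊢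
  constructor
  · rw [Submodule.disjoint_def]
    intro x hx hx'
    exact (Submodule.disjoint_def.1 h2.1) x hx hx'
  · rw [codisjoint_iff, eq_top_iff]
    intro x _
    have : x ∈ (W.restrictScalars ℂ) ⊔ W' := by
      rw [codisjoint_iff.1 h2.2]; trivial
    obtain ⟨y, hy, z, hz, rfl⟩ := Submodule.mem_sup.1 this
    exact Submodule.add_mem_sup hy hz

theorem MSS_of_isSemisimple {T : ι → Matrix m m ℂ} (h : IsSemisimpleModule (Alg T) (m → ℂ)) :
    MSS T := by
  rw [isSemisimpleModule_iff] at h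
  intro W hW
  obtain ⟨W', h2⟩ := h.exists_isCompl (toSub W hW)
  refine ⟨W'.restrictScalars ℂ, inv_restrict W', ?_⟩
  rw [isCompl_iff] at h2 ⊢
  constructor
  · rw [Submodule.disjoint_def]
    intro x hx hx'
    exact (Submodule.disjoint_def.1 h2.1) x hx hx'
  · rw [codisjoint_iff, eq_top_iff]
    intro x _
    have : x ∈ toSub W hW ⊔ W' := by
      rw [codisjoint_iff.1 h2.2]; trivial
    obtain ⟨y, hy, z, hz, rfl⟩ := Submodule.mem_sup.1 this
    exact Submodule.add_mem_sup (S := W) hy hz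

end alg

section generic

variable {A V : Type*} [Ring A] [Algebra ℂ A] [AddCommGroup V] [Module ℂ V] [Module A V]
  [IsScalarTower ℂ A V]

/-- decomposition of a semisimple module, in coordinates -/
theorem exists_block_gen [FiniteDimensional ℂ V] [IsSemisimpleModule A V] (g : ι → A)
    (hg : Algebra.adjoin ℂ (Set.range g) = ⊤) :
    ∃ (N : ℕ) (d : Fin N → ℕ) (S : ∀ i, ι → Matrix (Fin (d i)) (Fin (d i)) ℂ)
      (ψ : V ≃ₗ[ℂ] ((Σ i, Fin (d i)) → ℂ)),
      (∀ i, MIrr (S i)) ∧
      ∀ v x, ψ (g v • x) = (blockDiagonal' fun i => S i v).mulVec (ψ x) := by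
  classical
  have : Module.Finite A V := Module.Finite.of_restrictScalars_finite ℂ A V
  obtain ⟨N, S, e, hS⟩ := IsSemisimpleModule.exists_linearEquiv_fin_dfinsupp A V
  have : ∀ i, FiniteDimensional ℂ (S i) := fun i => by
    have : FiniteDimensional ℂ ((S i).restrictScalars ℂ) := inferInstance
    exact this
  let φ : ∀ i, (S i) ≃ₗ[ℂ] (Fin (finrank ℂ (S i)) → ℂ) := fun i =>
    (Module.finBasis ℂ (S i)).equivFun
  -- the action of a generator on `S i`
  let act : ∀ (i : Fin N) (v : ι), (S i) →ₗ[ℂ] (S i) := fun i v =>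
    Algebra.lsmul ℂ ℂ (S i) (g v)
  let S' : ∀ i, ι → Matrix (Fin (finrank ℂ (S i))) (Fin (finrank ℂ (S i))) ℂ := fun i v =>
    LinearMap.toMatrix' ((φ i).toLinearMap ∘ₗ (act i v) ∘ₗ (φ i).symm.toLinearMap)
  have hS' : ∀ i v (x : S i), (S' i v).mulVec (φ i x) = φ i (g v • x) := by
    intro i v x
    have h1 : (S' i v).mulVec (φ i x) = Matrix.toLin' (S' i v) (φ i x) := by simp
    rw [h1]
    simp only [S', Matrix.toLin'_toMatrix', LinearMap.comp_apply, LinearEquiv.coe_coe,
      LinearEquiv.symm_apply_apply]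
    rfl
  -- the total isomorphism
  let e1 : V ≃ₗ[A] (Π i : Fin N, S i) := e.trans (DFinsupp.linearEquivFunOnFintype)
  let e2 : V ≃ₗ[ℂ] (Π i : Fin N, S i) := e1.restrictScalars ℂ
  let ψ : V ≃ₗ[ℂ] ((Σ i, Fin (finrank ℂ (S i))) → ℂ) :=
    (e2.trans (LinearEquiv.piCongrRight φ)).trans
      (LinearEquiv.piCurry ℂ (fun (i : Fin N) (_ : Fin (finrank ℂ (S i))) => ℂ)).symm
  have hψ : ∀ x i k, ψ x ⟨i, k⟩ = φ i (e1 x i) k := by
    intro x i k
    rfl
  refine ⟨N, fun i => finrank ℂ (S i), S', ψ, ?_, ?_⟩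
  · intro i
    have := hS i
    have : Nontrivial (S i) := IsSimpleModule.nontrivial A (S i)
    refine ⟨?_, ?_⟩
    · have : 0 < finrank ℂ (S i) := finrank_pos
      exact ⟨⟨0, this⟩⟩
    · intro W hW
      have key : ∀ a : A, ∀ x : S i, φ i x ∈ W → φ i (a • x) ∈ W := by
        intro a
        have ha : a ∈ Algebra.adjoin ℂ (Set.range g) := by rw [hg]; trivial
        induction ha using Algebra.adjoin_induction with
        | mem a ha =>
          obtain ⟨v, rfl⟩ := ha
          intro x hx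
          have := hW v _ hx
          rw [hS'] at this
          exact this
        | algebraMap c =>
          intro x hx
          rw [algebraMap_smul, map_smul]
          exact W.smul_mem c hx
        | add a b ha hb iha ihb =>
          intro x hx
          rw [add_smul, map_add]
          exact W.add_mem (iha x hx) (ihb x hx)
        | mul a b ha hb iha ihb =>
          intro x hx
          rw [mul_smul]
          exact iha _ (ihb x hx)
      let W' : Submodule A (S i) :=
        { carrier := {x | φ i x ∈ W}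
          add_mem' := fun {x y} hx hy => by
            change φ i (x + y) ∈ W
            rw [map_add]; exact W.add_mem hx hy
          zero_mem' := by
            change φ i 0 ∈ W
            rw [map_zero]; exact W.zero_mem
          smul_mem' := fun a x hx => key a x hx }
      rcases eq_bot_or_eq_top W' with h0 | h0
      · left
        rw [eq_bot_iff]
        intro y hy
        have : (φ i).symm y ∈ W' := by
          change φ i ((φ i).symm y) ∈ W
          rw [LinearEquiv.apply_symm_apply]; exact hy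
        rw [h0, Submodule.mem_bot] at this
        rw [Submodule.mem_bot]
        simpa using congrArg (φ i) this
      · right
        rw [eq_top_iff]
        intro y _
        have : (φ i).symm y ∈ W' := by rw [h0]; trivial
        have h4 : φ i ((φ i).symm y) ∈ W := this
        rwa [LinearEquiv.apply_symm_apply] at h4
  · intro v x
    funext ⟨i, k⟩
    rw [hψ]
    have h5 : e1 (g v • x) i = g v • (e1 x i) := by
      rw [map_smul]; rfl
    rw [h5, ← hS']
    simp only [mulVec, dotProduct]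
    rw [Fintype.sum_sigma, Finset.sum_eq_single i]
    · refine Finset.sum_congr rfl fun l _ => ?_
      rw [blockDiagonal'_apply_eq, hψ]
    · intro j _ hj
      refine Finset.sum_eq_zero fun l _ => ?_
      rw [blockDiagonal'_apply_ne _ _ _ (Ne.symm hj), zero_mul]
    · simp

end generic

/-- **Decomposition of a semisimple family into irreducible blocks.** -/
theorem exists_block [Fintype m] [DecidableEq m] (T : ι → Matrix m m ℂ) (h : MSS T) :
    ∃ (N : ℕ) (d : Fin N → ℕ) (S : ∀ i, ι → Matrix (Fin (d i)) (Fin (d i)) ℂ)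
      (ψ : (m → ℂ) ≃ₗ[ℂ] ((Σ i, Fin (d i)) → ℂ)),
      (∀ i, MIrr (S i)) ∧
      ∀ v x, ψ ((T v).mulVec x) = (blockDiagonal' fun i => S i v).mulVec (ψ x) := by
  have := isSemisimple_of_MSS h
  have hg : Algebra.adjoin ℂ (Set.range (gen T)) = ⊤ := by
    have h1 := Algebra.adjoin_adjoin_coe_preimage
      (R := ℂ) (s := Set.range fun i => Matrix.toLin' (T i))
    rw [← h1]
    congr 1
    ext x
    constructor
    · rintro ⟨i, rfl⟩
      exact ⟨i, rfl⟩
    · rintro ⟨i, hi⟩
      exact ⟨i, Subtype.ext hi⟩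
  have hst : IsScalarTower ℂ (Alg T) (m → ℂ) := ⟨fun c a v => rfl⟩
  obtain ⟨N, d, S, ψ, h1, h2⟩ := exists_block_gen (A := Alg T) (V := m → ℂ) (gen T) hg
  refine ⟨N, d, S, ψ, h1, fun v x => ?_⟩
  rw [← h2, gen_smul]

/-! ### transport -/

section transport

variable [Fintype m] [Fintype n]

theorem MInv_map {T : ι → Matrix m m ℂ} {S : ι → Matrix n n ℂ} (ψ : (m → ℂ) ≃ₗ[ℂ] (n → ℂ))
    (h : ∀ v x, ψ ((T v).mulVec x) = (S v).mulVec (ψ x)) {W : Submodule ℂ (m → ℂ)}
    (hW : MInv T W) : MInv S (W.map (ψ : (m → ℂ) →ₗ[ℂ] (n → ℂ))) := by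
  rintro i _ ⟨x, hx, rfl⟩
  refine ⟨(T i).mulVec x, hW i x hx, ?_⟩
  simpa using h i x

theorem intertwine_symm {T : ι → Matrix m m ℂ} {S : ι → Matrix n n ℂ}
    (ψ : (m → ℂ) ≃ₗ[ℂ] (n → ℂ)) (h : ∀ v x, ψ ((T v).mulVec x) = (S v).mulVec (ψ x)) :
    ∀ v x, ψ.symm ((S v).mulVec x) = (T v).mulVec (ψ.symm x) := by
  intro v x
  apply ψ.injective
  rw [h]; simp

theorem MSS_transport {T : ι → Matrix m m ℂ} {S : ι → Matrix n n ℂ} (ψ : (m → ℂ) ≃ₗ[ℂ] (n → ℂ))
    (h : ∀ v x, ψ ((T v).mulVec x) = (S v).mulVec (ψ x)) (hT : MSS T) : MSS S := by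
  intro W hW
  have h1 := MInv_map ψ.symm (intertwine_symm ψ h) hW
  obtain ⟨C, hC, hC'⟩ := hT _ h1
  refine ⟨C.map (ψ : (m → ℂ) →ₗ[ℂ] (n → ℂ)), MInv_map ψ h hC, ?_⟩
  have h2 := (Submodule.orderIsoMapComap ψ).isCompl hC'
  have h3 : (Submodule.orderIsoMapComap ψ) (W.map (ψ.symm : (n → ℂ) →ₗ[ℂ] (m → ℂ))) = W := by
    simp only [Submodule.orderIsoMapComap_apply]
    ext x
    constructor
    · rintro ⟨_, ⟨y, hy, rfl⟩, rfl⟩
      simpa using hy
    · intro hx
      exact ⟨ψ.symm x, ⟨x, hx, rfl⟩, by simp⟩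
  rw [h3] at h2
  exact h2

theorem MIrr_transport {T : ι → Matrix m m ℂ} {S : ι → Matrix n n ℂ} [Nonempty n]
    (ψ : (m → ℂ) ≃ₗ[ℂ] (n → ℂ))
    (h : ∀ v x, ψ ((T v).mulVec x) = (S v).mulVec (ψ x)) (hT : MIrr T) : MIrr S := by
  refine ⟨inferInstance, ?_⟩
  intro W hW
  have h1 := MInv_map ψ.symm (intertwine_symm ψ h) hW
  rcases hT.2 _ h1 with h2 | h2
  · left
    rw [eq_bot_iff]
    intro x hx
    have : ψ.symm x ∈ W.map (ψ.symm : (n → ℂ) →ₗ[ℂ] (m → ℂ)) := ⟨x, hx, rfl⟩
    rw [h2, Submodule.mem_bot] at this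
    simpa using this
  · right
    rw [eq_top_iff]
    intro x _
    have : ψ.symm x ∈ W.map (ψ.symm : (n → ℂ) →ₗ[ℂ] (m → ℂ)) := by rw [h2]; trivial
    obtain ⟨y, hy, hxy⟩ := this
    have : y = x := ψ.symm.injective hxy
    rwa [← this]

end transport

/-- matrix form of the decomposition -/
theorem exists_block_matrix {r : ℕ} (T : ι → Matrix (Fin r) (Fin r) ℂ) (h : MSS T) :
    ∃ (N : ℕ) (d : Fin N → ℕ) (S : ∀ i, ι → Matrix (Fin (d i)) (Fin (d i)) ℂ)
      (e : (Σ i, Fin (d i)) ≃ Fin r) (H H' : Matrix (Fin r) (Fin r) ℂ),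
      H * H' = 1 ∧ H' * H = 1 ∧ (∀ i, MIrr (S i)) ∧
      ∀ v, T v = H * (blockDiagonal' fun i => S i v).reindex e e * H' := by
  classical
  obtain ⟨N, d, S, ψ, h1, h2⟩ := exists_block T h
  have hcard : Fintype.card (Σ i, Fin (d i)) = r := by
    have := LinearEquiv.finrank_eq ψ
    simpa using this.symm
  let e : (Σ i, Fin (d i)) ≃ Fin r := Fintype.equivFinOfCardEq hcard
  let ψ' : (Fin r → ℂ) ≃ₗ[ℂ] (Fin r → ℂ) := ψ.trans (LinearEquiv.funCongrLeft ℂ ℂ e.symm)
  have hψ' : ∀ x k, ψ' x k = ψ x (e.symm k) := fun x k => rfl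
  refine ⟨N, d, S, e, LinearMap.toMatrix' ψ'.symm.toLinearMap,
    LinearMap.toMatrix' ψ'.toLinearMap, ?_, ?_, h1, ?_⟩
  · rw [← LinearMap.toMatrix'_comp]
    simp
  · rw [← LinearMap.toMatrix'_comp]
    simp
  · intro v
    apply Matrix.toLin'.injective
    rw [Matrix.toLin'_mul, Matrix.toLin'_mul, Matrix.toLin'_toMatrix', Matrix.toLin'_toMatrix']
    refine LinearMap.ext fun x => ?_
    simp only [LinearMap.comp_apply, LinearEquiv.coe_coe, Matrix.toLin'_apply]
    rw [LinearEquiv.eq_symm_apply]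
    funext k
    rw [hψ', h2]
    simp only [mulVec, dotProduct, Matrix.reindex_apply, Matrix.submatrix_apply]
    rw [← Equiv.sum_comp e.symm]
    rfl

theorem semisimple_of_atoms {A V o : Type*} [Ring A] [AddCommGroup V] [Module A V]
    (p : o → Submodule A V) (h : ∀ i, IsAtom (p i)) (h' : ⨆ i, p i = ⊤) :
    IsSemisimpleModule A V :=
  isSemisimpleModule_of_isSemisimpleModule_submodule'
    (fun i => by have := isSimpleModule_iff_isAtom.2 (h i); infer_instance) h'

/-! ### block sums of irreducibles are semisimple -/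

section blocksum

set_option linter.unusedSectionVars false

variable {o : Type*} [Fintype o] [DecidableEq o] {d : o → Type*} [∀ i, Fintype (d i)]
  [∀ i, DecidableEq (d i)]

/-- inclusion of the `i`-th block -/
def incl (i : o) : (d i → ℂ) →ₗ[ℂ] ((Σ i, d i) → ℂ) where
  toFun x := fun jk => if h : jk.1 = i then x (h ▸ jk.2) else 0
  map_add' x y := by
    funext jk
    by_cases h : jk.1 = i <;> simp [h]
  map_smul' c x := by
    funext jk
    by_cases h : jk.1 = i <;> simp [h]

theorem incl_same (i : o) (x : d i → ℂ) (k : d i) : incl i x ⟨i, k⟩ = x k := by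
  simp [incl]

theorem incl_ne {i j : o} (h : j ≠ i) (x : d i → ℂ) (k : d j) : incl i x ⟨j, k⟩ = 0 := by
  simp [incl, h]

theorem incl_mulVec (S : ∀ i, ι → Matrix (d i) (d i) ℂ) (i : o) (v : ι) (x : d i → ℂ) :
    (blockDiagonal' fun i => S i v).mulVec (incl i x) = incl i ((S i v).mulVec x) := by
  funext ⟨j, k⟩
  simp only [mulVec, dotProduct]
  rw [Fintype.sum_sigma]
  by_cases hj : j = i
  · subst hj
    rw [Finset.sum_eq_single j]
    · rw [incl_same]
      refine Finset.sum_congr rfl fun l _ => ?_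
      rw [blockDiagonal'_apply_eq, incl_same]
    · intro j' _ hj'
      refine Finset.sum_eq_zero fun l _ => ?_
      rw [incl_ne hj', mul_zero]
    · simp
  · rw [incl_ne hj]
    refine Finset.sum_eq_zero fun j' _ => Finset.sum_eq_zero fun l _ => ?_
    by_cases hj' : j = j'
    · subst hj'
      rw [incl_ne hj, mul_zero]
    · rw [blockDiagonal'_apply_ne _ _ _ hj', zero_mul]

/-- A block sum of irreducible families is semisimple. -/
theorem MSS_blockDiagonal (S : ∀ i, ι → Matrix (d i) (d i) ℂ) (hS : ∀ i, MIrr (S i)) :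
    MSS (fun v => blockDiagonal' fun i => S i v) := by
  apply MSS_of_isSemisimple
  set B : ι → Matrix (Σ i, d i) (Σ i, d i) ℂ := fun v => blockDiagonal' fun i => S i v with hB
  have hinv : ∀ i, MInv B (LinearMap.range (incl (d := d) i)) := by
    rintro i v _ ⟨x, rfl⟩
    refine ⟨(S i v).mulVec x, ?_⟩
    rw [← incl_mulVec]
  refine semisimple_of_atoms
    (p := fun i => toSub (LinearMap.range (incl (d := d) i)) (hinv i)) ?_ ?_
  · intro i
    · constructor
      · intro h0
        obtain ⟨k⟩ := (hS i).1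
        have h1 : incl i (Pi.single k (1 : ℂ)) ∈
            toSub (LinearMap.range (incl (d := d) i)) (hinv i) := ⟨_, rfl⟩
        rw [h0, Submodule.mem_bot] at h1
        have h2 := congrFun h1 ⟨i, k⟩
        rw [incl_same] at h2
        simp at h2
      · intro q hq
        have hle := hq.le
        let W : Submodule ℂ (d i → ℂ) := (q.restrictScalars ℂ).comap (incl i)
        have hW : MInv (S i) W := by
          intro v x hx
          change incl i ((S i v).mulVec x) ∈ q
          rw [← incl_mulVec]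
          exact inv_restrict q v _ hx
        rcases (hS i).2 W hW with h0 | h0
        · rw [eq_bot_iff]
          intro y hy
          obtain ⟨x, rfl⟩ := hle hy
          have : x ∈ W := hy
          rw [h0, Submodule.mem_bot] at this
          rw [this, map_zero]
          exact Submodule.zero_mem _
        · exfalso
          apply hq.not_ge
          rintro _ ⟨x, rfl⟩
          have : x ∈ W := by rw [h0]; trivial
          exact this
  · rw [eq_top_iff]
    intro y _
    have : y = ∑ i, incl i (fun k => y ⟨i, k⟩) := by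
      funext ⟨j, k⟩
      rw [Finset.sum_apply, Finset.sum_eq_single j]
      · rw [incl_same]
      · intro b _ hb
        rw [incl_ne hb.symm]
      · simp
    rw [this]
    refine Submodule.sum_mem _ fun i _ => ?_
    refine Submodule.mem_iSup_of_mem i ?_
    exact ⟨_, rfl⟩

end blocksum

theorem MSS_reindex [Fintype m] [Fintype n] (e : m ≃ n) {T : ι → Matrix m m ℂ} (h : MSS T) :
    MSS (fun v => (T v).reindex e e) := by
  refine MSS_transport (LinearEquiv.funCongrLeft ℂ ℂ e.symm) ?_ h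
  intro v x
  funext k
  change (T v).mulVec x (e.symm k) = (Matrix.reindex e e (T v)).mulVec (fun j => x (e.symm j)) k
  simp only [mulVec, dotProduct, Matrix.reindex_apply, Matrix.submatrix_apply]
  rw [← Equiv.sum_comp e.symm]

theorem MSS_conj [Fintype m] [DecidableEq m] {T : ι → Matrix m m ℂ} (H H' : Matrix m m ℂ)
    (h1 : H * H' = 1) (h2 : H' * H = 1) (h : MSS T) : MSS (fun v => H * T v * H') := by
  refine MSS_transport (Matrix.toLin'OfInv h2 h1) ?_ h
  intro v x
  change H.mulVec ((T v).mulVec x) = (H * T v * H').mulVec (H.mulVec x)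
  rw [Matrix.mulVec_mulVec, Matrix.mulVec_mulVec, Matrix.mul_assoc, Matrix.mul_assoc, h2,
    Matrix.mul_one]

/-- **Converse**: conjugates of block sums of irreducible families are semisimple. -/
theorem MSS_of_block {r : ℕ} {N : ℕ} {d : Fin N → ℕ}
    (S : ∀ i, ι → Matrix (Fin (d i)) (Fin (d i)) ℂ) (hS : ∀ i, MIrr (S i))
    (e : (Σ i, Fin (d i)) ≃ Fin r) (H H' : Matrix (Fin r) (Fin r) ℂ) (h1 : H * H' = 1)
    (h2 : H' * H = 1) :
    MSS (fun v => H * (blockDiagonal' fun i => S i v).reindex e e * H') :=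
  MSS_conj H H' h1 h2 (MSS_reindex e (MSS_blockDiagonal S hS))

end Crest.Agent.R003.Semi
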