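import Crest.Agent.R003.Iface
import Crest.Agent.R003.App638
import Crest.Agent.R003.Fin452

/-!
# Row 3: the system of Part 4 (helper452)
-/

set_option autoImplicit false

open Crest.NumberTheoryR.CharVarRel

namespace Crest.Agent.R003.Sys4

/-! ### names -/

/-- name encoding: tag, component, index, level -/
def nm (a i j t : ℕ) : ℕ := Nat.pair a (Nat.pair i (Nat.pair j t))

theorem nm_inj {a i j t a' i' j' t' : ℕ} (h : nm a i j t = nm a' i' j' t') :
    a = a' ∧ i = i' ∧ j = j' ∧ t = t' := by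
  unfold nm at h
  rw [Nat.pair_eq_pair, Nat.pair_eq_pair, Nat.pair_eq_pair] at h
  exact h

/-- decoding -/
def dec (x : ℕ) : ℕ × ℕ × ℕ × ℕ :=
  (x.unpair.1, x.unpair.2.unpair.1, x.unpair.2.unpair.2.unpair.1, x.unpair.2.unpair.2.unpair.2)

theorem dec_nm (a i j t : ℕ) : dec (nm a i j t) = (a, i, j, t) := by
  unfold dec nm
  simp only [Nat.unpair_pair]

/-! ### compositions -/

/-- total size of a composition -/
def sz (μ : List (ℕ × ℂˣ)) : ℕ := (μ.map Prod.fst).sum

@[simp] theorem sz_nil : sz [] = 0 := rfl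
@[simp] theorem sz_cons (m : ℕ) (a : ℂˣ) (μ : List (ℕ × ℂˣ)) : sz ((m, a) :: μ) = m + sz μ := rfl

/-- labels: `m` zeros followed by `k` ones -/
def lb (m k : ℕ) : List Bool := List.replicate m false ++ List.replicate k true

@[simp] theorem lb_length (m k : ℕ) : (lb m k).length = m + k := by simp [lb]
@[simp] theorem lb_count_false (m k : ℕ) : (lb m k).count false = m := by
  simp [lb, List.count_replicate]
@[simp] theorem lb_count_true (m k : ℕ) : (lb m k).count true = k := by
  simp [lb, List.count_replicate]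

/-- block upper triangular with scalar diagonal blocks -/
def InLU (n : ℕ) : List (ℕ × ℂˣ) → G n → Prop
  | [], p => p = 1
  | (m, a) :: μ, p => ∃ q, InLU n μ q ∧
      IsPar (lb m (sz μ)) (lb m (sz μ)) (fun b => if b then q else scal n m a) p

/-- the P-word of a composition at level `t` -/
def LL (i j t : ℕ) : List (ℕ × ℂˣ) → Wd
  | [] => []
  | (m, _) :: μ => [Lt.par (nm 5 i j t) [] (fun _ _ => 1) (lb m (sz μ)) (lb m (sz μ))
      (fun b => if b then nm 4 i j t else nm 3 i j t)]

/-- the chain of roots of a composition at level `t` -/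
def ch (i j : ℕ) : ℕ → List (ℕ × ℂˣ) → List Root
  | _, [] => []
  | t, (m, a) :: μ => ⟨m, a, [Lt.full (nm 3 i j t) false]⟩ ::
      ⟨sz μ, 1, LL i j (t + 1) μ ++ [Lt.full (nm 4 i j t) false]⟩ :: ch i j (t + 1) μ

variable {n : ℕ}

theorem dsg_nil (c : List Bool) (σ : Bool → Bool → ℂˣ) : dsg n [] c σ = 1 := by
  apply Units.ext
  show Matrix.diagonal _ = (1 : Matrix (Fin n) (Fin n) ℂ)
  rw [← Matrix.diagonal_one]
  congr 1

theorem eval_nil (ρ : ℕ → G n) : Wd.eval ρ [] = 1 := rfl
theorem eval_cons (ρ : ℕ → G n) (l : Lt) (w : Wd) : Wd.eval ρ (l :: w) = l.eval ρ * Wd.eval ρ w := by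
  simp [Wd.eval]
theorem eval_append (ρ : ℕ → G n) (w w' : Wd) :
    Wd.eval ρ (w ++ w') = Wd.eval ρ w * Wd.eval ρ w' := by
  simp [Wd.eval]

theorem eval_LL_cons (ρ : ℕ → G n) (i j t m : ℕ) (a : ℂˣ) (μ : List (ℕ × ℂˣ)) :
    Wd.eval ρ (LL i j t ((m, a) :: μ)) = ρ (nm 5 i j t) := by
  rw [LL, eval_cons, eval_nil, mul_one]
  show dsg n [] _ _ * ρ (nm 5 i j t) = _
  rw [dsg_nil, one_mul]

theorem ch_sol (ρ : ℕ → G n) (i j : ℕ) (μ : List (ℕ × ℂˣ)) : ∀ t : ℕ,
    (∀ R ∈ ch i j t μ, Root.Sol R ρ) → Wd.Sat ρ (LL i j t μ) (sz μ) →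
    InLU n μ (Wd.eval ρ (LL i j t μ)) := by
  induction μ with
  | nil => intro t _ _; rfl
  | cons ma μ ih =>
    obtain ⟨m, a⟩ := ma
    intro t h1 h2
    have r1 := h1 _ (List.mem_cons_self ..)
    have r2 := h1 _ (List.mem_cons_of_mem _ (List.mem_cons_self ..))
    have r3 : ∀ R ∈ ch i j (t + 1) μ, Root.Sol R ρ := fun R hR =>
      h1 R (List.mem_cons_of_mem _ (List.mem_cons_of_mem _ hR))
    have e1 : ρ (nm 3 i j t) = scal n m a := by
      have := r1.2
      simp only [eval_cons, eval_nil, mul_one] at this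
      have h3 : scal n m a * (ρ (nm 3 i j t))⁻¹ = 1 := this
      exact (mul_inv_eq_one.1 h3).symm
    have e2 : ρ (nm 4 i j t) = Wd.eval ρ (LL i j (t + 1) μ) := by
      have := r2.2
      simp only [eval_append, eval_cons, eval_nil, mul_one, scal_one, one_mul] at this
      have h3 : Wd.eval ρ (LL i j (t + 1) μ) * (ρ (nm 4 i j t))⁻¹ = 1 := this
      exact (mul_inv_eq_one.1 h3).symm
    have s2 : Wd.Sat ρ (LL i j (t + 1) μ) (sz μ) := fun l hl =>
      r2.1 l (List.mem_append_left _ hl)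
    refine ⟨_, ih (t + 1) r3 s2, ?_⟩
    rw [eval_LL_cons]
    have h3 := h2 (Lt.par (nm 5 i j t) [] (fun _ _ => 1) (lb m (sz μ)) (lb m (sz μ))
      (fun b => if b then nm 4 i j t else nm 3 i j t)) (List.mem_singleton_self _)
    have h4 : IsPar (lb m (sz μ)) (lb m (sz μ))
      (fun b => ρ (if b then nm 4 i j t else nm 3 i j t)) (ρ (nm 5 i j t)) := h3
    convert h4 using 1
    funext b
    cases b <;> simp [e1, e2]

theorem ch_exists (i j : ℕ) (μ : List (ℕ × ℂˣ)) : ∀ (t : ℕ) (p : G n), InLU n μ p →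
    ∃ f3 f4 f5 : ℕ → G n, ∀ ρ : ℕ → G n, (∀ t', t ≤ t' → ρ (nm 3 i j t') = f3 t' ∧
      ρ (nm 4 i j t') = f4 t' ∧ ρ (nm 5 i j t') = f5 t') →
      (∀ R ∈ ch i j t μ, Root.Sol R ρ) ∧ Wd.Sat ρ (LL i j t μ) (sz μ) ∧
        Wd.eval ρ (LL i j t μ) = p := by
  induction μ with
  | nil =>
    intro t p hp
    refine ⟨fun _ => 1, fun _ => 1, fun _ => 1, fun ρ _ => ⟨?_, ?_, ?_⟩⟩
    · intro R hR; simp [ch] at hR
    · intro l hl; simp [LL] at hl
    · rw [LL, eval_nil]; exact hp.symm
  | cons ma μ ih =>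
    obtain ⟨m, a⟩ := ma
    intro t p hp
    obtain ⟨q, hq, hpar⟩ := hp
    obtain ⟨f3, f4, f5, hf⟩ := ih (t + 1) q hq
    refine ⟨Function.update f3 t (scal n m a), Function.update f4 t q, Function.update f5 t p,
      fun ρ hρ => ?_⟩
    obtain ⟨e3, e4, e5⟩ := hρ t le_rfl
    rw [Function.update_self] at e3 e4 e5
    obtain ⟨g1, g2, g3⟩ := hf ρ (fun t' ht' => by
      have := hρ t' (by omega)
      rwa [Function.update_of_ne (by omega), Function.update_of_ne (by omega),
        Function.update_of_ne (by omega)] at this)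
    have hblk := hpar.blk
    refine ⟨?_, ?_, ?_⟩
    · intro R hR
      rcases List.mem_cons.1 hR with rfl | hR
      · refine ⟨fun l hl => ?_, ?_⟩
        · rw [List.mem_singleton.1 hl]
          show ρ (nm 3 i j t) ∈ GLk n m
          rw [e3]
          exact scal_mem_GLk le_rfl a
        · show scal n m a * Wd.eval ρ [Lt.full (nm 3 i j t) false] = 1
          rw [eval_cons, eval_nil, mul_one]
          show scal n m a * (ρ (nm 3 i j t))⁻¹ = 1
          rw [e3, mul_inv_cancel]
      rcases List.mem_cons.1 hR with rfl | hR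
      · refine ⟨fun l hl => ?_, ?_⟩
        · rcases List.mem_append.1 hl with hl | hl
          · exact g2 l hl
          · rw [List.mem_singleton.1 hl]
            show ρ (nm 4 i j t) ∈ GLk n (sz μ)
            rw [e4]
            have := hblk true
            simpa using this
        · show scal n (sz μ) 1 * Wd.eval ρ (LL i j (t + 1) μ ++ [Lt.full (nm 4 i j t) false]) = 1
          rw [eval_append, eval_cons, eval_nil, mul_one, g3, scal_one, one_mul]
          show q * (ρ (nm 4 i j t))⁻¹ = 1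
          rw [e4, mul_inv_cancel]
      · exact g1 R hR
    · intro l hl
      have hl' := List.mem_singleton.1 hl
      rw [hl']
      show IsPar (lb m (sz μ)) (lb m (sz μ))
        (fun b => ρ (if b then nm 4 i j t else nm 3 i j t)) (ρ (nm 5 i j t))
      rw [e5]
      convert hpar using 1
      funext b
      cases b <;> simp [e3, e4]
    · rw [eval_LL_cons, e5]

/-! ### the system -/

section system
variable (g s N : ℕ) (d : Fin N → ℕ) (comp : Fin N → Fin s → List (ℕ × ℂˣ))

/-- the handle part of the word of the component `i` -/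
def hW (i : ℕ) : Wd := (List.finRange g).flatMap fun (k : Fin g) =>
  [Lt.full (nm 0 i k 0) true, Lt.full (nm 1 i k 0) true, Lt.full (nm 0 i k 0) false,
    Lt.full (nm 1 i k 0) false]

/-- the boundary part of the word of the component `i` -/
def bW (i : ℕ) (c : Fin s → List (ℕ × ℂˣ)) : Wd := (List.finRange s).flatMap fun (j : Fin s) =>
  Lt.full (nm 2 i j 0) true :: (LL i j 0 (c j) ++ [Lt.full (nm 2 i j 0) false])

/-- the main root of the component `i` -/
def RT (i : Fin N) : Root := ⟨d i, 1, hW g i ++ bW s i (comp i)⟩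

/-- the system -/
def SY : Sys := ⟨(List.finRange N).flatMap fun (i : Fin N) => RT g s N d comp i ::
  (List.finRange s).flatMap fun (j : Fin s) => ch i j 0 (comp i j), []⟩

end system

/-! ### occurrences -/

/-- both signs -/
def pm (V : Multiset (ℕ × ℕ)) : Multiset (ℕ × ℕ × Bool) :=
  V.map (fun v => (v.1, v.2, true)) + V.map (fun v => (v.1, v.2, false))

theorem pm_add (A B : Multiset (ℕ × ℕ)) : pm (A + B) = pm A + pm B := by
  unfold pm; rw [Multiset.map_add, Multiset.map_add]; abel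

theorem pm_zero : pm 0 = 0 := rfl

theorem pm_sum {α : Type*} (l : List α) (f : α → Multiset (ℕ × ℕ)) :
    pm (l.map f).sum = (l.map fun a => pm (f a)).sum := by
  induction l with
  | nil => rfl
  | cons a l ih => simp only [List.map_cons, List.sum_cons, pm_add, ih]

theorem sum_flatMap {α β M : Type*} [AddCommMonoid M] (l : List α) (f : α → List β) (φ : β → M) :
    ((l.flatMap f).map φ).sum = (l.map fun a => ((f a).map φ).sum).sum := by
  induction l with
  | nil => rfl
  | cons a l ih => simp only [List.flatMap_cons, List.map_append, List.sum_append, List.map_cons,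
      List.sum_cons, ih]

/-- the full names of a chain -/
def Vc (i j : ℕ) : ℕ → List (ℕ × ℂˣ) → Multiset (ℕ × ℕ)
  | _, [] => 0
  | t, (m, _) :: μ => {(nm 3 i j t, m)} + {(nm 4 i j t, sz μ)} + Vc i j (t + 1) μ

/-- the P-names of a chain -/
def Pc (i j : ℕ) : ℕ → List (ℕ × ℂˣ) → Multiset ℕ
  | _, [] => 0
  | t, _ :: μ => {nm 5 i j t} + Pc i j (t + 1) μ

theorem occ_app (w w' : Wd) (k : ℕ) : Wd.occ (w ++ w') k = Wd.occ w k + Wd.occ w' k := by
  simp [Wd.occ]

theorem occ_full1 (x : ℕ) (ε : Bool) (k : ℕ) : Wd.occ [Lt.full x ε] k = {(x, k, ε)} := by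
  simp [Wd.occ, Lt.occ]

theorem pn_app (w w' : Wd) : Wd.pn (w ++ w') = Wd.pn w + Wd.pn w' := by
  simp [Wd.pn]

theorem pn_full1 (x : ℕ) (ε : Bool) : Wd.pn [Lt.full x ε] = 0 := by
  simp [Wd.pn, Lt.pn]

theorem occ_chain (i j : ℕ) (μ : List (ℕ × ℂˣ)) : ∀ t,
    Wd.occ (LL i j t μ) (sz μ) + ((ch i j t μ).map Root.occ).sum = pm (Vc i j t μ) := by
  induction μ with
  | nil => intro t; simp [LL, ch, Vc, pm, Wd.occ]
  | cons ma μ ih =>
    obtain ⟨m, a⟩ := ma
    intro t
    have h1 : Wd.occ (LL i j t ((m, a) :: μ)) (sz ((m, a) :: μ)) =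
        {(nm 3 i j t, m, true)} + {(nm 4 i j t, sz μ, true)} := by
      simp only [LL, Wd.occ, List.map_cons, List.map_nil, List.sum_cons, List.sum_nil, Lt.occ,
        lb_count_false, lb_count_true, if_true, Bool.false_eq_true, if_false, add_zero]
      rfl
    rw [h1, ch, List.map_cons, List.map_cons, List.sum_cons, List.sum_cons, Vc, pm_add, pm_add,
      ← ih (t + 1)]
    have h2 : Root.occ ⟨m, a, [Lt.full (nm 3 i j t) false]⟩ = {(nm 3 i j t, m, false)} :=
      occ_full1 _ _ _
    have h3 : Root.occ ⟨sz μ, 1, LL i j (t + 1) μ ++ [Lt.full (nm 4 i j t) false]⟩ =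
        Wd.occ (LL i j (t + 1) μ) (sz μ) + {(nm 4 i j t, sz μ, false)} := by
      show Wd.occ _ _ = _
      rw [occ_app, occ_full1]
    rw [h2, h3]
    have h4 : pm {(nm 3 i j t, m)} = {(nm 3 i j t, m, true)} + {(nm 3 i j t, m, false)} := rfl
    have h5 : pm {(nm 4 i j t, sz μ)} = {(nm 4 i j t, sz μ, true)} + {(nm 4 i j t, sz μ, false)} :=
      rfl
    rw [h4, h5]
    abel

theorem pn_chain (i j : ℕ) (μ : List (ℕ × ℂˣ)) : ∀ t,
    Wd.pn (LL i j t μ) + ((ch i j t μ).map Root.pn).sum = Pc i j t μ := by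
  induction μ with
  | nil => intro t; simp [LL, ch, Pc, Wd.pn]
  | cons ma μ ih =>
    obtain ⟨m, a⟩ := ma
    intro t
    have h1 : Wd.pn (LL i j t ((m, a) :: μ)) = {nm 5 i j t} := by
      simp [LL, Wd.pn, Lt.pn]
    rw [h1, ch, List.map_cons, List.map_cons, List.sum_cons, List.sum_cons, Pc, ← ih (t + 1)]
    have h2 : Root.pn ⟨m, a, [Lt.full (nm 3 i j t) false]⟩ = 0 := pn_full1 _ _
    have h3 : Root.pn ⟨sz μ, 1, LL i j (t + 1) μ ++ [Lt.full (nm 4 i j t) false]⟩ =
        Wd.pn (LL i j (t + 1) μ) := by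
      show Wd.pn _ = _
      rw [pn_app, pn_full1, add_zero]
    rw [h2, h3]
    abel

/-- all full names of the system -/
def VV (g s N : ℕ) (d : Fin N → ℕ) (comp : Fin N → Fin s → List (ℕ × ℂˣ)) : Multiset (ℕ × ℕ) :=
  ((List.finRange N).map fun (i : Fin N) =>
    ((List.finRange g).map fun (k : Fin g) => ({(nm 0 i k 0, d i)} + {(nm 1 i k 0, d i)} :
      Multiset (ℕ × ℕ))).sum +
    ((List.finRange s).map fun (j : Fin s) => ({(nm 2 i j 0, d i)} + Vc i j 0 (comp i j) :
      Multiset (ℕ × ℕ))).sum).sum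

/-- all P-names of the system -/
def PP (s N : ℕ) (comp : Fin N → Fin s → List (ℕ × ℂˣ)) : Multiset ℕ :=
  ((List.finRange N).map fun (i : Fin N) => ((List.finRange s).map fun (j : Fin s) => Pc i j 0 (comp i j)).sum).sum

theorem sum_map_add' {α M : Type*} [AddCommMonoid M] (l : List α) (f h : α → M) :
    (l.map f).sum + (l.map h).sum = (l.map fun a => f a + h a).sum := by
  induction l with
  | nil => simp
  | cons a l ih =>
    simp only [List.map_cons, List.sum_cons, ← ih]
    abel

section system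
variable {g s N : ℕ} {d : Fin N → ℕ} {comp : Fin N → Fin s → List (ℕ × ℂˣ)}

theorem occ_SY (hd : ∀ i j, sz (comp i j) = d i) :
    (SY g s N d comp).occ = pm (VV g s N d comp) := by
  unfold SY Sys.occ VV
  rw [sum_flatMap, pm_sum]
  congr 1
  refine List.map_congr_left fun i _ => ?_
  rw [List.map_cons, List.sum_cons, pm_add, pm_sum, pm_sum]
  have h1 : Root.occ (RT g s N d comp i) = Wd.occ (hW g i) (d i) + Wd.occ (bW s i (comp i)) (d i) :=
    occ_app _ _ _
  rw [h1, add_assoc]
  congr 1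
  · unfold hW Wd.occ
    rw [sum_flatMap]
    congr 1
  · unfold bW Wd.occ
    rw [sum_flatMap, sum_flatMap, sum_map_add']
    congr 1
    refine List.map_congr_left fun j _ => ?_
    have h2 := occ_chain i j (comp i j) 0
    rw [hd i j] at h2
    rw [pm_add, ← h2]
    simp only [List.map_cons, List.map_nil, List.map_append, List.sum_append, List.sum_cons,
      List.sum_nil, Lt.occ, Wd.occ]
    have h4 : pm {(nm 2 i j 0, d i)} = {(nm 2 i j 0, d i, true)} + {(nm 2 i j 0, d i, false)} := rfl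
    rw [h4]
    abel

theorem pn_SY : (SY g s N d comp).pn = PP s N comp := by
  unfold SY Sys.pn PP
  rw [sum_flatMap]
  congr 1
  refine List.map_congr_left fun i _ => ?_
  rw [List.map_cons, List.sum_cons]
  have h1 : Root.pn (RT g s N d comp i) = Wd.pn (hW g i) + Wd.pn (bW s i (comp i)) :=
    pn_app _ _
  have h0 : Wd.pn (hW g i) = 0 := by
    unfold hW Wd.pn
    rw [sum_flatMap]
    refine List.sum_eq_zero fun x hx => ?_
    obtain ⟨k, _, rfl⟩ := List.mem_map.1 hx
    simp [Lt.pn]
  rw [h1, h0, zero_add]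
  unfold bW Wd.pn
  rw [sum_flatMap, sum_flatMap, sum_map_add']
  congr 1
  refine List.map_congr_left fun j _ => ?_
  rw [← pn_chain i j (comp i j) 0]
  simp [Lt.pn, Wd.pn]

/-! ### nodup -/

theorem nodup_sum {α : Type*} (l : List α) (hl : l.Nodup) (f : α → Multiset ℕ) (φ : ℕ → ℕ)
    (ψ : α → ℕ) (hψ : Function.Injective ψ) (h1 : ∀ a ∈ l, (f a).Nodup)
    (h2 : ∀ a ∈ l, ∀ x ∈ f a, φ x = ψ a) : (l.map f).sum.Nodup := by
  induction l with
  | nil => simp
  | cons a l ih =>
    rw [List.map_cons, List.sum_cons, Multiset.nodup_add]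
    rw [List.nodup_cons] at hl
    refine ⟨h1 a (List.mem_cons_self ..), ih hl.2 (fun b hb => h1 b (List.mem_cons_of_mem _ hb))
      (fun b hb => h2 b (List.mem_cons_of_mem _ hb)), ?_⟩
    rw [Multiset.disjoint_left]
    intro x hx hx'
    have h3 := h2 a (List.mem_cons_self ..) x hx
    have h4 : ∃ b ∈ l, x ∈ f b := by
      clear ih hl h1 h2 h3 hx
      induction l with
      | nil => simp at hx'
      | cons b l ih =>
        rw [List.map_cons, List.sum_cons, Multiset.mem_add] at hx'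
        rcases hx' with hx' | hx'
        · exact ⟨b, List.mem_cons_self .., hx'⟩
        · obtain ⟨b', hb', h⟩ := ih hx'
          exact ⟨b', List.mem_cons_of_mem _ hb', h⟩
    obtain ⟨b, hb, hxb⟩ := h4
    have h5 := h2 b (List.mem_cons_of_mem _ hb) x hxb
    have h6 : a = b := hψ (h3.symm.trans h5)
    exact hl.1 (h6 ▸ hb)

theorem mem_list_sum {α β : Type*} {l : List α} {f : α → Multiset β} {x : β} :
    x ∈ (l.map f).sum ↔ ∃ a ∈ l, x ∈ f a := by
  induction l with
  | nil => simp
  | cons a l ih => simp [ih]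

theorem mem_Vc {i j : ℕ} (μ : List (ℕ × ℂˣ)) : ∀ {t x}, x ∈ (Vc i j t μ).map Prod.fst →
    ∃ a t', (a = 3 ∨ a = 4) ∧ t ≤ t' ∧ x = nm a i j t' := by
  induction μ with
  | nil => intro t x hx; simp [Vc] at hx
  | cons ma μ ih =>
    intro t x hx
    rw [Vc, Multiset.map_add, Multiset.map_add, Multiset.mem_add, Multiset.mem_add] at hx
    rcases hx with (hx | hx) | hx
    · exact ⟨3, t, Or.inl rfl, le_rfl, by simpa using hx⟩
    · exact ⟨4, t, Or.inr rfl, le_rfl, by simpa using hx⟩
    · obtain ⟨a, t', h1, h2, h3⟩ := ih hx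
      exact ⟨a, t', h1, by omega, h3⟩

theorem nodup_Vc (i j : ℕ) (μ : List (ℕ × ℂˣ)) : ∀ t, ((Vc i j t μ).map Prod.fst).Nodup := by
  induction μ with
  | nil => intro t; simp [Vc]
  | cons ma μ ih =>
    intro t
    rw [Vc, Multiset.map_add, Multiset.map_add, Multiset.nodup_add]
    refine ⟨?_, ih (t + 1), ?_⟩
    · rw [Multiset.nodup_add]
      refine ⟨by simp, by simp, ?_⟩
      rw [Multiset.disjoint_left]
      intro x hx hx'
      simp only [Multiset.map_singleton, Multiset.mem_singleton] at hx hx'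
      have := (nm_inj (hx.symm.trans hx')).1
      omega
    · rw [Multiset.disjoint_left]
      intro x hx hx'
      obtain ⟨a, t', _, h2, h3⟩ := mem_Vc μ hx'
      rw [Multiset.mem_add] at hx
      rcases hx with hx | hx <;>
      · simp only [Multiset.map_singleton, Multiset.mem_singleton] at hx
        have := (nm_inj (hx.symm.trans h3)).2.2.2
        omega

theorem mem_Pc {i j : ℕ} (μ : List (ℕ × ℂˣ)) : ∀ {t x}, x ∈ Pc i j t μ →
    ∃ t', t ≤ t' ∧ x = nm 5 i j t' := by
  induction μ with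
  | nil => intro t x hx; simp [Pc] at hx
  | cons ma μ ih =>
    intro t x hx
    rw [Pc, Multiset.mem_add] at hx
    rcases hx with hx | hx
    · exact ⟨t, le_rfl, by simpa using hx⟩
    · obtain ⟨t', h2, h3⟩ := ih hx
      exact ⟨t', by omega, h3⟩

theorem nodup_Pc (i j : ℕ) (μ : List (ℕ × ℂˣ)) : ∀ t, (Pc i j t μ).Nodup := by
  induction μ with
  | nil => intro t; simp [Pc]
  | cons ma μ ih =>
    intro t
    rw [Pc, Multiset.nodup_add]
    refine ⟨by simp, ih (t + 1), ?_⟩
    rw [Multiset.disjoint_left]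
    intro x hx hx'
    obtain ⟨t', h2, h3⟩ := mem_Pc μ hx'
    simp only [Multiset.mem_singleton] at hx
    have := (nm_inj (hx.symm.trans h3)).2.2.2
    omega

theorem nodup_PP : (PP s N comp).Nodup := by
  unfold PP
  refine nodup_sum _ (List.nodup_finRange N) _ (fun x => (dec x).2.1) (fun i => i.1)
    Fin.val_injective (fun i _ => ?_) (fun i _ x hx => ?_)
  · refine nodup_sum _ (List.nodup_finRange s) _ (fun x => (dec x).2.2.1) (fun i => i.1)
      Fin.val_injective (fun j _ => nodup_Pc _ _ _ _) (fun j _ x hx => ?_)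
    obtain ⟨t', _, rfl⟩ := mem_Pc _ hx
    rw [dec_nm]
  · obtain ⟨j, _, hx⟩ := mem_list_sum.1 hx
    obtain ⟨t', _, rfl⟩ := mem_Pc _ hx
    rw [dec_nm]

theorem map_list_sum' {α β γ : Type*} (l : List α) (f : α → Multiset β) (h : β → γ) :
    ((l.map f).sum).map h = (l.map fun a => (f a).map h).sum := by
  induction l with
  | nil => simp
  | cons a l ih => simp [ih]

theorem nodup_VV : ((VV g s N d comp).map Prod.fst).Nodup := by
  unfold VV
  rw [map_list_sum']
  have hA : ∀ (i : Fin N) (x : ℕ), x ∈ (((List.finRange g).map fun k : Fin g =>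
      ({(nm 0 i k 0, d i)} + {(nm 1 i k 0, d i)} : Multiset (ℕ × ℕ))).sum).map Prod.fst →
      ∃ (a : ℕ) (k : Fin g), a ≤ 1 ∧ x = nm a i k 0 := by
    intro i x hx
    rw [map_list_sum'] at hx
    obtain ⟨k, _, hx⟩ := mem_list_sum.1 hx
    rw [Multiset.map_add, Multiset.mem_add] at hx
    rcases hx with hx | hx
    · exact ⟨0, k, by omega, by simpa using hx⟩
    · exact ⟨1, k, by omega, by simpa using hx⟩
  have hB : ∀ (i : Fin N) (j : Fin s) (x : ℕ), x ∈ (({(nm 2 i j 0, d i)} + Vc i j 0 (comp i j) :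
      Multiset (ℕ × ℕ))).map Prod.fst → ∃ (a t : ℕ), 2 ≤ a ∧ x = nm a i j t := by
    intro i j x hx
    rw [Multiset.map_add, Multiset.mem_add] at hx
    rcases hx with hx | hx
    · exact ⟨2, 0, by omega, by simpa using hx⟩
    · obtain ⟨a, t', h1, _, h3⟩ := mem_Vc _ hx
      exact ⟨a, t', by omega, h3⟩
  refine nodup_sum _ (List.nodup_finRange N) _ (fun x => (dec x).2.1) (fun i => i.1)
    Fin.val_injective (fun i _ => ?_) (fun i _ x hx => ?_)
  · rw [Multiset.map_add, Multiset.nodup_add]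
    refine ⟨?_, ?_, ?_⟩
    · rw [map_list_sum']
      refine nodup_sum _ (List.nodup_finRange g) _ (fun x => (dec x).2.2.1) (fun i => i.1)
        Fin.val_injective (fun k _ => ?_) (fun k _ x hx => ?_)
      · rw [Multiset.map_add, Multiset.nodup_add]
        refine ⟨by simp, by simp, ?_⟩
        rw [Multiset.disjoint_left]
        intro x hx hx'
        simp only [Multiset.map_singleton, Multiset.mem_singleton] at hx hx'
        have := (nm_inj (hx.symm.trans hx')).1
        omega
      · rw [Multiset.map_add, Multiset.mem_add] at hx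
        rcases hx with hx | hx <;>
        · simp only [Multiset.map_singleton, Multiset.mem_singleton] at hx
          rw [hx, dec_nm]
    · rw [map_list_sum']
      refine nodup_sum _ (List.nodup_finRange s) _ (fun x => (dec x).2.2.1) (fun i => i.1)
        Fin.val_injective (fun j _ => ?_) (fun j _ x hx => ?_)
      · rw [Multiset.map_add, Multiset.nodup_add]
        refine ⟨by simp, nodup_Vc _ _ _ _, ?_⟩
        rw [Multiset.disjoint_left]
        intro x hx hx'
        simp only [Multiset.map_singleton, Multiset.mem_singleton] at hx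
        obtain ⟨a, t', h1, _, h3⟩ := mem_Vc _ hx'
        have := (nm_inj (hx.symm.trans h3)).1
        omega
      · obtain ⟨a, t, _, rfl⟩ := hB i j x hx
        rw [dec_nm]
    · rw [Multiset.disjoint_left]
      intro x hx hx'
      obtain ⟨a, k, h1, h2⟩ := hA i x hx
      rw [map_list_sum'] at hx'
      obtain ⟨j, _, hx'⟩ := mem_list_sum.1 hx'
      obtain ⟨a', t, h3, h4⟩ := hB i j x hx'
      have := (nm_inj (h2.symm.trans h4)).1
      omega
  · rw [Multiset.map_add, Multiset.mem_add] at hx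
    rcases hx with hx | hx
    · obtain ⟨a, k, _, rfl⟩ := hA i x hx
      rw [dec_nm]
    · rw [map_list_sum'] at hx
      obtain ⟨j, _, hx⟩ := mem_list_sum.1 hx
      obtain ⟨a, t, _, rfl⟩ := hB i j x hx
      rw [dec_nm]

theorem tag_VV {x : ℕ} (hx : x ∈ (VV g s N d comp).map Prod.fst) : (dec x).1 ≤ 4 := by
  unfold VV at hx
  rw [map_list_sum'] at hx
  obtain ⟨i, _, hx⟩ := mem_list_sum.1 hx
  rw [Multiset.map_add, Multiset.mem_add] at hx
  rcases hx with hx | hx
  · rw [map_list_sum'] at hx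
    obtain ⟨k, _, hx⟩ := mem_list_sum.1 hx
    rw [Multiset.map_add, Multiset.mem_add] at hx
    rcases hx with hx | hx <;>
    · simp only [Multiset.map_singleton, Multiset.mem_singleton] at hx
      rw [hx, dec_nm]; simp
  · rw [map_list_sum'] at hx
    obtain ⟨j, _, hx⟩ := mem_list_sum.1 hx
    rw [Multiset.map_add, Multiset.mem_add] at hx
    rcases hx with hx | hx
    · simp only [Multiset.map_singleton, Multiset.mem_singleton] at hx
      rw [hx, dec_nm]; simp
    · obtain ⟨a, t', h1, _, h3⟩ := mem_Vc _ hx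
      rw [h3, dec_nm]
      show a ≤ 4
      omega

theorem tag_PP {x : ℕ} (hx : x ∈ PP s N comp) : (dec x).1 = 5 := by
  unfold PP at hx
  obtain ⟨i, _, hx⟩ := mem_list_sum.1 hx
  obtain ⟨j, _, hx⟩ := mem_list_sum.1 hx
  obtain ⟨t', _, rfl⟩ := mem_Pc _ hx
  rw [dec_nm]

/-! ### well-formedness -/

/-- untwisted letters of rank `k` -/
def GL1 (k : ℕ) : Lt → Prop
  | Lt.full _ _ => True
  | Lt.par _ _ σ c c' _ => c.length = k ∧ (∀ b, c.count b = c'.count b) ∧ ∀ x y, σ x y = 1

theorem WF_of_GL1 (O : Subring ℂ) {k : ℕ} (w : Wd) : (∀ l ∈ w, GL1 k l) → ∀ prev, Wd.WF O w k prev := by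
  induction w with
  | nil => intro _ prev; trivial
  | cons l w ih =>
    intro h prev
    have h1 := h l (List.mem_cons_self ..)
    have h2 := ih fun l' hl' => h l' (List.mem_cons_of_mem _ hl')
    cases l with
    | full x ε => exact h2 none
    | par p e σ c c' g =>
      exact ⟨h1.1, h1.2.1, Or.inl h1.2.2, fun x y => by rw [h1.2.2]; exact IsSc.one, h2 _⟩

theorem GL1_LL (i j t : ℕ) (μ : List (ℕ × ℂˣ)) : ∀ l ∈ LL i j t μ, GL1 (sz μ) l := by
  cases μ with
  | nil => intro l hl; simp [LL] at hl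
  | cons ma μ =>
    intro l hl
    rw [LL, List.mem_singleton] at hl
    rw [hl]
    exact ⟨by rw [lb_length]; rfl, fun b => rfl, fun _ _ => rfl⟩

theorem WF_ch (O : Subring ℂ) (n i j : ℕ) (μ : List (ℕ × ℂˣ)) : ∀ t, sz μ ≤ n →
    (∀ ma ∈ μ, IsSc O ma.2) → ∀ R ∈ ch i j t μ, R.WF O n := by
  induction μ with
  | nil => intro t _ _ R hR; simp [ch] at hR
  | cons ma μ ih =>
    obtain ⟨m, a⟩ := ma
    intro t h1 h2 R hR
    rw [sz_cons] at h1
    rcases List.mem_cons.1 hR with rfl | hR
    · exact ⟨by show m ≤ n; omega, h2 _ (List.mem_cons_self ..), trivial⟩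
    rcases List.mem_cons.1 hR with rfl | hR
    · refine ⟨by show sz μ ≤ n; omega, IsSc.one, WF_of_GL1 O _ (fun l hl => ?_) _⟩
      rcases List.mem_append.1 hl with hl | hl
      · exact GL1_LL _ _ _ _ l hl
      · rw [List.mem_singleton.1 hl]; trivial
    · exact ih (t + 1) (by omega) (fun ma hma => h2 ma (List.mem_cons_of_mem _ hma)) R hR

theorem WF_SY (O : Subring ℂ) (n : ℕ) (hn : ∀ i, d i ≤ n) (hd : ∀ i j, sz (comp i j) = d i)
    (hsc : ∀ i j, ∀ ma ∈ comp i j, IsSc O ma.2) : (SY g s N d comp).WF O n := by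
  refine ⟨fun R hR => ?_, fun z hz => ?_, VV g s N d comp, occ_SY hd, ?_⟩
  · obtain ⟨i, _, hR⟩ := List.mem_flatMap.1 hR
    rcases List.mem_cons.1 hR with rfl | hR
    · refine ⟨hn i, IsSc.one, WF_of_GL1 O _ (fun l hl => ?_) _⟩
      rcases List.mem_append.1 hl with hl | hl
      · obtain ⟨k, _, hl⟩ := List.mem_flatMap.1 hl
        simp only [List.mem_cons, List.not_mem_nil, or_false] at hl
        rcases hl with rfl | rfl | rfl | rfl <;> trivial
      · obtain ⟨j, _, hl⟩ := List.mem_flatMap.1 hl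
        rcases List.mem_cons.1 hl with rfl | hl
        · trivial
        rcases List.mem_append.1 hl with hl | hl
        · have := GL1_LL _ _ _ _ l hl
          rwa [hd i j] at this
        · rw [List.mem_singleton.1 hl]; trivial
    · obtain ⟨j, _, hR⟩ := List.mem_flatMap.1 hR
      exact WF_ch O n i j _ 0 (by rw [hd]; exact hn i) (hsc i j) R hR
  · simp [SY] at hz
  · rw [pn_SY, Multiset.nodup_add, Multiset.nodup_add]
    refine ⟨⟨nodup_VV, nodup_PP, ?_⟩, by simp [SY], ?_⟩
    · rw [Multiset.disjoint_left]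
      intro x hx hx'
      have h1 := tag_VV hx
      have h2 := tag_PP hx'
      omega
    · rw [Multiset.disjoint_left]
      intro x _ hx
      simp [SY] at hx

end system

end Crest.Agent.R003.Sys4
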