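import Crest.Agent.R003.Core5b_227

/-!
# Row 3: step S5, the new system (helper227)
-/

set_option autoImplicit false

namespace Crest.Agent.R003.S227

/-! ### names -/

def nh1 (N : ℕ) (e : Bool) : ℕ := N + e.toNat
def nh3 (N : ℕ) (y : Bool) : ℕ := N + 2 + y.toNat
def nE (N : ℕ) (e : Bool) : ℕ := N + 4 + e.toNat
def nY (N : ℕ) (y : Bool) : ℕ := N + 6 + y.toNat
def nrX (N : ℕ) (x : Bool) : ℕ := N + 8 + x.toNat
def nlX (N : ℕ) (x : Bool) : ℕ := N + 10 + x.toNat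
def na (N : ℕ) (e x : Bool) : ℕ := N + 12 + 2 * e.toNat + x.toNat
def nn' (N : ℕ) (x e : Bool) : ℕ := N + 16 + 2 * x.toNat + e.toNat
def nb (N : ℕ) (y x : Bool) : ℕ := N + 20 + 2 * y.toNat + x.toNat
def nm' (N : ℕ) (x y : Bool) : ℕ := N + 24 + 2 * x.toNat + y.toNat
def nzL (N : ℕ) : ℕ := N + 28
def nzR (N : ℕ) : ℕ := N + 29

/-- data of step S5 -/
structure Dt where
  N : ℕ
  k : ℕ
  ξ : ℂˣ
  p1 : ℕ
  p2 : ℕ
  p3 : ℕ
  e1 : List Bool
  e2 : List Bool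
  e3 : List Bool
  c1 : List Bool
  E : List Bool
  X : List Bool
  X' : List Bool
  Y : List Bool
  c3 : List Bool
  σ1 : Bool → Bool → ℂˣ
  σ2 : Bool → Bool → ℂˣ
  σ3 : Bool → Bool → ℂˣ
  g1 : Bool → ℕ
  g2 : Bool → ℕ
  g3 : Bool → ℕ
  w : Wd
  Et : List Bool
  Yt : List Bool
  XE : List Bool
  XY : List Bool

namespace Dt

variable (D : Dt)

/-- the old root -/
def old : Root := ⟨D.k, D.ξ, Lt.par D.p1 D.e1 D.σ1 D.c1 D.E D.g1 :: Lt.par D.p2 D.e2 D.σ2 D.X D.X' D.g2 ::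
  Lt.par D.p3 D.e3 D.σ3 D.Y D.c3 D.g3 :: D.w⟩

def rV : Root := ⟨D.k, D.ξ, Lt.par D.p1 D.e1 D.σ1 D.c1 D.Et (nh1 D.N) ::
  Lt.par D.p3 D.Et sg D.Yt D.c3 (nh3 D.N) :: D.w⟩

def rE (e : Bool) : Root := ⟨D.E.count e, 1, [Lt.full (D.g1 e) true,
  Lt.par (nE D.N e) [] (fun _ _ => 1) (restr D.E D.X e) (restr D.Et D.XE e) (na D.N e),
  Lt.full (nh1 D.N e) false]⟩

def rY (y : Bool) : Root := ⟨D.Y.count y, 1, [
  Lt.par (nY D.N y) [] (fun _ _ => 1) (restr D.Yt D.XY y) (restr D.Y D.X' y) (nb D.N y),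
  Lt.full (D.g3 y) true, Lt.full (nh3 D.N y) false]⟩

def rX (x : Bool) : Root := ⟨D.X.count x, 1, [Lt.full (D.g2 x) true,
  Lt.par (nrX D.N x) [] (fun _ _ => 1) (restr D.X' D.Y x) (restr D.XY D.Yt x) (nm' D.N x),
  Lt.par (nlX D.N x) (restr D.XY D.Yt x) (fun y e => sg e y) (restr D.XE D.Et x) (restr D.X D.E x)
    (nn' D.N x)]⟩

def kE (e x : Bool) : Root := ⟨(jl D.E D.X).count (e, x), D.σ2 e x,
  [Lt.full (nn' D.N x e) false, Lt.full (na D.N e x) false]⟩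

def kY (x y : Bool) : Root := ⟨(jl D.X' D.Y).count (x, y), D.σ3 x y,
  [Lt.full (nb D.N y x) false, Lt.full (nm' D.N x y) false]⟩

/-- the new roots -/
def B : List Root := [D.rV, D.rE false, D.rE true, D.rY false, D.rY true, D.rX false, D.rX true,
  D.kE false false, D.kE false true, D.kE true false, D.kE true true,
  D.kY false false, D.kY false true, D.kY true false, D.kY true true]

def fr' : List (ℕ × ℕ) := [(nzL D.N, D.k), (nzR D.N, D.k)]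

theorem forall_B {P : Root → Prop} : (∀ r ∈ D.B, P r) ↔ P D.rV ∧ (∀ e, P (D.rE e)) ∧
    (∀ y, P (D.rY y)) ∧ (∀ x, P (D.rX x)) ∧ (∀ e x, P (D.kE e x)) ∧ (∀ x y, P (D.kY x y)) := by
  simp only [B, List.mem_cons, List.not_mem_nil, or_false, forall_eq_or_imp, forall_eq,
    Bool.forall_bool]
  tauto

/-- the equation of the `V`-root -/
def VEq {n : ℕ} (D : Dt) (τ : ℕ → G n) : Prop :=
  scal n D.k D.ξ * (dsg n D.e1 D.c1 D.σ1 * τ D.p1 *
    (dsg n D.Et D.Yt sg * τ D.p3 * Wd.eval τ D.w)) = 1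

/-- the point-level equations -/
def PEq {n : ℕ} (D : Dt) (τ : ℕ → G n) : Prop :=
  New5 n D.k D.c1 D.E D.X D.X' D.Y D.c3 D.Et D.Yt D.XE D.XY D.σ2 D.σ3
    (fun e => τ (D.g1 e)) (fun x => τ (D.g2 x)) (fun y => τ (D.g3 y))
    (fun e => τ (nh1 D.N e)) (fun y => τ (nh3 D.N y)) (fun e x => τ (na D.N e x))
    (fun x e => τ (nn' D.N x e)) (fun y x => τ (nb D.N y x)) (fun x y => τ (nm' D.N x y))
    (fun e => τ (nE D.N e)) (fun x => τ (nlX D.N x)) (fun y => τ (nY D.N y))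
    (fun x => τ (nrX D.N x)) (τ D.p1) (τ D.p3) (τ (nzL D.N)) (τ (nzR D.N))

theorem scal_one' {n k : ℕ} : scal n k 1 = 1 := by
  unfold scal
  apply Units.ext
  show Matrix.diagonal _ = (1 : Matrix (Fin n) (Fin n) ℂ)
  rw [← Matrix.diagonal_one]
  congr 1
  funext i
  simp

theorem dsg_one' {n : ℕ} (e c : List Bool) {σ : Bool → Bool → ℂˣ} (h : ∀ x y, σ x y = 1) :
    dsg n e c σ = 1 := by
  unfold dsg
  apply Units.ext
  show Matrix.diagonal _ = (1 : Matrix (Fin n) (Fin n) ℂ)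
  rw [← Matrix.diagonal_one]
  congr 1
  funext i
  show (((match lab e i.1, lab c i.1 with
    | some x, some y => σ x y
    | _, _ => (1 : ℂˣ)) : ℂˣ) : ℂ) = 1
  generalize lab e i.1 = u
  generalize lab c i.1 = v
  rcases u with _ | u <;> rcases v with _ | v <;> simp [h]

variable {n : ℕ} {D}

/-- from a solution of the new roots to the point-level equations -/
theorem sol_fwd {τ : ℕ → G n} (h : ∀ r ∈ D.B, r.Sol τ) (h' : ∀ z ∈ D.fr', τ z.1 ∈ GLk n z.2) :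
    (∀ e, τ (D.g1 e) ∈ GLk n (D.E.count e)) ∧ (∀ x, τ (D.g2 x) ∈ GLk n (D.X.count x)) ∧
    (∀ y, τ (D.g3 y) ∈ GLk n (D.Y.count y)) ∧ Wd.Sat τ D.w D.k ∧ D.VEq τ ∧ D.PEq τ := by
  rw [forall_B] at h
  obtain ⟨hV, hE, hY, hX, kE, kY⟩ := h
  simp only [Root.Sol, rV, rE, rY, rX, Dt.kE, Dt.kY, Wd.Sat, Wd.eval, Lt.eval, Lt.Sat,
    List.mem_cons, List.not_mem_nil, or_false, forall_eq_or_imp, forall_eq, List.map_cons,
    List.map_nil, List.prod_cons, List.prod_nil, mul_one, scal_one', one_mul,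
    dsg_one' _ _ (fun _ _ => rfl), ↓reduceIte, Bool.false_eq_true] at hV hE hY hX kE kY
  obtain ⟨⟨hV1, hV2, hV3⟩, hV4⟩ := hV
  refine ⟨fun e => (hE e).1.1, fun x => (hX x).1.1, fun y => (hY y).1.2.1, hV3, hV4, ?_⟩
  constructor
  · exact hV1
  · exact hV2
  · intro e; rw [mul_assoc]; exact (hE e).2
  · intro y; rw [mul_assoc]; exact (hY y).2
  · intro e; exact (hE e).1.2.1
  · intro x; exact (hX x).1.2.2
  · intro y; exact (hY y).1.1
  · intro x; exact (hX x).1.2.1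
  · intro x; exact (hX x).2
  · intro e x; exact (kE e x).2
  · intro x y; exact (kY x y).2
  · exact h' (nzL D.N, D.k) (by simp [fr'])
  · exact h' (nzR D.N, D.k) (by simp [fr'])

/-- counting facts -/
structure Cn (D : Dt) : Prop where
  c1E : ∀ b, D.c1.count b = D.E.count b
  YtY : ∀ b, D.Yt.count b = D.Y.count b
  cL : ∀ l, (jl D.E D.X).count l = (jl D.Et D.XE).count l
  cR : ∀ l, (jl D.XY D.Yt).count l = (jl D.X' D.Y).count l

theorem sol_bwd {τ : ℕ → G n} (hc : Cn D)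
    (h1 : ∀ e, τ (D.g1 e) ∈ GLk n (D.E.count e)) (h2 : ∀ x, τ (D.g2 x) ∈ GLk n (D.X.count x))
    (h3 : ∀ y, τ (D.g3 y) ∈ GLk n (D.Y.count y)) (h4 : Wd.Sat τ D.w D.k) (h5 : D.VEq τ)
    (h6 : D.PEq τ) :
    (∀ r ∈ D.B, r.Sol τ) ∧ (∀ z ∈ D.fr', τ z.1 ∈ GLk n z.2) := by
  constructor
  · rw [forall_B]
    simp only [Root.Sol, rV, rE, rY, rX, Dt.kE, Dt.kY, Wd.Sat, Wd.eval, Lt.eval, Lt.Sat,
      List.mem_cons, List.not_mem_nil, or_false, forall_eq_or_imp, forall_eq, List.map_cons,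
      List.map_nil, List.prod_cons, List.prod_nil, mul_one, scal_one', one_mul,
      dsg_one' _ _ (fun _ _ => rfl), ↓reduceIte, Bool.false_eq_true]
    refine ⟨⟨⟨h6.pq1, h6.pq3, h4⟩, h5⟩, fun e => ⟨⟨h1 e, h6.plE e, ?_⟩, ?_⟩,
      fun y => ⟨⟨h6.prY y, h3 y, ?_⟩, ?_⟩, fun x => ⟨⟨h2 x, h6.prX x, h6.plX x⟩, h6.rt x⟩,
      fun e x => ⟨⟨?_, ?_⟩, h6.lk1 e x⟩, fun x y => ⟨⟨?_, ?_⟩, h6.lk2 x y⟩⟩
    · rw [← hc.c1E]; exact h6.pq1.blk e
    · rw [← mul_assoc]; exact h6.rh1 e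
    · rw [← hc.YtY]; exact h6.pq3.blk y
    · rw [← mul_assoc]; exact h6.rh3 y
    · have := (h6.plX x).blk e
      rwa [count_restr, count_jl_swap, ← hc.cL] at this
    · have := (h6.plE e).blk x
      rwa [count_restr] at this
    · have := (h6.prY y).blk x
      rwa [count_restr, count_jl_swap, hc.cR] at this
    · have := (h6.prX x).blk y
      rwa [count_restr] at this
  · intro z hz
    simp only [fr', List.mem_cons, List.not_mem_nil, or_false] at hz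
    rcases hz with rfl | rfl
    · exact h6.pzL
    · exact h6.pzR

end Dt

end Crest.Agent.R003.S227
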