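import Mathlib

/-!
# R003, Part 3, h = 1 (helper363), file a: normal form of `ξ`-commuting pairs

If `A B = ξ B A` in `GL(V)`, `ξ` a primitive `m`-th root of unity, then `V` has a basis indexed by
`Fin m × Fin l` in which `A` is a block shift (last block `a`) and `B` is block diagonal with blocks
`ξ⁻ʲ b`, with `a b = b a`.
-/

set_option autoImplicit false

namespace Crest.Agent.R003.Tor

open Module

section defs

variable {R : Type*} [CommRing R]

/-- block shift with last block `a` -/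
def shiftMat (m : ℕ) {l : ℕ} (a : Matrix (Fin l) (Fin l) R) :
    Matrix (Fin m × Fin l) (Fin m × Fin l) R :=
  fun p q => if (q.1 : ℕ) + 1 < m then (if (p.1 : ℕ) = q.1 + 1 ∧ p.2 = q.2 then 1 else 0)
    else if (p.1 : ℕ) = 0 then a p.2 q.2 else 0

/-- the inverse of `shiftMat` (`a'` the inverse of `a`) -/
def unshiftMat (m : ℕ) {l : ℕ} (a' : Matrix (Fin l) (Fin l) R) :
    Matrix (Fin m × Fin l) (Fin m × Fin l) R :=
  fun p q => if (q.1 : ℕ) = 0 then (if (p.1 : ℕ) + 1 = m then a' p.2 q.2 else 0)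
    else if (p.1 : ℕ) + 1 = q.1 ∧ p.2 = q.2 then 1 else 0

/-- block diagonal with blocks `cʲ b` -/
def diagMat (m : ℕ) {l : ℕ} (c : R) (b : Matrix (Fin l) (Fin l) R) :
    Matrix (Fin m × Fin l) (Fin m × Fin l) R :=
  fun p q => if p.1 = q.1 then c ^ (q.1 : ℕ) * b p.2 q.2 else 0

theorem shift_mul_unshift {m l : ℕ} {a a' : Matrix (Fin l) (Fin l) R} (h : a * a' = 1) :
    shiftMat m a * unshiftMat m a' = 1 := by
  ext ⟨p1, p2⟩ ⟨q1, q2⟩
  rw [Matrix.mul_apply, Fintype.sum_prod_type]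
  by_cases hq : (q1 : ℕ) = 0
  · have hm : 0 < m := lt_of_le_of_lt (Nat.zero_le _) q1.2
    rw [Finset.sum_eq_single (⟨m - 1, by omega⟩ : Fin m)]
    · have h1 : ∀ r2 : Fin l, shiftMat m a (p1, p2) (⟨m - 1, by omega⟩, r2) *
          unshiftMat m a' (⟨m - 1, by omega⟩, r2) (q1, q2) =
          if (p1 : ℕ) = 0 then a p2 r2 * a' r2 q2 else 0 := by
        intro r2
        have h2 : ¬ (m - 1 + 1 < m) := by omega
        have h3 : m - 1 + 1 = m := by omega
        simp only [shiftMat, unshiftMat, hq, h3, lt_irrefl, if_true, if_false]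
        split_ifs <;> simp
      rw [Finset.sum_congr rfl fun r2 _ => h1 r2]
      by_cases hp : (p1 : ℕ) = 0
      · simp only [hp, if_true]
        rw [← Matrix.mul_apply, h]
        have h4 : p1 = q1 := Fin.ext (by omega)
        subst h4
        rw [Matrix.one_apply, Matrix.one_apply]
        simp
      · simp only [hp, if_false, Finset.sum_const_zero]
        rw [Matrix.one_apply, if_neg]
        intro h5
        rw [Prod.mk.injEq] at h5
        exact hp (by rw [h5.1]; exact hq)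
    · intro r1 _ hr1
      apply Finset.sum_eq_zero
      intro r2 _
      have h3 : ¬ ((r1 : ℕ) + 1 = m) := by
        intro h4
        apply hr1
        apply Fin.ext
        simp only
        omega
      simp only [unshiftMat, hq, h3, if_true, if_false, mul_zero]
    · intro h; exact absurd (Finset.mem_univ _) h
  · rw [Finset.sum_eq_single (⟨q1 - 1, by omega⟩ : Fin m)]
    · rw [Finset.sum_eq_single q2]
      · have h2 : (q1 : ℕ) - 1 + 1 < m := by have := q1.2; omega
        have h3 : (q1 : ℕ) - 1 + 1 = q1 := by omega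
        simp only [shiftMat, unshiftMat, hq, if_false, h3, and_self, if_true, mul_one]
        rw [if_pos q1.2, Matrix.one_apply]
        congr 1
        rw [Prod.mk.injEq, Fin.ext_iff (a := p1)]
      · intro r2 _ hr2
        simp only [unshiftMat, hq, hr2, if_false, and_false, mul_zero]
      · intro h; exact absurd (Finset.mem_univ _) h
    · intro r1 _ hr1
      apply Finset.sum_eq_zero
      intro r2 _
      have h3 : ¬ ((r1 : ℕ) + 1 = q1) := by
        intro h4
        apply hr1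
        apply Fin.ext
        simp only
        omega
      simp only [unshiftMat, hq, h3, false_and, if_false, mul_zero]
    · intro h; exact absurd (Finset.mem_univ _) h

theorem diag_mul_apply {m l : ℕ} (c c' : R) (b b' : Matrix (Fin l) (Fin l) R) :
    diagMat m c b * diagMat m c' b' = diagMat m (c * c') (b * b') := by
  ext ⟨p1, p2⟩ ⟨q1, q2⟩
  rw [Matrix.mul_apply, Fintype.sum_prod_type, Finset.sum_eq_single q1]
  · simp only [diagMat, if_true]
    by_cases hp : p1 = q1
    · simp only [hp, if_true, Matrix.mul_apply, Finset.mul_sum]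
      refine Finset.sum_congr rfl fun r _ => ?_
      rw [mul_pow]; ring
    · simp only [hp, if_false, zero_mul, Finset.sum_const_zero]
  · intro r1 _ hr1
    apply Finset.sum_eq_zero
    intro r2 _
    simp only [diagMat, hr1, if_false, mul_zero]
  · intro h; exact absurd (Finset.mem_univ _) h

theorem diag_one {m l : ℕ} : diagMat m (1 : R) (1 : Matrix (Fin l) (Fin l) R) = 1 := by
  ext ⟨p1, p2⟩ ⟨q1, q2⟩
  rw [Matrix.one_apply, diagMat]
  by_cases hp : p1 = q1
  · subst hp
    simp [Matrix.one_apply]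
  · simp [hp]

theorem shift_diag {m l : ℕ} {c : R} (hc : c ^ m = 1) {a b : Matrix (Fin l) (Fin l) R}
    (hab : a * b = b * a) :
    c • (shiftMat m a * diagMat m c b) = diagMat m c b * shiftMat m a := by
  ext ⟨p1, p2⟩ ⟨q1, q2⟩
  rw [Matrix.smul_apply, Matrix.mul_apply, Matrix.mul_apply, Fintype.sum_prod_type,
    Fintype.sum_prod_type, Finset.sum_eq_single q1, Finset.sum_eq_single p1]
  · by_cases hq : (q1 : ℕ) + 1 < m
    · simp only [shiftMat, diagMat, hq, if_true]
      by_cases hp : (p1 : ℕ) = q1 + 1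
      · simp only [hp, true_and, ite_mul, mul_ite, one_mul, mul_one, zero_mul, mul_zero,
          Finset.sum_ite_eq, Finset.sum_ite_eq', Finset.mem_univ, if_true, smul_eq_mul]
        rw [pow_succ]; ring
      · simp only [hp, false_and, if_false, zero_mul, mul_zero, Finset.sum_const_zero, smul_zero]
    · have hqm : (q1 : ℕ) + 1 = m := by have := q1.2; omega
      simp only [shiftMat, diagMat, hq, if_false, if_true]
      by_cases hp : (p1 : ℕ) = 0
      · simp only [hp, if_true, pow_zero, one_mul, smul_eq_mul]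
        have h1 : ∑ x, a p2 x * (c ^ (q1 : ℕ) * b x q2) = c ^ (q1 : ℕ) * (a * b) p2 q2 := by
          rw [Matrix.mul_apply, Finset.mul_sum]
          refine Finset.sum_congr rfl fun r _ => ?_
          ring
        rw [h1, ← mul_assoc, ← pow_succ', hqm, hc, one_mul, hab, Matrix.mul_apply]
      · simp only [hp, if_false, zero_mul, mul_zero, Finset.sum_const_zero, smul_zero]
  · intro r1 _ hr1
    apply Finset.sum_eq_zero
    intro r2 _
    simp only [diagMat, hr1.symm, if_false, zero_mul]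
  · intro h; exact absurd (Finset.mem_univ _) h
  · intro r1 _ hr1
    apply Finset.sum_eq_zero
    intro r2 _
    simp only [diagMat, hr1, if_false, mul_zero]
  · intro h; exact absurd (Finset.mem_univ _) h

end defs

/-- a fundamental domain for multiplication by powers of `ξ` -/
theorem exists_fundamental {ξ : ℂ} {m : ℕ} (hm : 0 < m) (hξ : IsPrimitiveRoot ξ m) :
    ∃ S : Set ℂ, (∀ z : ℂ, z ≠ 0 → ∃ j < m, ξ ^ j * z ∈ S) ∧
      (∀ i < m, ∀ j < m, ∀ z : ℂ, z ≠ 0 → ξ ^ i * z ∈ S → ξ ^ j * z ∈ S → i = j) := by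
  classical
  have hξ0 : ξ ≠ 0 := hξ.ne_zero hm.ne'
  let r : Setoid ℂ :=
    { r := fun z w => ∃ j : ℕ, ξ ^ j * z = w
      iseqv := by
        refine ⟨fun z => ⟨0, by simp⟩, ?_, ?_⟩
        · rintro z w ⟨j, rfl⟩
          refine ⟨(m - 1) * j, ?_⟩
          rw [← mul_assoc, ← pow_add]
          have : (m - 1) * j + j = m * j := by
            obtain ⟨n, rfl⟩ : ∃ n, m = n + 1 := ⟨m - 1, by omega⟩
            simp; ring
          rw [this, pow_mul, hξ.pow_eq_one, one_pow, one_mul]
        · rintro z w u ⟨i, rfl⟩ ⟨j, rfl⟩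
          exact ⟨j + i, by rw [pow_add, mul_assoc]⟩ }
  refine ⟨Set.range (fun q : Quotient r => q.out), ?_, ?_⟩
  · intro z hz
    have h := Quotient.mk_out (s := r) z
    -- h : r (out (mk z)) z
    obtain ⟨j, hj⟩ := r.symm h
    refine ⟨j % m, Nat.mod_lt _ hm, ⟨Quotient.mk r z, ?_⟩⟩
    change (Quotient.mk r z).out = _
    rw [← hj]
    congr 1
    conv_lhs => rw [← Nat.div_add_mod j m]
    rw [pow_add, pow_mul, hξ.pow_eq_one, one_pow, one_mul]
  · rintro i hi j hj z hz ⟨q, hq⟩ ⟨q', hq'⟩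
    have hqq : q = q' := by
      rw [← Quotient.out_eq q, ← Quotient.out_eq q']
      apply Quotient.sound
      change ∃ n : ℕ, ξ ^ n * q.out = q'.out
      have h1 : r (ξ ^ i * z) z := r.symm ⟨i, rfl⟩
      have h2 : r z (ξ ^ j * z) := ⟨j, rfl⟩
      simp only at hq hq'
      rw [hq, hq']
      exact r.trans h1 h2
    subst hqq
    simp only at hq hq'
    have h3 : ξ ^ i * z = ξ ^ j * z := by rw [← hq, ← hq']
    exact hξ.pow_inj hi hj (mul_right_cancel₀ hz h3)

section lin

variable {V : Type*} [AddCommGroup V] [Module ℂ V]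

theorem comm_pow {A B : End ℂ V} {ξ : ℂ} (h : A * B = ξ • (B * A)) (n : ℕ) :
    A ^ n * B = ξ ^ n • (B * A ^ n) := by
  induction n with
  | zero => simp
  | succ n ih =>
    rw [pow_succ', mul_assoc, ih, mul_smul_comm, ← mul_assoc, h, smul_mul_assoc, smul_smul,
      ← pow_succ, mul_assoc]

theorem sub_pow_comm {A B : End ℂ V} {ξ : ℂ} (hξ : ξ ≠ 0) (h : A * B = ξ • (B * A)) (z : ℂ) (n : ℕ) :
    (B - (ξ⁻¹ * z) • (1 : End ℂ V)) ^ n * A = (ξ⁻¹) ^ n • (A * (B - z • 1) ^ n) := by
  induction n with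
  | zero => simp
  | succ n ih =>
    have h1 : (B - (ξ⁻¹ * z) • (1 : End ℂ V)) * A = ξ⁻¹ • (A * (B - z • 1)) := by
      rw [sub_mul, mul_sub, h, smul_sub, smul_smul, inv_mul_cancel₀ hξ, one_smul]
      simp [smul_smul]
    rw [pow_succ, mul_assoc, h1, mul_smul_comm, ← mul_assoc, ih, smul_mul_assoc, smul_smul,
      ← pow_succ', mul_assoc, ← pow_succ]

theorem map_gen {A B : End ℂ V} {ξ : ℂ} (hξ : ξ ≠ 0) (h : A * B = ξ • (B * A)) (z : ℂ) {v : V}
    (hv : v ∈ B.maxGenEigenspace z) : A v ∈ B.maxGenEigenspace (ξ⁻¹ * z) := by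
  rw [Module.End.mem_maxGenEigenspace] at hv ⊢
  obtain ⟨n, hn⟩ := hv
  refine ⟨n, ?_⟩
  have := congrArg (fun f : End ℂ V => f v) (sub_pow_comm hξ h z n)
  simp only [Module.End.mul_apply, LinearMap.smul_apply] at this
  rw [this, hn]
  simp

theorem map_gen_pow {A B : End ℂ V} {ξ : ℂ} (hξ : ξ ≠ 0) (h : A * B = ξ • (B * A)) (n : ℕ) (z : ℂ)
    {v : V} (hv : v ∈ B.maxGenEigenspace z) :
    (A ^ n) v ∈ B.maxGenEigenspace ((ξ⁻¹) ^ n * z) := by
  induction n with
  | zero => simpa using hv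
  | succ n ih =>
    rw [pow_succ' A, Module.End.mul_apply, pow_succ' ξ⁻¹, mul_assoc]
    exact map_gen hξ h _ ih

variable [FiniteDimensional ℂ V]

/-- **normal form** -/
theorem exists_basis {A B : End ℂ V} {ξ : ℂ} {m : ℕ} (hm : 0 < m) (hξ : IsPrimitiveRoot ξ m)
    (hA : IsUnit A) (hB : IsUnit B) (h : A * B = ξ • (B * A)) :
    ∃ (l : ℕ) (β : Basis (Fin m × Fin l) ℂ V) (a b : Matrix (Fin l) (Fin l) ℂ),
      a * b = b * a ∧ IsUnit a ∧ IsUnit b ∧
      LinearMap.toMatrix β β A = shiftMat m a ∧ LinearMap.toMatrix β β B = diagMat m ξ⁻¹ b := by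
  classical
  have hξ0 : ξ ≠ 0 := hξ.ne_zero hm.ne'
  obtain ⟨S, hS1, hS2⟩ := exists_fundamental hm hξ
  -- inverse of A
  obtain ⟨uA, rfl⟩ := hA
  set A : End ℂ V := (uA : End ℂ V) with hAdef
  set A' : End ℂ V := ((uA⁻¹ : (End ℂ V)ˣ) : End ℂ V) with hA'def
  have hAA' : A * A' = 1 := uA.mul_inv
  have hA'A : A' * A = 1 := uA.inv_mul
  have h' : A' * B = ξ⁻¹ • (B * A') := by
    have h1 : A' * (A * B) * A' = A' * (ξ • (B * A)) * A' := by rw [h]
    rw [← mul_assoc, hA'A, one_mul, mul_smul_comm, smul_mul_assoc, mul_assoc A', mul_assoc B, hAA',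
      mul_one] at h1
    rw [h1, smul_smul, inv_mul_cancel₀ hξ0, one_smul]
  have hAinj : Function.Injective A := by
    intro x y hxy
    have := congrArg A' hxy
    rw [← Module.End.mul_apply, ← Module.End.mul_apply, hA'A] at this
    simpa using this
  have hG0' : ∀ v ∈ B.maxGenEigenspace 0, v = 0 := by
    intro v hv
    rw [Module.End.mem_maxGenEigenspace] at hv
    obtain ⟨n, hn⟩ := hv
    rw [zero_smul, sub_zero] at hn
    have hBn : IsUnit (B ^ n) := hB.pow n
    obtain ⟨u, hu⟩ := hBn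
    have h1 : (((u⁻¹ : (End ℂ V)ˣ) : End ℂ V) * (u : End ℂ V)) v = v := by
      rw [u.inv_mul]; rfl
    rw [← h1, Module.End.mul_apply, hu, hn, map_zero]
  set G : ℂ → Submodule ℂ V := fun z => B.maxGenEigenspace z with hG
  set V0 : Submodule ℂ V := ⨆ z ∈ S, G z with hV0
  set T : ℕ → Set ℂ := fun j => {z | z ≠ 0 ∧ ξ ^ j * z ∈ S} with hT
  have hmap : ∀ j : ℕ, ∀ v ∈ V0, (A ^ j) v ∈ ⨆ z ∈ T j, G z := by
    intro j
    change V0 ≤ (⨆ z ∈ T j, G z).comap (A ^ j)
    refine iSup₂_le fun z hz v hv => ?_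
    rw [Submodule.mem_comap]
    by_cases hz0 : z = 0
    · subst hz0
      rw [hG0' v hv, map_zero]
      exact Submodule.zero_mem _
    · have h1 := map_gen_pow hξ0 h j z hv
      have h2 : ξ⁻¹ ^ j * z ∈ T j := by
        refine ⟨mul_ne_zero (pow_ne_zero _ (inv_ne_zero hξ0)) hz0, ?_⟩
        rw [← mul_assoc, ← mul_pow, mul_inv_cancel₀ hξ0, one_pow, one_mul]
        exact hz
      exact (le_iSup₂ (f := fun z (_ : z ∈ T j) => G z) _ h2) h1
  have hspan : ∀ j : ℕ, ∀ z, ξ ^ j * z ∈ S → ∀ v ∈ G z, ∃ w ∈ V0, (A ^ j) w = v := by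
    intro j z hz v hv
    refine ⟨(A' ^ j) v, ?_, ?_⟩
    · have h1 := map_gen_pow (inv_ne_zero hξ0) h' j z hv
      rw [inv_inv] at h1
      exact (le_iSup₂ (f := fun z (_ : z ∈ S) => G z) _ hz) h1
    · rw [← Module.End.mul_apply, ← Commute.mul_pow (by
        change A * A' = A' * A
        rw [hAA', hA'A]), hAA', one_pow]
      rfl
  have hAm : ∀ v ∈ V0, (A ^ m) v ∈ V0 := by
    change V0 ≤ V0.comap (A ^ m)
    refine iSup₂_le fun z hz v hv => ?_
    rw [Submodule.mem_comap]
    have h1 := map_gen_pow hξ0 h m z hv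
    rw [inv_pow, hξ.pow_eq_one, inv_one, one_mul] at h1
    exact (le_iSup₂ (f := fun z (_ : z ∈ S) => G z) _ hz) h1
  have hBV : ∀ v ∈ V0, B v ∈ V0 := by
    change V0 ≤ V0.comap B
    refine iSup₂_le fun z hz v hv => ?_
    rw [Submodule.mem_comap]
    exact (le_iSup₂ (f := fun z (_ : z ∈ S) => G z) _ hz)
      (Module.End.mapsTo_maxGenEigenspace_of_comm (Commute.refl B) z hv)
  have hind : iSupIndep G := B.independent_maxGenEigenspace
  have htop : ⨆ z, G z = ⊤ := B.iSup_maxGenEigenspace_eq_top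
  -- the basis
  set l := finrank ℂ V0 with hl
  let v0 : Basis (Fin l) ℂ V0 := finBasis ℂ V0
  let w : Fin m × Fin l → V := fun p => (A ^ (p.1 : ℕ)) (v0 p.2 : V)
  have hli : LinearIndependent ℂ w := by
    rw [Fintype.linearIndependent_iff]
    intro c hc
    have hc' : ∑ j : Fin m, (A ^ (j : ℕ)) ((∑ i, c (j, i) • v0 i : V0) : V) = 0 := by
      rw [← hc, Fintype.sum_prod_type]
      refine Finset.sum_congr rfl fun j _ => ?_
      simp [w, map_sum]
    have hx : ∀ j : Fin m, (A ^ (j : ℕ)) ((∑ i, c (j, i) • v0 i : V0) : V) = 0 := by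
      intro j
      have hd : Disjoint (⨆ z ∈ T j, G z) (⨆ z ∈ {z | ∃ i : Fin m, i ≠ j ∧ z ∈ T i}, G z) := by
        apply iSupIndep.disjoint_biSup_biSup hind
        rw [Set.disjoint_left]
        rintro z ⟨hz0, hz⟩ ⟨i, hij, -, hz'⟩
        exact hij (Fin.ext (hS2 i i.2 j j.2 z hz0 hz' hz))
      rw [Submodule.disjoint_def] at hd
      apply hd
      · exact hmap _ _ (Submodule.coe_mem _)
      · rw [← Finset.add_sum_erase _ _ (Finset.mem_univ j)] at hc'
        rw [eq_neg_of_add_eq_zero_left hc']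
        refine Submodule.neg_mem _ (Submodule.sum_mem _ fun i hi => ?_)
        have h1 := hmap i _ (Submodule.coe_mem (∑ i', c (i, i') • v0 i' : V0))
        refine (iSup₂_le fun z hz => ?_ : (⨆ z ∈ T i, G z) ≤ _) h1
        exact le_iSup₂ (f := fun z (_ : z ∈ {z | ∃ i : Fin m, i ≠ j ∧ z ∈ T i}) => G z) z
          ⟨i, (Finset.mem_erase.1 hi).1, hz⟩
    rintro ⟨j, i⟩
    have h1 := hx j
    have h2 : ((∑ i, c (j, i) • v0 i : V0) : V) = 0 := by
      have h3 : (A ^ (j : ℕ)) ((∑ i, c (j, i) • v0 i : V0) : V) = (A ^ (j : ℕ)) 0 := by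
        rw [h1, map_zero]
      have hAninj : Function.Injective (A ^ (j : ℕ)) := by
        rw [Module.End.coe_pow]
        exact hAinj.iterate _
      exact hAninj h3
    have h4 : (∑ i, c (j, i) • v0 i : V0) = 0 := by exact_mod_cast h2
    exact (Fintype.linearIndependent_iff.1 v0.linearIndependent) (fun i => c (j, i)) h4 i
  have hsp : ⊤ ≤ Submodule.span ℂ (Set.range w) := by
    rw [← htop]
    refine iSup_le fun z v hv => ?_
    by_cases hz0 : z = 0
    · subst hz0
      rw [hG0' v hv]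
      exact Submodule.zero_mem _
    · obtain ⟨j, hj, hz⟩ := hS1 z hz0
      obtain ⟨w0, hw0, rfl⟩ := hspan j z hz v hv
      have h1 : w0 = ((∑ i, v0.repr ⟨w0, hw0⟩ i • v0 i : V0) : V) := by
        rw [v0.sum_repr]
      rw [h1]
      simp only [Submodule.coe_sum, Submodule.coe_smul, map_sum, map_smul]
      refine Submodule.sum_mem _ fun i _ => Submodule.smul_mem _ _ (Submodule.subset_span ?_)
      exact ⟨(⟨j, hj⟩, i), rfl⟩
  let β : Basis (Fin m × Fin l) ℂ V := Basis.mk hli hsp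
  have hβ : ∀ p, β p = (A ^ (p.1 : ℕ)) (v0 p.2 : V) := fun p => by
    simp [β, w]
  let aR : End ℂ V0 := (A ^ m).restrict hAm
  let bR : End ℂ V0 := B.restrict hBV
  have haR : ∀ v : V0, ((aR v : V0) : V) = (A ^ m) v := fun v => rfl
  have hbR : ∀ v : V0, ((bR v : V0) : V) = B v := fun v => rfl
  have hab : aR * bR = bR * aR := by
    ext v
    rw [Module.End.mul_apply, Module.End.mul_apply, haR, hbR, hbR, haR]
    have h1 := congrArg (fun f : End ℂ V => f v) (comm_pow h m)
    simp only [hξ.pow_eq_one, one_smul, Module.End.mul_apply] at h1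
    exact h1
  have hau : IsUnit aR := by
    rw [LinearMap.isUnit_iff_ker_eq_bot, LinearMap.ker_eq_bot]
    intro x y hxy
    have h1 : (A ^ m) (x : V) = (A ^ m) (y : V) := by
      rw [← haR, ← haR, hxy]
    rw [Module.End.coe_pow] at h1
    exact Subtype.ext (hAinj.iterate m h1)
  have hbu : IsUnit bR := by
    rw [LinearMap.isUnit_iff_ker_eq_bot, LinearMap.ker_eq_bot]
    intro x y hxy
    have h1 : B (x : V) = B (y : V) := by
      rw [← hbR, ← hbR, hxy]
    obtain ⟨u, hu⟩ := hB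
    have h2 : ∀ z : V, ((u⁻¹ : (End ℂ V)ˣ) : End ℂ V) (B z) = z := fun z => by
      rw [← hu, ← Module.End.mul_apply, u.inv_mul]; rfl
    exact Subtype.ext (by rw [← h2 x, ← h2 y, h1])
  refine ⟨l, β, LinearMap.toMatrix v0 v0 aR, LinearMap.toMatrix v0 v0 bR, ?_, ?_, ?_, ?_, ?_⟩
  · rw [← LinearMap.toMatrix_mul, ← LinearMap.toMatrix_mul, hab]
  · exact hau.map (LinearMap.toMatrixAlgEquiv v0)
  · exact hbu.map (LinearMap.toMatrixAlgEquiv v0)
  · ext ⟨j', i'⟩ ⟨j, i⟩
    rw [LinearMap.toMatrix_apply, shiftMat]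
    by_cases hj : (j : ℕ) + 1 < m
    · have h1 : A (β (j, i)) = β (⟨(j : ℕ) + 1, hj⟩, i) := by
        rw [hβ, hβ, ← Module.End.mul_apply, ← pow_succ']
      rw [h1, Basis.repr_self, Finsupp.single_apply, if_pos hj]
      congr 1
      rw [Prod.mk.injEq, Fin.ext_iff, eq_iff_iff]
      constructor
      · rintro ⟨h2, h3⟩; exact ⟨h2.symm, h3.symm⟩
      · rintro ⟨h2, h3⟩; exact ⟨h2.symm, h3.symm⟩
    · have hjm : (j : ℕ) + 1 = m := by omega
      have h1 : A (β (j, i)) = ∑ i'', LinearMap.toMatrix v0 v0 aR i'' i • β (⟨0, hm⟩, i'') := by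
        have h2 : A (β (j, i)) = ((aR (v0 i) : V0) : V) := by
          rw [hβ, haR, ← Module.End.mul_apply, ← pow_succ', hjm]
        rw [h2, ← v0.sum_repr (aR (v0 i))]
        simp only [Submodule.coe_sum, Submodule.coe_smul, LinearMap.toMatrix_apply, hβ, pow_zero,
          Module.End.one_apply]
      rw [h1, if_neg hj, map_sum, Finsupp.finsetSum_apply]
      simp only [map_smul, Basis.repr_self, Finsupp.smul_apply, Finsupp.single_apply, smul_eq_mul,
        mul_ite, mul_one, mul_zero, Prod.mk.injEq]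
      by_cases hj' : (j' : ℕ) = 0
      · have : (⟨0, hm⟩ : Fin m) = j' := Fin.ext hj'.symm
        simp [this, hj']
      · have : ¬ ((⟨0, hm⟩ : Fin m) = j') := fun h3 => hj' (by rw [← h3])
        simp [this, hj']
  · ext ⟨j', i'⟩ ⟨j, i⟩
    rw [LinearMap.toMatrix_apply, diagMat]
    have h1 : B (β (j, i)) = ∑ i'', (ξ⁻¹ ^ (j : ℕ) * LinearMap.toMatrix v0 v0 bR i'' i) • β (j, i'') := by
      have h3 : B * A ^ (j : ℕ) = ξ⁻¹ ^ (j : ℕ) • (A ^ (j : ℕ) * B) := by
        rw [comm_pow h, smul_smul, ← mul_pow, inv_mul_cancel₀ hξ0, one_pow, one_smul]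
      have h2 : B (β (j, i)) = ξ⁻¹ ^ (j : ℕ) • (A ^ (j : ℕ)) ((bR (v0 i) : V0) : V) := by
        rw [hβ, hbR, ← Module.End.mul_apply, h3]
        rfl
      rw [h2, ← v0.sum_repr (bR (v0 i))]
      simp only [Submodule.coe_sum, Submodule.coe_smul, LinearMap.toMatrix_apply, hβ, map_sum,
        map_smul, Finset.smul_sum, smul_smul]
    rw [h1, map_sum, Finsupp.finsetSum_apply]
    simp only [map_smul, Basis.repr_self, Finsupp.smul_apply, Finsupp.single_apply, smul_eq_mul,
      mul_ite, mul_one, mul_zero, Prod.mk.injEq]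
    by_cases hj' : j' = j
    · subst hj'
      simp
    · have : ¬ (j = j') := fun h3 => hj' h3.symm
      simp [this, hj']

end lin

end Crest.Agent.R003.Tor
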