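import Mathlib

/-!
# R003, Part 3, h = 1 (helper363), file b: commuting pairs (Motzkin–Taussky)
-/

set_option autoImplicit false

namespace Crest.Agent.R003.Tor

open Matrix

section cyc

variable {K : Type*} [CommRing K] {l : ℕ}

/-- the matrix with columns `x ^ j v` -/
def cyc (x : Matrix (Fin l) (Fin l) K) (v : Fin l → K) : Matrix (Fin l) (Fin l) K :=
  Matrix.of fun i j => ((x ^ (j : ℕ)) *ᵥ v) i

/-- if `v` is a cyclic vector for `x` and `b` commutes with `x` then `b` is a polynomial in `x` -/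
theorem exists_coeff {F : Type*} [Field F] {l : ℕ} {x b : Matrix (Fin l) (Fin l) F} {v : Fin l → F}
    (hc : (cyc x v).det ≠ 0) (hxb : x * b = b * x) :
    ∃ q : Fin l → F, b = ∑ i, q i • x ^ (i : ℕ) := by
  have hu : IsUnit (cyc x v).det := isUnit_iff_ne_zero.2 hc
  refine ⟨(cyc x v)⁻¹ *ᵥ (b *ᵥ v), ?_⟩
  set q := (cyc x v)⁻¹ *ᵥ (b *ᵥ v) with hq
  set y : Matrix (Fin l) (Fin l) F := ∑ i, q i • x ^ (i : ℕ) with hy
  have h1 : cyc x v *ᵥ q = b *ᵥ v := by
    rw [hq, Matrix.mulVec_mulVec, Matrix.mul_nonsing_inv _ hu, Matrix.one_mulVec]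
  have h2 : y *ᵥ v = b *ᵥ v := by
    rw [← h1, hy]
    ext i
    rw [Matrix.sum_mulVec, Finset.sum_apply]
    simp only [Matrix.smul_mulVec, Pi.smul_apply, smul_eq_mul]
    rw [Matrix.mulVec, dotProduct]
    refine Finset.sum_congr rfl fun j _ => ?_
    rw [cyc, Matrix.of_apply, mul_comm]
  have hbx : ∀ n : ℕ, b * x ^ n = x ^ n * b := fun n =>
    (Commute.pow_right (show Commute b x from hxb.symm) n)
  have hyx : ∀ n : ℕ, y * x ^ n = x ^ n * y := by
    intro n
    rw [hy, Finset.sum_mul, Finset.mul_sum]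
    refine Finset.sum_congr rfl fun i _ => ?_
    rw [Matrix.smul_mul, Matrix.mul_smul, ← pow_add, ← pow_add, add_comm]
  have h3 : b * cyc x v = y * cyc x v := by
    ext i j
    have h4 : ∀ z : Matrix (Fin l) (Fin l) F, (z * cyc x v) i j = (z *ᵥ ((x ^ (j : ℕ)) *ᵥ v)) i := by
      intro z
      rw [Matrix.mul_apply, Matrix.mulVec, dotProduct]
      rfl
    rw [h4, h4, Matrix.mulVec_mulVec, Matrix.mulVec_mulVec, hbx, hyx, ← Matrix.mulVec_mulVec,
      ← Matrix.mulVec_mulVec, h2]
  calc b = b * (cyc x v * (cyc x v)⁻¹) := by rw [Matrix.mul_nonsing_inv _ hu, mul_one]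
    _ = y * (cyc x v * (cyc x v)⁻¹) := by rw [← mul_assoc, h3, mul_assoc]
    _ = y := by rw [Matrix.mul_nonsing_inv _ hu, mul_one]

theorem cyc_map {K L : Type*} [CommRing K] [CommRing L] {l : ℕ} (f : K →+* L)
    (x : Matrix (Fin l) (Fin l) K) (v : Fin l → K) :
    (cyc x v).map f = cyc (x.map f) (fun i => f (v i)) := by
  ext i j
  rw [Matrix.map_apply, cyc, cyc, Matrix.of_apply, Matrix.of_apply, Matrix.mulVec, dotProduct,
    Matrix.mulVec, dotProduct, map_sum]
  refine Finset.sum_congr rfl fun s _ => ?_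
  rw [map_mul]
  congr 1
  have : (x.map f) ^ (j : ℕ) = (x ^ (j : ℕ)).map f := by
    have := map_pow f.mapMatrix x (j : ℕ)
    simpa [RingHom.mapMatrix_apply] using this.symm
  rw [this, Matrix.map_apply]

end cyc

section ev

theorem algHom_aeval {σ R : Type*} [CommRing R] [Algebra ℂ R] (φ : R →ₐ[ℂ] ℂ) (f : σ → R)
    (Q : MvPolynomial σ ℂ) :
    φ (MvPolynomial.aeval f Q) = MvPolynomial.eval (fun p => φ (f p)) Q := by
  rw [← AlgHom.comp_apply, MvPolynomial.comp_aeval, MvPolynomial.aeval_def,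
    MvPolynomial.eval, Algebra.algebraMap_self]
  rfl

theorem eval_aeval_mv {σ τ : Type*} (q : τ → ℂ) (f : σ → MvPolynomial τ ℂ)
    (Q : MvPolynomial σ ℂ) :
    MvPolynomial.eval q (MvPolynomial.aeval f Q) =
      MvPolynomial.eval (fun p => MvPolynomial.eval q (f p)) Q := by
  have h : ∀ x, MvPolynomial.aeval q x = MvPolynomial.eval q x := fun x => by
    rw [MvPolynomial.aeval_def, MvPolynomial.eval, Algebra.algebraMap_self]; rfl
  have := algHom_aeval (MvPolynomial.aeval q) f Q
  simpa only [h] using this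

theorem eval_aeval_poly {σ : Type*} (t : ℂ) (f : σ → Polynomial ℂ)
    (Q : MvPolynomial σ ℂ) :
    Polynomial.eval t (MvPolynomial.aeval f Q) =
      MvPolynomial.eval (fun p => Polynomial.eval t (f p)) Q := by
  have h : ∀ x, Polynomial.aeval t x = Polynomial.eval t x := fun x => by
    rw [Polynomial.aeval_def, Algebra.algebraMap_self, Polynomial.eval]
  have := algHom_aeval (Polynomial.aeval t) f Q
  simpa only [h] using this

end ev

section pairs

variable {l : ℕ}

/-- the point of affine space given by a pair of matrices -/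
def pt {K : Type*} {l : ℕ} (a b : Matrix (Fin l) (Fin l) K) : Bool × Fin l × Fin l → K :=
  fun p => if p.1 then b p.2.1 p.2.2 else a p.2.1 p.2.2

/-- generic matrix -/
noncomputable def gen (l : ℕ) : Matrix (Fin l) (Fin l) (MvPolynomial (Fin l × Fin l) ℂ) :=
  Matrix.of fun i j => MvPolynomial.X (i, j)

/-- entries point -/
def ent {K : Type*} {l : ℕ} (a : Matrix (Fin l) (Fin l) K) : Fin l × Fin l → K := fun p => a p.1 p.2

theorem gen_map (a : Matrix (Fin l) (Fin l) ℂ) :
    (gen l).map (MvPolynomial.eval (ent a)) = a := by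
  ext i j
  simp [gen, ent]

/-- discriminant of the characteristic polynomial of the generic matrix -/
noncomputable def disc (l : ℕ) : MvPolynomial (Fin l × Fin l) ℂ :=
  Polynomial.resultant (gen l).charpoly (gen l).charpoly.derivative l (l - 1)

theorem disc_eval (a : Matrix (Fin l) (Fin l) ℂ) :
    MvPolynomial.eval (ent a) (disc l) = Polynomial.resultant a.charpoly a.charpoly.derivative := by
  have h1 : a.charpoly.natDegree = l := by
    rw [Matrix.charpoly_natDegree_eq_dim]; simp
  have h2 : a.charpoly.derivative.natDegree = l - 1 := by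
    rw [Polynomial.natDegree_derivative, h1]
  have h3 : (gen l).charpoly.map (MvPolynomial.eval (ent a)) = a.charpoly := by
    rw [← Matrix.charpoly_map, gen_map]
  rw [disc, ← Polynomial.resultant_map_map, ← Polynomial.derivative_map, h3, h1, h2]

theorem separable_of_disc {a : Matrix (Fin l) (Fin l) ℂ}
    (h : MvPolynomial.eval (ent a) (disc l) ≠ 0) : a.charpoly.Separable := by
  rw [disc_eval] at h
  exact (Polynomial.isUnit_resultant_iff_isCoprime (Matrix.charpoly_monic a)).1
    (isUnit_iff_ne_zero.2 h)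

theorem disc_ne_zero : disc l ≠ 0 := by
  intro h0
  let a : Matrix (Fin l) (Fin l) ℂ := Matrix.diagonal fun i => ((i : ℕ) : ℂ)
  have h1 : a.charpoly = ∏ i : Fin l, (Polynomial.X - Polynomial.C ((i : ℕ) : ℂ)) := by
    rw [Matrix.charpoly_diagonal]
  have h2 : a.charpoly.Separable := by
    rw [h1]
    apply Polynomial.separable_prod_X_sub_C_iff.2
    intro i j hij
    simp only [Nat.cast_inj] at hij
    exact Fin.ext hij
  have h3 := (Polynomial.isUnit_resultant_iff_isCoprime (Matrix.charpoly_monic a)).2 h2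
  rw [← disc_eval, h0, map_zero] at h3
  exact not_isUnit_zero h3

/-- pairs `(x, q(x))`: it suffices to treat separable `x` -/
theorem poly_pair_of (Q : MvPolynomial (Bool × Fin l × Fin l) ℂ)
    (h1 : ∀ x : Matrix (Fin l) (Fin l) ℂ, x.charpoly.Separable → ∀ q : Fin l → ℂ,
      MvPolynomial.eval (pt x (∑ i, q i • x ^ (i : ℕ))) Q = 0)
    (x : Matrix (Fin l) (Fin l) ℂ) (q : Fin l → ℂ) :
    MvPolynomial.eval (pt x (∑ i, q i • x ^ (i : ℕ))) Q = 0 := by
  -- now `q` fixed
  let Y : Matrix (Fin l) (Fin l) (MvPolynomial (Fin l × Fin l) ℂ) :=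
    ∑ i, (MvPolynomial.C (q i) : MvPolynomial (Fin l × Fin l) ℂ) • gen l ^ (i : ℕ)
  let H : MvPolynomial (Fin l × Fin l) ℂ := MvPolynomial.aeval (pt (gen l) Y) Q
  have hH : ∀ x : Matrix (Fin l) (Fin l) ℂ, MvPolynomial.eval (ent x) H =
      MvPolynomial.eval (pt x (∑ i, q i • x ^ (i : ℕ))) Q := by
    intro x
    have hY : Y.map (MvPolynomial.eval (ent x)) = ∑ i, q i • x ^ (i : ℕ) := by
      have h3 : ∀ n : ℕ, (gen l ^ n).map (MvPolynomial.eval (ent x)) = x ^ n := by
        intro n
        have := map_pow (MvPolynomial.eval (ent x)).mapMatrix (gen l) n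
        rw [RingHom.mapMatrix_apply, RingHom.mapMatrix_apply, gen_map] at this
        exact this
      ext i j
      simp only [Y]
      rw [Matrix.map_apply, Matrix.sum_apply, Matrix.sum_apply, map_sum]
      refine Finset.sum_congr rfl fun s _ => ?_
      rw [Matrix.smul_apply, Matrix.smul_apply, smul_eq_mul, smul_eq_mul, map_mul,
        MvPolynomial.eval_C, ← h3 s, Matrix.map_apply]
    have h2 : ∀ p, MvPolynomial.eval (ent x) (pt (gen l) Y p) =
        pt x (∑ i, q i • x ^ (i : ℕ)) p := by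
      rintro ⟨c, i, j⟩
      cases c
      · simp [pt, gen, ent]
      · simp only [pt, if_true]
        rw [← hY, Matrix.map_apply]
    simp only [H]
    rw [eval_aeval_mv, funext h2]
  have hH0 : H = 0 := by
    have h4 : H * disc l = 0 := by
      apply MvPolynomial.funext
      intro y
      rw [map_mul, map_zero]
      have h5 : y = ent (Matrix.of fun i j => y (i, j)) := rfl
      rw [h5]
      by_cases h : MvPolynomial.eval (ent (Matrix.of fun i j => y (i, j))) (disc l) = 0
      · rw [h, mul_zero]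
      · rw [hH, h1 _ (separable_of_disc h) q, zero_mul]
    exact (mul_eq_zero.1 h4).resolve_right disc_ne_zero
  rw [← hH, hH0, map_zero]

/-- **Motzkin–Taussky**: commuting pairs -/
theorem comm_pair_of
    (hnd : ∀ b : Matrix (Fin l) (Fin l) ℂ, ∃ (c : Matrix (Fin l) (Fin l) ℂ) (v : Fin l → ℂ),
      c * b = b * c ∧ (cyc c v).det ≠ 0)
    (Q : MvPolynomial (Bool × Fin l × Fin l) ℂ)
    (hQ : ∀ (x : Matrix (Fin l) (Fin l) ℂ) (q : Fin l → ℂ),
      MvPolynomial.eval (pt x (∑ i, q i • x ^ (i : ℕ))) Q = 0)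
    (a b : Matrix (Fin l) (Fin l) ℂ) (hab : a * b = b * a) :
    MvPolynomial.eval (pt a b) Q = 0 := by
  obtain ⟨c, v, hcb, hcv⟩ := hnd b
  -- the line `a + t (c - a)`
  let A : Matrix (Fin l) (Fin l) (Polynomial ℂ) :=
    a.map Polynomial.C + (Polynomial.X : Polynomial ℂ) • (c - a).map Polynomial.C
  have hA : ∀ t : ℂ, A.map (Polynomial.evalRingHom t) = a + t • (c - a) := by
    intro t
    ext i j
    simp [A]
  let r : Polynomial ℂ := MvPolynomial.aeval (pt A (b.map Polynomial.C)) Q
  have hr : ∀ t : ℂ, r.eval t = MvPolynomial.eval (pt (a + t • (c - a)) b) Q := by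
    intro t
    have h2 : ∀ p, Polynomial.eval t (pt A (b.map Polynomial.C) p) = pt (a + t • (c - a)) b p := by
      rintro ⟨s, i, j⟩
      cases s
      · simp only [pt]
        rw [← hA t]
        simp
      · simp [pt]
    simp only [r]
    rw [eval_aeval_poly, funext h2]
  let κ : Polynomial ℂ := (cyc A (fun i => Polynomial.C (v i))).det
  have hκ : ∀ t : ℂ, κ.eval t = (cyc (a + t • (c - a)) v).det := by
    intro t
    rw [← Polynomial.coe_evalRingHom, RingHom.map_det, RingHom.mapMatrix_apply, cyc_map, hA]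
    simp
  have hκ0 : κ ≠ 0 := by
    intro h
    have h1 := hκ 1
    rw [h, Polynomial.eval_zero, one_smul, add_sub_cancel] at h1
    exact hcv h1.symm
  have hprod : r * κ = 0 := by
    apply Polynomial.funext
    intro t
    rw [Polynomial.eval_mul, Polynomial.eval_zero]
    by_cases h : κ.eval t = 0
    · rw [h, mul_zero]
    · rw [hκ] at h
      have hcomm : (a + t • (c - a)) * b = b * (a + t • (c - a)) := by
        rw [add_mul, mul_add, Matrix.smul_mul, Matrix.mul_smul, sub_mul, mul_sub, hab, hcb]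
      obtain ⟨q, hq⟩ := exists_coeff h hcomm
      have h3 := hQ (a + t • (c - a)) q
      rw [← hq] at h3
      rw [hr, h3, zero_mul]
  have hr0 : r = 0 := (mul_eq_zero.1 hprod).resolve_right hκ0
  have h4 := hr 0
  rw [hr0, Polynomial.eval_zero, zero_smul, add_zero] at h4
  exact h4.symm

end pairs

end Crest.Agent.R003.Tor
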