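import Crest.Agent.R003.Defs
import Crest.Agent.R003.Tor363b

/-!
# R003 (helper363), file c: `GL_n(O)` is Zariski dense in `M_n(ℂ)`; polynomial functions on `GL_n`
-/

set_option autoImplicit false

namespace Crest.Agent.R003.Tor

open Matrix

theorem pow_infinite {u : ℂˣ} (hu : ∀ m : ℕ, 0 < m → u ^ m ≠ 1) :
    Set.Infinite (Set.range fun n : ℕ => ((u ^ n : ℂˣ) : ℂ)) := by
  apply Set.infinite_range_of_injective
  intro a b hab
  have h1 : u ^ a = u ^ b := Units.ext hab
  by_contra hne
  rcases lt_or_gt_of_ne hne with h | h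
  · have := hu (b - a) (by omega)
    apply this
    have h2 : u ^ b = u ^ (b - a) * u ^ a := by rw [← pow_add]; congr 1; omega
    rw [h2] at h1
    exact (mul_eq_right.1 h1.symm)
  · have := hu (a - b) (by omega)
    apply this
    have h2 : u ^ a = u ^ (a - b) * u ^ b := by rw [← pow_add]; congr 1; omega
    rw [h2] at h1
    exact (mul_eq_right.1 h1)

theorem int_infinite (O : Subring ℂ) : Set.Infinite (O : Set ℂ) := by
  have h : Set.range (fun n : ℕ => (n : ℂ)) ⊆ (O : Set ℂ) := by
    rintro _ ⟨n, rfl⟩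
    exact natCast_mem O n
  exact Set.Infinite.mono h (Set.infinite_range_of_injective Nat.cast_injective)

/-- the Zariski closure of `GL_n(O)` in `M_n(ℂ)` -/
def Z (O : Subring ℂ) (l : ℕ) : Set (Matrix (Fin l) (Fin l) ℂ) :=
  {M | ∀ H : MvPolynomial (Fin l × Fin l) ℂ,
    (∀ x ∈ GO O l, MvPolynomial.eval (ent x.1) H = 0) → MvPolynomial.eval (ent M) H = 0}

/-- substitution of a matrix of polynomials -/
theorem exists_subst {τ : Type} {l : ℕ} (H : MvPolynomial (Fin l × Fin l) ℂ)
    (Y : Matrix (Fin l) (Fin l) (MvPolynomial τ ℂ)) :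
    ∃ H' : MvPolynomial τ ℂ, ∀ x : τ → ℂ,
      MvPolynomial.eval x H' = MvPolynomial.eval (ent (Y.map (MvPolynomial.eval x))) H := by
  refine ⟨MvPolynomial.aeval (ent Y) H, fun x => ?_⟩
  rw [eval_aeval_mv]
  rfl

theorem Z_mul {O : Subring ℂ} {l : ℕ} {A B : Matrix (Fin l) (Fin l) ℂ} (hA : A ∈ Z O l)
    (hB : B ∈ Z O l) : A * B ∈ Z O l := by
  intro H hH
  -- `H (x B) = 0` for `x ∈ GO`
  have h1 : ∀ x ∈ GO O l, MvPolynomial.eval (ent (x.1 * B)) H = 0 := by
    intro x hx
    obtain ⟨H', hH'⟩ := exists_subst H (x.1.map MvPolynomial.C * gen l)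
    have h2 : ∀ y : Matrix (Fin l) (Fin l) ℂ,
        (x.1.map MvPolynomial.C * gen l).map (MvPolynomial.eval (ent y)) = x.1 * y := by
      intro y
      rw [Matrix.map_mul, gen_map]
      congr 1
      ext i j
      simp
    have h3 := hB H' (fun y hy => by
      rw [hH', h2]
      exact hH (x * y) ((GO O l).mul_mem hx hy))
    rw [hH', h2] at h3
    exact h3
  obtain ⟨H', hH'⟩ := exists_subst H (gen l * B.map MvPolynomial.C)
  have h2 : ∀ y : Matrix (Fin l) (Fin l) ℂ,
      (gen l * B.map MvPolynomial.C).map (MvPolynomial.eval (ent y)) = y * B := by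
    intro y
    rw [Matrix.map_mul, gen_map]
    congr 1
    ext i j
    simp
  have h3 := hA H' (fun y hy => by
    rw [hH', h2]
    exact h1 y hy)
  rw [hH', h2] at h3
  exact h3

theorem dg_mem {O : Subring ℂ} {l : ℕ} {d : Fin l → ℂˣ} (h1 : ∀ i, (d i : ℂ) ∈ O)
    (h2 : ∀ i, (((d i)⁻¹ : ℂˣ) : ℂ) ∈ O) : dg d ∈ GO O l := by
  intro i j
  constructor
  · change Matrix.diagonal (fun i => (d i : ℂ)) i j ∈ O
    rw [Matrix.diagonal_apply]
    split_ifs
    · exact h1 i
    · exact O.zero_mem
  · change Matrix.diagonal (fun i => (((d i)⁻¹ : ℂˣ) : ℂ)) i j ∈ O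
    rw [Matrix.diagonal_apply]
    split_ifs
    · exact h2 i
    · exact O.zero_mem

theorem pow_mem_units {O : Subring ℂ} {u : ℂˣ} (h1 : (u : ℂ) ∈ O) (h2 : ((u⁻¹ : ℂˣ) : ℂ) ∈ O)
    (n : ℕ) : ((u ^ n : ℂˣ) : ℂ) ∈ O ∧ (((u ^ n)⁻¹ : ℂˣ) : ℂ) ∈ O := by
  constructor
  · rw [Units.val_pow_eq_pow_val]; exact O.pow_mem h1 n
  · rw [← inv_pow, Units.val_pow_eq_pow_val]; exact O.pow_mem h2 n

theorem Z_eq_univ {O : Subring ℂ} (hO : Good O) (l : ℕ) (M : Matrix (Fin l) (Fin l) ℂ) :
    M ∈ Z O l := by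
  obtain ⟨u, hu1, hu2, hu3⟩ := hO
  refine Matrix.diagonal_transvection_induction (fun M => M ∈ Z O l) M ?_ ?_
    (fun A B hA hB => Z_mul hA hB)
  · intro D _ H hH
    obtain ⟨H', hH'⟩ := exists_subst H
      (Matrix.diagonal fun i => (MvPolynomial.X i : MvPolynomial (Fin l) ℂ))
    have h2 : ∀ y : Fin l → ℂ, (Matrix.diagonal fun i => (MvPolynomial.X i :
        MvPolynomial (Fin l) ℂ)).map (MvPolynomial.eval y) = Matrix.diagonal y := by
      intro y
      rw [Matrix.diagonal_map (map_zero _)]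
      congr 1
      funext i
      simp
    have h3 : H' = 0 := by
      apply MvPolynomial.funext_set (fun _ => Set.range fun n : ℕ => ((u ^ n : ℂˣ) : ℂ))
        (fun _ => pow_infinite hu3)
      intro y hy
      rw [Set.mem_univ_pi] at hy
      choose e he using hy
      rw [hH', h2, map_zero]
      have h4 : dg (fun i => u ^ e i) ∈ GO O l :=
        dg_mem (fun i => (pow_mem_units hu1 hu2 _).1) (fun i => (pow_mem_units hu1 hu2 _).2)
      have h5 := hH _ h4
      have h6 : (dg fun i => u ^ e i).1 = Matrix.diagonal y := by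
        change Matrix.diagonal (fun i => ((u ^ e i : ℂˣ) : ℂ)) = _
        congr 1
        funext i
        exact he i
      rw [h6] at h5
      exact h5
    rw [← h2, ← hH', h3, map_zero]
  · rintro ⟨i, j, hij, c⟩ H hH
    obtain ⟨H', hH'⟩ := exists_subst (τ := Unit) H
      (Matrix.transvection i j (MvPolynomial.X () : MvPolynomial Unit ℂ))
    have h2 : ∀ y : Unit → ℂ, (Matrix.transvection i j (MvPolynomial.X () :
        MvPolynomial Unit ℂ)).map (MvPolynomial.eval y) = Matrix.transvection i j (y ()) := by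
      intro y
      ext a b
      simp only [Matrix.transvection, Matrix.map_apply, Matrix.add_apply, map_add,
        Matrix.one_apply, Matrix.single_apply]
      congr 1
      · split_ifs <;> simp
      · split_ifs <;> simp
    have h3 : H' = 0 := by
      apply MvPolynomial.funext_set (fun _ => (O : Set ℂ)) (fun _ => int_infinite O)
      intro y hy
      rw [Set.mem_univ_pi] at hy
      rw [hH', h2, map_zero]
      have hy' := hy ()
      let t : G l := ⟨Matrix.transvection i j (y ()), Matrix.transvection i j (-(y ())),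
        by rw [Matrix.transvection_mul_transvection_same _ _ hij]; simp,
        by rw [Matrix.transvection_mul_transvection_same _ _ hij]; simp⟩
      have hent : ∀ z ∈ O, ∀ a b, Matrix.transvection i j z a b ∈ O := by
        intro z hz a b
        rw [Matrix.transvection, Matrix.add_apply, Matrix.one_apply, Matrix.single_apply]
        refine O.add_mem ?_ ?_
        · split_ifs
          · exact O.one_mem
          · exact O.zero_mem
        · split_ifs
          · exact hz
          · exact O.zero_mem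
      have h4 : t ∈ GO O l := fun a b => ⟨hent _ hy' a b, hent _ (O.neg_mem hy') a b⟩
      exact hH t h4
    have h5 := hH' (fun _ => c)
    rw [h2, h3, map_zero] at h5
    exact h5.symm

theorem eq_zero_of_GO {O : Subring ℂ} (hO : Good O) {l : ℕ} (H : MvPolynomial (Fin l × Fin l) ℂ)
    (hH : ∀ x ∈ GO O l, MvPolynomial.eval (ent x.1) H = 0) : H = 0 := by
  apply MvPolynomial.funext
  intro x
  rw [map_zero]
  exact Z_eq_univ hO l (Matrix.of fun i j => x (i, j)) H hH

/-- `F : G l → ℂ` becomes polynomial in the entries after multiplication by a power of `det` -/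
def polyFun (l : ℕ) : Subalgebra ℂ (G l → ℂ) where
  carrier := {F | ∃ (N : ℕ) (H : MvPolynomial (Fin l × Fin l) ℂ), ∀ g : G l,
    F g * g.1.det ^ N = MvPolynomial.eval (ent g.1) H}
  mul_mem' := by
    rintro F F' ⟨N, H, h⟩ ⟨N', H', h'⟩
    refine ⟨N + N', H * H', fun g => ?_⟩
    rw [map_mul, ← h, ← h', Pi.mul_apply, pow_add]
    ring
  add_mem' := by
    rintro F F' ⟨N, H, h⟩ ⟨N', H', h'⟩
    refine ⟨N + N', H * (gen l).det ^ N' + H' * (gen l).det ^ N, fun g => ?_⟩
    have hd : MvPolynomial.eval (ent g.1) (gen l).det = g.1.det := by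
      rw [RingHom.map_det, RingHom.mapMatrix_apply, gen_map]
    rw [map_add, map_mul, map_mul, map_pow, map_pow, hd, ← h, ← h', Pi.add_apply, pow_add]
    ring
  algebraMap_mem' := by
    intro r
    exact ⟨0, MvPolynomial.C r, fun g => by simp⟩

theorem entry_mem_polyFun {l : ℕ} (i j : Fin l) : (fun g : G l => g.1 i j) ∈ polyFun l :=
  ⟨0, MvPolynomial.X (i, j), fun g => by simp [ent]⟩

theorem inv_entry_mem_polyFun {l : ℕ} (i j : Fin l) :
    (fun g : G l => (g⁻¹).1 i j) ∈ polyFun l := by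
  refine ⟨1, (gen l).adjugate i j, fun g => ?_⟩
  have h1 : MvPolynomial.eval (ent g.1) ((gen l).adjugate i j) = g.1.adjugate i j := by
    have := RingHom.map_adjugate (MvPolynomial.eval (ent g.1)) (gen l)
    rw [RingHom.mapMatrix_apply, RingHom.mapMatrix_apply, gen_map] at this
    rw [← this, Matrix.map_apply]
  have h2 : (g⁻¹).1 = g.1⁻¹ := Matrix.coe_units_inv g
  change (g⁻¹).1 i j * _ = _
  rw [h1, h2, pow_one, Matrix.inv_def, Matrix.smul_apply, smul_eq_mul, mul_comm, ← mul_assoc,
    Ring.mul_inverse_cancel _ ((Matrix.isUnit_iff_isUnit_det _).1 g.isUnit), one_mul]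

/-- a function in `polyFun` vanishing on `GL_l(O)` vanishes -/
theorem polyFun_zero {O : Subring ℂ} (hO : Good O) {l : ℕ} {F : G l → ℂ} (hF : F ∈ polyFun l)
    (h : ∀ x ∈ GO O l, F x = 0) (g : G l) : F g = 0 := by
  obtain ⟨N, H, hH⟩ := hF
  have h1 : H = 0 := eq_zero_of_GO hO H fun x hx => by rw [← hH, h x hx, zero_mul]
  have h2 := hH g
  rw [h1, map_zero] at h2
  exact (mul_eq_zero.1 h2).resolve_right
    (pow_ne_zero _ ((Matrix.isUnit_iff_isUnit_det _).1 g.isUnit).ne_zero)

end Crest.Agent.R003.Tor
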