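import Crest.Agent.R003.Tor363c

/-!
# R003 (helper363), file d: commuting pairs are approximable
-/

set_option autoImplicit false

namespace Crest.Agent.R003.Tor

open Matrix

/-- polynomial expressions in elements of a subalgebra of functions -/
theorem aeval_fun_mem {σ X : Type*} (S : Subalgebra ℂ (X → ℂ)) (f : σ → X → ℂ)
    (hf : ∀ p, f p ∈ S) (Q : MvPolynomial σ ℂ) :
    (fun x => MvPolynomial.eval (fun p => f p x) Q) ∈ S := by
  induction Q using MvPolynomial.induction_on with
  | C a =>
    have : (fun x : X => MvPolynomial.eval (fun p => f p x) (MvPolynomial.C a)) =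
        algebraMap ℂ (X → ℂ) a := by
      funext x; simp
    rw [this]
    exact S.algebraMap_mem a
  | add p q hp hq =>
    have := S.add_mem hp hq
    convert this using 1
    funext x; simp
  | mul_X p n hp =>
    have := S.mul_mem hp (hf n)
    convert this using 1
    funext x; simp

theorem const_mem {X : Type*} (S : Subalgebra ℂ (X → ℂ)) (a : ℂ) : (fun _ : X => a) ∈ S :=
  S.algebraMap_mem a

/-- matrices of functions in a subalgebra -/
theorem mul_entries_mem {X : Type*} {l m n : Type*} [Fintype m] (S : Subalgebra ℂ (X → ℂ))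
    (A : X → Matrix l m ℂ) (B : X → Matrix m n ℂ) (hA : ∀ i j, (fun x => A x i j) ∈ S)
    (hB : ∀ i j, (fun x => B x i j) ∈ S) (i : l) (j : n) : (fun x => (A x * B x) i j) ∈ S := by
  have : (fun x => (A x * B x) i j) = ∑ k, (fun x => A x i k) * (fun x => B x k j) := by
    funext x
    rw [Matrix.mul_apply, Finset.sum_apply]
    rfl
  rw [this]
  exact S.sum_mem fun k _ => S.mul_mem (hA i k) (hB k j)

/-- conjugates of pairs of diagonal matrices -/
theorem eval_diag_pair {O : Subring ℂ} (hO : Good O) {l : ℕ}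
    (Q : MvPolynomial (Bool × Fin l × Fin l) ℂ)
    (hQ : ∀ a ∈ GO O l, ∀ b ∈ GO O l, a * b = b * a → MvPolynomial.eval (pt a.1 b.1) Q = 0)
    (h : G l) (d d' : Fin l → ℂ) :
    MvPolynomial.eval (pt (h.1 * Matrix.diagonal d * (h⁻¹).1)
      (h.1 * Matrix.diagonal d' * (h⁻¹).1)) Q = 0 := by
  -- first for `h ∈ GL_l(O)`
  have h1 : ∀ g ∈ GO O l, ∀ d d' : Fin l → ℂ,
      MvPolynomial.eval (pt (g.1 * Matrix.diagonal d * (g⁻¹).1)
        (g.1 * Matrix.diagonal d' * (g⁻¹).1)) Q = 0 := by
    intro g hg
    let Y : Bool → Matrix (Fin l) (Fin l) (MvPolynomial (Bool × Fin l) ℂ) := fun s =>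
      g.1.map MvPolynomial.C * Matrix.diagonal (fun i => MvPolynomial.X (s, i)) *
        (g⁻¹).1.map MvPolynomial.C
    have hY : ∀ (s : Bool) (y : Bool × Fin l → ℂ), (Y s).map (MvPolynomial.eval y) =
        g.1 * Matrix.diagonal (fun i => y (s, i)) * (g⁻¹).1 := by
      intro s y
      simp only [Y]
      rw [Matrix.map_mul, Matrix.map_mul, Matrix.diagonal_map (map_zero _)]
      congr 1
      · congr 1
        · ext i j; simp
        · congr 1; funext i; simp
      · ext i j; simp
    let H : MvPolynomial (Bool × Fin l) ℂ := MvPolynomial.aeval (pt (Y false) (Y true)) Q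
    have hH : ∀ y : Bool × Fin l → ℂ, MvPolynomial.eval y H =
        MvPolynomial.eval (pt (g.1 * Matrix.diagonal (fun i => y (false, i)) * (g⁻¹).1)
        (g.1 * Matrix.diagonal (fun i => y (true, i)) * (g⁻¹).1)) Q := by
      intro y
      simp only [H]
      rw [eval_aeval_mv, ← hY, ← hY]
      congr 2
      funext ⟨s, i, j⟩
      cases s <;> simp [pt]
    have hH0 : H = 0 := by
      obtain ⟨u, hu1, hu2, hu3⟩ := hO
      apply MvPolynomial.funext_set (fun _ => Set.range fun n : ℕ => ((u ^ n : ℂˣ) : ℂ))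
        (fun _ => pow_infinite hu3)
      intro y hy
      rw [Set.mem_univ_pi] at hy
      choose e he using hy
      have h4 : ∀ s, dg (fun i => u ^ e (s, i)) ∈ GO O l := fun s =>
        dg_mem (fun i => (pow_mem_units hu1 hu2 _).1) (fun i => (pow_mem_units hu1 hu2 _).2)
      have h6 : ∀ s, (dg fun i => u ^ e (s, i)).1 = Matrix.diagonal (fun i => y (s, i)) := by
        intro s
        change Matrix.diagonal (fun i => ((u ^ e (s, i) : ℂˣ) : ℂ)) = _
        congr 1
        funext i
        exact he (s, i)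
      have h5 := hQ (g * dg (fun i => u ^ e (false, i)) * g⁻¹)
        ((GO O l).mul_mem ((GO O l).mul_mem hg (h4 false)) ((GO O l).inv_mem hg))
        (g * dg (fun i => u ^ e (true, i)) * g⁻¹)
        ((GO O l).mul_mem ((GO O l).mul_mem hg (h4 true)) ((GO O l).inv_mem hg)) (by
          have h7 : dg (fun i => u ^ e (false, i)) * dg (fun i => u ^ e (true, i)) =
              dg (fun i => u ^ e (true, i)) * dg (fun i => u ^ e (false, i)) := by
            apply Units.ext
            rw [Units.val_mul, Units.val_mul, h6, h6, Matrix.diagonal_mul_diagonal,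
              Matrix.diagonal_mul_diagonal]
            congr 1
            funext i
            exact mul_comm _ _
          calc _ = g * (dg (fun i => u ^ e (false, i)) * dg (fun i => u ^ e (true, i))) * g⁻¹ := by
                group
            _ = g * (dg (fun i => u ^ e (true, i)) * dg (fun i => u ^ e (false, i))) * g⁻¹ := by
                rw [h7]
            _ = _ := by group)
      rw [hH, map_zero, ← h6, ← h6]
      exact h5
    intro d d'
    have h8 := hH (fun p => if p.1 then d' p.2 else d p.2)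
    rw [hH0, map_zero] at h8
    simpa using h8.symm
  -- now all `h`
  have h2 : (fun h : G l => MvPolynomial.eval (fun p => (fun (p : Bool × Fin l × Fin l) (h : G l) =>
      pt (h.1 * Matrix.diagonal d * (h⁻¹).1) (h.1 * Matrix.diagonal d' * (h⁻¹).1) p) p h) Q) ∈
      polyFun l := by
    apply aeval_fun_mem
    have h3 : ∀ (d : Fin l → ℂ) (i j : Fin l),
        (fun h : G l => (h.1 * Matrix.diagonal d * (h⁻¹).1) i j) ∈ polyFun l := by
      intro d
      apply mul_entries_mem
      · apply mul_entries_mem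
        · exact entry_mem_polyFun
        · intro i j; exact const_mem _ _
      · exact inv_entry_mem_polyFun
    rintro ⟨s, i, j⟩
    cases s
    · exact h3 d i j
    · exact h3 d' i j
  exact polyFun_zero hO h2 (fun x hx => h1 x hx d d') h

/-- a matrix with separable characteristic polynomial is diagonalizable -/
theorem exists_diag {l : ℕ} (x : Matrix (Fin l) (Fin l) ℂ) (hx : x.charpoly.Separable) :
    ∃ (h : G l) (d : Fin l → ℂ), x = h.1 * Matrix.diagonal d * (h⁻¹).1 := by
  classical
  have hnd : x.charpoly.roots.Nodup := Polynomial.nodup_roots hx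
  have hcard : x.charpoly.roots.card = l := by
    rw [← Polynomial.Splits.natDegree_eq_card_roots (IsAlgClosed.splits _),
      Matrix.charpoly_natDegree_eq_dim, Fintype.card_fin]
  have hcf : x.charpoly.roots.toFinset.card = l := by
    rw [Multiset.toFinset_card_of_nodup hnd, hcard]
  let μ : Fin l → ℂ := fun i => (x.charpoly.roots.toFinset.equivFinOfCardEq hcf).symm i
  have hμinj : Function.Injective μ := by
    intro i j hij
    exact (x.charpoly.roots.toFinset.equivFinOfCardEq hcf).symm.injective (Subtype.ext hij)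
  have hμroot : ∀ i, x.charpoly.IsRoot (μ i) := by
    intro i
    have := ((x.charpoly.roots.toFinset.equivFinOfCardEq hcf).symm i).2
    rw [Multiset.mem_toFinset] at this
    exact Polynomial.isRoot_of_mem_roots this
  have hv : ∀ i, ∃ v : Fin l → ℂ, v ≠ 0 ∧ x *ᵥ v = μ i • v := by
    intro i
    have h1 : (Matrix.scalar (Fin l) (μ i) - x).det = 0 := by
      have := hμroot i
      rw [Polynomial.IsRoot, Matrix.eval_charpoly] at this
      exact this
    obtain ⟨v, hv0, hv⟩ := Matrix.exists_mulVec_eq_zero_iff.2 h1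
    refine ⟨v, hv0, ?_⟩
    rw [Matrix.sub_mulVec, sub_eq_zero] at hv
    rw [← hv]
    ext j
    simp [Matrix.scalar_apply, Matrix.mulVec_diagonal]
  choose v hv0 hv using hv
  let f : Module.End ℂ (Fin l → ℂ) := Matrix.toLin' x
  have hli : LinearIndependent ℂ v := by
    apply Module.End.eigenvectors_linearIndependent' f μ hμinj v
    intro i
    rw [Module.End.hasEigenvector_iff, Module.End.mem_eigenspace_iff]
    exact ⟨by simp only [f, Matrix.toLin'_apply]; exact hv i, hv0 i⟩
  let M : Matrix (Fin l) (Fin l) ℂ := Matrix.of fun i j => v j i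
  have hM : IsUnit M := by
    rw [← Matrix.linearIndependent_cols_iff_isUnit]
    exact hli
  obtain ⟨h, hh⟩ := hM
  refine ⟨h, μ, ?_⟩
  have h3 : x * h.1 = h.1 * Matrix.diagonal μ := by
    rw [hh]
    ext i j
    have h4 := congrFun (hv j) i
    rw [Matrix.mul_diagonal, Matrix.mul_apply]
    simp only [M, Matrix.of_apply]
    rw [Pi.smul_apply, smul_eq_mul, mul_comm] at h4
    rw [← h4]
    rfl
  calc x = x * (h.1 * (h⁻¹).1) := by rw [← Units.val_mul, mul_inv_cancel]; simp
    _ = _ := by rw [← mul_assoc, h3]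

/-- **commuting pairs** -/
theorem eval_comm_pair' {O : Subring ℂ} (hO : Good O) {l : ℕ}
    (hnd : ∀ b : Matrix (Fin l) (Fin l) ℂ, ∃ (c : Matrix (Fin l) (Fin l) ℂ) (v : Fin l → ℂ),
      c * b = b * c ∧ (cyc c v).det ≠ 0)
    (Q : MvPolynomial (Bool × Fin l × Fin l) ℂ)
    (hQ : ∀ a ∈ GO O l, ∀ b ∈ GO O l, a * b = b * a → MvPolynomial.eval (pt a.1 b.1) Q = 0)
    (a b : Matrix (Fin l) (Fin l) ℂ) (hab : a * b = b * a) :
    MvPolynomial.eval (pt a b) Q = 0 := by
  apply comm_pair_of hnd Q ?_ a b hab
  intro x q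
  apply poly_pair_of Q ?_ x q
  intro x hx q
  obtain ⟨h, d, rfl⟩ := exists_diag x hx
  have h1 : ∀ n : ℕ, (h.1 * Matrix.diagonal d * (h⁻¹).1) ^ n =
      h.1 * Matrix.diagonal (d ^ n) * (h⁻¹).1 := by
    intro n
    induction n with
    | zero =>
      rw [pow_zero, pow_zero]
      have : Matrix.diagonal (1 : Fin l → ℂ) = 1 := Matrix.diagonal_one
      rw [this, mul_one, ← Units.val_mul, mul_inv_cancel]; rfl
    | succ n ih =>
      rw [pow_succ, ih, pow_succ]
      have h2 : (h⁻¹).1 * h.1 = 1 := by rw [← Units.val_mul, inv_mul_cancel]; rfl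
      calc _ = h.1 * Matrix.diagonal (d ^ n) * ((h⁻¹).1 * h.1) * Matrix.diagonal d * (h⁻¹).1 := by
            simp only [mul_assoc]
        _ = h.1 * (Matrix.diagonal (d ^ n) * Matrix.diagonal d) * (h⁻¹).1 := by
            rw [h2, mul_one]; simp only [mul_assoc]
        _ = _ := by
            rw [Matrix.diagonal_mul_diagonal]; rfl
  have h3 : (∑ i : Fin l, q i • (h.1 * Matrix.diagonal d * (h⁻¹).1) ^ (i : ℕ)) =
      h.1 * Matrix.diagonal (∑ i : Fin l, q i • d ^ (i : ℕ)) * (h⁻¹).1 := by
    have h4 : Matrix.diagonal (∑ i : Fin l, q i • d ^ (i : ℕ)) =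
        ∑ i : Fin l, q i • Matrix.diagonal (d ^ (i : ℕ)) := by
      ext a b
      rw [Matrix.sum_apply]
      by_cases hab : a = b
      · subst hab; simp
      · simp [hab]
    rw [h4, Finset.mul_sum, Finset.sum_mul]
    refine Finset.sum_congr rfl fun i _ => ?_
    rw [h1, Matrix.mul_smul, Matrix.smul_mul]
  rw [h3]
  exact eval_diag_pair hO Q hQ h _ _

end Crest.Agent.R003.Tor
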