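import Crest.Agent.R003.Tor363a
import Crest.Agent.R003.Tor363d

/-!
# R003 (helper363), file e: the case `h = 1` of `Closed`
-/

set_option autoImplicit false

namespace Crest.Agent.R003.Tor

open Matrix Module

section units

variable {k m l : ℕ} (e : Fin m × Fin l ≃ Fin k)

theorem val_mul_inv_val {n : ℕ} (a : G n) : a.1 * (a⁻¹).1 = 1 := by
  rw [← Units.val_mul, mul_inv_cancel]; rfl

theorem inv_val_mul_val {n : ℕ} (a : G n) : (a⁻¹).1 * a.1 = 1 := by
  rw [← Units.val_mul, inv_mul_cancel]; rfl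

/-- the block shift as a unit -/
def shiftU (a : G l) : G k where
  val := (shiftMat m a.1).submatrix e.symm e.symm
  inv := (unshiftMat m (a⁻¹).1).submatrix e.symm e.symm
  val_inv := by
    rw [Matrix.submatrix_mul_equiv, shift_mul_unshift (val_mul_inv_val a),
      Matrix.submatrix_one_equiv]
  inv_val := by
    rw [Matrix.submatrix_mul_equiv, mul_eq_one_comm.1 (shift_mul_unshift (val_mul_inv_val a)),
      Matrix.submatrix_one_equiv]

/-- the block diagonal matrix as a unit -/
def diagU (c : ℂˣ) (b : G l) : G k where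
  val := (diagMat m (c : ℂ) b.1).submatrix e.symm e.symm
  inv := (diagMat m ((c⁻¹ : ℂˣ) : ℂ) (b⁻¹).1).submatrix e.symm e.symm
  val_inv := by
    rw [Matrix.submatrix_mul_equiv, diag_mul_apply, ← Units.val_mul, mul_inv_cancel, Units.val_one,
      val_mul_inv_val, diag_one, Matrix.submatrix_one_equiv]
  inv_val := by
    rw [Matrix.submatrix_mul_equiv, diag_mul_apply, ← Units.val_mul, inv_mul_cancel, Units.val_one,
      inv_val_mul_val, diag_one, Matrix.submatrix_one_equiv]

theorem shiftU_mem {O : Subring ℂ} {a : G l} (ha : a ∈ GO O l) : shiftU e a ∈ GO O k := by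
  intro i j
  constructor
  · change shiftMat m a.1 (e.symm i) (e.symm j) ∈ O
    rw [shiftMat]
    split_ifs
    · exact O.one_mem
    · exact O.zero_mem
    · exact (ha _ _).1
    · exact O.zero_mem
  · change unshiftMat m (a⁻¹).1 (e.symm i) (e.symm j) ∈ O
    rw [unshiftMat]
    split_ifs
    · exact (ha _ _).2
    · exact O.zero_mem
    · exact O.one_mem
    · exact O.zero_mem

theorem diagU_mem {O : Subring ℂ} {c : ℂˣ} (hc : (c : ℂ) ∈ O) (hc' : ((c⁻¹ : ℂˣ) : ℂ) ∈ O)
    {b : G l} (hb : b ∈ GO O l) : diagU e c b ∈ GO O k := by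
  intro i j
  constructor
  · change diagMat m (c : ℂ) b.1 (e.symm i) (e.symm j) ∈ O
    rw [diagMat]
    split_ifs
    · exact O.mul_mem (O.pow_mem hc _) (hb _ _).1
    · exact O.zero_mem
  · change diagMat m ((c⁻¹ : ℂˣ) : ℂ) (b⁻¹).1 (e.symm i) (e.symm j) ∈ O
    rw [diagMat]
    split_ifs
    · exact O.mul_mem (O.pow_mem hc' _) (hb _ _).2
    · exact O.zero_mem

theorem shift_diag_val {c : ℂ} (hc : c ^ m = 1) {a b : Matrix (Fin l) (Fin l) ℂ}
    (hab : a * b = b * a) :
    c • ((shiftMat m a).submatrix e.symm e.symm * (diagMat m c b).submatrix e.symm e.symm) =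
      (diagMat m c b).submatrix e.symm e.symm * (shiftMat m a).submatrix e.symm e.symm := by
  rw [Matrix.submatrix_mul_equiv, Matrix.submatrix_mul_equiv, ← shift_diag hc hab]
  rfl

end units

section poly

variable {k : ℕ}

/-- generic matrices -/
noncomputable def gen2 (k : ℕ) (s : Bool) :
    Matrix (Fin k) (Fin k) (MvPolynomial (Bool × Fin k × Fin k) ℂ) :=
  Matrix.of fun i j => MvPolynomial.X (s, i, j)

theorem gen2_map (A B : Matrix (Fin k) (Fin k) ℂ) (s : Bool) :
    (gen2 k s).map (MvPolynomial.eval (pt A B)) = if s then B else A := by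
  ext i j
  cases s <;> simp [gen2, pt]

/-- functions on pairs of invertible matrices that become polynomial after multiplication by a power
of the determinants -/
def polyFun2 (k : ℕ) : Subalgebra ℂ ((Fin 1 × Bool → G k) → ℂ) where
  carrier := {F | ∃ (N : ℕ) (H : MvPolynomial (Bool × Fin k × Fin k) ℂ), ∀ T : Fin 1 × Bool → G k,
    F T * ((T (0, false)).1.det * (T (0, true)).1.det) ^ N =
      MvPolynomial.eval (pt (T (0, false)).1 (T (0, true)).1) H}
  mul_mem' := by
    rintro F F' ⟨N, H, h⟩ ⟨N', H', h'⟩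
    refine ⟨N + N', H * H', fun g => ?_⟩
    rw [map_mul, ← h, ← h', Pi.mul_apply, pow_add]
    ring
  add_mem' := by
    rintro F F' ⟨N, H, h⟩ ⟨N', H', h'⟩
    refine ⟨N + N', H * ((gen2 k false).det * (gen2 k true).det) ^ N' +
      H' * ((gen2 k false).det * (gen2 k true).det) ^ N, fun T => ?_⟩
    have hd : ∀ s, MvPolynomial.eval (pt (T (0, false)).1 (T (0, true)).1) (gen2 k s).det =
        (T (0, s)).1.det := by
      intro s
      rw [RingHom.map_det, RingHom.mapMatrix_apply, gen2_map]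
      cases s <;> rfl
    rw [map_add, map_mul, map_mul, map_pow, map_pow, map_mul, hd, hd, ← h, ← h', Pi.add_apply,
      pow_add]
    ring
  algebraMap_mem' := by
    intro r
    exact ⟨0, MvPolynomial.C r, fun g => by simp⟩

theorem pol_le_polyFun2 : Pol (Fin 1 × Bool) k ≤ polyFun2 k := by
  refine Algebra.adjoin_le ?_
  rintro F (⟨⟨t, s⟩, i, j, rfl⟩ | ⟨⟨t, s⟩, i, j, rfl⟩)
  · obtain rfl : t = 0 := Subsingleton.elim _ _
    refine ⟨0, MvPolynomial.X (s, i, j), fun T => ?_⟩
    cases s <;> simp [pt]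
  · obtain rfl : t = 0 := Subsingleton.elim _ _
    refine ⟨1, (gen2 k s).adjugate i j * (gen2 k (!s)).det, fun T => ?_⟩
    have hd : ∀ s, MvPolynomial.eval (pt (T (0, false)).1 (T (0, true)).1) (gen2 k s).det =
        (T (0, s)).1.det := by
      intro s
      rw [RingHom.map_det, RingHom.mapMatrix_apply, gen2_map]
      cases s <;> rfl
    have h1 : MvPolynomial.eval (pt (T (0, false)).1 (T (0, true)).1) ((gen2 k s).adjugate i j) =
        (T (0, s)).1.adjugate i j := by
      have := RingHom.map_adjugate (MvPolynomial.eval (pt (T (0, false)).1 (T (0, true)).1))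
        (gen2 k s)
      rw [RingHom.mapMatrix_apply, RingHom.mapMatrix_apply, gen2_map] at this
      rw [← Matrix.map_apply (f := MvPolynomial.eval _), this]
      cases s <;> rfl
    have h2 : ((T (0, s))⁻¹).1 = (T (0, s)).1⁻¹ := Matrix.coe_units_inv _
    change ((T (0, s))⁻¹).1 i j * _ = _
    rw [map_mul, hd, h1, h2, pow_one, Matrix.inv_def, Matrix.smul_apply, smul_eq_mul]
    have h3 : (T (0, s)).1.det * Ring.inverse (T (0, s)).1.det = 1 :=
      Ring.mul_inverse_cancel _ ((Matrix.isUnit_iff_isUnit_det _).1 (T (0, s)).isUnit)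
    have h4 : (T (0, false)).1.det * (T (0, true)).1.det =
        (T (0, s)).1.det * (T (0, !s)).1.det := by
      cases s
      · rfl
      · exact mul_comm _ _
    rw [h4]
    linear_combination (T (0, s)).1.adjugate i j * (T (0, !s)).1.det * h3

end poly

/-- matrix version of the normal form -/
theorem exists_form {k m : ℕ} (hm : 0 < m) {ξ : ℂ} (hξ : IsPrimitiveRoot ξ m) (A B : G k)
    (h : A.1 * B.1 = ξ • (B.1 * A.1)) :
    ∃ (l : ℕ) (e : Fin m × Fin l ≃ Fin k) (g : G k) (a b : G l), a.1 * b.1 = b.1 * a.1 ∧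
      A.1 = g.1 * (shiftMat m a.1).submatrix e.symm e.symm * (g⁻¹).1 ∧
      B.1 = g.1 * (diagMat m ξ⁻¹ b.1).submatrix e.symm e.symm * (g⁻¹).1 := by
  classical
  have hA : IsUnit (Matrix.toLin' A.1) := A.isUnit.map (Matrix.toLinAlgEquiv' (R := ℂ))
  have hB : IsUnit (Matrix.toLin' B.1) := B.isUnit.map (Matrix.toLinAlgEquiv' (R := ℂ))
  have hAB : Matrix.toLin' A.1 * Matrix.toLin' B.1 =
      ξ • (Matrix.toLin' B.1 * Matrix.toLin' A.1) := by
    have h1 := congrArg Matrix.toLin' h
    rw [map_smul, Matrix.toLin'_mul, Matrix.toLin'_mul] at h1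
    exact h1
  obtain ⟨l, β, a, b, hab, hau, hbu, h1, h2⟩ := exists_basis hm hξ hA hB hAB
  obtain ⟨a, rfl⟩ := hau
  obtain ⟨b, rfl⟩ := hbu
  let e : Fin m × Fin l ≃ Fin k := β.indexEquiv (Pi.basisFun ℂ (Fin k))
  let β' : Basis (Fin k) ℂ (Fin k → ℂ) := β.reindex e
  let g : G k := ⟨(Pi.basisFun ℂ (Fin k)).toMatrix β', β'.toMatrix (Pi.basisFun ℂ (Fin k)),
    Basis.toMatrix_mul_toMatrix_flip _ _, Basis.toMatrix_mul_toMatrix_flip _ _⟩
  have key : ∀ M : Matrix (Fin k) (Fin k) ℂ,
      M = g.1 * (LinearMap.toMatrix β β (Matrix.toLin' M)).submatrix e.symm e.symm * (g⁻¹).1 := by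
    intro M
    have h3 : (LinearMap.toMatrix β β (Matrix.toLin' M)).submatrix e.symm e.symm =
        LinearMap.toMatrix β' β' (Matrix.toLin' M) := by
      ext i j
      rw [Matrix.submatrix_apply, LinearMap.toMatrix_apply, LinearMap.toMatrix_apply]
      simp [β']
    rw [h3]
    change M = (Pi.basisFun ℂ (Fin k)).toMatrix β' * _ * β'.toMatrix (Pi.basisFun ℂ (Fin k))
    rw [basis_toMatrix_mul_linearMap_toMatrix_mul_basis_toMatrix, LinearMap.toMatrix_eq_toMatrix',
      LinearMap.toMatrix'_toLin']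
  refine ⟨l, e, g, a, b, hab, ?_, ?_⟩
  · rw [← h1]; exact key _
  · rw [← h2]; exact key _

theorem conj_rel {k : ℕ} (g : G k) {ξ : ℂ} {x y : Matrix (Fin k) (Fin k) ℂ}
    (h : x * y = ξ • (y * x)) :
    g.1 * x * (g⁻¹).1 * (g.1 * y * (g⁻¹).1) =
      ξ • (g.1 * y * (g⁻¹).1 * (g.1 * x * (g⁻¹).1)) := by
  have h7 : ∀ x y : Matrix (Fin k) (Fin k) ℂ, g.1 * x * (g⁻¹).1 * (g.1 * y * (g⁻¹).1) =
      g.1 * (x * y) * (g⁻¹).1 := by
    intro x y
    calc _ = g.1 * x * ((g⁻¹).1 * g.1) * y * (g⁻¹).1 := by simp only [mul_assoc]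
      _ = _ := by rw [inv_val_mul_val, mul_one]; simp only [mul_assoc]
  rw [h7, h7, h, Matrix.mul_smul, Matrix.smul_mul]

/-- **`h = 1`** -/
theorem closed_one {O : Subring ℂ} (hO : Good O)
    (hnd : ∀ (l : ℕ) (b : Matrix (Fin l) (Fin l) ℂ), ∃ (c : Matrix (Fin l) (Fin l) ℂ)
      (v : Fin l → ℂ), c * b = b * c ∧ (cyc c v).det ≠ 0)
    (k : ℕ) (ξ : ℂˣ) (hξ : IsSc O ξ) (T : Fin 1 × Bool → G k)
    (hT : ((List.finRange 1).map fun i => T (i, false) * T (i, true) * (T (i, false))⁻¹ *
      (T (i, true))⁻¹).prod = scal k k ξ) :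
    Appr O {T : Fin 1 × Bool → G k | ((List.finRange 1).map fun i => T (i, false) * T (i, true) *
      (T (i, false))⁻¹ * (T (i, true))⁻¹).prod = scal k k ξ} Set.univ T := by
  have hprod : ∀ T : Fin 1 × Bool → G k, ((List.finRange 1).map fun i => T (i, false) * T (i, true) *
      (T (i, false))⁻¹ * (T (i, true))⁻¹).prod = T (0, false) * T (0, true) *
      (T (0, false))⁻¹ * (T (0, true))⁻¹ := by
    intro T
    simp [List.finRange_succ]
  have hsc : (scal k k ξ : G k).1 = (ξ : ℂ) • (1 : Matrix (Fin k) (Fin k) ℂ) := by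
    ext i j
    change Matrix.diagonal (fun i : Fin k => ((if i.1 < k then ξ else 1 : ℂˣ) : ℂ)) i j = _
    rw [Matrix.diagonal_apply, Matrix.smul_apply, Matrix.one_apply]
    simp
  have hiff : ∀ A B : G k, A * B * A⁻¹ * B⁻¹ = scal k k ξ ↔ A.1 * B.1 = (ξ : ℂ) • (B.1 * A.1) := by
    intro A B
    rw [mul_inv_eq_iff_eq_mul, mul_inv_eq_iff_eq_mul, Units.ext_iff, Units.val_mul, Units.val_mul,
      Units.val_mul, hsc]
    simp
  obtain ⟨hξO, r, hr, hξr⟩ := hξ
  set m := orderOf ξ with hmdef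
  have hm : 0 < m := orderOf_pos_iff.2 (isOfFinOrder_iff_pow_eq_one.2 ⟨r, hr, hξr⟩)
  have hprim : IsPrimitiveRoot (ξ : ℂ) m :=
    IsPrimitiveRoot.coe_units_iff.2 (IsPrimitiveRoot.orderOf ξ)
  have hξinv : ((ξ⁻¹ : ℂˣ) : ℂ) ∈ O := by
    have h1 : ξ⁻¹ = ξ ^ (m - 1) := by
      rw [inv_eq_iff_mul_eq_one, ← pow_succ', Nat.sub_add_cancel hm]
      exact pow_orderOf_eq_one ξ
    rw [h1, Units.val_pow_eq_pow_val]
    exact O.pow_mem hξO _
  have hinvinv : (((ξ⁻¹)⁻¹ : ℂˣ) : ℂ) ∈ O := by rw [inv_inv]; exact hξO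
  have hξm : ((ξ⁻¹ : ℂˣ) : ℂ) ^ m = 1 := by
    rw [← Units.val_pow_eq_pow_val, inv_pow, pow_orderOf_eq_one, inv_one, Units.val_one]
  intro F hF hvan
  obtain ⟨N, P, hP⟩ := pol_le_polyFun2 hF
  -- `P` vanishes at the integral solutions
  have hPv : ∀ A ∈ GO O k, ∀ B ∈ GO O k, A.1 * B.1 = (ξ : ℂ) • (B.1 * A.1) →
      MvPolynomial.eval (pt A.1 B.1) P = 0 := by
    intro A hA B hB hAB
    let T' : Fin 1 × Bool → G k := fun p => if p.2 then B else A
    have h1 : F T' = 0 := by
      apply hvan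
      · change _ = _
        rw [hprod]
        exact (hiff A B).2 hAB
      · rintro ⟨t, s⟩ _
        cases s
        · exact hA
        · exact hB
    have h2 := hP T'
    rw [h1, zero_mul] at h2
    exact h2.symm
  -- the point
  rw [hprod, hiff] at hT
  obtain ⟨l, e, g, a, b, hab, hA, hB⟩ := exists_form hm hprim (T (0, false)) (T (0, true)) hT
  -- integral `g`
  have h1 : ∀ g ∈ GO O k, MvPolynomial.eval (pt (g.1 * (shiftMat m a.1).submatrix e.symm e.symm *
      (g⁻¹).1) (g.1 * (diagMat m ((ξ⁻¹ : ℂˣ) : ℂ) b.1).submatrix e.symm e.symm * (g⁻¹).1)) P = 0 := by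
    intro g hg
    let Y : Bool → Matrix (Fin k) (Fin k) (MvPolynomial (Bool × Fin l × Fin l) ℂ) := fun s =>
      g.1.map MvPolynomial.C * (if s then
        (diagMat m (MvPolynomial.C ((ξ⁻¹ : ℂˣ) : ℂ)) (gen2 l true)).submatrix e.symm e.symm else
        (shiftMat m (gen2 l false)).submatrix e.symm e.symm) * (g⁻¹).1.map MvPolynomial.C
    let Q : MvPolynomial (Bool × Fin l × Fin l) ℂ := MvPolynomial.aeval (pt (Y false) (Y true)) P
    have hQ : ∀ a b : Matrix (Fin l) (Fin l) ℂ, MvPolynomial.eval (pt a b) Q =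
        MvPolynomial.eval (pt (g.1 * (shiftMat m a).submatrix e.symm e.symm *
      (g⁻¹).1) (g.1 * (diagMat m ((ξ⁻¹ : ℂˣ) : ℂ) b).submatrix e.symm e.symm * (g⁻¹).1)) P := by
      intro a b
      have h2 : (Y false).map (MvPolynomial.eval (pt a b)) =
          g.1 * (shiftMat m a).submatrix e.symm e.symm * (g⁻¹).1 := by
        simp only [Y]
        rw [Matrix.map_mul, Matrix.map_mul]
        congr 1
        · congr 1
          · ext i j; simp
          · ext i j
            simp only [if_false, Bool.false_eq_true, Matrix.map_apply, Matrix.submatrix_apply]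
            have h4 : ∀ p q : Fin m × Fin l, MvPolynomial.eval (pt a b) (shiftMat m (gen2 l false) p q) =
                shiftMat m a p q := by
              intro p q
              rw [shiftMat, shiftMat]
              split_ifs
              · exact map_one _
              · exact map_zero _
              · simp [gen2, pt]
              · exact map_zero _
            exact h4 _ _
        · ext i j; simp
      have h3 : (Y true).map (MvPolynomial.eval (pt a b)) =
          g.1 * (diagMat m ((ξ⁻¹ : ℂˣ) : ℂ) b).submatrix e.symm e.symm * (g⁻¹).1 := by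
        simp only [Y]
        rw [Matrix.map_mul, Matrix.map_mul]
        congr 1
        · congr 1
          · ext i j; simp
          · ext i j
            simp only [if_true, Matrix.map_apply, Matrix.submatrix_apply]
            have h4 : ∀ p q : Fin m × Fin l, MvPolynomial.eval (pt a b)
                (diagMat m (MvPolynomial.C ((ξ⁻¹ : ℂˣ) : ℂ)) (gen2 l true) p q) =
                diagMat m ((ξ⁻¹ : ℂˣ) : ℂ) b p q := by
              intro p q
              rw [diagMat, diagMat]
              split_ifs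
              · rw [map_mul, map_pow, MvPolynomial.eval_C]
                simp [gen2, pt]
              · exact map_zero _
            exact h4 _ _
        · ext i j; simp
      simp only [Q]
      rw [eval_aeval_mv, ← h2, ← h3]
      congr 2
      funext ⟨s, i, j⟩
      cases s <;> simp [pt]
    rw [← hQ]
    refine eval_comm_pair' hO (hnd l) Q ?_ a.1 b.1 hab
    intro a ha b hb hab
    rw [hQ]
    have hA' := (GO O k).mul_mem ((GO O k).mul_mem hg (shiftU_mem e ha)) ((GO O k).inv_mem hg)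
    have hB' := (GO O k).mul_mem ((GO O k).mul_mem hg (diagU_mem e hξinv hinvinv hb))
      ((GO O k).inv_mem hg)
    have hab' : a.1 * b.1 = b.1 * a.1 := by rw [← Units.val_mul, hab, Units.val_mul]
    have hs : (shiftU e a).1 = (shiftMat m a.1).submatrix e.symm e.symm := rfl
    have hd : (diagU e ξ⁻¹ b).1 = (diagMat m ((ξ⁻¹ : ℂˣ) : ℂ) b.1).submatrix e.symm e.symm := rfl
    have hv1 : (g * shiftU e a * g⁻¹).1 =
        g.1 * (shiftMat m a.1).submatrix e.symm e.symm * (g⁻¹).1 := by
      rw [Units.val_mul, Units.val_mul, hs]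
    have hv2 : (g * diagU e ξ⁻¹ b * g⁻¹).1 =
        g.1 * (diagMat m ((ξ⁻¹ : ℂˣ) : ℂ) b.1).submatrix e.symm e.symm * (g⁻¹).1 := by
      rw [Units.val_mul, Units.val_mul, hd]
    rw [← hv1, ← hv2]
    refine hPv _ hA' _ hB' ?_
    rw [hv1, hv2]
    exact conj_rel g (ξ := (ξ : ℂ)) (by
      have h6 := shift_diag_val e hξm hab'
      rw [← h6, smul_smul, ← Units.val_mul, mul_inv_cancel, Units.val_one, one_smul])
  -- all `g`
  have h2 : (fun h : G k => MvPolynomial.eval (fun p => (fun (p : Bool × Fin k × Fin k) (h : G k) =>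
      pt (h.1 * (shiftMat m a.1).submatrix e.symm e.symm * (h⁻¹).1)
        (h.1 * (diagMat m ((ξ⁻¹ : ℂˣ) : ℂ) b.1).submatrix e.symm e.symm * (h⁻¹).1) p) p h) P) ∈
      polyFun k := by
    apply aeval_fun_mem
    have h3 : ∀ (d : Matrix (Fin k) (Fin k) ℂ) (i j : Fin k),
        (fun h : G k => (h.1 * d * (h⁻¹).1) i j) ∈ polyFun k := by
      intro d
      apply mul_entries_mem
      · apply mul_entries_mem
        · exact entry_mem_polyFun
        · intro i j; exact const_mem _ _
      · exact inv_entry_mem_polyFun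
    rintro ⟨s, i, j⟩
    cases s
    · exact h3 _ i j
    · exact h3 _ i j
  have h3 : MvPolynomial.eval (pt (T (0, false)).1 (T (0, true)).1) P = 0 := by
    rw [hA, hB]
    have := polyFun_zero hO h2 h1 g
    rw [Units.val_inv_eq_inv_val] at this
    exact this
  have h4 := hP T
  rw [h3] at h4
  refine (mul_eq_zero.1 h4).resolve_right (pow_ne_zero _ (mul_ne_zero ?_ ?_))
  · exact ((Matrix.isUnit_iff_isUnit_det _).1 (T (0, false)).isUnit).ne_zero
  · exact ((Matrix.isUnit_iff_isUnit_det _).1 (T (0, true)).isUnit).ne_zero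

end Crest.Agent.R003.Tor
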