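import Mathlib

/-!
# Row 3 (S0003), block (U): units of `O[B]` are Zariski dense (helper992)

Step 1: a consequence of Dirichlet's unit theorem.
-/

set_option autoImplicit false

namespace Crest.Agent.R003.Unit

open NumberField

/-- If `φ s` (`s : S`) are embeddings of the number field `E` with pairwise distinct places which do
not exhaust the places of `E`, then the `log ‖φ s ε‖` are linearly independent functions on units. -/
theorem exists_unit_log_ne_zero {E : Type*} [Field E] [NumberField E] {S : Type*} [Fintype S]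
    (φ : S → (E →+* ℂ)) (hinj : Function.Injective (fun s => InfinitePlace.mk (φ s)))
    (w' : InfinitePlace E) (hw' : ∀ s, InfinitePlace.mk (φ s) ≠ w') (m : S → ℝ) (hm : m ≠ 0) :
    ∃ ε : (𝓞 E)ˣ, ∑ s, m s * Real.log ‖φ s ((ε : 𝓞 E) : E)‖ ≠ 0 := by
  classical
  -- it is enough to treat the case when some `m s` is positive
  suffices H : ∀ m : S → ℝ, (∃ s, 0 < m s) →
      ∃ ε : (𝓞 E)ˣ, ∑ s, m s * Real.log ‖φ s ((ε : 𝓞 E) : E)‖ ≠ 0 by
    by_contra hcon
    push Not at hcon
    obtain ⟨s, hs⟩ := Function.ne_iff.mp hm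
    rcases lt_or_gt_of_ne hs with h | h
    · obtain ⟨ε, hε⟩ := H (fun s => - m s) ⟨s, by simpa using h⟩
      apply hε
      have := hcon ε
      simp only [neg_mul, Finset.sum_neg_distrib, neg_eq_zero]
      exact this
    · obtain ⟨ε, hε⟩ := H m ⟨s, h⟩
      exact hε (hcon ε)
  intro m hpos
  -- normalised coefficients
  set a : S → ℝ := fun s => m s / (InfinitePlace.mult (InfinitePlace.mk (φ s)) : ℝ) with ha
  have hmult : ∀ w : InfinitePlace E, (0 : ℝ) < (InfinitePlace.mult w : ℝ) := fun w => by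
    exact_mod_cast InfinitePlace.mult_pos
  obtain ⟨s0, -, hs0⟩ := Finset.exists_max_image Finset.univ a
    (by obtain ⟨s, -⟩ := hpos; exact ⟨s, Finset.mem_univ s⟩)
  have ha0 : 0 < a s0 := by
    obtain ⟨s, hs⟩ := hpos
    have : 0 < a s := div_pos hs (hmult _)
    exact lt_of_lt_of_le this (hs0 s (Finset.mem_univ _))
  obtain ⟨ε, hε⟩ := Units.dirichletUnitTheorem.exists_unit E (InfinitePlace.mk (φ s0))
  refine ⟨ε, ?_⟩
  set ℓ : InfinitePlace E → ℝ := fun w => (InfinitePlace.mult w : ℝ) * Real.log (w ((ε : 𝓞 E) : E))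
    with hℓ
  have hsum : ∑ w, ℓ w = 0 := Units.sum_mult_mul_log ε
  have hneg : ∀ w, w ≠ InfinitePlace.mk (φ s0) → ℓ w < 0 := fun w hw =>
    mul_neg_of_pos_of_neg (hmult w) (hε w hw)
  have hterm : ∀ s, m s * Real.log ‖φ s ((ε : 𝓞 E) : E)‖ = a s * ℓ (InfinitePlace.mk (φ s)) := by
    intro s
    simp only [ha, hℓ, InfinitePlace.apply]
    field_simp
  rw [Finset.sum_congr rfl (fun s _ => hterm s)]
  apply ne_of_gt
  have h1 : ∀ s, a s0 * ℓ (InfinitePlace.mk (φ s)) ≤ a s * ℓ (InfinitePlace.mk (φ s)) := by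
    intro s
    by_cases hs : s = s0
    · rw [hs]
    · have hne : InfinitePlace.mk (φ s) ≠ InfinitePlace.mk (φ s0) := fun h => hs (hinj h)
      exact mul_le_mul_of_nonpos_right (hs0 s (Finset.mem_univ _)) (hneg _ hne).le
  have h2 : 0 < ∑ s, ℓ (InfinitePlace.mk (φ s)) := by
    -- the sum over all places is zero, the remaining ones are negative
    have himg : ∑ s, ℓ (InfinitePlace.mk (φ s)) =
        ∑ w ∈ Finset.univ.image (fun s => InfinitePlace.mk (φ s)), ℓ w := by
      rw [Finset.sum_image (fun x _ y _ h => hinj h)]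
    rw [himg]
    have hsplit := Finset.sum_add_sum_compl (Finset.univ.image (fun s => InfinitePlace.mk (φ s))) ℓ
    rw [hsum] at hsplit
    have hc : ∑ w ∈ (Finset.univ.image (fun s => InfinitePlace.mk (φ s)))ᶜ, ℓ w < 0 := by
      apply Finset.sum_neg'
      · intro w hw
        simp only [Finset.mem_compl, Finset.mem_image, Finset.mem_univ, true_and, not_exists] at hw
        exact (hneg w (fun h => hw s0 h.symm)).le
      · refine ⟨w', ?_, ?_⟩
        · simp only [Finset.mem_compl, Finset.mem_image, Finset.mem_univ, true_and, not_exists]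
          exact hw'
        · exact hneg w' (fun h => hw' s0 h.symm)
    linarith
  calc (0 : ℝ) < a s0 * ∑ s, ℓ (InfinitePlace.mk (φ s)) := mul_pos ha0 h2
    _ = ∑ s, a s0 * ℓ (InfinitePlace.mk (φ s)) := Finset.mul_sum _ _ _
    _ ≤ ∑ s, a s * ℓ (InfinitePlace.mk (φ s)) := Finset.sum_le_sum fun s _ => h1 s

/-! Step 2: the trace polynomial. -/

open Polynomial

/-- Division of a polynomial by `X - C ν` for a root `ν`. -/
theorem eval_divByMonic_root (χ : ℂ[X]) (ν : ℂ) (hν : χ.eval ν = 0) :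
    (χ /ₘ (X - C ν)).eval ν = (derivative χ).eval ν ∧
      ∀ μ : ℂ, χ.eval μ = 0 → μ ≠ ν → (χ /ₘ (X - C ν)).eval μ = 0 := by
  have h : (X - C ν) * (χ /ₘ (X - C ν)) = χ := mul_divByMonic_eq_iff_isRoot.mpr hν
  constructor
  · have h2 := congrArg (fun p => (derivative p).eval ν) h
    simpa using h2
  · intro μ hμ hne
    have h2 := congrArg (fun p => p.eval μ) h
    simp only [eval_mul, eval_sub, eval_X, eval_C, hμ] at h2
    rcases mul_eq_zero.mp h2 with h3 | h3
    · exact absurd (sub_eq_zero.mp h3) hne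
    · exact h3

/-- For `χ ∈ K[X]` monic with integral coefficients, `lam ∈ E` a root, `y ∈ E` integral: there is
`t ∈ K[X]` with integral coefficients whose value at `φ lam` is `φ (y χ'(lam))` and whose value at all
the other roots of `χ` is `0`. -/
theorem exists_trace_poly {K E : Type*} [Field K] [CharZero K] [Field E] [Algebra K E]
    [FiniteDimensional K E] [Algebra K ℂ] (χ : K[X]) (hmon : χ.Monic)
    (hχ : ∀ i, IsIntegral ℤ (χ.coeff i)) (lam : E)
    (hroot : aeval lam χ = 0) (hlam : IsIntegral ℤ lam)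
    (hgen : ∀ φ ψ : E →ₐ[K] ℂ, φ lam = ψ lam → φ = ψ) (y : E) (hy : IsIntegral ℤ y) :
    ∃ t : K[X], (∀ i, IsIntegral ℤ (t.coeff i)) ∧
      (∀ φ : E →ₐ[K] ℂ, aeval (φ lam) t = φ (y * aeval lam (derivative χ))) ∧
      ∀ μ : ℂ, aeval μ χ = 0 → (∀ φ : E →ₐ[K] ℂ, φ lam ≠ μ) → aeval μ t = 0 := by
  classical
  set χE : E[X] := χ.map (algebraMap K E) with hχE
  have hχEmon : χE.Monic := hmon.map _
  -- the quotient has integral coefficients
  have hq : ∀ i, IsIntegral ℤ ((χE /ₘ (X - C lam)).coeff i) := by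
    let R := integralClosure ℤ E
    have hl : ∃ χR : R[X], χR.map (algebraMap R E) = χE := by
      have : χE ∈ Polynomial.lifts (algebraMap R E) := by
        rw [Polynomial.lifts_iff_coeff_lifts]
        intro i
        refine ⟨⟨χE.coeff i, ?_⟩, rfl⟩
        rw [hχE, coeff_map]
        exact (hχ i).map (algebraMap K E : K →+* E).toIntAlgHom
      obtain ⟨χR, hχR⟩ := this
      exact ⟨χR, hχR⟩
    obtain ⟨χR, hχR⟩ := hl
    let lR : R := ⟨lam, hlam⟩
    have h1 : (χE /ₘ (X - C lam)) = (χR /ₘ (X - C lR)).map (algebraMap R E) := by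
      rw [Polynomial.map_divByMonic _ (monic_X_sub_C lR), hχR]
      simp [lR]
    intro i
    rw [h1, coeff_map]
    exact ((χR /ₘ (X - C lR)).coeff i).2
  set P : E[X] := C y * (χE /ₘ (X - C lam)) with hP
  have hPint : ∀ i, IsIntegral ℤ (P.coeff i) := by
    intro i
    rw [hP, coeff_C_mul]
    exact hy.mul (hq i)
  let t : K[X] := ∑ i ∈ Finset.range (P.natDegree + 1), monomial i (Algebra.trace K E (P.coeff i))
  have htc : ∀ i, t.coeff i = Algebra.trace K E (P.coeff i) := by
    intro i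
    simp only [t, finsetSum_coeff, coeff_monomial]
    by_cases hi : i ∈ Finset.range (P.natDegree + 1)
    · rw [Finset.sum_eq_single i]
      · simp
      · intro b _ hb
        rw [if_neg hb]
      · intro h; exact absurd hi h
    · rw [Finset.sum_eq_zero]
      · have : P.natDegree < i := by
          simp only [Finset.mem_range, not_lt] at hi
          omega
        rw [coeff_eq_zero_of_natDegree_lt this, map_zero]
      · intro b hb
        rw [if_neg]
        intro hbi
        exact hi (hbi ▸ hb)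
  have htmap : t.map (algebraMap K ℂ) = ∑ φ : E →ₐ[K] ℂ, P.map (φ : E →+* ℂ) := by
    ext i
    rw [coeff_map, htc, finsetSum_coeff, trace_eq_sum_embeddings (K := K) (E := ℂ)]
    simp [coeff_map]
  have hQ : ∀ φ : E →ₐ[K] ℂ, P.map (φ : E →+* ℂ) =
      C (φ y) * ((χ.map (algebraMap K ℂ)) /ₘ (X - C (φ lam))) := by
    intro φ
    rw [hP, Polynomial.map_mul, map_C, Polynomial.map_divByMonic _ (monic_X_sub_C lam)]
    congr 2
    · rw [hχE, Polynomial.map_map]
      congr 1
      ext x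
      simp
    · simp
  have haev : ∀ μ : ℂ, aeval μ t =
      ∑ φ : E →ₐ[K] ℂ, φ y * ((χ.map (algebraMap K ℂ)) /ₘ (X - C (φ lam))).eval μ := by
    intro μ
    rw [← Polynomial.eval_map_algebraMap, htmap, eval_finsetSum]
    refine Finset.sum_congr rfl fun φ _ => ?_
    rw [hQ, eval_mul, eval_C]
  have hφroot : ∀ φ : E →ₐ[K] ℂ, (χ.map (algebraMap K ℂ)).eval (φ lam) = 0 := by
    intro φ
    rw [Polynomial.eval_map_algebraMap, aeval_algHom_apply, hroot, map_zero]
  refine ⟨t, ?_, ?_, ?_⟩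
  · intro i
    rw [htc]
    exact Algebra.isIntegral_trace (hPint i)
  · intro φ
    rw [haev, Finset.sum_eq_single φ]
    · rw [(eval_divByMonic_root _ _ (hφroot φ)).1, map_mul, derivative_map,
        Polynomial.eval_map_algebraMap, aeval_algHom_apply]
    · intro ψ _ hψ
      rw [(eval_divByMonic_root _ _ (hφroot ψ)).2 _ (hφroot φ), mul_zero]
      intro h
      exact hψ (hgen ψ φ h.symm)
    · intro h
      exact absurd (Finset.mem_univ φ) h
  · intro μ hμ hne
    rw [haev]
    refine Finset.sum_eq_zero fun φ _ => ?_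
    rw [(eval_divByMonic_root _ _ (hφroot φ)).2 μ, mul_zero]
    · rw [Polynomial.eval_map_algebraMap, hμ]
    · exact fun h => hne φ h.symm

/-! Step 3: powers of units congruent to one. -/

theorem exists_pow_sub_one {E : Type*} [Field E] [NumberField E] (ε : (𝓞 E)ˣ) (d : 𝓞 E)
    (hd : d ≠ 0) : ∃ N : ℕ, 0 < N ∧ ∃ y y' : 𝓞 E, (ε : 𝓞 E) ^ N - 1 = y * d ∧
      ((ε⁻¹ : (𝓞 E)ˣ) : 𝓞 E) ^ N - 1 = y' * d := by
  have hne : Ideal.span {d} ≠ ⊥ := by simpa using hd
  have : Finite (𝓞 E ⧸ Ideal.span {d}) := Ideal.finiteQuotientOfFreeOfNeBot _ hne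
  let f := Units.map (Ideal.Quotient.mk (Ideal.span {d}) : 𝓞 E →* 𝓞 E ⧸ Ideal.span {d})
  have hN : (f ε) ^ (Nat.card (𝓞 E ⧸ Ideal.span {d})ˣ) = 1 := pow_card_eq_one'
  refine ⟨Nat.card (𝓞 E ⧸ Ideal.span {d})ˣ, Nat.card_pos, ?_⟩
  have key : ∀ u : (𝓞 E)ˣ, f u = 1 → ∃ y : 𝓞 E, (u : 𝓞 E) - 1 = y * d := by
    intro u hu
    have h1 : (Ideal.Quotient.mk (Ideal.span {d})) ((u : 𝓞 E) - 1) = 0 := by
      rw [map_sub, map_one, sub_eq_zero]
      exact congrArg Units.val hu
    rw [Ideal.Quotient.eq_zero_iff_mem, Ideal.mem_span_singleton'] at h1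
    obtain ⟨y, hy⟩ := h1
    exact ⟨y, hy.symm⟩
  obtain ⟨y, hy⟩ := key (ε ^ _) (by rw [map_pow]; exact hN)
  obtain ⟨y', hy'⟩ := key (ε⁻¹ ^ _) (by rw [map_pow, map_inv, inv_pow, hN, inv_one])
  refine ⟨y, y', ?_, ?_⟩
  · simpa using hy
  · simpa using hy'

/-! Step 4: units of `O[x]/(χ)` separate the characters. -/

theorem exists_extend {K E : Type*} [Field K] [Field E] [Algebra K E] [Algebra.IsAlgebraic K E]
    (σ : K →+* ℂ) : ∃ τ : E →+* ℂ, τ.comp (algebraMap K E) = σ := by
  algebraize [σ]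
  exact ⟨(IsAlgClosed.lift : E →ₐ[K] ℂ), AlgHom.comp_algebraMap _⟩

/-- Hypotheses on `O`: it is the ring of integers of the number field `L ⊂ ℂ`, which is not real and
has an archimedean place which is not above the identity embedding. -/
structure IsIntRing (O : Subring ℂ) (L : Subfield ℂ) : Prop where
  fin : FiniteDimensional ℚ L
  mem : ∀ z, z ∈ O ↔ z ∈ L ∧ IsIntegral ℤ z
  nonreal : ∃ z ∈ L, (starRingEnd ℂ) z ≠ z
  place : ∃ σ : L →+* ℂ, σ ≠ L.subtype ∧ σ ≠ (starRingEnd ℂ).comp L.subtype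

variable {O : Subring ℂ} {L : Subfield ℂ}

/-- For a monic separable `χ` with coefficients in `O` and integers `n ν` for the roots `ν` of `χ`,
not all zero: there are `u v ∈ O[x]` with `u(ν) v(ν) = 1` for all roots `ν` of `χ` and
`∏ |u(ν)|^(n ν) ≠ 1`. -/
theorem exists_unit_poly (hO : IsIntRing O L) (χ : ℂ[X]) (hmon : χ.Monic)
    (hχO : ∀ i, χ.coeff i ∈ O) (hsep : χ.Separable) (R : Finset ℂ) (hR : ∀ ν, ν ∈ R ↔ χ.eval ν = 0)
    (n : ℂ → ℤ) (ν0 : ℂ) (hν0 : ν0 ∈ R) (hn : n ν0 ≠ 0) :
    ∃ u v : ℂ[X], (∀ i, u.coeff i ∈ O) ∧ (∀ i, v.coeff i ∈ O) ∧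
      (∀ ν ∈ R, u.eval ν * v.eval ν = 1) ∧ ∏ ν ∈ R, (u.eval ν) ^ (n ν) ≠ 1 := by
  classical
  have := hO.fin
  -- the polynomial over `L`
  obtain ⟨χL, hχL⟩ : ∃ χL : L[X], χL.map L.subtype = χ := by
    have : χ ∈ Polynomial.lifts L.subtype := by
      rw [Polynomial.lifts_iff_coeff_lifts]
      intro i
      exact ⟨⟨χ.coeff i, ((hO.mem _).mp (hχO i)).1⟩, rfl⟩
    exact this
  have hamap : (algebraMap L ℂ) = L.subtype := rfl
  have hLmon : χL.Monic := by
    have := hmon
    rw [← hχL] at this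
    exact Polynomial.monic_of_injective L.subtype.injective this
  have hLint : ∀ i, IsIntegral ℤ (χL.coeff i) := by
    intro i
    have h1 : IsIntegral ℤ (χ.coeff i) := ((hO.mem _).mp (hχO i)).2
    rw [← hχL, coeff_map] at h1
    exact (isIntegral_algHom_iff (L.subtype.toIntAlgHom) L.subtype.injective).mp h1
  have hLaev : ∀ μ : ℂ, aeval μ χL = χ.eval μ := by
    intro μ
    rw [← hχL, ← hamap, Polynomial.eval_map_algebraMap]
  -- the field `E = L(ν0)`
  have hint0 : IsIntegral L ν0 := ⟨χL, hLmon, by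
    have := hLaev ν0
    rw [(hR ν0).mp hν0] at this
    exact this⟩
  let E := IntermediateField.adjoin L ({ν0} : Set ℂ)
  have : FiniteDimensional L E := IntermediateField.adjoin.finiteDimensional hint0
  have : FiniteDimensional ℚ E := FiniteDimensional.trans ℚ L E
  have : NumberField E := ⟨⟩
  let lam : E := IntermediateField.AdjoinSimple.gen L ν0
  have hlamv : (lam : ℂ) = ν0 := IntermediateField.AdjoinSimple.coe_gen L ν0
  have hinjE : Function.Injective (algebraMap E ℂ) := (algebraMap E ℂ).injective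
  have hEaev : ∀ p : L[X], ((aeval lam p : E) : ℂ) = aeval ν0 p := by
    intro p
    have := (aeval_algHom_apply (E.val) lam p).symm
    simpa [hlamv] using this
  have hroot : aeval lam χL = 0 := by
    apply Subtype.ext
    rw [hEaev, hLaev, (hR ν0).mp hν0]
    rfl
  have hlamint : IsIntegral ℤ lam := by
    have h1 : IsIntegral ℤ ν0 := by
      have h2 : IsIntegral (integralClosure ℤ ℂ) ν0 := by
        have : ∃ χR : (integralClosure ℤ ℂ)[X], χR.map (algebraMap (integralClosure ℤ ℂ) ℂ) = χ := by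
          have : χ ∈ Polynomial.lifts (algebraMap (integralClosure ℤ ℂ) ℂ) := by
            rw [Polynomial.lifts_iff_coeff_lifts]
            intro i
            exact ⟨⟨χ.coeff i, ((hO.mem _).mp (hχO i)).2⟩, rfl⟩
          exact this
        obtain ⟨χR, hχR⟩ := this
        refine ⟨χR, ?_, ?_⟩
        · have := hmon
          rw [← hχR] at this
          exact Polynomial.monic_of_injective (FaithfulSMul.algebraMap_injective _ _) this
        · rw [← Polynomial.eval_map, hχR]
          exact (hR ν0).mp hν0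
      exact isIntegral_trans ν0 h2
    have h3 : IsIntegral ℤ ((algebraMap E ℂ) lam) := by
      rw [show (algebraMap E ℂ) lam = ν0 from hlamv]
      exact h1
    exact (isIntegral_algHom_iff ((algebraMap E ℂ).toIntAlgHom) hinjE).mp h3
  have hgen : ∀ φ ψ : E →ₐ[L] ℂ, φ lam = ψ lam → φ = ψ := by
    intro φ ψ h
    refine IntermediateField.adjoin_algHom_ext L ?_
    intro x hx
    obtain rfl : x = ν0 := hx
    exact h
  -- the derivative
  let d : E := aeval lam (derivative χL)
  have hd : d ≠ 0 := by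
    intro h
    have h1 : ((d : E) : ℂ) = (derivative χ).eval ν0 := by
      rw [hEaev, ← hχL, derivative_map, ← hamap, Polynomial.eval_map_algebraMap]
    rw [h] at h1
    exact hsep.eval₂_derivative_ne_zero (RingHom.id ℂ) (by
      rw [Polynomial.eval₂_id]
      exact (hR ν0).mp hν0) (by
      rw [Polynomial.eval₂_id, ← h1]
      rfl)
  have hdint : IsIntegral ℤ d := by
    let lamR : integralClosure ℤ E := ⟨lam, hlamint⟩
    have h1 : ∃ p : (integralClosure ℤ E)[X], p.map (algebraMap (integralClosure ℤ E) E) =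
        (derivative χL).map (algebraMap L E) := by
      have : (derivative χL).map (algebraMap L E) ∈
          Polynomial.lifts (algebraMap (integralClosure ℤ E) E) := by
        rw [Polynomial.lifts_iff_coeff_lifts]
        intro i
        refine ⟨⟨((derivative χL).map (algebraMap L E)).coeff i, ?_⟩, rfl⟩
        rw [coeff_map, coeff_derivative]
        refine IsIntegral.map ((algebraMap L E).toIntAlgHom) ?_
        refine (hLint _).mul ?_
        have : ((i : L) + 1) = ((i + 1 : ℕ) : L) := by push_cast; ring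
        rw [this]
        have h3 : IsIntegral ℤ (algebraMap ℤ L ((i + 1 : ℕ) : ℤ)) := isIntegral_algebraMap
        simpa using h3
      exact this
    obtain ⟨p, hp⟩ := h1
    have h2 : d = ((p.eval lamR : integralClosure ℤ E) : E) := by
      have : d = ((derivative χL).map (algebraMap L E)).eval lam := by
        rw [Polynomial.eval_map_algebraMap]
      rw [this, ← hp, Polynomial.eval_map]
      exact (Polynomial.hom_eval₂ p (RingHom.id _) (algebraMap (integralClosure ℤ E) E) lamR).symm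
    rw [h2]
    exact (p.eval lamR).2
  -- places
  have hinj : Function.Injective (fun φ : E →ₐ[L] ℂ => InfinitePlace.mk (φ : E →+* ℂ)) := by
    intro φ ψ h
    rcases InfinitePlace.mk_eq_iff.mp h with h1 | h1
    · ext x
      exact RingHom.congr_fun h1 x
    · exfalso
      obtain ⟨z, hz, hzz⟩ := hO.nonreal
      apply hzz
      have h2 := RingHom.congr_fun h1 (algebraMap L E ⟨z, hz⟩)
      rw [ComplexEmbedding.conjugate_coe_eq] at h2
      simp only [AlgHom.coe_toRingHom, AlgHom.commutes] at h2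
      exact h2
  obtain ⟨σ, hσ1, hσ2⟩ := hO.place
  obtain ⟨w', hw'⟩ : ∃ w' : InfinitePlace E, ∀ φ : E →ₐ[L] ℂ,
      InfinitePlace.mk (φ : E →+* ℂ) ≠ w' := by
    obtain ⟨τ, hτ⟩ := exists_extend (E := E) σ
    refine ⟨InfinitePlace.mk τ, ?_⟩
    intro φ h
    have hφ : (φ : E →+* ℂ).comp (algebraMap L E) = L.subtype := AlgHom.comp_algebraMap φ
    rcases InfinitePlace.mk_eq_iff.mp h with h1 | h1
    · apply hσ1
      rw [← hτ, ← h1, hφ]
    · apply hσ2
      rw [← hτ, ← h1]
      ext z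
      rw [RingHom.comp_apply, ComplexEmbedding.conjugate_coe_eq]
      exact congrArg (starRingEnd ℂ) (RingHom.congr_fun hφ z)
  -- the unit
  obtain ⟨ε, hε⟩ := exists_unit_log_ne_zero (fun φ : E →ₐ[L] ℂ => (φ : E →+* ℂ)) hinj w' hw'
    (fun φ => (n (φ lam) : ℝ)) (by
      intro h
      have := congrFun h E.val
      simp only [Pi.zero_apply, Int.cast_eq_zero] at this
      exact hn (by rw [← this]; exact congrArg n hlamv.symm))
  obtain ⟨dO, hdO⟩ : ∃ dO : 𝓞 E, (dO : E) = d := ⟨⟨d, hdint⟩, rfl⟩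
  obtain ⟨N, hN, y, y', hy, hy'⟩ := exists_pow_sub_one ε dO (by
    intro h
    rw [h] at hdO
    exact hd (hdO.symm.trans (map_zero (algebraMap (𝓞 E) E))))
  have hyE : (((ε : 𝓞 E) : E)) ^ N - 1 = (y : E) * d := by
    have := congrArg (algebraMap (𝓞 E) E) hy
    rw [map_sub, map_pow, map_one, map_mul] at this
    rw [← hdO]
    exact this
  have hyE' : ((((ε⁻¹ : (𝓞 E)ˣ) : 𝓞 E) : E)) ^ N - 1 = (y' : E) * d := by
    have := congrArg (algebraMap (𝓞 E) E) hy'
    rw [map_sub, map_pow, map_one, map_mul] at this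
    rw [← hdO]
    exact this
  obtain ⟨t, ht1, ht2, ht3⟩ := exists_trace_poly χL hLmon hLint lam hroot hlamint hgen (y : E)
    (RingOfIntegers.isIntegral_coe y)
  obtain ⟨t', ht1', ht2', ht3'⟩ := exists_trace_poly χL hLmon hLint lam hroot hlamint hgen (y' : E)
    (RingOfIntegers.isIntegral_coe y')
  have hcoef : ∀ p : L[X], (∀ i, IsIntegral ℤ (p.coeff i)) →
      ∀ i, ((1 + p).map L.subtype).coeff i ∈ O := by
    intro p hp i
    rw [coeff_map, hO.mem]
    refine ⟨((1 + p).coeff i).2, ?_⟩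
    refine IsIntegral.map (L.subtype.toIntAlgHom) ?_
    rw [coeff_add, coeff_one]
    refine IsIntegral.add ?_ (hp i)
    split_ifs
    · exact isIntegral_one
    · exact isIntegral_zero
  have hev : ∀ (p : L[X]) (μ : ℂ), ((1 + p).map L.subtype).eval μ = 1 + aeval μ p := by
    intro p μ
    rw [← hamap, Polynomial.eval_map_algebraMap, map_add, map_one]
  have hu : ∀ φ : E →ₐ[L] ℂ, ((1 + t).map L.subtype).eval (φ lam) = φ ((ε : 𝓞 E) : E) ^ N := by
    intro φ
    rw [hev, ht2, ← hyE, map_sub, map_one, map_pow]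
    ring
  have hv : ∀ φ : E →ₐ[L] ℂ, ((1 + t').map L.subtype).eval (φ lam) =
      φ (((ε⁻¹ : (𝓞 E)ˣ) : 𝓞 E) : E) ^ N := by
    intro φ
    rw [hev, ht2', ← hyE', map_sub, map_one, map_pow]
    ring
  have hu1 : ∀ ν ∈ R, (∀ φ : E →ₐ[L] ℂ, φ lam ≠ ν) → ((1 + t).map L.subtype).eval ν = 1 := by
    intro ν hν h
    rw [hev, ht3 ν (by rw [hLaev]; exact (hR ν).mp hν) h, add_zero]
  have hv1 : ∀ ν ∈ R, (∀ φ : E →ₐ[L] ℂ, φ lam ≠ ν) → ((1 + t').map L.subtype).eval ν = 1 := by
    intro ν hν h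
    rw [hev, ht3' ν (by rw [hLaev]; exact (hR ν).mp hν) h, add_zero]
  have hφR : ∀ φ : E →ₐ[L] ℂ, φ lam ∈ R := by
    intro φ
    rw [hR, ← hLaev, aeval_algHom_apply, hroot, map_zero]
  refine ⟨(1 + t).map L.subtype, (1 + t').map L.subtype, hcoef t ht1, hcoef t' ht1', ?_, ?_⟩
  · intro ν hν
    by_cases h : ∃ φ : E →ₐ[L] ℂ, φ lam = ν
    · obtain ⟨φ, rfl⟩ := h
      rw [hu, hv, ← mul_pow, ← map_mul, ← map_mul, ← Units.val_mul, mul_inv_cancel]
      simp
    · push Not at h
      rw [hu1 ν hν h, hv1 ν hν h, one_mul]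
  · intro hprod
    have h1 : ∑ ν ∈ R, (n ν : ℝ) * Real.log ‖((1 + t).map L.subtype).eval ν‖ = 0 := by
      have h2 := congrArg (fun z : ℂ => Real.log ‖z‖) hprod
      simp only [norm_prod, norm_one, Real.log_one] at h2
      rw [Real.log_prod] at h2
      · rw [← h2]
        refine Finset.sum_congr rfl fun ν _ => ?_
        rw [norm_zpow, Real.log_zpow]
      · intro ν hν
        rw [norm_zpow]
        refine zpow_ne_zero _ (norm_ne_zero_iff.mpr ?_)
        by_cases h : ∃ φ : E →ₐ[L] ℂ, φ lam = ν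
        · obtain ⟨φ, rfl⟩ := h
          rw [hu]
          refine pow_ne_zero _ ?_
          rw [_root_.map_ne_zero]
          exact (RingOfIntegers.coe_ne_zero_iff).mpr ε.ne_zero
        · push Not at h
          rw [hu1 ν hν h]
          exact one_ne_zero
    have h3 : ∑ ν ∈ R, (n ν : ℝ) * Real.log ‖((1 + t).map L.subtype).eval ν‖ =
        ∑ ν ∈ Finset.univ.image (fun φ : E →ₐ[L] ℂ => φ lam),
          (n ν : ℝ) * Real.log ‖((1 + t).map L.subtype).eval ν‖ := by
      symm
      refine Finset.sum_subset ?_ ?_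
      · intro ν hν
        obtain ⟨φ, -, rfl⟩ := Finset.mem_image.mp hν
        exact hφR φ
      · intro ν hν hν'
        rw [hu1 ν hν, norm_one, Real.log_one, mul_zero]
        intro φ h
        exact hν' (Finset.mem_image.mpr ⟨φ, Finset.mem_univ _, h⟩)
    rw [h3, Finset.sum_image (fun φ _ ψ _ h => hgen φ ψ h)] at h1
    apply hε
    have h4 : (N : ℝ) * ∑ φ : E →ₐ[L] ℂ, (n (φ lam) : ℝ) * Real.log ‖φ ((ε : 𝓞 E) : E)‖ = 0 := by
      rw [← h1, Finset.mul_sum]
      refine Finset.sum_congr rfl fun φ _ => ?_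
      rw [hu, norm_pow, Real.log_pow]
      ring
    rcases mul_eq_zero.mp h4 with h5 | h5
    · exfalso
      have : N = 0 := by exact_mod_cast h5
      omega
    · exact h5

end Crest.Agent.R003.Unit
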