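import Crest.Agent.R003.Defs

/-!
# Row 3: upper triangular matrices with separated diagonal (helper518)

For `d` upper triangular with diagonal `D` (pairwise distinct entries) the matrix `v` whose columns are
the columns of the Lagrange idempotents `e_b(d)` conjugates `d` to the diagonal matrix `D`.
-/

set_option autoImplicit false

namespace Crest.Agent.R003.WD

open Matrix Polynomial

variable {k : ℕ}

/-- upper triangular with diagonal `D` -/
def UT (D : Fin k → ℂ) (d : Matrix (Fin k) (Fin k) ℂ) : Prop :=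
  (∀ i j, j < i → d i j = 0) ∧ ∀ i, d i i = D i

theorem UT.mul {D D' : Fin k → ℂ} {d d' : Matrix (Fin k) (Fin k) ℂ} (h : UT D d) (h' : UT D' d') :
    UT (fun i => D i * D' i) (d * d') := by
  refine ⟨fun i j hij => ?_, fun i => ?_⟩
  · rw [Matrix.mul_apply]
    refine Finset.sum_eq_zero fun l _ => ?_
    rcases lt_or_ge l i with hl | hl
    · rw [h.1 i l hl, zero_mul]
    · rw [h'.1 l j (lt_of_lt_of_le hij hl), mul_zero]
  · rw [Matrix.mul_apply, Finset.sum_eq_single i]
    · rw [h.2, h'.2]
    · intro l _ hl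
      rcases lt_or_gt_of_ne hl with hl | hl
      · rw [h.1 i l hl, zero_mul]
      · rw [h'.1 l i hl, mul_zero]
    · simp

theorem UT.add {D D' : Fin k → ℂ} {d d' : Matrix (Fin k) (Fin k) ℂ} (h : UT D d) (h' : UT D' d') :
    UT (fun i => D i + D' i) (d + d') :=
  ⟨fun i j hij => by rw [Matrix.add_apply, h.1 i j hij, h'.1 i j hij, add_zero],
    fun i => by rw [Matrix.add_apply, h.2, h'.2]⟩

theorem UT.smul {D : Fin k → ℂ} {d : Matrix (Fin k) (Fin k) ℂ} (c : ℂ) (h : UT D d) :
    UT (fun i => c * D i) (c • d) :=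
  ⟨fun i j hij => by rw [Matrix.smul_apply, h.1 i j hij, smul_zero],
    fun i => by rw [Matrix.smul_apply, h.2, smul_eq_mul]⟩

theorem UT.one : UT (fun _ => 1) (1 : Matrix (Fin k) (Fin k) ℂ) :=
  ⟨fun i j hij => by rw [Matrix.one_apply, if_neg (ne_of_gt hij)], fun i => by simp⟩

theorem UT.pow {D : Fin k → ℂ} {d : Matrix (Fin k) (Fin k) ℂ} (h : UT D d) (m : ℕ) :
    UT (fun i => D i ^ m) (d ^ m) := by
  induction m with
  | zero => simpa using UT.one
  | succ m ih =>
    have := ih.mul h
    simpa [pow_succ] using this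

theorem UT.aeval {D : Fin k → ℂ} {d : Matrix (Fin k) (Fin k) ℂ} (h : UT D d) (f : ℂ[X]) :
    UT (fun i => f.eval (D i)) (Polynomial.aeval d f) := by
  induction f using Polynomial.induction_on' with
  | add p q hp hq =>
    have := hp.add hq
    simpa using this
  | monomial m c =>
    have := (h.pow m).smul c
    simpa [Polynomial.aeval_monomial, Algebra.algebraMap_eq_smul_one, ← smul_eq_mul, smul_mul_assoc]
      using this

theorem UT.charpoly {D : Fin k → ℂ} {d : Matrix (Fin k) (Fin k) ℂ} (h : UT D d) :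
    d.charpoly = ∏ i, (X - C (D i)) := by
  rw [Matrix.charpoly_of_isUpperTriangular d (fun i j hij => h.1 i j hij)]
  exact Finset.prod_congr rfl fun i _ => by rw [h.2]

theorem UT.aeval_eq_zero {D : Fin k → ℂ} {d : Matrix (Fin k) (Fin k) ℂ} (h : UT D d)
    (hD : Function.Injective D) (f : ℂ[X]) (hf : ∀ i, f.eval (D i) = 0) :
    Polynomial.aeval d f = 0 := by
  have h1 : (∏ i, (X - C (D i)) : ℂ[X]) ∣ f := by
    refine Finset.prod_dvd_of_coprime ?_ fun i _ => ?_
    · intro i _ j _ hij
      exact Polynomial.pairwise_coprime_X_sub_C hD hij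
    · rw [Polynomial.dvd_iff_isRoot]
      exact hf i
  obtain ⟨g, rfl⟩ := h1
  rw [← h.charpoly, map_mul, Matrix.aeval_self_charpoly, zero_mul]

/-- Lagrange polynomial -/
noncomputable def eP (D : Fin k → ℂ) (b : Fin k) : ℂ[X] :=
  ∏ j ∈ Finset.univ.erase b, (C ((D b - D j)⁻¹) * (X - C (D j)))

theorem eP_eval {D : Fin k → ℂ} (hD : Function.Injective D) (b i : Fin k) :
    (eP D b).eval (D i) = if i = b then 1 else 0 := by
  unfold eP
  rw [Polynomial.eval_prod]
  split_ifs with h
  · subst h
    refine Finset.prod_eq_one fun j hj => ?_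
    have hj' : i ≠ j := (Finset.ne_of_mem_erase hj).symm
    have : D i - D j ≠ 0 := sub_ne_zero.2 (hD.ne hj')
    simp [this]
  · refine Finset.prod_eq_zero (i := i) (Finset.mem_erase.2 ⟨h, Finset.mem_univ i⟩) ?_
    simp

/-- the conjugating matrix `v` (columns) -/
noncomputable def vM (D : Fin k → ℂ) (d : Matrix (Fin k) (Fin k) ℂ) : Matrix (Fin k) (Fin k) ℂ :=
  Matrix.of fun a b => (Polynomial.aeval d (eP D b)) a b

/-- its inverse `w` (rows) -/
noncomputable def wM (D : Fin k → ℂ) (d : Matrix (Fin k) (Fin k) ℂ) : Matrix (Fin k) (Fin k) ℂ :=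
  Matrix.of fun a b => (Polynomial.aeval d (eP D a)) a b

theorem wM_mul_vM {D : Fin k → ℂ} {d : Matrix (Fin k) (Fin k) ℂ} (h : UT D d)
    (hD : Function.Injective D) : wM D d * vM D d = 1 := by
  ext a c
  have h1 : (wM D d * vM D d) a c =
      (Polynomial.aeval d (eP D a) * Polynomial.aeval d (eP D c)) a c := by
    rw [Matrix.mul_apply, Matrix.mul_apply]
    rfl
  rw [h1, ← map_mul]
  rcases eq_or_ne a c with rfl | hac
  · have h2 : Polynomial.aeval d (eP D a * eP D a - eP D a) = 0 := by
      refine h.aeval_eq_zero hD _ fun i => ?_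
      simp only [Polynomial.eval_sub, Polynomial.eval_mul, eP_eval hD]
      split_ifs <;> simp
    rw [map_sub, sub_eq_zero] at h2
    rw [h2, (h.aeval (eP D a)).2]
    simp [eP_eval hD]
  · have h2 : Polynomial.aeval d (eP D a * eP D c) = 0 := by
      refine h.aeval_eq_zero hD _ fun i => ?_
      simp only [Polynomial.eval_mul, eP_eval hD]
      split_ifs with h3 h4
      · exact absurd (h3.symm.trans h4) hac
      all_goals simp
    rw [h2, Matrix.zero_apply, Matrix.one_apply, if_neg hac]

theorem vM_mul_wM {D : Fin k → ℂ} {d : Matrix (Fin k) (Fin k) ℂ} (h : UT D d)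
    (hD : Function.Injective D) : vM D d * wM D d = 1 :=
  mul_eq_one_comm.1 (wM_mul_vM h hD)

theorem mul_vM {D : Fin k → ℂ} {d : Matrix (Fin k) (Fin k) ℂ} (h : UT D d)
    (hD : Function.Injective D) : d * vM D d = vM D d * Matrix.diagonal D := by
  ext a c
  have h1 : (d * vM D d) a c = (d * Polynomial.aeval d (eP D c)) a c := by
    rw [Matrix.mul_apply, Matrix.mul_apply]
    rfl
  have h2 : Polynomial.aeval d (X * eP D c - C (D c) * eP D c) = 0 := by
    refine h.aeval_eq_zero hD _ fun i => ?_
    simp only [Polynomial.eval_sub, Polynomial.eval_mul, Polynomial.eval_X, Polynomial.eval_C,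
      eP_eval hD]
    split_ifs with h3
    · subst h3; simp
    · simp
  rw [map_sub, map_mul, map_mul, sub_eq_zero, Polynomial.aeval_X, Polynomial.aeval_C] at h2
  rw [h1, h2, Matrix.mul_diagonal, Algebra.algebraMap_eq_smul_one, smul_mul_assoc, one_mul,
    Matrix.smul_apply, smul_eq_mul, mul_comm]
  rfl

theorem vM_diagonal {D : Fin k → ℂ} (hD : Function.Injective D) : vM D (Matrix.diagonal D) = 1 := by
  ext a c
  have h : UT D (Matrix.diagonal D) :=
    ⟨fun i j hij => by rw [Matrix.diagonal_apply_ne _ (ne_of_gt hij)], fun i => by simp⟩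
  have hL : ∀ f : ℂ[X], ∀ a c, a ≠ c → Polynomial.aeval (Matrix.diagonal D) f a c = 0 := by
    intro f
    induction f using Polynomial.induction_on' with
    | add p q hp hq =>
      intro a c hac
      rw [map_add, Matrix.add_apply, hp a c hac, hq a c hac, add_zero]
    | monomial m r =>
      intro a c hac
      rw [Polynomial.aeval_monomial, Matrix.diagonal_pow, Algebra.algebraMap_eq_smul_one,
        smul_mul_assoc, one_mul, Matrix.smul_apply, Matrix.diagonal_apply_ne _ hac, smul_zero]
  rcases eq_or_ne a c with rfl | hac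
  · change (Polynomial.aeval (Matrix.diagonal D) (eP D a)) a a = (1 : Matrix (Fin k) (Fin k) ℂ) a a
    rw [(h.aeval _).2 a]
    simp only [eP_eval hD, Matrix.one_apply_eq, if_true]
  · change (Polynomial.aeval (Matrix.diagonal D) (eP D c)) a c = (1 : Matrix (Fin k) (Fin k) ℂ) a c
    rw [hL _ a c hac, Matrix.one_apply, if_neg hac]

/-- integrality: polynomials whose value at every `O`-matrix is an `O`-matrix -/
theorem eP_integral {D : Fin k → ℂ} (O : Subring ℂ) (hO : ∀ i, D i ∈ O)
    (hu : ∀ i j, i ≠ j → (D i - D j)⁻¹ ∈ O) {d : Matrix (Fin k) (Fin k) ℂ}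
    (hd : ∀ i j, d i j ∈ O) (b : Fin k) : ∀ i j, Polynomial.aeval d (eP D b) i j ∈ O := by
  unfold eP
  have key : ∀ s : Finset (Fin k), (∀ j ∈ s, j ≠ b) → ∀ i j,
      Polynomial.aeval d (∏ j ∈ s, (C ((D b - D j)⁻¹) * (X - C (D j)))) i j ∈ O := by
    intro s
    induction s using Finset.induction_on with
    | empty =>
      intro _ i j
      rw [Finset.prod_empty, map_one, Matrix.one_apply]
      split_ifs
      · exact O.one_mem
      · exact O.zero_mem
    | insert a s ha ih =>
      intro hs i j
      rw [Finset.prod_insert ha, map_mul, Matrix.mul_apply]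
      refine O.sum_mem fun l _ => O.mul_mem ?_ (ih (fun j hj => hs j (Finset.mem_insert_of_mem hj)) l j)
      rw [map_mul, map_sub, Polynomial.aeval_X, Polynomial.aeval_C, Polynomial.aeval_C,
        Algebra.algebraMap_eq_smul_one, Algebra.algebraMap_eq_smul_one, smul_mul_assoc, one_mul,
        Matrix.smul_apply, smul_eq_mul, Matrix.sub_apply, Matrix.smul_apply, Matrix.one_apply]
      refine O.mul_mem (hu _ _ (Ne.symm (hs a (Finset.mem_insert_self _ _)))) (O.sub_mem (hd _ _) ?_)
      rw [smul_eq_mul]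
      refine O.mul_mem (hO a) ?_
      split_ifs
      · exact O.one_mem
      · exact O.zero_mem
  exact key _ fun j hj => Finset.ne_of_mem_erase hj

/-- polynomiality -/
theorem aeval_mem_Pol {ι : Type} {n : ℕ} (d : (ι → G n) → Matrix (Fin k) (Fin k) ℂ)
    (hd : ∀ i j, (fun ρ => d ρ i j) ∈ Pol ι n) (f : ℂ[X]) :
    ∀ i j, (fun ρ => Polynomial.aeval (d ρ) f i j) ∈ Pol ι n := by
  have hpow : ∀ m : ℕ, ∀ i j, (fun ρ => (d ρ ^ m) i j) ∈ Pol ι n := by
    intro m
    induction m with
    | zero =>
      intro i j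
      have : (fun ρ : ι → G n => (d ρ ^ 0) i j) =
          algebraMap ℂ ((ι → G n) → ℂ) ((1 : Matrix (Fin k) (Fin k) ℂ) i j) := by
        funext ρ
        rw [pow_zero]
        rfl
      rw [this]
      exact Subalgebra.algebraMap_mem _ _
    | succ m ih =>
      intro i j
      have : (fun ρ : ι → G n => (d ρ ^ (m + 1)) i j) =
          ∑ l, (fun ρ => (d ρ ^ m) i l) * (fun ρ => d ρ l j) := by
        funext ρ
        rw [pow_succ, Matrix.mul_apply, Finset.sum_apply]
        rfl
      rw [this]
      exact Subalgebra.sum_mem _ fun l _ => Subalgebra.mul_mem _ (ih i l) (hd l j)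
  induction f using Polynomial.induction_on' with
  | add p q hp hq =>
    intro i j
    have : (fun ρ => Polynomial.aeval (d ρ) (p + q) i j) =
        (fun ρ => Polynomial.aeval (d ρ) p i j) + (fun ρ => Polynomial.aeval (d ρ) q i j) := by
      funext ρ
      rw [map_add]
      rfl
    rw [this]
    exact Subalgebra.add_mem _ (hp i j) (hq i j)
  | monomial m c =>
    intro i j
    have : (fun ρ => Polynomial.aeval (d ρ) (Polynomial.monomial m c) i j) =
        c • (fun ρ => (d ρ ^ m) i j) := by
      funext ρ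
      rw [Polynomial.aeval_monomial, Algebra.algebraMap_eq_smul_one, smul_mul_assoc, one_mul]
      rfl
    rw [this]
    exact Subalgebra.smul_mem _ (hpow m i j) c

end Crest.Agent.R003.WD
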