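import Crest.Agent.R003.WD518A

/-!
# Row 3: polynomial maps, the map lemma, and the polynomial map `vG` (helper518)
-/

set_option autoImplicit false

namespace Crest.Agent.R003.WD

open Matrix Polynomial

section pol

variable {ι κ : Type} {n m : ℕ} {S : Set (ι → G n)}

theorem polG_name (S : Set (ι → G n)) (x : ι) : PolG S (fun ρ => ρ x) := by
  intro i j
  refine ⟨⟨fun ρ => (ρ x).1 i j, ?_, fun _ _ => rfl⟩, ⟨fun ρ => ((ρ x)⁻¹).1 i j, ?_, fun _ _ => rfl⟩⟩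
  · exact Algebra.subset_adjoin (Or.inl ⟨x, i, j, rfl⟩)
  · exact Algebra.subset_adjoin (Or.inr ⟨x, i, j, rfl⟩)

theorem const_mem_Pol (c : ℂ) : (fun _ : ι → G n => c) ∈ Pol ι n :=
  Subalgebra.algebraMap_mem (Pol ι n) c

theorem polG_const (S : Set (ι → G n)) (g : G m) : PolG S (fun _ => g) := by
  intro i j
  exact ⟨⟨_, const_mem_Pol (g.1 i j), fun _ _ => rfl⟩, ⟨_, const_mem_Pol (g⁻¹.1 i j), fun _ _ => rfl⟩⟩

theorem polG_inv {Φ : (ι → G n) → G m} (h : PolG S Φ) : PolG S (fun ρ => (Φ ρ)⁻¹) := by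
  intro i j
  refine ⟨(h i j).2, ?_⟩
  obtain ⟨F, hF, hF'⟩ := (h i j).1
  exact ⟨F, hF, fun ρ hρ => by rw [inv_inv]; exact hF' ρ hρ⟩

theorem mul_aux {A B : (ι → G n) → Matrix (Fin m) (Fin m) ℂ}
    (hA : ∀ i j, ∃ F ∈ Pol ι n, ∀ ρ ∈ S, A ρ i j = F ρ)
    (hB : ∀ i j, ∃ F ∈ Pol ι n, ∀ ρ ∈ S, B ρ i j = F ρ) (i j : Fin m) :
    ∃ F ∈ Pol ι n, ∀ ρ ∈ S, (A ρ * B ρ) i j = F ρ := by
  choose FA hFA hFA' using hA
  choose FB hFB hFB' using hB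
  refine ⟨∑ l, FA i l * FB l j, Subalgebra.sum_mem _ fun l _ => Subalgebra.mul_mem _ (hFA i l) (hFB l j),
    fun ρ hρ => ?_⟩
  rw [Matrix.mul_apply, Finset.sum_apply]
  exact Finset.sum_congr rfl fun l _ => by rw [Pi.mul_apply, hFA' i l ρ hρ, hFB' l j ρ hρ]

theorem polG_mul {Φ Ψ : (ι → G n) → G m} (h : PolG S Φ) (h' : PolG S Ψ) :
    PolG S (fun ρ => Φ ρ * Ψ ρ) := by
  intro i j
  constructor
  · obtain ⟨F, hF, hF'⟩ := mul_aux (fun i j => (h i j).1) (fun i j => (h' i j).1) i j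
    exact ⟨F, hF, fun ρ hρ => hF' ρ hρ⟩
  · obtain ⟨F, hF, hF'⟩ := mul_aux (fun i j => (h' i j).2) (fun i j => (h i j).2) i j
    refine ⟨F, hF, fun ρ hρ => ?_⟩
    rw [_root_.mul_inv_rev]
    exact hF' ρ hρ

/-- composition with a polynomial map -/
theorem pol_comp {Φ : (ι → G n) → (κ → G m)} (hΦ : ∀ x, PolG S (fun ρ => Φ ρ x))
    (F : (κ → G m) → ℂ) (hF : F ∈ Pol κ m) : ∃ F' ∈ Pol ι n, ∀ ρ ∈ S, F (Φ ρ) = F' ρ := by
  unfold Pol at hF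
  induction hF using Algebra.adjoin_induction with
  | mem F hF =>
    rcases hF with ⟨x, i, j, rfl⟩ | ⟨x, i, j, rfl⟩
    · exact (hΦ x i j).1
    · exact (hΦ x i j).2
  | algebraMap c => exact ⟨_, const_mem_Pol c, fun _ _ => rfl⟩
  | add F F' _ _ h h' =>
    obtain ⟨a, ha, ha'⟩ := h
    obtain ⟨b, hb, hb'⟩ := h'
    exact ⟨a + b, Subalgebra.add_mem _ ha hb, fun ρ hρ => by
      rw [Pi.add_apply, Pi.add_apply, ha' ρ hρ, hb' ρ hρ]⟩
  | mul F F' _ _ h h' =>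
    obtain ⟨a, ha, ha'⟩ := h
    obtain ⟨b, hb, hb'⟩ := h'
    exact ⟨a * b, Subalgebra.mul_mem _ ha hb, fun ρ hρ => by
      rw [Pi.mul_apply, Pi.mul_apply, ha' ρ hρ, hb' ρ hρ]⟩

/-- THE MAP LEMMA between different index types and sizes -/
theorem appr_map {O : Subring ℂ} {Q : Set ι} {ρ : ι → G n} (hρ : ρ ∈ S) (h : Appr O S Q ρ)
    (S' : Set (κ → G m)) (Q' : Set κ) (Φ : (ι → G n) → (κ → G m))
    (hΦ : ∀ x, PolG S (fun ρ => Φ ρ x)) (hS : ∀ ρ ∈ S, Φ ρ ∈ S')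
    (hQ : ∀ ρ ∈ S, (∀ x ∈ Q, ρ x ∈ GO O n) → ∀ y ∈ Q', Φ ρ y ∈ GO O m) :
    Appr O S' Q' (Φ ρ) := by
  intro F hF hF0
  obtain ⟨F', hF', hE⟩ := pol_comp hΦ F hF
  rw [hE ρ hρ]
  refine h F' hF' fun ρ' hρ' hi => ?_
  rw [← hE ρ' hρ']
  exact hF0 _ (hS ρ' hρ') (hQ ρ' hρ' hi)

end pol

section v

variable {k : ℕ}

open Classical in
/-- the conjugating matrix as an element of `G k` -/
noncomputable def vG (D : Fin k → ℂ) (d : G k) : G k :=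
  if h : UT D d.1 ∧ Function.Injective D then
    ⟨vM D d.1, wM D d.1, vM_mul_wM h.1 h.2, wM_mul_vM h.1 h.2⟩ else 1

theorem vG_val {D : Fin k → ℂ} {d : G k} (h : UT D d.1) (hD : Function.Injective D) :
    (vG D d).1 = vM D d.1 := by
  unfold vG
  rw [dif_pos ⟨h, hD⟩]

theorem vG_inv_val {D : Fin k → ℂ} {d : G k} (h : UT D d.1) (hD : Function.Injective D) :
    ((vG D d)⁻¹).1 = wM D d.1 := by
  unfold vG
  rw [dif_pos ⟨h, hD⟩]
  rfl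

theorem mul_vG {D : Fin k → ℂˣ} {d : G k} (h : UT (fun i => (D i : ℂ)) d.1)
    (hD : Function.Injective D) : d * vG (fun i => (D i : ℂ)) d = vG (fun i => (D i : ℂ)) d * dg D := by
  have hD' : Function.Injective fun i => (D i : ℂ) := fun i j hij => hD (Units.ext hij)
  apply Units.ext
  rw [Units.val_mul, Units.val_mul, vG_val h hD', mul_vM h hD']
  rfl

theorem vG_dg {D : Fin k → ℂˣ} (hD : Function.Injective D) :
    vG (fun i => (D i : ℂ)) (dg D) = 1 := by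
  have hD' : Function.Injective fun i => (D i : ℂ) := fun i j hij => hD (Units.ext hij)
  have h : UT (fun i => (D i : ℂ)) (dg D).1 :=
    ⟨fun i j hij => Matrix.diagonal_apply_ne _ (ne_of_gt hij), fun i => Matrix.diagonal_apply_eq _ _⟩
  apply Units.ext
  rw [vG_val h hD']
  exact vM_diagonal hD'

theorem vG_GO {D : Fin k → ℂ} (O : Subring ℂ) (hO : ∀ i, D i ∈ O)
    (hu : ∀ i j, i ≠ j → (D i - D j)⁻¹ ∈ O) {d : G k} (hd : d ∈ GO O k) : vG D d ∈ GO O k := by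
  by_cases h : UT D d.1 ∧ Function.Injective D
  · intro i j
    rw [vG_val h.1 h.2, vG_inv_val h.1 h.2]
    exact ⟨eP_integral O hO hu (fun i j => (hd i j).1) j i j,
      eP_integral O hO hu (fun i j => (hd i j).1) i i j⟩
  · unfold vG
    rw [dif_neg h]
    exact (GO O k).one_mem

theorem polG_vG {ι : Type} {n : ℕ} {S : Set (ι → G n)} {D : Fin k → ℂ}
    (hD : Function.Injective D) {Φ : (ι → G n) → G k} (hΦ : PolG S Φ)
    (h : ∀ ρ ∈ S, UT D (Φ ρ).1) : PolG S (fun ρ => vG D (Φ ρ)) := by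
  have hd : ∀ i j, ∃ F ∈ Pol ι n, ∀ ρ ∈ S, (Φ ρ).1 i j = F ρ := fun i j => (hΦ i j).1
  choose F hF hF' using hd
  set d : (ι → G n) → Matrix (Fin k) (Fin k) ℂ := fun ρ => Matrix.of fun i j => F i j ρ with hdd
  have hdP : ∀ i j, (fun ρ => d ρ i j) ∈ Pol ι n := fun i j => hF i j
  have hdE : ∀ ρ ∈ S, (Φ ρ).1 = d ρ := by
    intro ρ hρ
    ext i j
    exact hF' i j ρ hρ
  intro i j
  refine ⟨⟨_, aeval_mem_Pol d hdP (eP D j) i j, fun ρ hρ => ?_⟩,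
    ⟨_, aeval_mem_Pol d hdP (eP D i) i j, fun ρ hρ => ?_⟩⟩
  · rw [vG_val (h ρ hρ) hD, hdE ρ hρ]
    rfl
  · rw [vG_inv_val (h ρ hρ) hD, hdE ρ hρ]
    rfl

/-- the pair of equations used for `B₁` -/
theorem vG_conj {D : Fin k → ℂˣ} (hD : Function.Injective D) {d d' : G k}
    (h : UT (fun i => (D i : ℂ)) d.1) (h' : UT (fun i => (D i : ℂ)) (d'⁻¹).1) (h1 h2 : G k) :
    let B := h2 * vG (fun i => (D i : ℂ)) d'⁻¹ * (vG (fun i => (D i : ℂ)) d)⁻¹ * h1⁻¹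
    B * (h1 * d * h1⁻¹)⁻¹ * B⁻¹ = h2 * d' * h2⁻¹ := by
  intro B
  have e1 := mul_vG h hD
  have e2 := mul_vG h' hD
  set v := vG (fun i => (D i : ℂ)) d
  set v' := vG (fun i => (D i : ℂ)) d'⁻¹
  have e1' : d = v * dg D * v⁻¹ := by rw [← e1, mul_assoc, mul_inv_cancel, mul_one]
  have e2' : d'⁻¹ = v' * dg D * v'⁻¹ := by rw [← e2, mul_assoc, mul_inv_cancel, mul_one]
  have e3 : d' = v' * (dg D)⁻¹ * v'⁻¹ := by
    rw [← inv_inv d', e2']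
    group
  change h2 * v' * v⁻¹ * h1⁻¹ * (h1 * d * h1⁻¹)⁻¹ * (h2 * v' * v⁻¹ * h1⁻¹)⁻¹ = _
  rw [e3, e1']
  group

end v

end Crest.Agent.R003.WD
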