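import Crest.Agent.R003.WD518B
import Crest.Agent.R003.Bas486

/-!
# Row 3: nested P-words (helper518)

`nestW p L`, `nestR p L` for a list `L` of blocks `(size, scalar)`: a word and auxiliary roots whose
solutions are the block upper triangular matrices with scalar diagonal blocks and arbitrary entries
above them. Names used: `p, .., p + 3 * (L.length - 1) - 1`.
-/

set_option autoImplicit false

namespace Crest.Agent.R003.WD

open Matrix Polynomial

/-! ### contiguous labels -/

/-- `m` zeros followed by `r` ones -/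
abbrev stdl (m r : ℕ) : List Bool := List.replicate m false ++ List.replicate r true

theorem stdl_length (m r : ℕ) : (stdl m r).length = m + r := by simp [stdl]

theorem count_false_stdl (m r : ℕ) : (stdl m r).count false = m := by
  simp [stdl, List.count_append, List.count_replicate]

theorem count_true_stdl (m r : ℕ) : (stdl m r).count true = r := by
  simp [stdl, List.count_append, List.count_replicate]

theorem lab_stdl (m r i : ℕ) : lab (stdl m r) i =
    if i < m then some false else if i < m + r then some true else none := by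
  simp only [lab, stdl, List.getElem?_append, List.length_replicate, List.getElem?_replicate]
  split_ifs <;> first | rfl | omega

theorem take_count_false (m r i : ℕ) (h : i ≤ m) : ((stdl m r).take i).count false = i := by
  rw [stdl, List.take_append_of_le_length (by simpa using h), List.take_replicate,
    List.count_replicate]
  simp [h]

theorem take_count_true (m r i : ℕ) (_h : m ≤ i) (h' : i ≤ m + r) :
    ((stdl m r).take i).count true = i - m := by
  rw [stdl, List.take_append, List.length_replicate, List.count_append, List.take_replicate,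
    List.take_replicate, List.count_replicate, List.count_replicate]
  simp
  omega

theorem isPar_std_iff {n m r : ℕ} {g : Bool → G n} {P : G n} :
    IsPar (stdl m r) (stdl m r) g P ↔ m + r ≤ n ∧ P ∈ GLk n (m + r) ∧ g false ∈ GLk n m ∧
      g true ∈ GLk n r ∧ (∀ i j : Fin n, m ≤ i.1 → i.1 < m + r → j.1 < m → P.1 i j = 0) ∧
      (∀ i j : Fin n, i.1 < m → j.1 < m → P.1 i j = (g false).1 i j) ∧
      (∀ i j u v : Fin n, i.1 < m + r → j.1 < m + r → i.1 = u.1 + m → j.1 = v.1 + m →
        P.1 i j = (g true).1 u v) := by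
  constructor
  · intro h
    refine ⟨by simpa using h.len, by simpa using h.mem, ?_, ?_, ?_, ?_, ?_⟩
    · have := h.blk false; rwa [count_false_stdl] at this
    · have := h.blk true; rwa [count_true_stdl] at this
    · intro i j hi hi' hj
      refine h.zero i j true false ?_ ?_ (by decide)
      · rw [lab_stdl, if_neg (by omega), if_pos hi']
      · rw [lab_stdl, if_pos hj]
    · intro i j hi hj
      refine h.diag i j i j false ?_ ?_ ?_ ?_
      · rw [lab_stdl, if_pos hi]
      · rw [lab_stdl, if_pos hj]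
      · rw [take_count_false _ _ _ hi.le]
      · rw [take_count_false _ _ _ hj.le]
    · intro i j u v hi hj hu hv
      refine h.diag i j u v true ?_ ?_ ?_ ?_
      · rw [lab_stdl, if_neg (by omega), if_pos hi]
      · rw [lab_stdl, if_neg (by omega), if_pos hj]
      · rw [take_count_true _ _ _ (by omega) hi.le]; omega
      · rw [take_count_true _ _ _ (by omega) hj.le]; omega
  · rintro ⟨h1, h2, h3, h4, h5, h6, h7⟩
    refine ⟨by simpa using h1, fun _ => rfl, by simpa using h2, ?_, ?_, ?_⟩
    · rintro (_ | _)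
      · rw [count_false_stdl]; exact h3
      · rw [count_true_stdl]; exact h4
    · intro i j a b ha hb hab
      rw [lab_stdl] at ha hb
      split_ifs at ha hb with k1 k2 k3 k4 <;> simp only [Option.some.injEq] at ha hb <;> subst ha <;>
        subst hb
      · exact absurd le_rfl hab
      · exact absurd (by decide) hab
      · exact h5 i j (by omega) (by omega) (by omega)
      · exact absurd le_rfl hab
    · intro i j u v a ha hb hu hv
      rw [lab_stdl] at ha hb
      split_ifs at ha hb with k1 k2 k3 k4 <;> simp only [Option.some.injEq] at ha hb <;> subst ha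
      · rw [take_count_false _ _ _ (by omega)] at hu hv
        have e1 : u = i := Fin.ext hu
        have e2 : v = j := Fin.ext hv
        rw [e1, e2]
        exact h6 i j (by omega) (by omega)
      · exact absurd hb (by decide)
      · exact absurd hb (by decide)
      · rw [take_count_true _ _ _ (by omega) (by omega)] at hu hv
        exact h7 i j u v (by omega) (by omega) (by omega) (by omega)

/-! ### nested words -/

/-- total size of a list of blocks -/
def len (L : List (ℕ × ℂˣ)) : ℕ := (L.map Prod.fst).sum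

theorem len_cons (a : ℕ × ℂˣ) (L : List (ℕ × ℂˣ)) : len (a :: L) = a.1 + len L := by
  simp [len]

/-- block number and scalar at a position -/
def blkOf : List (ℕ × ℂˣ) → ℕ → ℕ × ℂˣ
  | [], _ => (0, 1)
  | a :: L, i => if i < a.1 then (0, a.2) else ((blkOf L (i - a.1)).1 + 1, (blkOf L (i - a.1)).2)

theorem blkOf_mono (L : List (ℕ × ℂˣ)) {i j : ℕ} (h : i ≤ j) : (blkOf L i).1 ≤ (blkOf L j).1 := by
  induction L generalizing i j with
  | nil => exact le_rfl
  | cons a L ih =>
    unfold blkOf
    split_ifs with h1 h2 h2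
    · exact le_rfl
    · exact Nat.zero_le _
    · omega
    · exact Nat.succ_le_succ (ih (by omega))

theorem blkOf_lt {a : ℕ × ℂˣ} {L : List (ℕ × ℂˣ)} {i : ℕ} (h : i < a.1) :
    blkOf (a :: L) i = (0, a.2) := by
  rw [blkOf, if_pos h]

theorem blkOf_ge {a : ℕ × ℂˣ} {L : List (ℕ × ℂˣ)} {i : ℕ} (h : ¬ i < a.1) :
    blkOf (a :: L) i = ((blkOf L (i - a.1)).1 + 1, (blkOf L (i - a.1)).2) := by
  rw [blkOf, if_neg h]

/-- block upper triangular with scalar diagonal blocks -/
def NT {n : ℕ} (L : List (ℕ × ℂˣ)) (X : G n) : Prop :=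
  len L ≤ n ∧ X ∈ GLk n (len L) ∧ ∀ i j : Fin n, i.1 < len L → j.1 < len L →
    ((blkOf L j.1).1 < (blkOf L i.1).1 → X.1 i j = 0) ∧
    ((blkOf L j.1).1 = (blkOf L i.1).1 → X.1 i j = if i = j then ((blkOf L i.1).2 : ℂ) else 0)

/-- scalar of a nested word -/
def nestS : List (ℕ × ℂˣ) → ℂˣ
  | [b] => b.2
  | _ => 1

/-- the nested word -/
def nestW : ℕ → List (ℕ × ℂˣ) → Wd
  | p, a :: b :: L => [Lt.par p [] (fun _ _ => 1) (stdl a.1 (len (b :: L))) (stdl a.1 (len (b :: L)))
      (fun x => bif x then p + 2 else p + 1)]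
  | _, _ => []

/-- the auxiliary roots -/
def nestR : ℕ → List (ℕ × ℂˣ) → List Root
  | p, a :: b :: L => ⟨a.1, a.2, [Lt.full (p + 1) false]⟩ ::
      ⟨len (b :: L), nestS (b :: L), nestW (p + 3) (b :: L) ++ [Lt.full (p + 2) false]⟩ ::
      nestR (p + 3) (b :: L)
  | _, _ => []

/-- the full names with ranks -/
def nestV : ℕ → List (ℕ × ℂˣ) → Multiset (ℕ × ℕ)
  | p, a :: b :: L => {(p + 1, a.1)} + {(p + 2, len (b :: L))} + nestV (p + 3) (b :: L)
  | _, _ => 0

theorem nestW_single (p : ℕ) (a : ℕ × ℂˣ) : nestW p [a] = [] := rfl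
theorem nestR_single (p : ℕ) (a : ℕ × ℂˣ) : nestR p [a] = [] := rfl
theorem nestV_single (p : ℕ) (a : ℕ × ℂˣ) : nestV p [a] = 0 := rfl

theorem nestW_cons (p : ℕ) (a b : ℕ × ℂˣ) (L : List (ℕ × ℂˣ)) : nestW p (a :: b :: L) =
    [Lt.par p [] (fun _ _ => 1) (stdl a.1 (len (b :: L))) (stdl a.1 (len (b :: L)))
      (fun x => bif x then p + 2 else p + 1)] := rfl

theorem nestR_cons (p : ℕ) (a b : ℕ × ℂˣ) (L : List (ℕ × ℂˣ)) : nestR p (a :: b :: L) =
    ⟨a.1, a.2, [Lt.full (p + 1) false]⟩ ::
      ⟨len (b :: L), nestS (b :: L), nestW (p + 3) (b :: L) ++ [Lt.full (p + 2) false]⟩ ::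
      nestR (p + 3) (b :: L) := rfl

theorem nestV_cons (p : ℕ) (a b : ℕ × ℂˣ) (L : List (ℕ × ℂˣ)) : nestV p (a :: b :: L) =
    {(p + 1, a.1)} + {(p + 2, len (b :: L))} + nestV (p + 3) (b :: L) := rfl

/-- positive and negative occurrences of a multiset of full names -/
def pr (V : Multiset (ℕ × ℕ)) : Multiset (ℕ × ℕ × Bool) :=
  V.map (fun v => (v.1, v.2, true)) + V.map (fun v => (v.1, v.2, false))

theorem pr_add (V W : Multiset (ℕ × ℕ)) : pr (V + W) = pr V + pr W := by
  simp only [pr, Multiset.map_add]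
  abel

theorem nest_occ (p : ℕ) (L : List (ℕ × ℂˣ)) (k : ℕ) :
    Wd.occ (nestW p L) k + ((nestR p L).map Root.occ).sum = pr (nestV p L) := by
  induction L generalizing p k with
  | nil => rfl
  | cons a L ih =>
    cases L with
    | nil => rfl
    | cons b L =>
      rw [nestW_cons, nestR_cons, nestV_cons, pr_add, ← ih (p + 3) (len (b :: L)), List.map_cons,
        List.map_cons, List.sum_cons, List.sum_cons]
      simp only [Root.occ, H486.occ_cons, H486.occ_app, Lt.occ, count_false_stdl, count_true_stdl,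
        cond_false, cond_true]
      have h0 : ∀ k, Wd.occ [] k = 0 := fun _ => rfl
      simp only [h0, add_zero, pr, Multiset.insert_eq_cons, Multiset.map_add, Multiset.map_singleton,
        ← Multiset.singleton_add]
      abel

theorem nest_pn (p : ℕ) (L : List (ℕ × ℂˣ)) :
    (nestV p L).map Prod.fst + (Wd.pn (nestW p L) + ((nestR p L).map Root.pn).sum) =
      ((List.range' p (3 * (L.length - 1)) : List ℕ) : Multiset ℕ) := by
  induction L generalizing p with
  | nil => rfl
  | cons a L ih =>
    cases L with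
    | nil => rfl
    | cons b L =>
      have e1 : 3 * ((a :: b :: L).length - 1) = 3 + 3 * ((b :: L).length - 1) := by
        simp only [List.length_cons]; omega
      rw [e1, List.range'_append_1.symm, ← Multiset.coe_add, ← ih (p + 3), nestW_cons, nestR_cons,
        nestV_cons, List.map_cons, List.map_cons, List.sum_cons, List.sum_cons, Multiset.map_add,
        Multiset.map_add]
      have e2 : ((List.range' p 3 : List ℕ) : Multiset ℕ) = {p} + {p + 1} + {p + 2} := rfl
      rw [e2]
      simp only [Root.pn, H486.pn_cons, H486.pn_app, Lt.pn]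
      have h0 : Wd.pn [] = 0 := rfl
      simp only [h0, add_zero, zero_add, Multiset.map_singleton]
      abel

theorem nest_WF (O : Subring ℂ) (p : ℕ) (L : List (ℕ × ℂˣ)) (hL : ∀ a ∈ L, IsSc O a.2)
    (prev : Option (List Bool)) : Wd.WF O (nestW p L) (len L) prev := by
  have h1 : IsSc O 1 := ⟨by simp, 1, one_pos, by simp⟩
  cases L with
  | nil => trivial
  | cons a L =>
    cases L with
    | nil => trivial
    | cons b L =>
      rw [nestW_cons]
      exact ⟨by rw [stdl_length, len_cons a], fun _ => rfl, Or.inl fun _ _ => rfl, fun _ _ => h1, trivial⟩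

theorem nestS_sc (O : Subring ℂ) (L : List (ℕ × ℂˣ)) (hL : ∀ a ∈ L, IsSc O a.2) : IsSc O (nestS L) := by
  have h1 : IsSc O 1 := ⟨by simp, 1, one_pos, by simp⟩
  cases L with
  | nil => exact h1
  | cons a L =>
    cases L with
    | nil => exact hL a (by simp)
    | cons b L => exact h1

theorem nestR_WF (O : Subring ℂ) (n p : ℕ) (L : List (ℕ × ℂˣ)) (hL : ∀ a ∈ L, IsSc O a.2)
    (hn : len L ≤ n) : ∀ r ∈ nestR p L, r.WF O n := by
  induction L generalizing p with
  | nil => intro r hr; simp [nestR] at hr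
  | cons a L ih =>
    cases L with
    | nil => intro r hr; simp [nestR] at hr
    | cons b L =>
      rw [len_cons] at hn
      have hL' : ∀ x ∈ b :: L, IsSc O x.2 := fun x hx => hL x (List.mem_cons_of_mem _ hx)
      intro r hr
      rw [nestR_cons, List.mem_cons, List.mem_cons] at hr
      rcases hr with rfl | rfl | hr
      · exact ⟨by dsimp only; omega, hL a (by simp), trivial⟩
      · refine ⟨by dsimp only; omega, nestS_sc O _ hL', ?_⟩
        dsimp only
        rw [H486.WF_app]
        exact ⟨nest_WF O _ _ hL' _, trivial⟩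
      · exact ih (p + 3) hL' (by omega) r hr

/-- the ranks of the auxiliary roots -/
theorem nestR_rank (p : ℕ) (L : List (ℕ × ℂˣ)) (h0 : ∀ a ∈ L, 0 < a.1) :
    ∀ r ∈ nestR p L, r.k < len L := by
  induction L generalizing p with
  | nil => intro r hr; simp [nestR] at hr
  | cons a L ih =>
    cases L with
    | nil => intro r hr; simp [nestR] at hr
    | cons b L =>
      have ha := h0 a (by simp)
      have hb : 0 < len (b :: L) := by
        have := h0 b (by simp)
        rw [len_cons]; omega
      intro r hr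
      rw [nestR_cons, List.mem_cons, List.mem_cons] at hr
      rw [len_cons a]
      rcases hr with rfl | rfl | hr
      · dsimp only; omega
      · dsimp only; omega
      · have := ih (p + 3) (fun x hx => h0 x (List.mem_cons_of_mem _ hx)) r hr
        omega

section value
variable {n : ℕ}

theorem dsg_one (e c : List Bool) : dsg n e c (fun _ _ => 1) = 1 := by
  apply Units.ext
  change Matrix.diagonal _ = (1 : Matrix (Fin n) (Fin n) ℂ)
  rw [← Matrix.diagonal_one]
  congr 1
  funext i
  dsimp only
  split <;> rfl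

theorem scal_one (k : ℕ) : scal n k 1 = 1 := by
  apply Units.ext
  change Matrix.diagonal _ = (1 : Matrix (Fin n) (Fin n) ℂ)
  rw [← Matrix.diagonal_one]
  congr 1
  funext i
  dsimp only
  split <;> rfl

theorem scal_apply (k : ℕ) (a : ℂˣ) (i j : Fin n) :
    (scal n k a).1 i j = if i = j then (if i.1 < k then (a : ℂ) else 1) else 0 := by
  change Matrix.diagonal _ i j = _
  rw [Matrix.diagonal_apply]
  dsimp only
  split_ifs <;> rfl

theorem scal_mem (k : ℕ) (a : ℂˣ) : scal n k a ∈ GLk n k := by
  intro i j hij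
  rw [scal_apply]
  split_ifs with h1 h2
  · subst h1; omega
  · rfl
  · rfl

/-- the matrix value of a nested word -/
def nval (ρ : ℕ → G n) (p : ℕ) (L : List (ℕ × ℂˣ)) : G n :=
  scal n (len L) (nestS L) * Wd.eval ρ (nestW p L)

theorem nval_single (ρ : ℕ → G n) (p : ℕ) (a : ℕ × ℂˣ) : nval ρ p [a] = scal n (len [a]) a.2 := by
  rw [nval, nestW_single, H486.eval_nil, mul_one]
  rfl

theorem nval_cons (ρ : ℕ → G n) (p : ℕ) (a b : ℕ × ℂˣ) (L : List (ℕ × ℂˣ)) :
    nval ρ p (a :: b :: L) = ρ p := by
  rw [nval, nestW_cons, H486.eval_cons, H486.eval_nil, mul_one]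
  change scal n _ 1 * (dsg n _ _ _ * ρ p) = ρ p
  rw [scal_one, dsg_one, one_mul, one_mul]

/-- the equations of the child names -/
theorem root_full_neg (ρ : ℕ → G n) (k x : ℕ) (ξ : ℂˣ) (w : Wd)
    (h : (⟨k, ξ, w ++ [Lt.full x false]⟩ : Root).Sol ρ) :
    Wd.Sat ρ w k ∧ ρ x = scal n k ξ * Wd.eval ρ w := by
  obtain ⟨h1, h2⟩ := h
  dsimp only at h1 h2
  rw [H486.Sat_app] at h1
  rw [H486.eval_app, H486.eval_cons, H486.eval_nil, mul_one] at h2
  refine ⟨h1.1, ?_⟩
  change scal n k ξ * (Wd.eval ρ w * (ρ x)⁻¹) = 1 at h2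
  rw [← mul_assoc, mul_inv_eq_one] at h2
  exact h2.symm

theorem root_full_neg' (ρ : ℕ → G n) (k x : ℕ) (ξ : ℂˣ) (w : Wd) (h : Wd.Sat ρ w k)
    (hx : ρ x = scal n k ξ * Wd.eval ρ w) (hk : ρ x ∈ GLk n k) :
    (⟨k, ξ, w ++ [Lt.full x false]⟩ : Root).Sol ρ := by
  refine ⟨?_, ?_⟩
  · dsimp only
    rw [H486.Sat_app]
    refine ⟨h, ?_⟩
    rintro l hl
    rw [List.mem_singleton] at hl
    subst hl
    exact hk
  · dsimp only
    rw [H486.eval_app, H486.eval_cons, H486.eval_nil, mul_one]
    change scal n k ξ * (Wd.eval ρ w * (ρ x)⁻¹) = 1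
    rw [← mul_assoc, mul_inv_eq_one, hx]

theorem NT_single (a : ℕ × ℂˣ) (ha : a.1 ≤ n) : NT [a] (scal n (len [a]) a.2) := by
  have hl : len [a] = a.1 := by simp [len]
  refine ⟨by rwa [hl], scal_mem _ _, fun i j hi hj => ⟨fun h => ?_, fun _ => ?_⟩⟩
  · rw [hl] at hi hj
    simp [blkOf, hi, hj] at h
  · rw [scal_apply, if_pos hi]
    rw [hl] at hi
    simp [blkOf, hi]

theorem NT_of_Sol (ρ : ℕ → G n) (p : ℕ) (L : List (ℕ × ℂˣ)) (hL : L ≠ []) (hn : len L ≤ n)
    (h : Wd.Sat ρ (nestW p L) (len L)) (hR : ∀ r ∈ nestR p L, r.Sol ρ) : NT L (nval ρ p L) := by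
  induction L generalizing p with
  | nil => exact absurd rfl hL
  | cons a L ih =>
    cases L with
    | nil =>
      rw [nval_single]
      refine NT_single a ?_
      simpa [len] using hn
    | cons b L =>
      have h1 := h _ (List.mem_singleton_self _)
      change IsPar (stdl a.1 (len (b :: L))) (stdl a.1 (len (b :: L))) _ (ρ p) at h1
      rw [isPar_std_iff] at h1
      simp only [cond_true, cond_false] at h1
      rw [nestR_cons] at hR
      have hr1 := hR _ (List.mem_cons_self)
      have hr2 := hR _ (List.mem_cons_of_mem _ List.mem_cons_self)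
      have hr3 : ∀ r ∈ nestR (p + 3) (b :: L), r.Sol ρ := fun r hr =>
        hR r (List.mem_cons_of_mem _ (List.mem_cons_of_mem _ hr))
      have e8 := (root_full_neg ρ a.1 (p + 1) a.2 [] hr1).2
      obtain ⟨h3, e9⟩ := root_full_neg ρ _ (p + 2) _ _ hr2
      rw [H486.eval_nil, mul_one] at e8
      rw [e8, e9] at h1
      obtain ⟨e1, e2, e3, e4, e5, e6, e7⟩ := h1
      have hn' : len (b :: L) ≤ n := by rw [len_cons] at hn; omega
      have h4 := ih (p + 3) (List.cons_ne_nil _ _) hn' h3 hr3
      obtain ⟨-, -, h6⟩ := h4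
      rw [nval_cons]
      rw [← len_cons] at e1 e2
      refine ⟨e1, e2, fun i j hi hj => ?_⟩
      rw [len_cons] at hi hj
      by_cases hi' : i.1 < a.1
      · by_cases hj' : j.1 < a.1
        · refine ⟨fun h => ?_, fun _ => ?_⟩
          · simp [blkOf, hi', hj'] at h
          · rw [e6 i j hi' hj', scal_apply, if_pos hi']
            simp [blkOf, hi']
        · refine ⟨fun h => ?_, fun h => ?_⟩
          · simp [blkOf, hi', hj'] at h
          · simp [blkOf, hi', hj'] at h
      · by_cases hj' : j.1 < a.1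
        · refine ⟨fun _ => ?_, fun h => ?_⟩
          · exact e5 i j (by omega) (by omega) hj'
          · simp [blkOf, hi', hj'] at h
        · have hiu : i.1 - a.1 < n := by omega
          have hjv : j.1 - a.1 < n := by omega
          have h7 := h6 ⟨i.1 - a.1, hiu⟩ ⟨j.1 - a.1, hjv⟩ (by simp; omega) (by simp; omega)
          have h8 := e7 i j ⟨i.1 - a.1, hiu⟩ ⟨j.1 - a.1, hjv⟩ (by omega) (by omega)
            (by simp; omega) (by simp; omega)
          rw [blkOf_ge hi', blkOf_ge hj', add_lt_add_iff_right, add_left_inj]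
          refine ⟨fun h => ?_, fun h => ?_⟩
          · rw [h8]
            exact h7.1 h
          · rw [h8]
            have h9 := h7.2 h
            have h10 : (⟨i.1 - a.1, hiu⟩ : Fin n) = ⟨j.1 - a.1, hjv⟩ ↔ i = j := by
              rw [Fin.ext_iff, Fin.ext_iff]
              simp only
              omega
            simp only [h10] at h9
            exact h9

/-- the lower right block moved to the top left -/
noncomputable def lowM (X : Matrix (Fin n) (Fin n) ℂ) (m r : ℕ) : Matrix (Fin n) (Fin n) ℂ :=
  Matrix.of fun u v => if h : u.1 + m < m + r ∧ v.1 + m < m + r ∧ m + r ≤ n then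
    X ⟨u.1 + m, lt_of_lt_of_le h.1 h.2.2⟩ ⟨v.1 + m, lt_of_lt_of_le h.2.1 h.2.2⟩
    else if u = v then 1 else 0

theorem exists_low {a : ℕ × ℂˣ} {L : List (ℕ × ℂˣ)} {X : G n} (hX : NT (a :: L) X) :
    ∃ Y : G n, NT L Y ∧ ∀ i j u v : Fin n, i.1 < a.1 + len L → j.1 < a.1 + len L → i.1 = u.1 + a.1 →
      j.1 = v.1 + a.1 → X.1 i j = Y.1 u v := by
  obtain ⟨h1, h2, h3⟩ := hX
  rw [len_cons] at h1 h2 h3
  have key : ∀ u v : Fin n, u.1 < len L → v.1 < len L →
      ((blkOf L v.1).1 < (blkOf L u.1).1 → lowM X.1 a.1 (len L) u v = 0) ∧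
      ((blkOf L v.1).1 = (blkOf L u.1).1 →
        lowM X.1 a.1 (len L) u v = if u = v then ((blkOf L u.1).2 : ℂ) else 0) := by
    intro u v hu hv
    have hc : u.1 + a.1 < a.1 + len L ∧ v.1 + a.1 < a.1 + len L ∧ a.1 + len L ≤ n :=
      ⟨by omega, by omega, h1⟩
    have hlow : lowM X.1 a.1 (len L) u v = X.1 ⟨u.1 + a.1, lt_of_lt_of_le hc.1 hc.2.2⟩
        ⟨v.1 + a.1, lt_of_lt_of_le hc.2.1 hc.2.2⟩ := by
      simp only [lowM, Matrix.of_apply]
      rw [dif_pos hc]
    have h4 := h3 ⟨u.1 + a.1, lt_of_lt_of_le hc.1 hc.2.2⟩ ⟨v.1 + a.1, lt_of_lt_of_le hc.2.1 hc.2.2⟩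
      hc.1 hc.2.1
    simp only [blkOf, Nat.not_lt.2 (Nat.le_add_left a.1 _), if_false, Nat.add_sub_cancel,
      add_lt_add_iff_right, add_left_inj, Fin.mk.injEq] at h4
    rw [hlow]
    refine ⟨h4.1, fun h => ?_⟩
    rw [h4.2 h]
    simp only [Fin.ext_iff]
  have hut : (lowM X.1 a.1 (len L)).BlockTriangular id := by
    intro u v huv
    simp only [id] at huv
    by_cases hc : u.1 < len L ∧ v.1 < len L
    · obtain ⟨k1, k2⟩ := key u v hc.1 hc.2
      rcases (blkOf_mono L (le_of_lt huv)).lt_or_eq with h | h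
      · exact k1 h
      · rw [k2 h, if_neg (ne_of_gt huv)]
    · simp only [lowM, Matrix.of_apply]
      rw [dif_neg (by omega), if_neg (ne_of_gt huv)]
  have hdet : (lowM X.1 a.1 (len L)).det ≠ 0 := by
    rw [Matrix.det_of_isUpperTriangular hut]
    refine Finset.prod_ne_zero_iff.2 fun u _ => ?_
    by_cases hu : u.1 < len L
    · rw [(key u u hu hu).2 rfl, if_pos rfl]
      exact Units.ne_zero _
    · simp only [lowM, Matrix.of_apply]
      rw [dif_neg (by omega)]
      simp
  refine ⟨Matrix.GeneralLinearGroup.mkOfDetNeZero _ hdet, ⟨by omega, ?_, key⟩, ?_⟩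
  · intro i j hij
    change lowM X.1 a.1 (len L) i j = _
    simp only [lowM, Matrix.of_apply]
    rw [dif_neg (by omega)]
  · intro i j u v hi hj hu hv
    change _ = lowM X.1 a.1 (len L) u v
    simp only [lowM, Matrix.of_apply]
    rw [dif_pos ⟨by omega, by omega, h1⟩]
    exact congrArg₂ X.1 (Fin.ext hu) (Fin.ext hv)

theorem nest_exists (L : List (ℕ × ℂˣ)) (hL : L ≠ []) (X : G n) (hX : NT L X) (p : ℕ) :
    ∃ r : ℕ → G n, ∀ ρ : ℕ → G n, (∀ j, p ≤ j → j < p + 3 * (L.length - 1) → ρ j = r j) →
      Wd.Sat ρ (nestW p L) (len L) ∧ (∀ r ∈ nestR p L, r.Sol ρ) ∧ nval ρ p L = X := by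
  induction L generalizing p X with
  | nil => exact absurd rfl hL
  | cons a L ih =>
    cases L with
    | nil =>
      refine ⟨fun _ => 1, fun ρ _ => ⟨fun l hl => by simp [nestW] at hl,
        fun r hr => by simp [nestR] at hr, ?_⟩⟩
      rw [nval_single]
      have hl : len [a] = a.1 := by simp [len]
      obtain ⟨h1, h2, h3⟩ := hX
      apply Units.ext
      ext i j
      by_cases hi : i.1 < len [a]
      · by_cases hj : j.1 < len [a]
        · have h4 := (h3 i j hi hj).2 (by rw [hl] at hi hj; simp [blkOf, hi, hj])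
          rw [h4, scal_apply, if_pos hi]
          rw [hl] at hi
          simp [blkOf, hi]
        · rw [h2 i j (Or.inr (by omega)), scal_apply, if_pos hi]
          have : i ≠ j := by rintro rfl; exact hj hi
          rw [if_neg this, if_neg this]
      · rw [h2 i j (Or.inl (by omega)), scal_apply, if_neg hi]
    | cons b L =>
      obtain ⟨Y, hY, hXY⟩ := exists_low hX
      obtain ⟨r, hr⟩ := ih (List.cons_ne_nil _ _) Y hY (p + 3)
      obtain ⟨h1, h2, h3⟩ := hX
      refine ⟨fun j => if j = p then X else if j = p + 1 then scal n a.1 a.2 else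
        if j = p + 2 then Y else r j, fun ρ hρ => ?_⟩
      have hlen : 3 * ((a :: b :: L).length - 1) = 3 + 3 * ((b :: L).length - 1) := by
        simp only [List.length_cons]; omega
      rw [hlen] at hρ
      have hp : ρ p = X := by
        rw [hρ p le_rfl (by omega)]
        exact if_pos rfl
      have hp1 : ρ (p + 1) = scal n a.1 a.2 := by
        rw [hρ (p + 1) (by omega) (by omega)]
        dsimp only
        rw [if_neg (by omega), if_pos rfl]
      have hp2 : ρ (p + 2) = Y := by
        rw [hρ (p + 2) (by omega) (by omega)]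
        dsimp only
        rw [if_neg (by omega), if_neg (by omega), if_pos rfl]
      have hρ' : ∀ j, p + 3 ≤ j → j < p + 3 + 3 * ((b :: L).length - 1) → ρ j = r j := by
        intro j hj hj'
        rw [hρ j (by omega) (by omega)]
        dsimp only
        rw [if_neg (by omega), if_neg (by omega), if_neg (by omega)]
      obtain ⟨h4, h4', h5⟩ := hr ρ hρ'
      have hlc : len (a :: b :: L) = a.1 + len (b :: L) := len_cons _ _
      refine ⟨?_, ?_, by rw [nval_cons, hp]⟩
      · intro l hl
        rw [nestW_cons, List.mem_singleton] at hl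
        subst hl
        change IsPar (stdl a.1 (len (b :: L))) (stdl a.1 (len (b :: L))) _ (ρ p)
        rw [isPar_std_iff]
        simp only [cond_true, cond_false]
        rw [hp, hp1, hp2]
        refine ⟨by rw [← hlc]; exact h1, by rw [← hlc]; exact h2, scal_mem _ _, hY.2.1, ?_, ?_, hXY⟩
        · intro i j hi hi' hj
          refine (h3 i j (by omega) (by omega)).1 ?_
          have : ¬ i.1 < a.1 := by omega
          simp [blkOf, hj, this]
        · intro i j hi hj
          rw [(h3 i j (by omega) (by omega)).2 (by simp [blkOf, hi, hj]), scal_apply, if_pos hi]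
          simp [blkOf, hi]
      · intro r' hr'
        rw [nestR_cons, List.mem_cons, List.mem_cons] at hr'
        rcases hr' with rfl | rfl | hr'
        · refine root_full_neg' ρ _ _ _ [] (fun l hl => by simp at hl) ?_ ?_
          · rw [hp1, H486.eval_nil, mul_one]
          · rw [hp1]; exact scal_mem _ _
        · refine root_full_neg' ρ _ _ _ _ h4 ?_ ?_
          · rw [hp2]; exact h5.symm
          · rw [hp2]; exact hY.2.1
        · exact h4' r' hr'

end value

end Crest.Agent.R003.WD
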