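import Crest.Agent.R003.Iface

/-!
# Row 3: API for words and systems (helper278), part 1: pure combinatorics.

`Wd := List Lt`, so `++`, `::`, `List.mem_append` … are the list operations.
-/

set_option autoImplicit false

namespace Crest.Agent.R003

/-! ### letters -/

namespace Lt

@[simp] theorem eval_full {n : ℕ} (ρ : ℕ → G n) (x : ℕ) (ε : Bool) :
    (full x ε).eval ρ = if ε then ρ x else (ρ x)⁻¹ := rfl

@[simp] theorem eval_par {n : ℕ} (ρ : ℕ → G n) (p : ℕ) (e : List Bool) (σ : Bool → Bool → ℂˣ)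
    (c c' : List Bool) (g : Bool → ℕ) :
    (par p e σ c c' g).eval ρ = dsg n e c σ * ρ p := rfl

@[simp] theorem Sat_full {n : ℕ} (ρ : ℕ → G n) (k x : ℕ) (ε : Bool) :
    Lt.Sat ρ k (full x ε) ↔ ρ x ∈ GLk n k := Iff.rfl

@[simp] theorem Sat_par {n : ℕ} (ρ : ℕ → G n) (k p : ℕ) (e : List Bool) (σ : Bool → Bool → ℂˣ)
    (c c' : List Bool) (g : Bool → ℕ) :
    Lt.Sat ρ k (par p e σ c c' g) ↔ IsPar c c' (fun b => ρ (g b)) (ρ p) := Iff.rfl

@[simp] theorem occ_full (k x : ℕ) (ε : Bool) : (full x ε).occ k = {(x, k, ε)} := rfl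

@[simp] theorem occ_par (k p : ℕ) (e : List Bool) (σ : Bool → Bool → ℂˣ)
    (c c' : List Bool) (g : Bool → ℕ) : (par p e σ c c' g).occ k =
      {(g false, c.count false, true), (g true, c.count true, true)} := rfl

@[simp] theorem pn_full (x : ℕ) (ε : Bool) : (full x ε).pn = 0 := rfl

@[simp] theorem pn_par (p : ℕ) (e : List Bool) (σ : Bool → Bool → ℂˣ)
    (c c' : List Bool) (g : Bool → ℕ) : (par p e σ c c' g).pn = {p} := rfl

@[simp] theorem wt_full (k x : ℕ) (ε : Bool) : (full x ε).wt k = {3 * k + 1} := rfl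

theorem wt_nd {k p : ℕ} {e : List Bool} {σ : Bool → Bool → ℂˣ}
    {c c' : List Bool} {g : Bool → ℕ} (h : ∀ b, 0 < c.count b) (hs : ∀ x y, σ x y = 1) :
    (par p e σ c c' g).wt k = {3 * k} := by
  rw [wt, if_pos h, if_pos hs]

theorem wt_nd_sgn {k p : ℕ} {e : List Bool} {σ : Bool → Bool → ℂˣ}
    {c c' : List Bool} {g : Bool → ℕ} (h : ∀ b, 0 < c.count b) (hs : ¬ ∀ x y, σ x y = 1) :
    (par p e σ c c' g).wt k = {3 * k, 3 * k - 1} := by
  rw [wt, if_pos h, if_neg hs]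

theorem wt_deg {k p : ℕ} {e : List Bool} {σ : Bool → Bool → ℂˣ}
    {c c' : List Bool} {g : Bool → ℕ} (h : ¬ ∀ b, 0 < c.count b) (hs : ∀ x y, σ x y = 1) :
    (par p e σ c c' g).wt k = {3 * k + 2} := by
  rw [wt, if_neg h, if_pos hs]

theorem wt_deg_sgn {k p : ℕ} {e : List Bool} {σ : Bool → Bool → ℂˣ}
    {c c' : List Bool} {g : Bool → ℕ} (h : ¬ ∀ b, 0 < c.count b) (hs : ¬ ∀ x y, σ x y = 1) :
    (par p e σ c c' g).wt k = {3 * k + 2, 3 * k + 2} := by
  rw [wt, if_neg h, if_neg hs]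

/-- all weights of a letter of rank `k` are at most `3k+2` -/
theorem wt_le {k : ℕ} {l : Lt} {m : ℕ} (h : m ∈ l.wt k) : m ≤ 3 * k + 2 := by
  cases l with
  | full x ε => rw [wt_full, Multiset.mem_singleton] at h; omega
  | par p e σ c c' g =>
    rw [wt] at h
    split_ifs at h <;> simp at h <;> omega

/-- all weights of a nondegenerate P-letter of rank `k` are at most `3k` -/
theorem wt_le_of_nd {k p : ℕ} {e : List Bool} {σ : Bool → Bool → ℂˣ}
    {c c' : List Bool} {g : Bool → ℕ} (h : ∀ b, 0 < c.count b) {m : ℕ}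
    (hm : m ∈ (par p e σ c c' g).wt k) : m ≤ 3 * k := by
  rw [wt, if_pos h] at hm
  split_ifs at hm <;> simp at hm <;> omega

@[simp] theorem Nd_full (x : ℕ) (ε : Bool) : ¬ (full x ε).Nd := id
@[simp] theorem Nd_par {p : ℕ} {e : List Bool} {σ : Bool → Bool → ℂˣ}
    {c c' : List Bool} {g : Bool → ℕ} : (par p e σ c c' g).Nd ↔ ∀ b, 0 < c.count b := Iff.rfl
@[simp] theorem IsFull_full (x : ℕ) (ε : Bool) : (full x ε).IsFull := trivial
@[simp] theorem not_IsFull_par {p : ℕ} {e : List Bool} {σ : Bool → Bool → ℂˣ}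
    {c c' : List Bool} {g : Bool → ℕ} : ¬ (par p e σ c c' g).IsFull := id

theorem IsFull.exists {l : Lt} (h : l.IsFull) : ∃ x ε, l = full x ε := by
  cases l with
  | full x ε => exact ⟨x, ε, rfl⟩
  | par p e σ c c' g => exact absurd h id

/-- the names occurring in a letter -/
def nm : Lt → Finset ℕ
  | full x _ => {x}
  | par p _ _ _ _ g => {p, g false, g true}

@[simp] theorem nm_full (x : ℕ) (ε : Bool) : (full x ε).nm = {x} := rfl
@[simp] theorem nm_par (p : ℕ) (e : List Bool) (σ : Bool → Bool → ℂˣ)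
    (c c' : List Bool) (g : Bool → ℕ) : (par p e σ c c' g).nm = {p, g false, g true} := rfl

theorem mem_nm {l : Lt} {x : ℕ} (k : ℕ) :
    x ∈ l.nm ↔ (∃ j ε, (x, j, ε) ∈ l.occ k) ∨ x ∈ l.pn := by
  cases l with
  | full y δ =>
    simp only [nm_full, Finset.mem_singleton, occ_full, Multiset.mem_singleton, pn_full,
      Multiset.notMem_zero, or_false, Prod.mk.injEq]
    constructor
    · rintro rfl; exact ⟨k, δ, rfl, rfl, rfl⟩
    · rintro ⟨j, ε, h, _⟩; exact h
  | par p e σ c c' g =>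
    simp only [nm_par, Finset.mem_insert, Finset.mem_singleton, occ_par, Multiset.insert_eq_cons,
      Multiset.mem_cons, Multiset.mem_singleton, pn_par, Prod.mk.injEq]
    constructor
    · rintro (rfl | rfl | rfl)
      · exact Or.inr rfl
      · exact Or.inl ⟨_, _, Or.inl ⟨rfl, rfl, rfl⟩⟩
      · exact Or.inl ⟨_, _, Or.inr ⟨rfl, rfl, rfl⟩⟩
    · rintro (⟨j, ε, ⟨h, _⟩ | ⟨h, _⟩⟩ | h)
      · exact Or.inr (Or.inl h)
      · exact Or.inr (Or.inr h)
      · exact Or.inl h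

theorem eval_congr_nm {n : ℕ} {ρ ρ' : ℕ → G n} {l : Lt} (h : ∀ x ∈ l.nm, ρ x = ρ' x) :
    l.eval ρ = l.eval ρ' := by
  cases l with
  | full y δ => rw [eval_full, eval_full, h y (by simp)]
  | par p e σ c c' g => rw [eval_par, eval_par, h p (by simp)]

theorem Sat_congr_nm {n : ℕ} {ρ ρ' : ℕ → G n} {k : ℕ} {l : Lt} (h : ∀ x ∈ l.nm, ρ x = ρ' x) :
    Lt.Sat ρ k l ↔ Lt.Sat ρ' k l := by
  cases l with
  | full y δ => rw [Sat_full, Sat_full, h y (by simp)]
  | par p e σ c c' g =>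
    have h1 : (fun b => ρ (g b)) = fun b => ρ' (g b) := by
      funext b
      cases b
      · exact h _ (by simp)
      · exact h _ (by simp)
    rw [Sat_par, Sat_par, h p (by simp), h1]

end Lt

/-! ### words -/

namespace Wd

section
variable {n : ℕ} (ρ : ℕ → G n)

@[simp] theorem eval_nil : eval ρ [] = 1 := rfl
@[simp] theorem eval_cons (l : Lt) (w : Wd) : eval ρ (l :: w) = l.eval ρ * eval ρ w := rfl
theorem eval_app (u v : Wd) : eval ρ (u ++ v) = eval ρ u * eval ρ v := by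
  rw [eval, eval, eval, List.map_append, List.prod_append]
theorem eval_singleton (l : Lt) : eval ρ [l] = l.eval ρ := mul_one _

@[simp] theorem Sat_nil (k : ℕ) : Wd.Sat ρ [] k := by simp [Sat]
@[simp] theorem Sat_cons (l : Lt) (w : Wd) (k : ℕ) :
    Wd.Sat ρ (l :: w) k ↔ Lt.Sat ρ k l ∧ Wd.Sat ρ w k := by simp [Sat]
@[simp] theorem Sat_app (u v : Wd) (k : ℕ) :
    Wd.Sat ρ (u ++ v) k ↔ Wd.Sat ρ u k ∧ Wd.Sat ρ v k := by
  simp only [Sat, List.mem_append]
  exact ⟨fun h => ⟨fun l hl => h l (Or.inl hl), fun l hl => h l (Or.inr hl)⟩,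
    fun h l hl => hl.elim (h.1 l) (h.2 l)⟩

theorem Sat_perm {u v : Wd} (h : u.Perm v) (k : ℕ) : Wd.Sat ρ u k ↔ Wd.Sat ρ v k := by
  simp only [Sat, h.mem_iff]

end

@[simp] theorem last_nil (d : Option (List Bool)) : last [] d = d := rfl
@[simp] theorem last_full (x : ℕ) (ε : Bool) (w : Wd) (d : Option (List Bool)) :
    last (Lt.full x ε :: w) d = last w none := rfl
@[simp] theorem last_par (p : ℕ) (e : List Bool) (σ : Bool → Bool → ℂˣ)
    (c c' : List Bool) (g : Bool → ℕ) (w : Wd) (d : Option (List Bool)) :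
    last (Lt.par p e σ c c' g :: w) d = last w (some c') := rfl

theorem last_app (u v : Wd) (d : Option (List Bool)) : last (u ++ v) d = last v (last u d) := by
  induction u generalizing d with
  | nil => rfl
  | cons l u ih =>
    cases l with
    | full x ε => exact ih none
    | par p e σ c c' g => exact ih (some c')

theorem last_eq_of_ne_nil {w : Wd} (h : w ≠ []) (d d' : Option (List Bool)) :
    last w d = last w d' := by
  cases w with
  | nil => exact absurd rfl h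
  | cons l w => cases l <;> rfl

/-- idempotency of `last` (used for cyclic words) -/
theorem last_last (w : Wd) (d : Option (List Bool)) : last w (last w d) = last w d := by
  cases w with
  | nil => rfl
  | cons l w => cases l <;> rfl

section
variable (O : Subring ℂ)

@[simp] theorem WF_nil (k : ℕ) (prev : Option (List Bool)) : Wd.WF O [] k prev := by
  simp [WF]
@[simp] theorem WF_full (x : ℕ) (ε : Bool) (w : Wd) (k : ℕ) (prev : Option (List Bool)) :
    Wd.WF O (Lt.full x ε :: w) k prev ↔ Wd.WF O w k none := Iff.rfl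
theorem WF_par (p : ℕ) (e : List Bool) (σ : Bool → Bool → ℂˣ)
    (c c' : List Bool) (g : Bool → ℕ) (w : Wd) (k : ℕ) (prev : Option (List Bool)) :
    Wd.WF O (Lt.par p e σ c c' g :: w) k prev ↔
      c.length = k ∧ (∀ b, c.count b = c'.count b) ∧
      ((∀ x y, σ x y = 1) ∨ prev = some e) ∧ (∀ x y, IsSc O (σ x y)) ∧
      Wd.WF O w k (some c') := Iff.rfl

theorem WF_app (u v : Wd) (k : ℕ) (prev : Option (List Bool)) :
    Wd.WF O (u ++ v) k prev ↔ Wd.WF O u k prev ∧ Wd.WF O v k (last u prev) := by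
  induction u generalizing prev with
  | nil => simp
  | cons l u ih =>
    cases l with
    | full x ε => rw [List.cons_append, WF_full, WF_full, last_full, ih]
    | par p e σ c c' g =>
      rw [List.cons_append, WF_par, WF_par, last_par, ih]
      tauto

end

/-- a word which is well-formed after a full letter (or at the beginning) is well-formed after any
letter -/
theorem WF.of_none {O : Subring ℂ} {w : Wd} {k : ℕ} (h : Wd.WF O w k none)
    (prev : Option (List Bool)) : Wd.WF O w k prev := by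
  cases w with
  | nil => trivial
  | cons l w =>
    cases l with
    | full x ε => exact h
    | par p e σ c c' g =>
      rw [WF_par] at h ⊢
      refine ⟨h.1, h.2.1, Or.inl ?_, h.2.2.2⟩
      rcases h.2.2.1 with h4 | h4
      · exact h4
      · exact absurd h4 (by simp)

/-- if the head is untwisted, the previous letter is irrelevant -/
theorem WF.of_untw {O : Subring ℂ} {w : Wd} {k : ℕ} {prev : Option (List Bool)}
    (h : Wd.WF O w k prev) (hu : ∀ l ∈ w.head?, l.Untw) (prev' : Option (List Bool)) :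
    Wd.WF O w k prev' := by
  cases w with
  | nil => trivial
  | cons l w =>
    cases l with
    | full x ε => exact h
    | par p e σ c c' g =>
      rw [WF_par] at h ⊢
      exact ⟨h.1, h.2.1, Or.inl (hu _ rfl), h.2.2.2⟩

/-- well-formedness is a property of the letters and the junctions: the letters -/
theorem WF.letter {O : Subring ℂ} {w : Wd} {k : ℕ} {prev : Option (List Bool)}
    (h : Wd.WF O w k prev) {p : ℕ} {e : List Bool} {σ : Bool → Bool → ℂˣ} {c c' : List Bool}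
    {g : Bool → ℕ} (hl : Lt.par p e σ c c' g ∈ w) :
    c.length = k ∧ (∀ b, c.count b = c'.count b) ∧ ∀ x y, IsSc O (σ x y) := by
  obtain ⟨u, v, rfl⟩ := List.append_of_mem hl
  rw [WF_app, WF_par] at h
  exact ⟨h.2.1, h.2.2.1, h.2.2.2.2.1⟩

section
variable (k : ℕ)

@[simp] theorem occ_nil : occ [] k = 0 := rfl
@[simp] theorem occ_cons (l : Lt) (w : Wd) : occ (l :: w) k = l.occ k + occ w k := by simp [occ]
@[simp] theorem occ_app (u v : Wd) : occ (u ++ v) k = occ u k + occ v k := by simp [occ]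

@[simp] theorem pn_nil : pn [] = 0 := rfl
@[simp] theorem pn_cons (l : Lt) (w : Wd) : pn (l :: w) = l.pn + pn w := by simp [pn]
@[simp] theorem pn_app (u v : Wd) : pn (u ++ v) = pn u + pn v := by simp [pn]

@[simp] theorem wt_nil : wt [] k = 0 := rfl
@[simp] theorem wt_cons (l : Lt) (w : Wd) : wt (l :: w) k = l.wt k + wt w k := by simp [wt]
@[simp] theorem wt_app (u v : Wd) : wt (u ++ v) k = wt u k + wt v k := by simp [wt]

variable {k}
theorem mem_occ {w : Wd} {z : ℕ × ℕ × Bool} : z ∈ occ w k ↔ ∃ l ∈ w, z ∈ l.occ k := by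
  induction w with
  | nil => simp
  | cons l w ih => simp [ih]

theorem mem_pn {w : Wd} {p : ℕ} : p ∈ pn w ↔ ∃ l ∈ w, p ∈ l.pn := by
  induction w with
  | nil => simp
  | cons l w ih => simp [ih]

theorem mem_wt {w : Wd} {m : ℕ} : m ∈ wt w k ↔ ∃ l ∈ w, m ∈ l.wt k := by
  induction w with
  | nil => simp
  | cons l w ih => simp [ih]

theorem occ_perm {u v : Wd} (h : u.Perm v) (k : ℕ) : occ u k = occ v k := by
  rw [occ, occ]; exact (h.map _).sum_eq

theorem pn_perm {u v : Wd} (h : u.Perm v) : pn u = pn v := by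
  rw [pn, pn]; exact (h.map _).sum_eq

theorem wt_perm {u v : Wd} (h : u.Perm v) (k : ℕ) : wt u k = wt v k := by
  rw [wt, wt]; exact (h.map _).sum_eq

theorem wt_le {w : Wd} {k m : ℕ} (h : m ∈ wt w k) : m ≤ 3 * k + 2 := by
  obtain ⟨l, _, hl⟩ := mem_wt.1 h
  exact Lt.wt_le hl

end

@[simp] theorem hasNd_nil : ¬ hasNd [] := by simp [hasNd]
@[simp] theorem hasNd_cons (l : Lt) (w : Wd) : hasNd (l :: w) ↔ l.Nd ∨ hasNd w := by simp [hasNd]
@[simp] theorem hasNd_app (u v : Wd) : hasNd (u ++ v) ↔ hasNd u ∨ hasNd v := by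
  simp only [hasNd, List.mem_append]
  constructor
  · rintro ⟨l, hl | hl, h⟩
    · exact Or.inl ⟨l, hl, h⟩
    · exact Or.inr ⟨l, hl, h⟩
  · rintro (⟨l, hl, h⟩ | ⟨l, hl, h⟩)
    · exact ⟨l, Or.inl hl, h⟩
    · exact ⟨l, Or.inr hl, h⟩

theorem hasNd_perm {u v : Wd} (h : u.Perm v) : hasNd u ↔ hasNd v := by
  simp only [hasNd, h.mem_iff]

@[simp] theorem isFull_nil : isFull [] := by simp [isFull]
@[simp] theorem isFull_cons (l : Lt) (w : Wd) : isFull (l :: w) ↔ l.IsFull ∧ isFull w := by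
  simp [isFull]
@[simp] theorem isFull_app (u v : Wd) : isFull (u ++ v) ↔ isFull u ∧ isFull v := by
  simp only [isFull, List.mem_append]
  exact ⟨fun h => ⟨fun l hl => h l (Or.inl hl), fun l hl => h l (Or.inr hl)⟩,
    fun h l hl => hl.elim (h.1 l) (h.2 l)⟩

theorem isFull.pn {w : Wd} (h : isFull w) : pn w = 0 := by
  induction w with
  | nil => rfl
  | cons l w ih =>
    obtain ⟨h1, h2⟩ := (isFull_cons l w).1 h
    obtain ⟨x, ε, rfl⟩ := h1.exists
    rw [pn_cons, ih h2]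
    rfl

theorem isFull.WF (O : Subring ℂ) {w : Wd} (h : isFull w) (k : ℕ) (prev : Option (List Bool)) :
    Wd.WF O w k prev := by
  induction w generalizing prev with
  | nil => trivial
  | cons l w ih =>
    obtain ⟨h1, h2⟩ := (isFull_cons l w).1 h
    obtain ⟨x, ε, rfl⟩ := h1.exists
    exact ih h2 none

theorem isFull.not_hasNd {w : Wd} (h : isFull w) : ¬ hasNd w := by
  rintro ⟨l, hl, hn⟩
  obtain ⟨x, ε, rfl⟩ := (h l hl).exists
  exact hn

theorem isFull.last {w : Wd} (h : isFull w) : last w none = none := by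
  induction w with
  | nil => rfl
  | cons l w ih =>
    obtain ⟨h1, h2⟩ := (isFull_cons l w).1 h
    obtain ⟨x, ε, rfl⟩ := h1.exists
    exact ih h2

/-- the weights of a full word -/
theorem isFull.wt {w : Wd} (h : isFull w) (k : ℕ) :
    wt w k = Multiset.replicate w.length (3 * k + 1) := by
  induction w with
  | nil => rfl
  | cons l w ih =>
    obtain ⟨h1, h2⟩ := (isFull_cons l w).1 h
    obtain ⟨x, ε, rfl⟩ := h1.exists
    rw [wt_cons, ih h2, List.length_cons, Multiset.replicate_succ, Lt.wt_full,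
      Multiset.singleton_add]

/-! ### names and congruence -/

/-- names occurring in a word -/
def nm (w : Wd) : Set ℕ := {x | ∃ l ∈ w, x ∈ l.nm}

@[simp] theorem nm_nil : nm [] = ∅ := by simp [nm]
@[simp] theorem nm_cons (l : Lt) (w : Wd) : nm (l :: w) = ↑l.nm ∪ nm w := by
  ext x; simp [nm]
@[simp] theorem nm_app (u v : Wd) : nm (u ++ v) = nm u ∪ nm v := by
  induction u with
  | nil => simp
  | cons l u ih => rw [List.cons_append, nm_cons, nm_cons, ih, Set.union_assoc]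

theorem mem_nm {w : Wd} {x : ℕ} (k : ℕ) :
    x ∈ nm w ↔ (∃ j ε, (x, j, ε) ∈ occ w k) ∨ x ∈ pn w := by
  simp only [nm, Set.mem_ofPred_eq, Lt.mem_nm k, mem_occ, mem_pn]
  constructor
  · rintro ⟨l, hl, ⟨j, ε, h⟩ | h⟩
    · exact Or.inl ⟨j, ε, l, hl, h⟩
    · exact Or.inr ⟨l, hl, h⟩
  · rintro (⟨j, ε, l, hl, h⟩ | ⟨l, hl, h⟩)
    · exact ⟨l, hl, Or.inl ⟨j, ε, h⟩⟩
    · exact ⟨l, hl, Or.inr h⟩

theorem nm_perm {u v : Wd} (h : u.Perm v) : nm u = nm v := by
  ext x; simp only [nm, Set.mem_ofPred_eq, h.mem_iff]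

theorem eval_congr_nm {n : ℕ} {ρ ρ' : ℕ → G n} {w : Wd} (h : ∀ x ∈ nm w, ρ x = ρ' x) :
    eval ρ w = eval ρ' w := by
  induction w with
  | nil => rfl
  | cons l w ih =>
    rw [eval_cons, eval_cons, Lt.eval_congr_nm fun x hx => h x (by simp [hx]),
      ih fun x hx => h x (by simp [hx])]

theorem Sat_congr_nm {n : ℕ} {ρ ρ' : ℕ → G n} {w : Wd} {k : ℕ} (h : ∀ x ∈ nm w, ρ x = ρ' x) :
    Wd.Sat ρ w k ↔ Wd.Sat ρ' w k := by
  induction w with
  | nil => simp
  | cons l w ih =>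
    rw [Sat_cons, Sat_cons, Lt.Sat_congr_nm fun x hx => h x (by simp [hx]),
      ih fun x hx => h x (by simp [hx])]

/-! ### ranks of occurrences, splitting -/

theorem count_add (c : List Bool) : c.count false + c.count true = c.length := by
  have := List.count_true_add_count_false c
  omega

theorem count_le (c : List Bool) (b : Bool) : c.count b ≤ c.length := List.count_le_length

theorem count_lt {c : List Bool} (h : ∀ b, 0 < c.count b) (b : Bool) : c.count b < c.length := by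
  have h1 := count_add c
  have h2 := h true
  have h3 := h false
  cases b <;> omega

/-- all occurrences in a well-formed word of rank `k` have rank at most `k` -/
theorem occ_le {O : Subring ℂ} {w : Wd} {k : ℕ} {prev : Option (List Bool)} (h : Wd.WF O w k prev)
    {x j : ℕ} {ε : Bool} (hx : (x, j, ε) ∈ occ w k) : j ≤ k := by
  obtain ⟨l, hl, hx⟩ := mem_occ.1 hx
  cases l with
  | full y δ => simp at hx; omega
  | par p e σ c c' g =>
    have h1 := (h.letter hl).1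
    simp only [Lt.occ_par, Multiset.insert_eq_cons, Multiset.mem_cons, Multiset.mem_singleton,
      Prod.mk.injEq] at hx
    rcases hx with ⟨_, rfl, _⟩ | ⟨_, rfl, _⟩
    · exact h1 ▸ count_le _ _
    · exact h1 ▸ count_le _ _

/-- an occurrence of rank `k` in a word of rank `k` is a full letter, or a child name of a degenerate
P-letter -/
theorem occ_cases {O : Subring ℂ} {w : Wd} {k : ℕ} {prev : Option (List Bool)}
    (h : Wd.WF O w k prev) {x : ℕ} {ε : Bool} (hx : (x, k, ε) ∈ occ w k) :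
    Lt.full x ε ∈ w ∨ ∃ p e σ c c' g, Lt.par p e σ c c' g ∈ w ∧ ∃ t, c.count (!t) = 0 ∧ x = g t ∧
      ε = true := by
  obtain ⟨l, hl, hx⟩ := mem_occ.1 hx
  cases l with
  | full y δ =>
    left
    simp at hx
    rw [hx.1, hx.2]; exact hl
  | par p e σ c c' g =>
    right
    have h1 := (h.letter hl).1
    have h2 := count_add c
    refine ⟨p, e, σ, c, c', g, hl, ?_⟩
    simp only [Lt.occ_par, Multiset.insert_eq_cons, Multiset.mem_cons, Multiset.mem_singleton,
      Prod.mk.injEq] at hx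
    rcases hx with ⟨hx1, hx2, hx3⟩ | ⟨hx1, hx2, hx3⟩
    · exact ⟨false, by simp only [Bool.not_false]; omega, hx1, hx3⟩
    · exact ⟨true, by simp only [Bool.not_true]; omega, hx1, hx3⟩

theorem split_of_mem {w : Wd} {l : Lt} (h : l ∈ w) : ∃ u v : Wd, w = u ++ l :: v :=
  List.append_of_mem h

/-- two splittings of a word: either the same place, or one is left of the other -/
theorem split_cases {u v u' v' : Wd} {l l' : Lt} (h : u ++ l :: v = u' ++ l' :: v') :
    (u = u' ∧ l = l' ∧ v = v') ∨ (∃ m, u' = u ++ l :: m ∧ v = m ++ l' :: v') ∨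
      (∃ m, u = u' ++ l' :: m ∧ v' = m ++ l :: v) := by
  induction u generalizing u' with
  | nil =>
    cases u' with
    | nil =>
      simp only [List.nil_append, List.cons.injEq] at h
      exact Or.inl ⟨rfl, h.1, h.2⟩
    | cons z u' =>
      simp only [List.nil_append, List.cons_append, List.cons.injEq] at h
      obtain ⟨rfl, rfl⟩ := h
      exact Or.inr (Or.inl ⟨u', rfl, rfl⟩)
  | cons z u ih =>
    cases u' with
    | nil =>
      simp only [List.nil_append, List.cons_append, List.cons.injEq] at h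
      obtain ⟨rfl, rfl⟩ := h
      exact Or.inr (Or.inr ⟨u, rfl, rfl⟩)
    | cons z' u' =>
      simp only [List.cons_append, List.cons.injEq] at h
      obtain ⟨rfl, h⟩ := h
      rcases ih h with ⟨rfl, h1, h2⟩ | ⟨m, rfl, h1⟩ | ⟨m, rfl, h1⟩
      · exact Or.inl ⟨rfl, h1, h2⟩
      · exact Or.inr (Or.inl ⟨m, rfl, h1⟩)
      · exact Or.inr (Or.inr ⟨m, rfl, h1⟩)

end Wd

/-! ### roots and systems: constructor lemmas -/

namespace Root

theorem occ_mk (k : ℕ) (ξ : ℂˣ) (w : Wd) : (⟨k, ξ, w⟩ : Root).occ = Wd.occ w k := rfl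
theorem pn_mk (k : ℕ) (ξ : ℂˣ) (w : Wd) : (⟨k, ξ, w⟩ : Root).pn = Wd.pn w := rfl
theorem wt_mk (k : ℕ) (ξ : ℂˣ) (w : Wd) : (⟨k, ξ, w⟩ : Root).wt = (3 * k) ::ₘ Wd.wt w k := rfl
theorem Sol_mk {n : ℕ} (ρ : ℕ → G n) (k : ℕ) (ξ : ℂˣ) (w : Wd) :
    (⟨k, ξ, w⟩ : Root).Sol ρ ↔ Wd.Sat ρ w k ∧ scal n k ξ * Wd.eval ρ w = 1 := Iff.rfl
theorem WF_mk (O : Subring ℂ) (n k : ℕ) (ξ : ℂˣ) (w : Wd) :
    (⟨k, ξ, w⟩ : Root).WF O n ↔ k ≤ n ∧ IsSc O ξ ∧ Wd.WF O w k (Wd.last w none) := Iff.rfl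

/-- names of a root -/
def nm (r : Root) : Set ℕ := Wd.nm r.w

theorem mem_nm {r : Root} {x : ℕ} : x ∈ r.nm ↔ (∃ j ε, (x, j, ε) ∈ r.occ) ∨ x ∈ r.pn :=
  Wd.mem_nm r.k

theorem Sol_congr_nm {n : ℕ} {ρ ρ' : ℕ → G n} {r : Root} (h : ∀ x ∈ r.nm, ρ x = ρ' x) :
    r.Sol ρ ↔ r.Sol ρ' := by
  rw [Sol, Sol, Wd.Sat_congr_nm h, Wd.eval_congr_nm h]

theorem wt_le {r : Root} {m : ℕ} (h : m ∈ r.wt) : m ≤ 3 * r.k + 2 := by
  rw [Root.wt, Multiset.mem_cons] at h
  rcases h with rfl | h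
  · omega
  · exact Wd.wt_le h

end Root

namespace Sys

section
variable (r : Root) (rs rs' : List Root) (fr fr' : List (ℕ × ℕ))

@[simp] theorem occ_nil : (⟨[], fr⟩ : Sys).occ = 0 := rfl
@[simp] theorem occ_cons : (⟨r :: rs, fr⟩ : Sys).occ = r.occ + (⟨rs, fr⟩ : Sys).occ := by
  simp [Sys.occ]
@[simp] theorem occ_app : (⟨rs ++ rs', fr⟩ : Sys).occ =
    (⟨rs, fr⟩ : Sys).occ + (⟨rs', fr⟩ : Sys).occ := by
  simp [Sys.occ]
/-- `occ` does not depend on the free names -/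
theorem occ_free : (⟨rs, fr⟩ : Sys).occ = (⟨rs, fr'⟩ : Sys).occ := rfl

@[simp] theorem pn_nil : (⟨[], fr⟩ : Sys).pn = 0 := rfl
@[simp] theorem pn_cons : (⟨r :: rs, fr⟩ : Sys).pn = r.pn + (⟨rs, fr⟩ : Sys).pn := by
  simp [Sys.pn]
@[simp] theorem pn_app : (⟨rs ++ rs', fr⟩ : Sys).pn =
    (⟨rs, fr⟩ : Sys).pn + (⟨rs', fr⟩ : Sys).pn := by
  simp [Sys.pn]
theorem pn_free : (⟨rs, fr⟩ : Sys).pn = (⟨rs, fr'⟩ : Sys).pn := rfl

@[simp] theorem wt_nil : (⟨[], fr⟩ : Sys).wt = 0 := rfl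
@[simp] theorem wt_cons : (⟨r :: rs, fr⟩ : Sys).wt = r.wt + (⟨rs, fr⟩ : Sys).wt := by
  simp [Sys.wt]
@[simp] theorem wt_app : (⟨rs ++ rs', fr⟩ : Sys).wt =
    (⟨rs, fr⟩ : Sys).wt + (⟨rs', fr⟩ : Sys).wt := by
  simp [Sys.wt]
theorem wt_free : (⟨rs, fr⟩ : Sys).wt = (⟨rs, fr'⟩ : Sys).wt := rfl

end

theorem mem_Sol {n : ℕ} {S : Sys} {ρ : ℕ → G n} :
    ρ ∈ S.Sol n ↔ (∀ r ∈ S.roots, r.Sol ρ) ∧ ∀ z ∈ S.free, ρ z.1 ∈ GLk n z.2 := Iff.rfl

theorem mem_Sol_cons {n : ℕ} {r : Root} {rs : List Root} {fr : List (ℕ × ℕ)} {ρ : ℕ → G n} :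
    ρ ∈ (⟨r :: rs, fr⟩ : Sys).Sol n ↔ r.Sol ρ ∧ ρ ∈ (⟨rs, fr⟩ : Sys).Sol n := by
  rw [mem_Sol, mem_Sol]
  simp only [List.mem_cons, forall_eq_or_imp, and_assoc]

theorem mem_Sol_app {n : ℕ} {rs rs' : List Root} {fr : List (ℕ × ℕ)} {ρ : ℕ → G n} :
    ρ ∈ (⟨rs ++ rs', fr⟩ : Sys).Sol n ↔ (∀ r ∈ rs, r.Sol ρ) ∧ ρ ∈ (⟨rs', fr⟩ : Sys).Sol n := by
  rw [mem_Sol, mem_Sol]
  simp only [List.mem_append]
  constructor
  · rintro ⟨h1, h2⟩
    exact ⟨fun r hr => h1 r (Or.inl hr), fun r hr => h1 r (Or.inr hr), h2⟩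
  · rintro ⟨h1, h2, h3⟩
    exact ⟨fun r hr => hr.elim (h1 r) (h2 r), h3⟩

theorem mem_Sol_free_app {n : ℕ} {rs : List Root} {fr fr' : List (ℕ × ℕ)} {ρ : ℕ → G n} :
    ρ ∈ (⟨rs, fr ++ fr'⟩ : Sys).Sol n ↔
      (∀ z ∈ fr, ρ z.1 ∈ GLk n z.2) ∧ ρ ∈ (⟨rs, fr'⟩ : Sys).Sol n := by
  rw [mem_Sol, mem_Sol]
  simp only [List.mem_append]
  constructor
  · rintro ⟨h1, h2⟩
    exact ⟨fun r hr => h2 r (Or.inl hr), h1, fun r hr => h2 r (Or.inr hr)⟩
  · rintro ⟨h1, h2, h3⟩
    exact ⟨h2, fun r hr => hr.elim (h1 r) (h3 r)⟩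

theorem mem_Sol_free_cons {n : ℕ} {rs : List Root} {z : ℕ × ℕ} {fr : List (ℕ × ℕ)} {ρ : ℕ → G n} :
    ρ ∈ (⟨rs, z :: fr⟩ : Sys).Sol n ↔ ρ z.1 ∈ GLk n z.2 ∧ ρ ∈ (⟨rs, fr⟩ : Sys).Sol n := by
  rw [mem_Sol, mem_Sol]
  simp only [List.mem_cons, forall_eq_or_imp]
  tauto

theorem mem_occ {S : Sys} {z : ℕ × ℕ × Bool} : z ∈ S.occ ↔ ∃ r ∈ S.roots, z ∈ r.occ := by
  obtain ⟨rs, fr⟩ := S
  induction rs with
  | nil => simp
  | cons r rs ih => rw [occ_cons, Multiset.mem_add, ih]; simp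

theorem mem_pn {S : Sys} {p : ℕ} : p ∈ S.pn ↔ ∃ r ∈ S.roots, p ∈ r.pn := by
  obtain ⟨rs, fr⟩ := S
  induction rs with
  | nil => simp
  | cons r rs ih => rw [pn_cons, Multiset.mem_add, ih]; simp

theorem mem_wt {S : Sys} {m : ℕ} : m ∈ S.wt ↔ ∃ r ∈ S.roots, m ∈ r.wt := by
  obtain ⟨rs, fr⟩ := S
  induction rs with
  | nil => simp
  | cons r rs ih => rw [wt_cons, Multiset.mem_add, ih]; simp

/-- the names of a system -/
theorem mem_names {S : Sys} {x : ℕ} :
    x ∈ S.names ↔ (∃ r ∈ S.roots, x ∈ r.nm) ∨ ∃ z ∈ S.free, z.1 = x := by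
  simp only [names, Set.mem_ofPred_eq, mem_occ, mem_pn, Root.mem_nm, List.mem_map]
  constructor
  · rintro (⟨j, ε, r, hr, h⟩ | ⟨r, hr, h⟩ | h)
    · exact Or.inl ⟨r, hr, Or.inl ⟨j, ε, h⟩⟩
    · exact Or.inl ⟨r, hr, Or.inr h⟩
    · exact Or.inr h
  · rintro (⟨r, hr, ⟨j, ε, h⟩ | h⟩ | h)
    · exact Or.inl ⟨j, ε, r, hr, h⟩
    · exact Or.inr (Or.inl ⟨r, hr, h⟩)
    · exact Or.inr (Or.inr h)

theorem mem_names_cons {r : Root} {rs : List Root} {fr : List (ℕ × ℕ)} {x : ℕ} :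
    x ∈ (⟨r :: rs, fr⟩ : Sys).names ↔ x ∈ r.nm ∨ x ∈ (⟨rs, fr⟩ : Sys).names := by
  rw [mem_names, mem_names]
  simp only [List.mem_cons, exists_eq_or_imp, or_assoc]

theorem mem_names_app {rs rs' : List Root} {fr : List (ℕ × ℕ)} {x : ℕ} :
    x ∈ (⟨rs ++ rs', fr⟩ : Sys).names ↔ (∃ r ∈ rs, x ∈ r.nm) ∨ x ∈ (⟨rs', fr⟩ : Sys).names := by
  induction rs with
  | nil => simp
  | cons r rs ih => rw [List.cons_append, mem_names_cons, ih]; simp [or_assoc]

theorem mem_names_free_cons {rs : List Root} {z : ℕ × ℕ} {fr : List (ℕ × ℕ)} {x : ℕ} :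
    x ∈ (⟨rs, z :: fr⟩ : Sys).names ↔ x = z.1 ∨ x ∈ (⟨rs, fr⟩ : Sys).names := by
  rw [mem_names, mem_names]
  simp only [List.mem_cons, exists_eq_or_imp]
  constructor
  · rintro (h | rfl | h)
    · exact Or.inr (Or.inl h)
    · exact Or.inl rfl
    · exact Or.inr (Or.inr h)
  · rintro (rfl | h | h)
    · exact Or.inr (Or.inl rfl)
    · exact Or.inl h
    · exact Or.inr (Or.inr h)

/-- solutions only depend on the relevant names -/
theorem Sol_congr_nm {n : ℕ} {S : Sys} {ρ ρ' : ℕ → G n} (h : ∀ x ∈ S.names, ρ x = ρ' x) :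
    ρ ∈ S.Sol n ↔ ρ' ∈ S.Sol n := by
  rw [mem_Sol, mem_Sol]
  refine and_congr ?_ ?_
  · refine forall_congr' fun r => forall_congr' fun hr => ?_
    exact Root.Sol_congr_nm fun x hx => h x (mem_names.2 (Or.inl ⟨r, hr, hx⟩))
  · refine forall_congr' fun z => forall_congr' fun hz => ?_
    rw [h z.1 (mem_names.2 (Or.inr ⟨z, hz, rfl⟩))]

theorem Sol_of_congr {n : ℕ} {S : Sys} {ρ ρ' : ℕ → G n} (hρ : ρ ∈ S.Sol n)
    (h : ∀ x ∈ S.names, ρ x = ρ' x) : ρ' ∈ S.Sol n := (Sol_congr_nm h).1 hρ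

theorem finite_nm (w : Wd) : (Wd.nm w).Finite := by
  induction w with
  | nil => simp
  | cons l w ih => rw [Wd.nm_cons]; exact (Finset.finite_toSet _).union ih

theorem finite_names (S : Sys) : S.names.Finite := by
  obtain ⟨rs, fr⟩ := S
  have h0 : (⟨[], fr⟩ : Sys).names.Finite := by
    induction fr with
    | nil =>
      have : (⟨[], []⟩ : Sys).names = ∅ := by
        ext x; rw [mem_names]; simp
      rw [this]; exact Set.finite_empty
    | cons z fr ih =>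
      have : (⟨[], z :: fr⟩ : Sys).names = {z.1} ∪ (⟨[], fr⟩ : Sys).names := by
        ext x; rw [mem_names_free_cons]; simp
      rw [this]; exact (Set.finite_singleton _).union ih
  induction rs with
  | nil => exact h0
  | cons r rs ih =>
    have : (⟨r :: rs, fr⟩ : Sys).names = r.nm ∪ (⟨rs, fr⟩ : Sys).names := by
      ext x; rw [mem_names_cons]; simp
    rw [this]; exact (finite_nm _).union ih

/-- FRESH NAMES: all names `≥ N` are fresh -/
theorem exists_bound (S : Sys) : ∃ N, ∀ x ∈ S.names, x < N := by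
  obtain ⟨M, hM⟩ := S.finite_names.bddAbove
  exact ⟨M + 1, fun x hx => Nat.lt_succ_of_le (hM hx)⟩

end Sys

end Crest.Agent.R003
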