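import Crest.Agent.R003.Defs
import Crest.Agent.R003.Cal638
import Crest.Agent.R003.App638
import Crest.Agent.R003.Fin452
import Crest.Agent.R003.Semi382
import Crest.Agent.R003.Burn382

/-!
# Wiring of Part 4 (row 3, helper638): `BlockAppr → S0003`.
-/

set_option autoImplicit false

open Crest.NumberTheoryR.CharVarRel MvPolynomial

noncomputable section

namespace Crest.Agent.R003.Wire

open Nrm Semi Matrix

variable {g s r : ℕ}

/-- all eigenvalues of `X` are roots of unity in `O` -/
def EigSc (O : Subring ℂ) {k : ℕ} (X : G k) : Prop :=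
  ∀ μ : ℂ, X.1.charpoly.IsRoot μ → μ ∈ O ∧ ∃ m : ℕ, 0 < m ∧ μ ^ m = 1

/-- good points: surface relation, classes of `T`, irreducible, integral -/
def GoodPts (O : Subring ℂ) (g s : ℕ) {N : ℕ} (d : Fin N → ℕ)
    (T : ∀ z : Fin N × RelGen g s, G (d z.1)) : Set (∀ z : Fin N × RelGen g s, G (d z.1)) :=
  {T' | (∀ i, RelG (G := G (d i)) g s fun v => T' (i, v)) ∧
    (∀ i j, ∃ h : G (d i), T' (i, Sum.inr j) = h * T (i, Sum.inr j) * h⁻¹) ∧
    (∀ i, MIrr (ι := RelGen g s) (m := Fin (d i)) fun v => (T' (i, v)).1) ∧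
    ∀ z, T' z ∈ GO O (d z.1)}

/-- families of irreducible solutions of the surface relation are approximable by integral
solutions with the same boundary classes. -/
def BlockAppr (O : Subring ℂ) (g s r : ℕ) : Prop :=
  ∀ (N : ℕ) (d : Fin N → ℕ), (∀ i, 0 < d i) → (∀ i, d i ≤ r) →
    ∀ T : ∀ z : Fin N × RelGen g s, G (d z.1),
    (∀ i, RelG (G := G (d i)) g s fun v => T (i, v)) →
    (∀ i, MIrr (ι := RelGen g s) (m := Fin (d i)) fun v => (T (i, v)).1) →
    (∀ i j, EigSc O (T (i, Sum.inr j))) →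
    T ∈ Cal.zcl (Cal.PolFam fun z : Fin N × RelGen g s => Fin (d z.1)) (GoodPts O g s d T)

section block

variable {N : ℕ} {d : Fin N → ℕ} (e : (Σ i, Fin (d i)) ≃ Fin r)

/-- the block sum -/
def bs : (∀ i, G (d i)) →* G r :=
  (Units.map ((Matrix.reindexRingEquiv ℂ e).toRingHom.comp
    (Matrix.blockDiagonal'RingHom (fun i => Fin (d i)) ℂ)).toMonoidHom).comp
      (MulEquiv.piUnits (M := fun i => Matrix (Fin (d i)) (Fin (d i)) ℂ)).symm.toMonoidHom

theorem bs_val (T : ∀ i, G (d i)) :
    (bs e T).1 = (blockDiagonal' fun i => (T i).1).reindex e e := rfl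

theorem bs_apply (T : ∀ i, G (d i)) (a b : Fin r) :
    (bs e T).1 a b = if h : (e.symm a).1 = (e.symm b).1 then
      (T (e.symm b).1).1 (h ▸ (e.symm a).2) (e.symm b).2 else 0 := by
  rw [bs_val, Matrix.reindex_apply, Matrix.submatrix_apply]
  rw [Matrix.blockDiagonal'_apply]
  by_cases h : (e.symm a).1 = (e.symm b).1
  · simp only [h, dite_true]
    generalize e.symm a = x at h ⊢
    generalize e.symm b = y at h ⊢
    obtain ⟨i, x⟩ := x
    obtain ⟨j, y⟩ := y
    simp only at h
    subst h
    rfl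
  · simp [h]

/-- entries of the block sum: either a fixed entry of one block or zero -/
theorem bs_entry (a b : Fin r) : (∃ (i : Fin N) (x y : Fin (d i)),
    ∀ T : ∀ i, G (d i), (bs e T).1 a b = (T i).1 x y) ∨ ∀ T : ∀ i, G (d i), (bs e T).1 a b = 0 := by
  by_cases h : (e.symm a).1 = (e.symm b).1
  · left
    refine ⟨(e.symm b).1, h ▸ (e.symm a).2, (e.symm b).2, fun T => ?_⟩
    rw [bs_apply, dif_pos h]
  · right
    intro T
    rw [bs_apply, dif_neg h]

theorem bs_mem_GO {O : Subring ℂ} {T : ∀ i, G (d i)} (h : ∀ i, T i ∈ GO O (d i)) :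
    bs e T ∈ GO O r := by
  intro a b
  constructor
  · rcases bs_entry e a b with ⟨i, x, y, h1⟩ | h1
    · rw [h1]; exact (h i x y).1
    · rw [h1]; exact O.zero_mem
  · rw [← map_inv]
    rcases bs_entry e a b with ⟨i, x, y, h1⟩ | h1
    · rw [h1]; exact (h i x y).2
    · rw [h1]; exact O.zero_mem

theorem RelG_map {A B : Type*} [Group A] [Group B] (φ : A →* B) (T : RelGen g s → A)
    (h : RelG g s T) : RelG g s fun v => φ (T v) := by
  unfold RelG at h ⊢
  have h1 := congrArg φ h
  rw [map_one, map_mul, map_list_prod, map_list_prod, List.map_map, List.map_map] at h1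
  simp only [Function.comp_def, map_mul, map_inv] at h1
  exact h1

theorem RelG_pi {ι : Type*} {A : ι → Type*} [∀ i, Group (A i)] (T : RelGen g s → ∀ i, A i)
    (h : ∀ i, RelG g s fun v => T v i) : RelG g s T := by
  have key : ∀ i, (((List.finRange g).map fun i =>
      T (Sum.inl (i, false)) * T (Sum.inl (i, true)) *
        (T (Sum.inl (i, false)))⁻¹ * (T (Sum.inl (i, true)))⁻¹).prod *
    ((List.finRange s).map fun j => T (Sum.inr j)).prod) i = 1 := by
    intro i
    have h2 := h i
    unfold RelG at h2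
    rw [← h2]
    refine (map_mul (Pi.evalMonoidHom A i) _ _).trans ?_
    rw [map_list_prod, map_list_prod, List.map_map, List.map_map]
    rfl
  funext i
  exact key i

theorem exists_eigvec {k : ℕ} {A : Matrix (Fin k) (Fin k) ℂ} {μ : ℂ} :
    A.charpoly.IsRoot μ ↔ ∃ v : Fin k → ℂ, v ≠ 0 ∧ A.mulVec v = μ • v := by
  rw [Polynomial.IsRoot, Matrix.eval_charpoly, ← Matrix.exists_mulVec_eq_zero_iff]
  constructor
  · rintro ⟨v, hv, h⟩
    refine ⟨v, hv, ?_⟩
    rw [Matrix.sub_mulVec, sub_eq_zero] at h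
    rw [← h]
    funext i
    simp [Matrix.scalar_apply, Matrix.mulVec_diagonal]
  · rintro ⟨v, hv, h⟩
    refine ⟨v, hv, ?_⟩
    rw [Matrix.sub_mulVec, sub_eq_zero, h]
    funext i
    simp [Matrix.scalar_apply, Matrix.mulVec_diagonal]

theorem isRoot_bs {T : ∀ i, G (d i)} {i : Fin N} {μ : ℂ} (h : (T i).1.charpoly.IsRoot μ) :
    (bs e T).1.charpoly.IsRoot μ := by
  rw [bs_val, Matrix.charpoly_reindex]
  obtain ⟨v, hv, h1⟩ := exists_eigvec.1 h
  -- the vector `incl i v`
  rw [Polynomial.IsRoot, Matrix.eval_charpoly, ← Matrix.exists_mulVec_eq_zero_iff]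
  refine ⟨incl i v, ?_, ?_⟩
  · intro h0
    apply hv
    funext x
    have := congrFun h0 ⟨i, x⟩
    rwa [incl_same] at this
  · rw [Matrix.sub_mulVec, sub_eq_zero]
    have h2 := incl_mulVec (ι := Unit) (fun i (_ : Unit) => (T i).1) i () v
    rw [h2, h1, map_smul]
    funext z
    simp [Matrix.scalar_apply, Matrix.mulVec_diagonal]

end block

theorem charpoly_conj_toGL (P : GL (Fin r) ℂ) (X c h : Matrix.SpecialLinearGroup (Fin r) ℂ)
    (hh : X = h * c * h⁻¹) :
    (P * Matrix.SpecialLinearGroup.toGL X * P⁻¹).1.charpoly = c.1.charpoly := by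
  have h3 : P * Matrix.SpecialLinearGroup.toGL X * P⁻¹ =
      (P * Matrix.SpecialLinearGroup.toGL h) * Matrix.SpecialLinearGroup.toGL c *
        (P * Matrix.SpecialLinearGroup.toGL h)⁻¹ := by
    rw [hh, map_mul, map_mul, map_inv]
    simp only [_root_.mul_inv_rev, mul_assoc]
  have h4 : (Matrix.SpecialLinearGroup.toGL c).1 = c.1 := rfl
  rw [h3, Units.val_mul, Units.val_mul, ← h4, Matrix.coe_units_inv]
  exact Matrix.charpoly_units_conj (P * Matrix.SpecialLinearGroup.toGL h)
    (Matrix.SpecialLinearGroup.toGL c).1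

theorem eval_mem {X σ : Type*} (A : Subalgebra ℂ (X → ℂ)) (f : σ → X → ℂ) (hf : ∀ s, f s ∈ A)
    (F : MvPolynomial σ ℂ) : (fun x => eval (fun s => f s x) F) ∈ A := by
  induction F using MvPolynomial.induction_on with
  | C a => simp only [eval_C]; exact Subalgebra.algebraMap_mem _ a
  | add p q hp hq =>
    simp only [map_add]
    exact A.add_mem hp hq
  | mul_X p v hp =>
    simp only [map_mul, eval_X]
    exact A.mul_mem hp (hf v)

/-- **WIRING**: `BlockAppr` gives the density statement needed by `Nrm.finish`. -/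
theorem hd_of_blockAppr (O : Subring ℂ) (hBA : BlockAppr O g s r)
    (c : Fin s → Matrix.SpecialLinearGroup (Fin r) ℂ)
    (hc : ∀ j, ∀ μ : ℂ, (c j).1.charpoly.IsRoot μ → μ ∈ O ∧ ∃ m : ℕ, 0 < m ∧ μ ^ m = 1)
    (T : RelGen g s → Matrix.SpecialLinearGroup (Fin r) ℂ)
    (hT : RelG g s fun v => Matrix.SpecialLinearGroup.toGL (T v)) (hss : MSS fun v => (T v).1)
    (hcl : ∀ j, ∃ h : Matrix.SpecialLinearGroup (Fin r) ℂ, T (Sum.inr j) = h * c j * h⁻¹) :
    ∃ P : GL (Fin r) ℂ, ∀ F : MvPolynomial (RelVar g s r) ℂ,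
      (∀ T' : RelGen g s → GL (Fin r) ℂ, GLPt c O T' → eval (ent fun v => (T' v).1) F = 0) →
      eval (ent fun v => (P * Matrix.SpecialLinearGroup.toGL (T v) * P⁻¹).1) F = 0 := by
  classical
  obtain ⟨N, d, S, e, H, H', hHH', hH'H, hirr, hTS⟩ := exists_block_matrix (fun v => (T v).1) hss
  -- `P = H'` as a unit
  let P : GL (Fin r) ℂ := ⟨H', H, hH'H, hHH'⟩
  have hP : ∀ v, (P * Matrix.SpecialLinearGroup.toGL (T v) * P⁻¹).1 =
      (blockDiagonal' fun i => S i v).reindex e e := by
    intro v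
    rw [Units.val_mul, Units.val_mul]
    show H' * (T v).1 * H = _
    rw [show (T v).1 = H * (blockDiagonal' fun i => S i v).reindex e e * H' from hTS v]
    calc H' * (H * (blockDiagonal' fun i => S i v).reindex e e * H') * H
        = (H' * H) * (blockDiagonal' fun i => S i v).reindex e e * (H' * H) := by
          simp only [Matrix.mul_assoc]
      _ = _ := by rw [hH'H, Matrix.one_mul, Matrix.mul_one]
  -- the blocks are invertible
  have hu : ∀ v, IsUnit ((blockDiagonal' fun i => S i v).reindex e e) := fun v => by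
    rw [← hP v]; exact Units.isUnit _
  have hdet : ∀ i v, (S i v).det ≠ 0 := by
    intro i v h0
    obtain ⟨x, hx, hx0⟩ := Matrix.exists_mulVec_eq_zero_iff.2 h0
    have h1 : (blockDiagonal' fun i => S i v).det = 0 := by
      rw [← Matrix.exists_mulVec_eq_zero_iff]
      refine ⟨incl i x, ?_, ?_⟩
      · intro h0
        apply hx
        funext y
        have := congrFun h0 ⟨i, y⟩
        rwa [incl_same] at this
      · rw [incl_mulVec (fun i v => S i v) i v x, hx0, map_zero]
    have h2 := (Matrix.isUnit_iff_isUnit_det _).1 (hu v)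
    rw [Matrix.det_reindex_self, h1] at h2
    exact not_isUnit_zero h2
  obtain ⟨T1, hT1'⟩ : ∃ T1 : ∀ z : Fin N × RelGen g s, G (d z.1), ∀ z, (T1 z).1 = S z.1 z.2 :=
    ⟨fun z => Matrix.GeneralLinearGroup.mkOfDetNeZero (S z.1 z.2) (hdet z.1 z.2), fun _ => rfl⟩
  have hT1 : ∀ i v, (T1 (i, v)).1 = S i v := fun i v => hT1' (i, v)
  have hbs : ∀ v, bs e (fun i => (T1 (i, v) : G (d i))) = P * Matrix.SpecialLinearGroup.toGL (T v) * P⁻¹ := by
    intro v
    apply Units.ext
    rw [hP v, bs_val]
    simp only [hT1]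
  have hbsinj : Function.Injective (bs e) := by
    intro A B hAB
    have h1 : (blockDiagonal' fun i => (A i).1).reindex e e =
        (blockDiagonal' fun i => (B i).1).reindex e e := by
      rw [← bs_val, ← bs_val, hAB]
    have h2 := (Matrix.reindex e e).injective h1
    have h3 := Matrix.blockDiagonal'_injective h2
    funext i
    exact Units.ext (congrFun h3 i)
  have hrel : ∀ i, RelG (G := G (d i)) g s fun v => T1 (i, v) := by
    have h1 : RelG g s fun v => bs e (fun i => (T1 (i, v) : G (d i))) := by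
      simp only [hbs]
      exact RelG_conj P _ hT
    have h2 : RelG (G := ∀ i, G (d i)) g s fun v i => T1 (i, v) := by
      unfold RelG at h1 ⊢
      apply hbsinj
      rw [map_one, ← h1, map_mul, map_list_prod, map_list_prod, List.map_map, List.map_map]
      simp only [Function.comp_def, map_mul, map_inv]
    intro i
    exact RelG_map (Pi.evalMonoidHom (fun i => G (d i)) i) (fun v i => (T1 (i, v) : G (d i))) h2
  have hd0 : ∀ i, 0 < d i := fun i => by
    obtain ⟨x⟩ := (hirr i).1
    exact lt_of_le_of_lt (Nat.zero_le _) x.2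
  have hdr : ∀ i, d i ≤ r := by
    intro i
    have h1 := Fintype.card_congr e
    rw [Fintype.card_sigma, Fintype.card_fin] at h1
    simp only [Fintype.card_fin] at h1
    rw [← h1]
    exact Finset.single_le_sum (f := d) (fun _ _ => Nat.zero_le _) (Finset.mem_univ i)
  have heig : ∀ i j, EigSc O (T1 (i, Sum.inr j)) := by
    intro i j μ hμ
    have h1 : (bs e fun i => (T1 (i, Sum.inr j) : G (d i))).1.charpoly.IsRoot μ :=
      isRoot_bs e (T := fun i => T1 (i, Sum.inr j)) hμ
    rw [hbs] at h1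
    obtain ⟨h, hh⟩ := hcl j
    rw [charpoly_conj_toGL P _ _ _ hh] at h1
    exact hc j μ h1
  have hirr' : ∀ i, MIrr (ι := RelGen g s) (m := Fin (d i)) fun v => (T1 (i, v)).1 := by
    intro i
    simp only [hT1]
    exact hirr i
  have hmem := hBA N d hd0 hdr T1 hrel hirr' heig
  refine ⟨P, fun F hF => ?_⟩
  -- the polynomial function on families of blocks
  have hpol : (fun T' : ∀ z : Fin N × RelGen g s, G (d z.1) =>
      eval (ent fun v => (bs e (fun i => (T' (i, v) : G (d i)))).1) F) ∈
        Cal.PolFam fun z : Fin N × RelGen g s => Fin (d z.1) := by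
    have h1 : ∀ x : RelVar g s r, (fun T' : ∀ z : Fin N × RelGen g s, G (d z.1) =>
        (ent fun v => (bs e (fun i => (T' (i, v) : G (d i)))).1) x) ∈
        Cal.PolFam fun z : Fin N × RelGen g s => Fin (d z.1) := by
      rintro ⟨v, a, b⟩
      simp only [ent]
      rcases bs_entry (r := r) e a b with ⟨i, x, y, h⟩ | h
      · simp only [h]
        exact Cal.ent_mem (κ := fun z : Fin N × RelGen g s => Fin (d z.1)) (i, v) x y
      · simp only [h]
        exact Subalgebra.zero_mem _
    exact eval_mem (Cal.PolFam fun z : Fin N × RelGen g s => Fin (d z.1))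
      (fun x T' => (ent fun v => (bs e (fun i => (T' (i, v) : G (d i)))).1) x) h1 F
  have h1 := hmem _ hpol fun T' hT' => hF (fun v => bs e fun i => (T' (i, v) : G (d i))) ?_
  · simp only [hbs] at h1
    exact h1
  · obtain ⟨h1, h2, h3, h4⟩ := hT'
    refine ⟨?_, ?_, ?_, ?_⟩
    · have hp : RelG (G := ∀ i, G (d i)) g s (fun v i => (T' (i, v) : G (d i))) :=
        RelG_pi (A := fun i => G (d i)) (fun v i => (T' (i, v) : G (d i))) h1
      exact RelG_map (bs e) (fun v i => (T' (i, v) : G (d i))) hp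
    · have h6 := MSS_reindex e (MSS_blockDiagonal (ι := RelGen g s) (d := fun i => Fin (d i))
        (fun i v => ((T' (i, v) : G (d i))).1) h3)
      simp only [bs_val]
      exact h6
    · intro j
      choose h hh using fun i => h2 i j
      obtain ⟨h', hh'⟩ := hcl j
      refine ⟨bs e h * P * Matrix.SpecialLinearGroup.toGL h', ?_⟩
      have h5 : (fun i => (T' (i, Sum.inr j) : G (d i))) =
          h * (fun i => (T1 (i, Sum.inr j) : G (d i))) * h⁻¹ := by
        funext i
        exact hh i
      rw [h5, map_mul, map_mul, map_inv, hbs, hh', map_mul, map_mul, map_inv]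
      group
    · exact fun v => bs_mem_GO e fun i => h4 (i, v)

end Crest.Agent.R003.Wire
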